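import Vale.Agent.P161.Defs

/-!
# Real-variable lemmas for the critical case
-/

namespace Vale.Agent.P161.Crit

open Finset

/-- Composition of two magnetisations. -/
noncomputable def comp (x y : ℝ) : ℝ := (x + y) / (1 + x * y)

lemma one_add_mul_pos {x y : ℝ} (hx : |x| ≤ 1) (hy : |y| < 1) : 0 < 1 + x * y := by
  have h : |x * y| < 1 := by
    rw [abs_mul]; nlinarith [abs_nonneg x, abs_nonneg y]
  linarith [(abs_lt.mp h).1]

lemma abs_comp_lt {x y : ℝ} (hx : |x| < 1) (hy : |y| < 1) : |comp x y| < 1 := by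
  have hp := one_add_mul_pos hx.le hy
  obtain ⟨a, b⟩ := abs_lt.mp hx
  obtain ⟨c, d⟩ := abs_lt.mp hy
  rw [comp, abs_lt, lt_div_iff₀ hp, div_lt_iff₀ hp]
  constructor <;> nlinarith [mul_pos (show 0 < 1 - x by linarith) (show 0 < 1 - y by linarith),
    mul_pos (show 0 < 1 + x by linarith) (show 0 < 1 + y by linarith)]

lemma abs_comp_le {x y : ℝ} (hx : |x| ≤ 1) (hy : |y| < 1) : |comp x y| ≤ |x| + |y| := by
  have hp := one_add_mul_pos hx hy
  rw [comp, abs_div, abs_of_pos hp, div_le_iff₀ hp]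
  rcases le_total 0 (x * y) with h | h
  · nlinarith [abs_add_le x y, abs_nonneg x, abs_nonneg y]
  · have e : |x * y| = |x| * |y| := abs_mul x y
    rw [abs_of_nonpos h] at e
    have hxy : |x + y| = abs (|x| - |y|) := by
      rcases mul_nonpos_iff.mp h with ⟨a, b⟩ | ⟨a, b⟩
      · rw [abs_of_nonneg a, abs_of_nonpos b]; congr 1; ring
      · rw [abs_of_nonpos a, abs_of_nonneg b, ← abs_neg]; congr 1; ring
    rw [hxy, show x * y = -(|x| * |y|) by linarith, abs_le]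
    have a := abs_nonneg x
    have b := abs_nonneg y
    constructor <;>
      nlinarith [mul_nonneg a (mul_nonneg b (show (0 : ℝ) ≤ 2 - |x| - |y| by linarith)),
        mul_nonneg a b, mul_le_mul_of_nonneg_right hx b,
        mul_le_mul_of_nonneg_left hy.le a]

lemma comp_neg_cancel {x y : ℝ} (hx : |x| ≤ 1) (hy : |y| < 1) : comp (comp x y) (-y) = x := by
  have hp := one_add_mul_pos hx hy
  have h1 : y * y < 1 := by nlinarith [abs_mul_abs_self y, abs_nonneg y]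
  unfold comp
  have hne : (1 + x * y) ≠ 0 := hp.ne'
  have h2 : 1 + (x + y) / (1 + x * y) * -y = (1 - y * y) / (1 + x * y) := by
    field_simp; ring
  rw [h2, div_add' _ _ _ hne, div_div_div_cancel_right₀ hne, div_eq_iff (by linarith)]
  ring

lemma comp_comm (x y : ℝ) : comp x y = comp y x := by unfold comp; rw [add_comm, mul_comm x y]

lemma abs_mul_le_one {x y : ℝ} (hx : |x| ≤ 1) (hy : |y| ≤ 1) : |x * y| ≤ 1 := by
  rw [abs_mul]; exact mul_le_one₀ hx (abs_nonneg _) hy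

lemma mix_den {θ x y : ℝ} (hθ : θ ∈ Set.Icc 0 (3 / 4 : ℝ)) (hx : |x| ≤ 1) (hy : |y| ≤ 1) :
    1 / 4 ≤ 1 + θ * x * y ∧ 1 + θ * x * y ≤ 2 := by
  obtain ⟨h0, h1⟩ := hθ
  obtain ⟨l, r⟩ := abs_le.mp (abs_mul_le_one hx hy)
  rw [mul_assoc]
  constructor <;> nlinarith

lemma mix_lipschitz {θ θ' x y : ℝ} (hθ : θ ∈ Set.Icc 0 (3 / 4 : ℝ))
    (hθ' : θ' ∈ Set.Icc 0 (3 / 4 : ℝ)) (hx : |x| ≤ 1) (hy : |y| ≤ 1) :
    |(x + θ * y) / (1 + θ * x * y) - (x + θ' * y) / (1 + θ' * x * y)| ≤ 32 * |θ - θ'| := by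
  obtain ⟨p, -⟩ := mix_den hθ hx hy
  obtain ⟨p', -⟩ := mix_den hθ' hx hy
  have hp : 1 / 16 ≤ (1 + θ * x * y) * (1 + θ' * x * y) := by
    have := mul_le_mul p p' (by norm_num) (by linarith)
    linarith
  rw [div_sub_div _ _ (by linarith) (by linarith), abs_div,
    abs_of_pos (show (0:ℝ) < (1 + θ * x * y) * (1 + θ' * x * y) by linarith),
    div_le_iff₀ (by linarith),
    show (x + θ * y) * (1 + θ' * x * y) - (1 + θ * x * y) * (x + θ' * y) =
      (θ - θ') * (y * (1 - x ^ 2)) by ring, abs_mul]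
  have hx2 : x ^ 2 ≤ 1 := by rw [← sq_abs]; exact pow_le_one₀ (abs_nonneg _) hx
  have h1 : |y * (1 - x ^ 2)| ≤ 1 :=
    abs_mul_le_one hy (abs_le.mpr ⟨by linarith [sq_nonneg x], by linarith [sq_nonneg x]⟩)
  calc |θ - θ'| * |y * (1 - x ^ 2)| ≤ |θ - θ'| * 1 := mul_le_mul_of_nonneg_left h1 (abs_nonneg _)
    _ ≤ |θ - θ'| * (32 * (1 / 16)) := by
        exact mul_le_mul_of_nonneg_left (by norm_num) (abs_nonneg _)
    _ = 32 * |θ - θ'| * (1 / 16) := by ring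
    _ ≤ _ := mul_le_mul_of_nonneg_left hp (by positivity)

/-- The two magnetisations on an edge determine the cavities in a Lipschitz way. -/
lemma cav_det {θ a b a' b' : ℝ} (hθ : θ ∈ Set.Icc 0 (3 / 4 : ℝ)) (ha : |a| ≤ 1) (hb : |b| ≤ 1)
    (ha' : |a'| ≤ 1) (hb' : |b'| ≤ 1) :
    |b - b'| ≤ 48 * (|(a + θ * b) / (1 + θ * a * b) - (a' + θ * b') / (1 + θ * a' * b')| +
      |(b + θ * a) / (1 + θ * a * b) - (b' + θ * a') / (1 + θ * a' * b')|) := by
  obtain ⟨Z1, Z1'⟩ := mix_den hθ ha hb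
  obtain ⟨Z2, Z2'⟩ := mix_den hθ ha' hb'
  obtain ⟨h0, h1⟩ := hθ
  set P := (1 + θ * a * b) * (1 + θ * a' * b') with hP
  set dm := (a + θ * b) / (1 + θ * a * b) - (a' + θ * b') / (1 + θ * a' * b') with hdm
  set dn := (b + θ * a) / (1 + θ * a * b) - (b' + θ * a') / (1 + θ * a' * b') with hdn
  have hne : 1 + θ * a * b ≠ 0 := by linarith
  have hne' : 1 + θ * a' * b' ≠ 0 := by linarith
  have em : dm * P = (a - a') * (1 - θ ^ 2 * b * b') + θ * (b - b') * (1 - a * a') := by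
    rw [hdm, hP, div_sub_div _ _ hne hne', div_mul_cancel₀ _ (mul_ne_zero hne hne')]; ring
  have en : dn * P = (b - b') * (1 - θ ^ 2 * a * a') + θ * (a - a') * (1 - b * b') := by
    rw [hdn, hP, div_sub_div _ _ hne hne', div_mul_cancel₀ _ (mul_ne_zero hne hne')]; ring
  have key : (b - b') * ((1 - θ ^ 2) * (1 - θ ^ 2 * (a * a' * (b * b')))) =
      P * ((1 - θ ^ 2 * (b * b')) * dn - θ * (1 - b * b') * dm) := by
    linear_combination (θ * (1 - b * b')) * em - (1 - θ ^ 2 * (b * b')) * en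
  obtain ⟨w1, w2⟩ := abs_le.mp (abs_mul_le_one hb hb')
  obtain ⟨-, uw2⟩ := abs_le.mp (abs_mul_le_one (abs_mul_le_one ha ha') (abs_mul_le_one hb hb'))
  have hθ2 : θ ^ 2 ≤ 9 / 16 := by nlinarith
  have hd2 : 7 / 16 ≤ 1 - θ ^ 2 * (a * a' * (b * b')) := by
    have := mul_le_mul_of_nonneg_left uw2 (sq_nonneg θ)
    linarith
  have det : 49 / 256 ≤ (1 - θ ^ 2) * (1 - θ ^ 2 * (a * a' * (b * b'))) := by
    have := mul_le_mul (show 7 / 16 ≤ 1 - θ ^ 2 by linarith) hd2 (by norm_num) (by linarith)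
    linarith
  have c1 : |1 - θ ^ 2 * (b * b')| ≤ 2 := by
    have a1 := mul_le_mul_of_nonneg_left w1 (sq_nonneg θ)
    have a2 := mul_le_mul_of_nonneg_left w2 (sq_nonneg θ)
    exact abs_le.mpr ⟨by linarith, by linarith⟩
  have c2 : |θ * (1 - b * b')| ≤ 2 := by
    have a1 := mul_le_mul_of_nonneg_left w1 h0
    have a2 := mul_le_mul_of_nonneg_left w2 h0
    exact abs_le.mpr ⟨by linarith, by linarith⟩
  have Ppos : 0 ≤ P := mul_nonneg (by linarith) (by linarith)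
  have Ple : P ≤ 4 := by
    have := mul_le_mul Z1' Z2' (by linarith) (by norm_num : (0:ℝ) ≤ 2)
    linarith
  have h := congrArg abs key
  rw [abs_mul, abs_of_pos (show (0:ℝ) < (1 - θ ^ 2) * (1 - θ ^ 2 * (a * a' * (b * b'))) by linarith),
    abs_mul, abs_of_nonneg Ppos] at h
  have hin : |(1 - θ ^ 2 * (b * b')) * dn - θ * (1 - b * b') * dm| ≤ 2 * |dn| + 2 * |dm| := by
    refine (abs_sub _ _).trans (add_le_add ?_ ?_) <;> rw [abs_mul]
    · exact mul_le_mul_of_nonneg_right c1 (abs_nonneg _)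
    · exact mul_le_mul_of_nonneg_right c2 (abs_nonneg _)
  have hmain : |b - b'| * (49 / 256) ≤ 4 * (2 * |dn| + 2 * |dm|) :=
    (mul_le_mul_of_nonneg_left det (abs_nonneg _)).trans
      (h.le.trans (mul_le_mul Ple hin (abs_nonneg _) (by norm_num)))
  linarith [abs_nonneg dm, abs_nonneg dn]

/-- A cavity moves by at most the two magnetisations next to it. -/
lemma cav_lipschitz {θ θ' a b a' b' m n m' n' : ℝ} (hθ : θ ∈ Set.Icc 0 (3 / 4 : ℝ))
    (hθ' : θ' ∈ Set.Icc 0 (3 / 4 : ℝ)) (ha : |a| ≤ 1) (hb : |b| ≤ 1) (ha' : |a'| ≤ 1)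
    (hb' : |b'| ≤ 1) (hm : m = (a + θ * b) / (1 + θ * a * b))
    (hn : n = (b + θ * a) / (1 + θ * a * b)) (hm' : m' = (a' + θ' * b') / (1 + θ' * a' * b'))
    (hn' : n' = (b' + θ' * a') / (1 + θ' * a' * b')) :
    |b - b'| ≤ 4000 * (|m - m'| + |n - n'| + |θ - θ'|) := by
  have h := cav_det hθ ha hb ha' hb'
  rw [← hm, ← hn] at h
  have dm : |m - (a' + θ * b') / (1 + θ * a' * b')| ≤ |m - m'| + 32 * |θ - θ'| := by
    refine (abs_sub_le m m' _).trans (add_le_add le_rfl ?_)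
    rw [abs_sub_comm, hm']
    exact mix_lipschitz hθ hθ' ha' hb'
  have dn : |n - (b' + θ * a') / (1 + θ * a' * b')| ≤ |n - n'| + 32 * |θ - θ'| := by
    refine (abs_sub_le n n' _).trans (add_le_add le_rfl ?_)
    rw [abs_sub_comm, hn', mul_right_comm θ a' b', mul_right_comm θ' a' b']
    exact mix_lipschitz hθ hθ' hb' ha'
  linarith [abs_nonneg (m - m'), abs_nonneg (n - n'), abs_nonneg (θ - θ')]

/-- The ratio by which an edge damps a covariance, relative to `θ`. -/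
noncomputable def rho (θ b : ℝ) : ℝ := (1 - b ^ 2) / (1 - θ ^ 2 * b ^ 2)

lemma rho_facts {θ b : ℝ} (hθ : θ ∈ Set.Icc 0 (3 / 4 : ℝ)) (hb : |b| ≤ 1) :
    0 ≤ rho θ b ∧ rho θ b ≤ 1 - 7 / 16 * b ^ 2 ∧ 1 - 16 / 7 * b ^ 2 ≤ rho θ b := by
  obtain ⟨h0, h1⟩ := hθ
  have hb2 : b ^ 2 ≤ 1 := by rw [← sq_abs]; exact pow_le_one₀ (abs_nonneg _) hb
  have hθ2 : θ ^ 2 ≤ 9 / 16 := by nlinarith
  have hd : 7 / 16 ≤ 1 - θ ^ 2 * b ^ 2 := by nlinarith [sq_nonneg θ]
  refine ⟨div_nonneg (by linarith) (by linarith), ?_, ?_⟩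
  · rw [rho, div_le_iff₀ (by linarith)]
    nlinarith [mul_nonneg (sq_nonneg b) (sq_nonneg θ), sq_nonneg b,
      mul_nonneg (mul_nonneg (sq_nonneg θ) (sq_nonneg b)) (sq_nonneg b)]
  · rw [rho, le_div_iff₀ (by linarith)]
    nlinarith [mul_le_mul_of_nonneg_left hd (sq_nonneg b), mul_nonneg (sq_nonneg θ) (sq_nonneg b)]

lemma rho_le_exp {θ b : ℝ} (hθ : θ ∈ Set.Icc 0 (3 / 4 : ℝ)) (hb : |b| ≤ 1) :
    rho θ b ≤ Real.exp (-(7 / 16 * b ^ 2)) := by
  have := Real.add_one_le_exp (-(7 / 16 * b ^ 2))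
  linarith [(rho_facts hθ hb).2.1]

lemma rho_sub {θ θ' b b' : ℝ} (hθ : θ ∈ Set.Icc 0 (3 / 4 : ℝ))
    (hθ' : θ' ∈ Set.Icc 0 (3 / 4 : ℝ)) (hb : |b| ≤ 1) (hb' : |b'| ≤ 1) :
    |rho θ b - rho θ' b'| ≤ 6 * ((|b| + |b'|) * |b - b'|) + 12 * (b ^ 2 * |θ - θ'|) := by
  obtain ⟨h0, h1⟩ := hθ
  obtain ⟨h0', h1'⟩ := hθ'
  have hb2 : b ^ 2 ≤ 1 := by rw [← sq_abs]; exact pow_le_one₀ (abs_nonneg _) hb
  have hb2' : b' ^ 2 ≤ 1 := by rw [← sq_abs]; exact pow_le_one₀ (abs_nonneg _) hb'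
  have hd : 7 / 16 ≤ 1 - θ ^ 2 * b ^ 2 := by nlinarith
  have hd' : 7 / 16 ≤ 1 - θ' ^ 2 * b' ^ 2 := by nlinarith
  have hp : 49 / 256 ≤ (1 - θ ^ 2 * b ^ 2) * (1 - θ' ^ 2 * b' ^ 2) := by nlinarith
  rw [rho, rho, div_sub_div _ _ (by linarith) (by linarith), abs_div,
    abs_of_pos (show 0 < (1 - θ ^ 2 * b ^ 2) * (1 - θ' ^ 2 * b' ^ 2) by linarith),
    div_le_iff₀ (by linarith),
    show (1 - b ^ 2) * (1 - θ' ^ 2 * b' ^ 2) - (1 - θ ^ 2 * b ^ 2) * (1 - b' ^ 2) =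
      (b' - b) * (b' + b) * (1 - θ' ^ 2) + b ^ 2 * ((θ - θ') * (θ + θ')) * (1 - b' ^ 2) by ring]
  refine (abs_add_le _ _).trans ?_
  have e1 : |(b' - b) * (b' + b) * (1 - θ' ^ 2)| ≤ (|b| + |b'|) * |b - b'| := by
    rw [abs_mul, abs_mul, abs_sub_comm b' b, mul_comm |b - b'|]
    have : |1 - θ' ^ 2| ≤ 1 := abs_le.mpr ⟨by nlinarith, by nlinarith⟩
    calc |b' + b| * |b - b'| * |1 - θ' ^ 2| ≤ |b' + b| * |b - b'| * 1 :=
          mul_le_mul_of_nonneg_left this (by positivity)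
      _ ≤ _ := by
          rw [mul_one, add_comm |b|]
          exact mul_le_mul_of_nonneg_right (abs_add_le _ _) (abs_nonneg _)
  have e2 : |b ^ 2 * ((θ - θ') * (θ + θ')) * (1 - b' ^ 2)| ≤ 2 * (b ^ 2 * |θ - θ'|) := by
    rw [abs_mul, abs_mul, abs_mul, abs_of_nonneg (sq_nonneg b),
      abs_of_nonneg (show 0 ≤ θ + θ' by linarith), abs_of_nonneg (show (0:ℝ) ≤ 1 - b' ^ 2 by linarith)]
    calc b ^ 2 * (|θ - θ'| * (θ + θ')) * (1 - b' ^ 2) ≤ b ^ 2 * (|θ - θ'| * (θ + θ')) * 1 :=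
          mul_le_mul_of_nonneg_left (by nlinarith [sq_nonneg b']) (by positivity)
      _ ≤ _ := by nlinarith [mul_nonneg (sq_nonneg b) (abs_nonneg (θ - θ'))]
  nlinarith [mul_nonneg (add_nonneg (abs_nonneg b) (abs_nonneg b')) (abs_nonneg (b - b')),
    mul_nonneg (sq_nonneg b) (abs_nonneg (θ - θ'))]

/-- The capped logarithm of a damping ratio. -/
noncomputable def glog (θ b : ℝ) : ℝ := -Real.log (max (rho θ b) (1 / 2))

lemma glog_range {θ b : ℝ} (hθ : θ ∈ Set.Icc 0 (3 / 4 : ℝ)) (hb : |b| ≤ 1) :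
    0 ≤ glog θ b ∧ glog θ b ≤ 2 * (16 / 7) * b ^ 2 := by
  obtain ⟨h0, h1, h2⟩ := rho_facts hθ hb
  have hm1 : max (rho θ b) (1 / 2) ≤ 1 := max_le (by nlinarith [sq_nonneg b]) (by norm_num)
  have hm0 : (0:ℝ) < max (rho θ b) (1 / 2) := lt_max_of_lt_right (by norm_num)
  refine ⟨neg_nonneg.mpr (Real.log_nonpos hm0.le hm1), ?_⟩
  have := Real.one_sub_inv_le_log_of_pos hm0
  have hinv : (max (rho θ b) (1 / 2))⁻¹ - 1 ≤ 2 * (1 - max (rho θ b) (1 / 2)) := by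
    have hh : (1:ℝ) / 2 ≤ max (rho θ b) (1 / 2) := le_max_right _ _
    rw [sub_le_iff_le_add, inv_le_iff_one_le_mul₀ hm0]
    nlinarith
  have : rho θ b ≤ max (rho θ b) (1 / 2) := le_max_left _ _
  unfold glog
  nlinarith

lemma log_max_sub {x y : ℝ} :
    |Real.log (max x (1 / 2)) - Real.log (max y (1 / 2))| ≤ 2 * |x - y| := by
  set p := max x (1 / 2)
  set r := max y (1 / 2)
  have hp : (1:ℝ) / 2 ≤ p := le_max_right _ _
  have hr : (1:ℝ) / 2 ≤ r := le_max_right _ _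
  have hpr : |p - r| ≤ |x - y| := by
    refine (abs_max_sub_max_le_max _ _ _ _).trans ?_
    rw [sub_self, abs_zero]; exact max_le le_rfl (abs_nonneg _)
  have key : ∀ {p r : ℝ}, 1 / 2 ≤ p → 1 / 2 ≤ r → Real.log p - Real.log r ≤ 2 * |p - r| := by
    intro p r hp hr
    rw [← Real.log_div (by linarith) (by linarith)]
    refine (Real.log_le_sub_one_of_pos (by positivity)).trans ?_
    rw [div_sub_one (by linarith), div_le_iff₀ (by linarith)]
    nlinarith [le_abs_self (p - r), abs_nonneg (p - r)]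
  rw [abs_le]
  have h1 := key hp hr
  have h2 := key hr hp
  rw [abs_sub_comm r p] at h2
  constructor <;> linarith

lemma glog_sub {θ θ' b b' : ℝ} (hθ : θ ∈ Set.Icc 0 (3 / 4 : ℝ))
    (hθ' : θ' ∈ Set.Icc 0 (3 / 4 : ℝ)) (hb : |b| ≤ 1) (hb' : |b'| ≤ 1) :
    |glog θ b - glog θ' b'| ≤ 12 * ((|b| + |b'|) * |b - b'|) + 24 * (b ^ 2 * |θ - θ'|) := by
  have h := rho_sub hθ hθ' hb hb'
  have := log_max_sub (x := rho θ b) (y := rho θ' b')
  unfold glog
  rw [show -Real.log (max (rho θ b) (1 / 2)) - -Real.log (max (rho θ' b') (1 / 2)) =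
    -(Real.log (max (rho θ b) (1 / 2)) - Real.log (max (rho θ' b') (1 / 2))) by ring, abs_neg]
  linarith

lemma rho_eq_exp {θ b : ℝ} (h : 1 / 2 ≤ rho θ b) : rho θ b = Real.exp (-glog θ b) := by
  rw [glog, neg_neg, max_eq_left h, Real.exp_log (by linarith)]

variable {ι : Type*} [DecidableEq ι]

/-- Difference of two products with a common majorant. -/
lemma prod_sub_prod_le (I : Finset ι) (f g s : ι → ℝ) (hf : ∀ i ∈ I, |f i| ≤ s i)
    (hg : ∀ i ∈ I, |g i| ≤ s i) :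
    |∏ i ∈ I, f i - ∏ i ∈ I, g i| ≤ ∑ i ∈ I, |f i - g i| * ∏ j ∈ I.erase i, s j := by
  induction I using Finset.induction_on with
  | empty => simp
  | @insert a I ha ih =>
    have ih' := ih (fun i hi => hf i (Finset.mem_insert_of_mem hi))
      (fun i hi => hg i (Finset.mem_insert_of_mem hi))
    have hs : 0 ≤ s a := (abs_nonneg _).trans (hf a (Finset.mem_insert_self a I))
    rw [Finset.prod_insert ha, Finset.prod_insert ha, Finset.sum_insert ha,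
      Finset.erase_insert ha]
    have hgI : |∏ i ∈ I, g i| ≤ ∏ i ∈ I, s i := by
      rw [Finset.abs_prod]
      exact Finset.prod_le_prod (fun i _ => abs_nonneg _)
        fun i hi => hg i (Finset.mem_insert_of_mem hi)
    have e : ∀ i ∈ I, ∏ j ∈ (insert a I).erase i, s j = s a * ∏ j ∈ I.erase i, s j := by
      intro i hi
      rw [Finset.erase_insert_of_ne (fun h : a = i => ha (h ▸ hi)), Finset.prod_insert]
      simp [ha]
    rw [Finset.sum_congr rfl (g := fun i => s a * (|f i - g i| * ∏ j ∈ I.erase i, s j))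
      (fun i hi => by rw [e i hi]; ring), ← Finset.mul_sum,
      show f a * ∏ i ∈ I, f i - g a * ∏ i ∈ I, g i =
        (f a - g a) * (∏ i ∈ I, g i) + f a * (∏ i ∈ I, f i - ∏ i ∈ I, g i) by ring]
    refine (abs_add_le _ _).trans (add_le_add ?_ ?_) <;> rw [abs_mul]
    · exact mul_le_mul_of_nonneg_left hgI (abs_nonneg _)
    · exact mul_le_mul (hf a (Finset.mem_insert_self a I)) ih' (abs_nonneg _) hs

lemma one_add_sq_le_exp {x : ℝ} (hx : 0 ≤ x) : (1 + x) ^ 2 ≤ 16 * Real.exp (x / 2) := by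
  have h := Real.add_one_le_exp (x / 4)
  have : Real.exp (x / 2) = Real.exp (x / 4) ^ 2 := by
    rw [← Real.exp_nat_mul]; congr 1; push_cast; ring
  rw [this]
  nlinarith

/-- Change of a product of damping ratios. -/
lemma prod_rho_sub {θ θ' : ℝ} (hθ : θ ∈ Set.Icc 0 (3 / 4 : ℝ))
    (hθ' : θ' ∈ Set.Icc 0 (3 / 4 : ℝ)) (I : Finset ι) (b b' : ι → ℝ)
    (hb : ∀ i ∈ I, |b i| ≤ 1) (hb' : ∀ i ∈ I, |b' i| ≤ 1)
    (hY : ∑ i ∈ I, ((b i - b' i) ^ 2 + (θ - θ') ^ 2) ≤ 1) :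
    (∏ i ∈ I, rho θ (b i) - ∏ i ∈ I, rho θ' (b' i)) ^ 2 ≤
      10 ^ 6 * Real.exp (-(7 / 64 * ∑ i ∈ I, b i ^ 2)) *
        ∑ i ∈ I, ((b i - b' i) ^ 2 + (θ - θ') ^ 2) := by
  rcases I.eq_empty_or_nonempty with rfl | hne
  · simp
  set δ := |θ - θ'| with hδ
  set G := ∑ i ∈ I, b i ^ 2 with hG
  set Y := ∑ i ∈ I, ((b i - b' i) ^ 2 + (θ - θ') ^ 2) with hYdef
  set X := ∑ i ∈ I, (b i - b' i) ^ 2 with hX
  have hXY : X ≤ Y := Finset.sum_le_sum fun i _ => le_add_of_nonneg_right (sq_nonneg _)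
  have hδY : δ ^ 2 ≤ Y := by
    obtain ⟨i, hi⟩ := hne
    refine le_trans ?_ (Finset.single_le_sum (fun i _ => by positivity) hi)
    rw [hδ, sq_abs]; exact le_add_of_nonneg_left (sq_nonneg _)
  have hG0 : 0 ≤ G := Finset.sum_nonneg fun i _ => sq_nonneg _
  set s : ι → ℝ := fun i => Real.exp (-(7 / 32 * b i ^ 2) + 7 / 16 * (b i - b' i) ^ 2) with hs
  have hfs : ∀ i ∈ I, |rho θ (b i)| ≤ s i := fun i hi => by
    rw [abs_of_nonneg (rho_facts hθ (hb i hi)).1]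
    refine (rho_le_exp hθ (hb i hi)).trans (Real.exp_le_exp.mpr ?_)
    nlinarith [sq_nonneg (b i), sq_nonneg (b i - b' i)]
  have hgs : ∀ i ∈ I, |rho θ' (b' i)| ≤ s i := fun i hi => by
    rw [abs_of_nonneg (rho_facts hθ' (hb' i hi)).1]
    refine (rho_le_exp hθ' (hb' i hi)).trans (Real.exp_le_exp.mpr ?_)
    nlinarith [sq_nonneg (b i - 2 * b' i)]
  have h1 := prod_sub_prod_le I _ _ s hfs hgs
  set E := Real.exp (-(7 / 32 * G) + 1) with hE
  have hpe : ∀ i ∈ I, ∏ j ∈ I.erase i, s j ≤ E := by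
    intro i hi
    simp only [hs]
    rw [← Real.exp_sum, hE]
    refine Real.exp_le_exp.mpr ?_
    rw [Finset.sum_add_distrib, Finset.sum_neg_distrib, ← Finset.mul_sum, ← Finset.mul_sum,
      Finset.sum_erase_eq_sub hi, Finset.sum_erase_eq_sub hi, ← hG, ← hX]
    have : b i ^ 2 ≤ 1 := by rw [← sq_abs]; exact pow_le_one₀ (abs_nonneg _) (hb i hi)
    nlinarith [sq_nonneg (b i - b' i)]
  set T := ∑ i ∈ I, (6 * ((|b i| + |b' i|) * |b i - b' i|) + 12 * (b i ^ 2 * δ)) with hT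
  have h2 : |∏ i ∈ I, rho θ (b i) - ∏ i ∈ I, rho θ' (b' i)| ≤ T * E := by
    refine h1.trans ?_
    rw [hT, Finset.sum_mul]
    exact Finset.sum_le_sum fun i hi => mul_le_mul (rho_sub hθ hθ' (hb i hi) (hb' i hi))
      (hpe i hi) (Finset.prod_nonneg fun j _ => (Real.exp_pos _).le) (by positivity)
  have hcs : (∑ i ∈ I, (|b i| + |b' i|) * |b i - b' i|) ^ 2 ≤ (6 * G + 4) * X := by
    refine (Finset.sum_mul_sq_le_sq_mul_sq I _ _).trans ?_
    simp only [sq_abs]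
    refine mul_le_mul_of_nonneg_right ?_ (Finset.sum_nonneg fun i _ => sq_nonneg _)
    calc ∑ i ∈ I, (|b i| + |b' i|) ^ 2 ≤ ∑ i ∈ I, (6 * b i ^ 2 + 4 * (b i - b' i) ^ 2) := by
          refine Finset.sum_le_sum fun i _ => ?_
          nlinarith [sq_nonneg (|b i| - |b' i|), sq_abs (b i), sq_abs (b' i),
            sq_nonneg (2 * b i - b' i)]
      _ ≤ 6 * G + 4 := by
          rw [Finset.sum_add_distrib, ← Finset.mul_sum, ← Finset.mul_sum, ← hG, ← hX]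
          linarith
  have hT2 : T ^ 2 ≤ 900 * (1 + G) ^ 2 * Y := by
    rw [hT, Finset.sum_add_distrib, ← Finset.mul_sum, ← Finset.mul_sum, ← Finset.sum_mul, ← hG]
    have a : (G * δ) ^ 2 ≤ (1 + G) ^ 2 * Y := by
      rw [mul_pow]
      exact mul_le_mul (by nlinarith) hδY (sq_nonneg _) (sq_nonneg _)
    have b2 : (6 * G + 4) * X ≤ 6 * ((1 + G) ^ 2 * Y) := by
      have : 6 * G + 4 ≤ 6 * (1 + G) ^ 2 := by nlinarith
      calc (6 * G + 4) * X ≤ 6 * (1 + G) ^ 2 * Y :=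
            mul_le_mul this hXY (Finset.sum_nonneg fun i _ => sq_nonneg _) (by positivity)
        _ = _ := by ring
    have hY1 : 0 ≤ (1 + G) ^ 2 * Y := (sq_nonneg _).trans a
    nlinarith [sq_nonneg (6 * (∑ i ∈ I, (|b i| + |b' i|) * |b i - b' i|) - 12 * (G * δ))]
  have hEE : E ^ 2 * (1 + G) ^ 2 ≤ 576 * Real.exp (-(7 / 64 * G)) := by
    have e : E ^ 2 = Real.exp 2 * Real.exp (-(7 / 16 * G)) := by
      rw [hE, ← Real.exp_nat_mul, ← Real.exp_add]; congr 1; push_cast; ring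
    have e2 : Real.exp 2 ≤ 9 := by
      have := Real.exp_one_lt_d9
      rw [show (2:ℝ) = 1 + 1 by norm_num, Real.exp_add]
      nlinarith [Real.exp_pos 1]
    have h' : (1 + G) ^ 2 ≤ 2 ^ 6 * Real.exp (21 / 64 * G) := by
      have h4 := Real.add_one_le_exp (21 / 128 * G)
      have e4 : Real.exp (21 / 64 * G) = Real.exp (21 / 128 * G) ^ 2 := by
        rw [← Real.exp_nat_mul]; congr 1; push_cast; ring
      rw [e4]
      nlinarith
    rw [e]
    have e5 : Real.exp (-(7 / 16 * G)) * Real.exp (21 / 64 * G) = Real.exp (-(7 / 64 * G)) := by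
      rw [← Real.exp_add]; congr 1; ring
    calc Real.exp 2 * Real.exp (-(7 / 16 * G)) * (1 + G) ^ 2
        ≤ 9 * Real.exp (-(7 / 16 * G)) * (2 ^ 6 * Real.exp (21 / 64 * G)) :=
          mul_le_mul (mul_le_mul_of_nonneg_right e2 (Real.exp_pos _).le) h' (sq_nonneg _)
            (by positivity)
      _ = 9 * 2 ^ 6 * Real.exp (-(7 / 64 * G)) := by rw [← e5]; ring
      _ = _ := by ring
  have hY0 : 0 ≤ Y := (sq_nonneg _).trans hδY
  calc _ ≤ (T * E) ^ 2 := by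
        rw [← sq_abs (_ - _)]
        exact pow_le_pow_left₀ (abs_nonneg _) h2 2
    _ = T ^ 2 * E ^ 2 := mul_pow _ _ _
    _ ≤ 900 * (1 + G) ^ 2 * Y * E ^ 2 := mul_le_mul_of_nonneg_right hT2 (sq_nonneg _)
    _ = 900 * (E ^ 2 * (1 + G) ^ 2) * Y := by ring
    _ ≤ 900 * (576 * Real.exp (-(7 / 64 * G))) * Y :=
        mul_le_mul_of_nonneg_right (by linarith) hY0
    _ ≤ _ := by nlinarith [mul_nonneg (Real.exp_pos (-(7 / 64 * G))).le hY0]

end Vale.Agent.P161.Crit
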