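import Mathlib

/-!
# Arithmetic of the growth up to the threshold
-/

namespace Vale.Agent.P161.Crit

open Filter

/-- The coefficient of the discrepancy near the start. -/
noncomputable def coefA (d : ℕ) : ℝ := 2 * 10 ^ 21 * d

/-- The coefficient of the moments near the start. -/
noncomputable def coefB (d j : ℕ) : ℝ := 10 ^ 22 * ((d : ℝ) + 50000 ^ (j + 1))

/-- The coefficient of the small quantities near the start. -/
noncomputable def coefS (d j : ℕ) (c₀ Q u : ℝ) : ℝ :=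
  4 * Q * (8 * Q ^ 2 / c₀ ^ 2 + 8 * (768 * d * Q * (5 * 10 ^ 15))) +
    4 * Q * (8 * (2 * Q ^ 2)) +
    4 * Q * (4800 + 8 * (768 * d * Q * (10 ^ 15 * (64 + 64 * ((j : ℝ) + 1) / u ^ j))) +
      48 * 10 ^ 7 * Q ^ 2 + 32 * 50000 ^ (j + 1) * ((j : ℝ) + 1) * Q)

lemma coefA_nonneg (d : ℕ) : 0 ≤ coefA d := by unfold coefA; positivity

lemma coefB_nonneg (d j : ℕ) : 0 ≤ coefB d j := by unfold coefB; positivity

lemma coefS_nonneg (d j : ℕ) {c₀ Q u : ℝ} (hQ : 0 ≤ Q) (hu : 0 ≤ u) : 0 ≤ coefS d j c₀ Q u := by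
  unfold coefS; positivity

lemma coefS_mono (d j : ℕ) {c₀ Q Qm u₀ u : ℝ} (hQ : 0 ≤ Q) (hQm : Q ≤ Qm) (hu₀ : 0 < u₀)
    (hu : u₀ ≤ u) : coefS d j c₀ Q u ≤ coefS d j c₀ Qm u₀ := by
  have := hQ.trans hQm
  have := hu₀.trans_le hu
  unfold coefS
  gcongr

/-- The bound on the integrand near the start, times the weight. -/
lemma early_arith {d j : ℕ} {c₀ ℓ R u f ε w D C u₀ Qm : ℝ} (hd : 1 ≤ d) (hℓ : 1 ≤ ℓ) (hR : 0 ≤ R)
    (hu : 0 < u) (hu1 : u ≤ 1) (hRQ : R + 1 ≤ 3 * ℓ / u ^ 3) (hf : 0 ≤ f) (hε : 0 ≤ ε) (hw : 0 ≤ w)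
    (hD : 0 ≤ D) (hC : 0 ≤ C) (hu₀ : 0 < u₀) (hu₀u : u₀ ≤ u) (hQm : 3 * ℓ / u ^ 3 ≤ Qm) :
    u ^ 4 * (4 * (R + 1) *
      (8 * R ^ 2 * D / c₀ ^ 2 + 600 * (f + 8 * ε) +
        8 * (768 * d * R * (10 ^ 15 * (8 * u * (f + 8 * ε) +
          32 / u ^ j * (C * u ^ (3 * (j + 1)) + 2 * ((j : ℝ) + 1) * ε) + 5 * D)) +
          2 * R ^ 2 * w + 6 * 10 ^ 7 * R ^ 2 * ε) +
        16 * 50000 ^ (j + 1) * (R + 1) * (C * u ^ (3 * (j + 1)) + 2 * ((j : ℝ) + 1) * ε))) ≤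
      coefA d * ℓ ^ 2 / u * f + coefB d j * C * ℓ ^ 2 * u ^ (2 * j + 1) +
        coefS d j c₀ Qm u₀ * (D + w + ε) := by
  set Q := 3 * ℓ / u ^ 3 with hQdef
  have hRQ' : R ≤ Q := by linarith
  have hQ0 : 0 ≤ Q := by linarith
  have hd' : (1 : ℝ) ≤ d := by exact_mod_cast hd
  have hP : 0 ≤ (50000 : ℝ) ^ (j + 1) := by positivity
  have hpow : u ^ (3 * (j + 1)) = u ^ j * u ^ (2 * j + 1) * u ^ 2 := by
    rw [← pow_add, ← pow_add]; congr 1; omega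
  calc u ^ 4 * _ ≤ u ^ 4 * (4 * Q *
        (8 * Q ^ 2 * D / c₀ ^ 2 + 600 * (f + 8 * ε) +
          8 * (768 * d * Q * (10 ^ 15 * (8 * u * (f + 8 * ε) +
            32 / u ^ j * (C * u ^ (3 * (j + 1)) + 2 * ((j : ℝ) + 1) * ε) + 5 * D)) +
            2 * Q ^ 2 * w + 6 * 10 ^ 7 * Q ^ 2 * ε) +
          16 * 50000 ^ (j + 1) * Q * (C * u ^ (3 * (j + 1)) + 2 * ((j : ℝ) + 1) * ε))) := by
        gcongr
    _ = (2400 * (Q * u ^ 4) + 4 * 8 * 768 * 8 * 10 ^ 15 * d * (Q ^ 2 * u ^ 5)) * f +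
        (4 * 8 * 768 * 32 * 10 ^ 15 * d / u ^ j + 64 * 50000 ^ (j + 1)) *
          (Q ^ 2 * u ^ 4) * u ^ (3 * (j + 1)) * C +
        u ^ 4 * ((4 * Q * (8 * Q ^ 2 / c₀ ^ 2 + 8 * (768 * d * Q * (5 * 10 ^ 15)))) * D +
          (4 * Q * (8 * (2 * Q ^ 2))) * w +
          (4 * Q * (4800 + 8 * (768 * d * Q * (10 ^ 15 * (64 * u + 64 * ((j : ℝ) + 1) / u ^ j))) +
            48 * 10 ^ 7 * Q ^ 2 + 32 * 50000 ^ (j + 1) * ((j : ℝ) + 1) * Q)) * ε) := by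
        ring
    _ ≤ _ := by
        refine add_le_add (add_le_add (mul_le_mul_of_nonneg_right ?_ hf) ?_) ?_
        · have e1 : Q * u ^ 4 = 3 * ℓ * u := by rw [hQdef]; field_simp
          have e2 : Q ^ 2 * u ^ 5 = 9 * ℓ ^ 2 / u := by rw [hQdef]; field_simp; norm_num
          have h1 : ℓ * u ≤ d * (ℓ ^ 2 / u) := by
            calc ℓ * u ≤ 1 * (ℓ ^ 2 / u) := by
                  rw [one_mul, le_div_iff₀ hu]
                  nlinarith [mul_le_mul hu1 hu1 hu.le zero_le_one]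
              _ ≤ _ := mul_le_mul_of_nonneg_right hd' (by positivity)
          have h2 : 0 ≤ d * (ℓ ^ 2 / u) := by positivity
          rw [e1, e2, coefA]
          calc _ = 7200 * (ℓ * u) + 1769472 * 10 ^ 15 * (d * (ℓ ^ 2 / u)) := by ring
            _ ≤ 2 * 10 ^ 21 * (d * (ℓ ^ 2 / u)) := by linarith
            _ = _ := by ring
        · have e3 : Q ^ 2 * u ^ 4 = 9 * ℓ ^ 2 / u ^ 2 := by rw [hQdef]; field_simp; norm_num
          have e4 : (4 * 8 * 768 * 32 * 10 ^ 15 * d / u ^ j + 64 * 50000 ^ (j + 1)) *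
              (Q ^ 2 * u ^ 4) * u ^ (3 * (j + 1)) * C =
              (9 * (4 * 8 * 768 * 32 * 10 ^ 15 * d) + 9 * (64 * 50000 ^ (j + 1) * u ^ j)) *
                (ℓ ^ 2 * u ^ (2 * j + 1) * C) := by
            rw [e3, hpow]; field_simp
          rw [e4, show coefB d j * C * ℓ ^ 2 * u ^ (2 * j + 1) =
            coefB d j * (ℓ ^ 2 * u ^ (2 * j + 1) * C) by ring]
          refine mul_le_mul_of_nonneg_right ?_ (by positivity)
          have := mul_le_mul_of_nonneg_left (pow_le_one₀ (n := j) hu.le hu1) hP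
          rw [coefB]
          linarith
        · have hu4 : u ^ 4 ≤ 1 := pow_le_one₀ hu.le hu1
          have hQm0 : 0 ≤ Qm := hQ0.trans hQm
          refine le_trans ?_ (mul_le_mul_of_nonneg_right (coefS_mono d j hQ0 hQm hu₀ hu₀u)
            (by positivity))
          refine (mul_le_of_le_one_left (by positivity) hu4).trans ?_
          have hb : 64 * u ≤ (64 : ℝ) := by linarith
          set a1 := 4 * Q * (8 * Q ^ 2 / c₀ ^ 2 + 8 * (768 * d * Q * (5 * 10 ^ 15))) with ha1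
          set a2 := 4 * Q * (8 * (2 * Q ^ 2)) with ha2
          set a3 := 4 * Q * (4800 + 8 * (768 * d * Q * (10 ^ 15 * (64 + 64 * ((j : ℝ) + 1) / u ^ j))) +
            48 * 10 ^ 7 * Q ^ 2 + 32 * 50000 ^ (j + 1) * ((j : ℝ) + 1) * Q) with ha3
          have h0 : 0 ≤ a1 ∧ 0 ≤ a2 ∧ 0 ≤ a3 := by
            refine ⟨?_, ?_, ?_⟩ <;> positivity
          calc _ ≤ a1 * D + a2 * w + a3 * ε := by rw [ha3]; gcongr
            _ ≤ (a1 + a2 + a3) * (D + w + ε) := by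
                nlinarith [mul_nonneg h0.1 (add_nonneg hw hε), mul_nonneg h0.2.1 (add_nonneg hD hε),
                  mul_nonneg h0.2.2 (add_nonneg hD hw)]
            _ = _ := by rw [ha1, ha2, ha3, coefS]

/-- The choice of the level at which the two regimes meet. -/
lemma choose_level {B C₁ C₂ Λ ε : ℝ} {j : ℕ} (hj : Λ + 1 ≤ 4 * j) (hε : 0 < ε) :
    ∃ M : ℕ, 1 ≤ M ∧
      B * Real.exp (Λ * (M : ℝ) ^ 2) / Real.exp ((M : ℝ) ^ 2) ^ (4 * j) ≤ ε ∧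
      C₁ * Real.exp (Λ * (M : ℝ) ^ 2) * Real.exp (-(Real.exp ((M : ℝ) ^ 2) / 6800000)) ≤ ε ∧
      C₂ * Real.exp (Λ * (M : ℝ) ^ 2) * Real.exp (4 * (M : ℝ) ^ 2) *
        Real.exp (-(2 * (2 : ℝ) ^ M)) ≤ ε := by
  have hsq : Tendsto (fun M : ℕ => (M : ℝ) ^ 2) atTop atTop :=
    (tendsto_pow_atTop two_ne_zero).comp tendsto_natCast_atTop_atTop
  have small : ∀ (b : ℝ) (f : ℕ → ℝ), (∀ᶠ M in atTop, f M ≤ -((M : ℝ) ^ 2)) →
      ∀ᶠ M in atTop, b * Real.exp (f M) ≤ ε := by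
    intro b f hf
    have h1 : Tendsto f atTop atBot := tendsto_atBot_mono' atTop hf (tendsto_neg_atTop_atBot.comp hsq)
    have h2 := (Real.tendsto_exp_atBot.comp h1).const_mul b
    rw [mul_zero] at h2
    exact h2.eventually_le_const hε
  have e1 : ∀ᶠ M : ℕ in atTop, (Λ - 4 * j) * (M : ℝ) ^ 2 ≤ -((M : ℝ) ^ 2) :=
    .of_forall fun M => by
      have := mul_le_mul_of_nonneg_right hj (sq_nonneg (M : ℝ))
      linarith
  have e2 : ∀ᶠ M : ℕ in atTop,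
      Λ * (M : ℝ) ^ 2 - Real.exp ((M : ℝ) ^ 2) / 6800000 ≤ -((M : ℝ) ^ 2) := by
    filter_upwards [hsq.eventually_ge_atTop (2 * 6800000 * (|Λ| + 1))] with M hM
    have h := Real.pow_div_factorial_le_exp (x := (M : ℝ) ^ 2) (sq_nonneg _) 2
    norm_num at h
    have h0 := mul_le_mul_of_nonneg_right hM (sq_nonneg (M : ℝ))
    have h3 := mul_le_mul_of_nonneg_right (le_abs_self Λ) (sq_nonneg (M : ℝ))
    rw [le_neg_iff_add_nonpos_right, sub_add_eq_add_sub, sub_nonpos, le_div_iff₀ (by norm_num)]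
    nlinarith
  have e3 : ∀ᶠ M : ℕ in atTop,
      Λ * (M : ℝ) ^ 2 + 4 * (M : ℝ) ^ 2 - 2 * (2 : ℝ) ^ M ≤ -((M : ℝ) ^ 2) := by
    have := (tendsto_pow_const_div_const_pow_of_one_lt 2 (show (1 : ℝ) < 2 by norm_num)).eventually_le_const
      (show (0 : ℝ) < 1 / (|Λ| + 5) by positivity)
    filter_upwards [this] with M hM
    rw [div_le_div_iff₀ (by positivity) (by positivity), one_mul] at hM
    have h3 := mul_le_mul_of_nonneg_right (le_abs_self Λ) (sq_nonneg (M : ℝ))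
    have : 0 ≤ (2 : ℝ) ^ M := by positivity
    linarith
  obtain ⟨M, h1, h2, h3, hM⟩ := ((small B _ e1).and ((small C₁ _ e2).and ((small C₂ _ e3).and
    (eventually_ge_atTop 1)))).exists
  refine ⟨M, hM, le_of_eq_of_le ?_ h1, le_of_eq_of_le ?_ h2, le_of_eq_of_le ?_ h3⟩
  · rw [← Real.exp_nat_mul, mul_div_assoc, ← Real.exp_sub]
    push_cast
    ring_nf
  · rw [mul_assoc, ← Real.exp_add]
    ring_nf
  · rw [mul_assoc, mul_assoc, ← Real.exp_add, ← Real.exp_add]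
    ring_nf

end Vale.Agent.P161.Crit
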