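import Vale.Agent.P161.Crit.Sample

/-!
# The law of the readings
-/

namespace Vale.Agent.P161.Crit

open MeasureTheory unitInterval Function SimpleGraph Vale.Agent.P161

variable {V : Type*} [Countable V] [DecidableEq V] {G : SimpleGraph V} {θ : ℝ}
variable (hG : G.IsTree) (hθ0 : 0 ≤ θ) (hθ1 : θ < 1)
include hG hθ0 hθ1

/-- The outputs as a mixture over configurations. -/
lemma out_mix {A : Finset V} (hA : Convex' G A) (hne : A.Nonempty) {K : ℕ} {ρ : V × ℕ → I}
    (hρ : Set.InjOn (fun i : V × ℕ => (i.2, ρ i)) (A ×ˢ Finset.range K : Finset _))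
    {f : (V × ℕ → I) → ℝ} (hf : Continuous f)
    (hd : DependsOn f ((A ×ˢ Finset.range K : Finset _) : Set (V × ℕ))) :
    ∫ u, f (out G θ A K ρ u) ∂iidLabels (V × ℕ) = Ev G θ A fun η =>
      ∫ y, f y * lkc (A ×ˢ Finset.range K) (fun i => est ρ i * spin (η i.1)) y ∂iidLabels (V × ℕ) := by
  classical
  rw [integral_out hG hθ0 hθ1 hA hne hρ _ subset_rfl (fun j _ => Finset.filter_subset _ _) f hf hd]
  simp only [den, Ev, Finset.mul_sum]
  rw [integral_finsetSum _ fun s _ => ?_]
  · refine Finset.sum_congr rfl fun s _ => ?_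
    rw [← integral_const_mul]
    refine integral_congr_ae (.of_forall fun y => ?_)
    have e : lkA A K (fun i => if i ∈ A ×ˢ Finset.range K then est ρ i else 0) (cfg s) y =
        lkc (A ×ˢ Finset.range K) (fun i => est ρ i * spin (cfg s i.1)) y := by
      simp only [lkA, lkv, lkc, Finset.prod_product]
      exact Finset.prod_congr rfl fun v hv => Finset.prod_congr rfl fun l hl => by
        rw [if_pos (Finset.mem_product.mpr ⟨hv, hl⟩)]
    simp only [e]
    ring
  · refine integrable_of_continuous (h := fun y => f y * (prior G θ A (cfg s) *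
      lkA A K (fun i => if i ∈ A ×ˢ Finset.range K then est ρ i else 0) (cfg s) y))
      (hf.mul (continuous_const.mul ?_))
    unfold lkA
    exact continuous_finsetProd _ fun v _ => continuous_lkv (fun i => by
      by_cases hi : i ∈ A ×ˢ Finset.range K
      · rw [if_pos hi]; exact isStr_est ρ i
      · rw [if_neg hi]; exact ⟨le_rfl, by norm_num⟩) v _

omit [Countable V] in
lemma Ev_le_const {A : Finset V} (hA : Convex' G A) (hne : A.Nonempty) {f : (V → Bool) → ℝ}
    {c : ℝ} (h : ∀ η, f η ≤ c) : Ev G θ A f ≤ c := by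
  have habs : |θ| < 1 := by rwa [abs_of_nonneg hθ0]
  refine (Ev_mono (g := fun _ => c * 1) habs fun η => (h η).trans_eq (mul_one c).symm).trans_eq ?_
  rw [Ev_const_mul, Ev_one hG hA hne, mul_one]

variable {A : Finset V} (hA : Convex' G A)
include hA

omit [Countable V] [DecidableEq V] hG hθ0 hθ1 hA in
lemma depends_rd {K K₀ : ℕ} (hK : K₀ ≤ K) {v : V} (hv : v ∈ A) (ρ : V × ℕ → I) :
    DependsOn (rd K₀ v ρ) ((A ×ˢ Finset.range K : Finset _) : Set (V × ℕ)) := fun y y' h =>
  rd_congr fun k hk => h (v, k)
    (Finset.mem_coe.mpr (Finset.mem_product.mpr ⟨hv, Finset.mem_range.mpr (hk.trans_le hK)⟩))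

omit [Countable V] [DecidableEq V] hG hθ0 hθ1 hA in
lemma lkc_nonneg (ρ : V × ℕ → I) (η : V → Bool) (S : Finset (V × ℕ)) (y : V × ℕ → I) :
    0 ≤ lkc S (fun i => est ρ i * spin (η i.1)) y := Finset.prod_nonneg fun i _ => by
  have h1 : |est ρ i * spin (η i.1) * zed (y i)| ≤ 1 := by
    rw [abs_mul, abs_mul, abs_spin, mul_one, abs_of_nonneg (est_nonneg ρ i).1]
    exact mul_le_one₀ (by linarith [(est_nonneg ρ i).2]) (abs_nonneg _) (abs_zed_le _)
  linarith [(abs_le.mp h1).1]

/-- Readings from different numbers of rounds are close. -/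
lemma integral_rdo_rounds {K K₀ : ℕ} (hK₀ : 0 < K₀) (hK : K₀ ≤ K) {v : V} (hv : v ∈ A) :
    ∫ q, |rdo G θ A K K₀ v q - rdo G θ A K K v q| ∂omg V ≤
      6 / (sqStr * Real.sqrt K₀) + 6 / (sqStr * Real.sqrt K) := by
  have hK' : 0 < K := hK₀.trans_le hK
  have i1 := integrable_of_continuous (continuous_rdErr K₀ v)
  have i2 := integrable_of_continuous (continuous_rdErr K v)
  refine (integral_omg_le ((measurable_rdo A K K₀ v).sub (measurable_rdo A K K v)).abs (C := 2)
    (fun q => ?_) (i1.fun_add i2) ?_).trans ?_
  · rw [abs_abs, Pi.sub_apply]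
    have := abs_le.mp (abs_rdo_le (G := G) (θ := θ) A K K₀ v q)
    have := abs_le.mp (abs_rdo_le (G := G) (θ := θ) A K K v q)
    exact abs_le.mpr ⟨by linarith, by linarith⟩
  · filter_upwards [ae_injOn (A ×ˢ Finset.range K)] with ρ hρ
    have c1 := continuous_rd K₀ v ρ
    have c2 := continuous_rd K v ρ
    show ∫ u, |rd K₀ v ρ (out G θ A K ρ u) - rd K v ρ (out G θ A K ρ u)| ∂iidLabels (V × ℕ) ≤ _
    rw [out_mix hG hθ0 hθ1 hA ⟨v, hv⟩ hρ (f := fun y => |rd K₀ v ρ y - rd K v ρ y|) (c1.sub c2).abs
      (fun y y' h => by simp only; rw [depends_rd hK hv ρ h, depends_rd le_rfl hv ρ h])]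
    refine Ev_le_const hG hθ0 hθ1 hA ⟨v, hv⟩ fun η => ?_
    set S := A ×ˢ Finset.range K
    set L := fun y => lkc S (fun i => est ρ i * spin (η i.1)) y
    have hL : Continuous L := continuous_lkc _ _
    have d1 : Continuous fun y => |rd K₀ v ρ y - spin (η v)| * L y := (c1.sub continuous_const).abs.mul hL
    have d2 : Continuous fun y => |rd K v ρ y - spin (η v)| * L y := (c2.sub continuous_const).abs.mul hL
    refine (integral_le_integral ((c1.sub c2).abs.mul hL) (d1.add d2) fun y => ?_).trans ?_
    · simp only [Pi.add_apply, Pi.mul_apply, Pi.sub_apply, L]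
      rw [← add_mul]
      refine mul_le_mul_of_nonneg_right ?_ (lkc_nonneg ρ η S y)
      rw [abs_sub_comm (rd K v ρ y) (spin (η v))]
      exact abs_sub_le _ _ _
    · simp only [Pi.add_apply]
      rw [integral_add (integrable_of_continuous d1) (integrable_of_continuous d2)]
      exact add_le_add (integral_rd_err hK₀ v ρ η fun k hk => Finset.mem_product.mpr
          ⟨hv, Finset.mem_range.mpr (hk.trans_le hK)⟩)
        (integral_rd_err hK' v ρ η fun k hk => Finset.mem_product.mpr ⟨hv, Finset.mem_range.mpr hk⟩)
  · rw [integral_add i1 i2]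
    exact add_le_add (integral_rdErr_le hK₀ v) (integral_rdErr_le hK' v)

/-- The reading is nearly a spin. -/
lemma integral_one_sub_sq_rdo {K : ℕ} (hK : 0 < K) {v : V} (hv : v ∈ A) :
    ∫ q, (1 - rdo G θ A K K v q ^ 2) ∂omg V ≤ 12 / (sqStr * Real.sqrt K) := by
  have i1 := (integrable_of_continuous (continuous_rdErr K v)).const_mul 2
  refine (integral_omg_le (measurable_const.sub ((measurable_rdo A K K v).pow_const 2)) (C := 1)
    (fun q => ?_) i1 ?_).trans ?_
  · have h := abs_rdo_le (G := G) (θ := θ) A K K v q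
    have h2 : rdo G θ A K K v q ^ 2 ≤ 1 := by rw [← sq_abs]; exact pow_le_one₀ (abs_nonneg _) h
    simp only [Pi.sub_apply]
    exact abs_le.mpr ⟨by linarith, by linarith [sq_nonneg (rdo G θ A K K v q)]⟩
  · filter_upwards [ae_injOn (A ×ˢ Finset.range K)] with ρ hρ
    have c1 := continuous_rd K v ρ
    show ∫ u, (1 - rd K v ρ (out G θ A K ρ u) ^ 2) ∂iidLabels (V × ℕ) ≤ _
    rw [out_mix hG hθ0 hθ1 hA ⟨v, hv⟩ hρ (f := fun y => 1 - rd K v ρ y ^ 2)
      (continuous_const.sub (c1.pow 2)) (fun y y' h => by simp only; rw [depends_rd le_rfl hv ρ h])]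
    refine Ev_le_const hG hθ0 hθ1 hA ⟨v, hv⟩ fun η => ?_
    set S := A ×ˢ Finset.range K
    set L := fun y => lkc S (fun i => est ρ i * spin (η i.1)) y
    have hL : Continuous L := continuous_lkc _ _
    have d1 : Continuous fun y => |rd K v ρ y - spin (η v)| * L y := (c1.sub continuous_const).abs.mul hL
    refine (integral_le_integral ((continuous_const.sub (c1.pow 2)).mul hL)
      (continuous_const.mul d1) (g := fun y => 2 * (|rd K v ρ y - spin (η v)| * L y))
      fun y => ?_).trans ?_
    · simp only [Pi.mul_apply, Pi.sub_apply, Pi.pow_apply, L]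
      rw [← mul_assoc]
      refine mul_le_mul_of_nonneg_right ?_ (lkc_nonneg ρ η S y)
      obtain ⟨a, b⟩ := abs_le.mp (abs_rd_le K v ρ y)
      rcases spin_cases (η v) with e | e <;> rw [e]
      · have := neg_le_abs (rd K v ρ y - 1); nlinarith
      · have := le_abs_self (rd K v ρ y - -1); nlinarith
    · rw [integral_const_mul]
      exact mul_le_mul_of_nonneg_left (integral_rd_err hK v ρ η fun k hk =>
        Finset.mem_product.mpr ⟨hv, Finset.mem_range.mpr hk⟩) zero_le_two
  · rw [integral_const_mul]
    exact (mul_le_mul_of_nonneg_left (integral_rdErr_le hK v) zero_le_two).trans_eq (by ring)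

/-- The readings on `D` have nearly the Ising law. -/
lemma integral_match_rdo {D : Finset V} (hD : Convex' G D) (hDne : D.Nonempty) (hDA : D ⊆ A)
    (η₀ : V → Bool) {K : ℕ} (hK : 0 < K) :
    |(∫ q, match' D η₀ (fun v => rdo G θ A K K v q) ∂omg V) - prior G θ D η₀| ≤
      D.card * (3 / (sqStr * Real.sqrt K)) := by
  have hAne : A.Nonempty := hDne.mono hDA
  have habs : |θ| < 1 := by rwa [abs_of_nonneg hθ0]
  have hm : Measurable fun q => match' D η₀ fun v => rdo G θ A K K v q := by
    unfold match'
    exact Finset.measurable_prod _ fun v _ =>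
      (measurable_const.add ((measurable_rdo A K K v).const_mul _)).div_const _
  have hi : Integrable (fun q => match' D η₀ fun v => rdo G θ A K K v q) (omg V) :=
    integrable_bdd hm 1 fun q => by
      obtain ⟨a, b⟩ := match'_range D η₀ (x := fun v => rdo G θ A K K v q) fun v => abs_rdo_le _ _ _ _ _
      rw [abs_of_nonneg a]; exact b
  have hprior : prior G θ D η₀ = Ev G θ A fun η => match' D η₀ (fun v => spin (η v)) := by
    rw [Ev_mono_set hG hD hA hDne hDA (fun η => match' D η₀ fun v => spin (η v)) (fun η η' he =>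
      Finset.prod_congr rfl fun v hv => by simp only [he v hv]), Ev,
      Finset.sum_eq_single (D.filter fun v => η₀ v = true)]
    · have e : ∀ v ∈ D, cfg (D.filter fun v => η₀ v = true) v = η₀ v := fun v hv => by
        cases h : η₀ v <;> simp [cfg, hv, h]
      rw [prior_congr e, show match' D η₀ (fun v => spin (cfg (D.filter fun v => η₀ v = true) v)) = 1
        from Finset.prod_eq_one fun v hv => by simp only [e v hv, spin_mul_self]; norm_num, mul_one]
    · intro s hs hne
      rw [Finset.mem_powerset] at hs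
      obtain ⟨v, hv⟩ : ∃ v ∈ D, cfg s v ≠ η₀ v := by
        by_contra hall
        push Not at hall
        refine hne (Finset.ext fun v => ?_)
        constructor
        · intro hvs
          exact Finset.mem_filter.mpr ⟨hs hvs, by simpa [cfg, hvs] using (hall v (hs hvs)).symm⟩
        · intro hv
          rw [Finset.mem_filter] at hv
          have := hall v hv.1
          simpa [cfg, hv.2] using this
      rw [show match' D η₀ (fun v => spin (cfg s v)) = 0 from Finset.prod_eq_zero hv.1 (by
        rcases hh : η₀ v <;> rcases hh' : cfg s v <;> simp_all [spin]), mul_zero]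
    · intro h; exact absurd (Finset.mem_powerset.mpr (Finset.filter_subset _ _)) h
  set B := fun ρ => ∑ v ∈ D, rdErr K v ρ / 2 with hB
  have hBi : Integrable B (iidLabels (V × ℕ)) := integrable_finsetSum _ fun v _ =>
    (integrable_of_continuous (continuous_rdErr K v)).div_const 2
  rw [show (∫ q, match' D η₀ (fun v => rdo G θ A K K v q) ∂omg V) - prior G θ D η₀ =
      ∫ q, ((match' D η₀ fun v => rdo G θ A K K v q) - prior G θ D η₀) ∂omg V by
    rw [integral_sub hi (integrable_const _)]; simp]
  rw [integral_prod (fun q => (match' D η₀ fun v => rdo G θ A K K v q) - prior G θ D η₀)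
    (hi.sub (integrable_const _))]
  refine abs_integral_le_integral_abs.trans ((integral_mono_ae
    (hi.sub (integrable_const _)).integral_prod_left.abs hBi ?_).trans ?_)
  · filter_upwards [ae_injOn (A ×ˢ Finset.range K)] with ρ hρ
    set S := A ×ˢ Finset.range K
    set f := fun y => match' D η₀ fun v => rd K v ρ y
    have hfc : Continuous f := by
      simp only [f, match']
      exact continuous_finsetProd _ fun v _ =>
        (continuous_const.add (continuous_const.mul (continuous_rd K v ρ))).div_const _
    have hfd : DependsOn f (S : Set (V × ℕ)) := fun y y' h => Finset.prod_congr rfl fun v hv => by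
      simp only [depends_rd le_rfl (hDA hv) ρ h]
    have hu : Integrable (fun u => f (out G θ A K ρ u)) (iidLabels (V × ℕ)) :=
      integrable_of_continuous (hfc.comp (continuous_out hθ0 hθ1 A K ρ))
    simp only [Pi.sub_apply]
    show |∫ u, (f (out G θ A K ρ u) - prior G θ D η₀) ∂iidLabels (V × ℕ)| ≤ _
    rw [integral_sub hu (integrable_const _), out_mix hG hθ0 hθ1 hA hAne hρ hfc hfd, hprior]
    simp only [integral_const, probReal_univ, one_smul]
    set g1 := fun η : V → Bool =>
      ∫ y, f y * lkc S (fun i => est ρ i * spin (η i.1)) y ∂iidLabels (V × ℕ)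
    set g2 := fun η : V → Bool => match' D η₀ fun v => spin (η v)
    rw [show Ev G θ A g1 - Ev G θ A g2 = Ev G θ A (fun η => g1 η - g2 η) by
      simp only [Ev, mul_sub, Finset.sum_sub_distrib]]
    refine (abs_Ev_le habs _).trans (Ev_le_const hG hθ0 hθ1 hA hAne fun η => ?_)
    set L := fun y => lkc S (fun i => est ρ i * spin (η i.1)) y
    have hL : Continuous L := continuous_lkc _ _
    have e : g1 η - g2 η = ∫ y, (f y - g2 η) * L y ∂iidLabels (V × ℕ) := by
      simp only [g1, sub_mul, L]
      rw [integral_sub (integrable_of_continuous (h := fun y => f y *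
          lkc S (fun i => est ρ i * spin (η i.1)) y) (hfc.mul hL))
        ((integrable_of_continuous hL).const_mul _), integral_const_mul, integral_lkc, mul_one]
    rw [e]
    have d1 : ∀ v, Continuous fun y => |rd K v ρ y - spin (η v)| * L y := fun v =>
      ((continuous_rd K v ρ).sub continuous_const).abs.mul hL
    refine abs_integral_le_integral_abs.trans ?_
    refine (integral_le_integral (g := fun y => ∑ v ∈ D, (1 / 2) *
      (|rd K v ρ y - spin (η v)| * L y)) ((hfc.sub continuous_const).mul hL).abs
      (continuous_finsetSum _ fun v _ => continuous_const.mul (d1 v)) fun y => ?_).trans ?_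
    · have hl := lkc_nonneg ρ η S y
      simp only [Pi.mul_apply, Pi.sub_apply, f, g2, L]
      rw [abs_mul, abs_of_nonneg hl]
      refine (mul_le_mul_of_nonneg_right (match'_sub D η₀ (fun v => abs_rd_le K v ρ y)
        (fun v => (abs_spin _).le)) hl).trans_eq ?_
      rw [Finset.sum_mul]
      exact Finset.sum_congr rfl fun v _ => by ring
    · rw [integral_finsetSum _ fun v _ => (integrable_of_continuous (d1 v)).const_mul _]
      refine Finset.sum_le_sum fun v hv => ?_
      rw [integral_const_mul]
      have := integral_rd_err hK v ρ η (S := S) fun k hk =>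
        Finset.mem_product.mpr ⟨hDA hv, Finset.mem_range.mpr hk⟩
      linarith
  · rw [hB, integral_finsetSum _ fun v _ =>
      (integrable_of_continuous (continuous_rdErr K v)).div_const 2]
    refine (Finset.sum_le_card_nsmul _ _ (3 / (sqStr * Real.sqrt K)) fun v _ => ?_).trans_eq
      (by rw [nsmul_eq_mul])
    rw [integral_div]
    have := integral_rdErr_le hK v
    have e : 6 / (sqStr * Real.sqrt K) = 2 * (3 / (sqStr * Real.sqrt K)) := by ring
    linarith

end Vale.Agent.P161.Crit
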