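import Vale.Agent.P161.Crit.Critical
import Vale.Agent.P161.Crit.Law
import Vale.Agent.P161.Main

/-!
# The factor of IID at the threshold
-/

namespace Vale.Agent.P161.Crit

open MeasureTheory unitInterval Function SimpleGraph Filter Topology Vale.Agent.P161

variable {V : Type*} {G : SimpleGraph V} {θc : ℝ}
variable [Countable V] [DecidableEq V] [G.LocallyFinite] {d : ℕ}
variable (Pc : Par G d θc) (hcrit : ((d : ℝ) - 1) * θc ^ 2 = 1)

/-- The allowed distance from the threshold at stage `n`. -/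
noncomputable def tol (n : ℕ) : ℝ :=
  (critical Pc hcrit (4 ^ n) (ε := (1 / 4 : ℝ) ^ n) (by positivity)).choose

/-- The distances of the parameters from the threshold. -/
noncomputable def gap : ℕ → ℝ
  | 0 => min (tol Pc hcrit 0) θc
  | n + 1 => min (gap n / 2) (tol Pc hcrit (n + 1))

/-- The parameter of stage `n`. -/
noncomputable def th (n : ℕ) : ℝ := θc - gap Pc hcrit n / 2

lemma tol_pos (n : ℕ) : 0 < tol Pc hcrit n :=
  (critical Pc hcrit (4 ^ n) (ε := (1 / 4 : ℝ) ^ n) (by positivity)).choose_spec.1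

omit [Countable V] [DecidableEq V] in
include Pc hcrit in
lemma crit_pos : 0 < θc := by
  rcases Pc.nonneg.eq_or_lt with h | h
  · rw [← h] at hcrit; norm_num at hcrit
  · exact h

lemma gap_pos : ∀ n, 0 < gap Pc hcrit n
  | 0 => lt_min (tol_pos Pc hcrit 0) (crit_pos Pc hcrit)
  | n + 1 => lt_min (half_pos (gap_pos n)) (tol_pos Pc hcrit (n + 1))

lemma gap_le_tol : ∀ n, gap Pc hcrit n ≤ tol Pc hcrit n
  | 0 => min_le_left _ _
  | _ + 1 => min_le_right _ _

lemma gap_succ_le (n : ℕ) : gap Pc hcrit (n + 1) ≤ gap Pc hcrit n / 2 := by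
  rw [gap]; exact min_le_left _ _

lemma gap_le : ∀ n, gap Pc hcrit n ≤ θc * (1 / 2) ^ n
  | 0 => by simp [gap]
  | n + 1 => by
    refine (gap_succ_le Pc hcrit n).trans ?_
    rw [pow_succ]
    linarith [gap_le n]

lemma th_bounds (n : ℕ) :
    0 < th Pc hcrit n ∧ th Pc hcrit n < θc ∧ |th Pc hcrit n - θc| < tol Pc hcrit n := by
  have h1 := gap_pos Pc hcrit n
  have h2 := gap_le_tol Pc hcrit n
  have h3 := gap_le Pc hcrit n
  have h4 : θc * (1 / 2) ^ n ≤ θc :=
    mul_le_of_le_one_right (crit_pos Pc hcrit).le (pow_le_one₀ (by norm_num) (by norm_num))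
  refine ⟨?_, ?_, ?_⟩
  · unfold th; linarith [crit_pos Pc hcrit]
  · unfold th; linarith
  · rw [th, abs_lt]; constructor <;> linarith

lemma th_succ_close (n : ℕ) : |th Pc hcrit (n + 1) - θc| < tol Pc hcrit n := by
  have h1 := gap_pos Pc hcrit (n + 1)
  have h2 := gap_succ_le Pc hcrit n
  have h3 := gap_le_tol Pc hcrit n
  rw [th, abs_lt]; constructor <;> linarith

lemma th_sq_lt (n : ℕ) : ((d : ℝ) - 1) * th Pc hcrit n ^ 2 < 1 := by
  obtain ⟨h0, h1, -⟩ := th_bounds Pc hcrit n
  refine lt_of_lt_of_eq ?_ hcrit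
  exact mul_lt_mul_of_pos_left (pow_lt_pow_left₀ h1 h0.le two_ne_zero) (by linarith [Pc.two_le])

lemma par_th (n : ℕ) : Par G d (th Pc hcrit n) :=
  ⟨Pc.tree, Pc.deg, Pc.three, (th_bounds Pc hcrit n).1.le, (th_sq_lt Pc hcrit n).le⟩

/-- The radius of stage `n`. -/
noncomputable def radC (n : ℕ) : ℕ :=
  ((par_th Pc hcrit n).stability (th_bounds Pc hcrit n).1 (th_sq_lt Pc hcrit n) (4 ^ n)
    (ε := (1 / 4 : ℝ) ^ n) (by positivity)).choose

/-- The reading of stage `n`. -/
noncomputable def readC (n : ℕ) (v : V) (q : (V × ℕ → I) × (V × ℕ → I)) : ℝ :=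
  rdo G (th Pc hcrit n) (bll G v (radC Pc hcrit n)) (4 ^ n) (4 ^ n) v q

lemma measurable_readC (n : ℕ) (v : V) : Measurable (readC Pc hcrit n v) := measurable_rdo _ _ _ v

lemma abs_readC_le (n : ℕ) (v : V) (q : (V × ℕ → I) × (V × ℕ → I)) :
    |readC Pc hcrit n v q| ≤ 1 := abs_rdo_le _ _ _ _ _

omit [Countable V] [DecidableEq V] [G.LocallyFinite] in
lemma sqrt_four_pow (n : ℕ) :
    Real.sqrt ((4 ^ n : ℕ) : ℝ) = 2 ^ n ∧ Real.sqrt ((1 / 4 : ℝ) ^ n) = (1 / 2) ^ n := by
  constructor
  · rw [show ((4 ^ n : ℕ) : ℝ) = ((2 : ℝ) ^ n) ^ 2 by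
      push_cast; rw [← pow_mul, mul_comm, pow_mul]; norm_num, Real.sqrt_sq (by positivity)]
  · rw [show ((1 / 4 : ℝ)) ^ n = ((1 / 2 : ℝ) ^ n) ^ 2 by
      rw [← pow_mul, mul_comm, pow_mul]; norm_num, Real.sqrt_sq (by positivity)]

/-- Enlarging the volume of a stage changes its reading little. -/
lemma readC_volume (n : ℕ) (v : V) {A : Finset V} (hA : Convex' G A)
    (hsub : bll G v (radC Pc hcrit n) ⊆ A) :
    ∫ q, |readC Pc hcrit n v q - rdo G (th Pc hcrit n) A (4 ^ n) (4 ^ n) v q| ∂omg V ≤
      1 / sqStr * (1 / 2) ^ n := by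
  have P := par_th Pc hcrit n
  have hspec := (P.stability (th_bounds Pc hcrit n).1 (th_sq_lt Pc hcrit n) (4 ^ n)
    (ε := (1 / 4 : ℝ) ^ n) (by positivity)).choose_spec
  refine (integral_rdo_dist P.nonneg P.lt_one P.nonneg P.lt_one P P (K := 4 ^ n) (by positivity)
    (self_mem_bll P.tree.connected v _) (hsub (self_mem_bll P.tree.connected v _))
    (η := (1 / 4 : ℝ) ^ n) (by positivity) fun k hk r hr =>
      hspec v _ A (convex_bll P.tree v _) hA subset_rfl hsub k hk r hr).trans_eq ?_
  rw [(sqrt_four_pow n).2]; ring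

lemma readC_step (v : V) (n : ℕ) :
    ∫ q, |readC Pc hcrit (n + 1) v q - readC Pc hcrit n v q| ∂omg V ≤
      15 / sqStr * (1 / 2) ^ n := by
  have P := par_th Pc hcrit n
  have P' := par_th Pc hcrit (n + 1)
  have hs := sqStr_pos
  have hc := Pc.tree.connected
  obtain ⟨L₀, hL₀⟩ := (critical Pc hcrit (4 ^ n) (ε := (1 / 4 : ℝ) ^ n) (by positivity)).choose_spec.2
    (th Pc hcrit n) (th Pc hcrit (n + 1)) P P' (th_sq_lt Pc hcrit n) (th_sq_lt Pc hcrit (n + 1))
    (th_bounds Pc hcrit n).2.2 (th_succ_close Pc hcrit n)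
  set L := radC Pc hcrit n + radC Pc hcrit (n + 1) + L₀
  set A := bll G v L
  have hA : Convex' G A := convex_bll Pc.tree v L
  have hv : v ∈ A := self_mem_bll hc v L
  set a := rdo G (th Pc hcrit n) A (4 ^ n) (4 ^ n) v
  set b := rdo G (th Pc hcrit (n + 1)) A (4 ^ n) (4 ^ n) v
  set c := rdo G (th Pc hcrit (n + 1)) A (4 ^ (n + 1)) (4 ^ (n + 1)) v
  have h1 := readC_volume Pc hcrit n v hA (bll_mono hc v (by omega))
  have h4 := readC_volume Pc hcrit (n + 1) v hA (bll_mono hc v (by omega))
  have h2 : ∫ q, |a q - b q| ∂omg V ≤ 1 / sqStr * (1 / 2) ^ n := by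
    refine (integral_rdo_dist P.nonneg P.lt_one P'.nonneg P'.lt_one P P' (K := 4 ^ n) (by positivity)
      hv hv (η := (1 / 4 : ℝ) ^ n) (by positivity) fun k hk r hr =>
        hL₀ L (by omega) v k hk r hr).trans_eq ?_
    rw [(sqrt_four_pow n).2]; ring
  have hK : 4 ^ n ≤ 4 ^ (n + 1) := Nat.pow_le_pow_right (by norm_num) n.le_succ
  have eb : b = rdo G (th Pc hcrit (n + 1)) A (4 ^ (n + 1)) (4 ^ n) v := by
    funext q
    exact rd_congr fun k hk => out_rounds hK q.1 q.2 (v, k) hk
  have h3 : ∫ q, |b q - c q| ∂omg V ≤ 9 / sqStr * (1 / 2) ^ n := by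
    rw [eb]
    refine (integral_rdo_rounds P'.tree P'.nonneg P'.lt_one hA (by positivity) hK hv).trans ?_
    rw [(sqrt_four_pow n).1, (sqrt_four_pow (n + 1)).1, pow_succ]
    refine le_of_eq ?_
    rw [div_pow, one_pow]
    field_simp
    ring
  have i1 := integrable_rdo_sub (G := G) (θ := th Pc hcrit n) (θ' := th Pc hcrit n)
    (bll G v (radC Pc hcrit n)) A (4 ^ n) (4 ^ n) (4 ^ n) (4 ^ n) v
  have i2 := integrable_rdo_sub (G := G) (θ := th Pc hcrit n) (θ' := th Pc hcrit (n + 1))
    A A (4 ^ n) (4 ^ n) (4 ^ n) (4 ^ n) v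
  have i3 := integrable_rdo_sub (G := G) (θ := th Pc hcrit (n + 1)) (θ' := th Pc hcrit (n + 1))
    A A (4 ^ n) (4 ^ (n + 1)) (4 ^ n) (4 ^ (n + 1)) v
  have i4 := integrable_rdo_sub (G := G) (θ := th Pc hcrit (n + 1)) (θ' := th Pc hcrit (n + 1))
    (bll G v (radC Pc hcrit (n + 1))) A (4 ^ (n + 1)) (4 ^ (n + 1)) (4 ^ (n + 1)) (4 ^ (n + 1)) v
  refine (integral_mono_of_nonneg (.of_forall fun q => abs_nonneg _)
    (((i1.fun_add i2).fun_add i3).fun_add i4) (.of_forall fun q => ?_)).trans ?_
  · show |readC Pc hcrit (n + 1) v q - readC Pc hcrit n v q| ≤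
      |readC Pc hcrit n v q - a q| + |a q - b q| + |b q - c q| + |readC Pc hcrit (n + 1) v q - c q|
    have t1 := abs_sub_le (readC Pc hcrit n v q) (a q) (b q)
    have t2 := abs_sub_le (readC Pc hcrit n v q) (b q) (c q)
    have t3 := abs_sub_le (readC Pc hcrit (n + 1) v q) (c q) (readC Pc hcrit n v q)
    rw [abs_sub_comm (c q) (readC Pc hcrit n v q)] at t3
    linarith
  · rw [integral_add ((i1.fun_add i2).fun_add i3) i4, integral_add (i1.fun_add i2) i3,
      integral_add i1 i2]
    simp only [readC, a, b, c] at h1 h2 h3 h4 ⊢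
    have hp : (1 / 2 : ℝ) ^ (n + 1) ≤ (1 / 2) ^ n :=
      pow_le_pow_of_le_one (by norm_num) (by norm_num) n.le_succ
    have := mul_le_mul_of_nonneg_left hp (show 0 ≤ 1 / sqStr by positivity)
    have e : 15 / sqStr * (1 / 2 : ℝ) ^ n = 15 * (1 / sqStr * (1 / 2) ^ n) := by ring
    have e9 : 9 / sqStr * (1 / 2 : ℝ) ^ n = 9 * (1 / sqStr * (1 / 2) ^ n) := by ring
    have : 0 ≤ 1 / sqStr * (1 / 2 : ℝ) ^ n := by positivity
    linarith

lemma ae_tendsto_readC (v : V) :
    ∀ᵐ q ∂omg V, Tendsto (fun n => readC Pc hcrit n v q) atTop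
      (𝓝 (limsup (fun n => readC Pc hcrit n v q) atTop)) := by
  set f : ℕ → (V × ℕ → I) × (V × ℕ → I) → ℝ :=
    fun k q => |readC Pc hcrit (k + 1) v q - readC Pc hcrit k v q| with hf
  have hfm : ∀ k, Measurable (f k) := fun k =>
    ((measurable_readC Pc hcrit _ v).sub (measurable_readC Pc hcrit _ v)).abs
  have hfi : ∀ k, Integrable (f k) (omg V) := fun k =>
    integrable_bdd (hfm k) 2 fun q => by
      simp only [f, abs_abs]
      have := abs_le.mp (abs_readC_le Pc hcrit (k + 1) v q)
      have := abs_le.mp (abs_readC_le Pc hcrit k v q)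
      exact abs_le.mpr ⟨by linarith, by linarith⟩
  have hsum : Summable fun k : ℕ => 15 / sqStr * (1 / 2 : ℝ) ^ k :=
    (summable_geometric_of_lt_one (by norm_num) (by norm_num)).mul_left _
  have hfin : ∫⁻ q, ∑' k, ENNReal.ofReal (f k q) ∂omg V ≠ ⊤ := by
    rw [lintegral_tsum fun k => (hfm k).ennreal_ofReal.aemeasurable]
    refine ne_top_of_le_ne_top hsum.tsum_ofReal_ne_top (ENNReal.tsum_le_tsum fun k => ?_)
    rw [← ofReal_integral_eq_lintegral_ofReal (hfi k) (Eventually.of_forall fun q => abs_nonneg _)]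
    exact ENNReal.ofReal_le_ofReal (readC_step Pc hcrit v k)
  filter_upwards [ae_lt_top (Measurable.ennreal_tsum fun k => (hfm k).ennreal_ofReal) hfin]
    with q hq
  have hs : Summable fun k => f k q := by
    have := ENNReal.summable_toReal hq.ne
    refine this.congr fun k => ?_
    exact ENNReal.toReal_ofReal (abs_nonneg _)
  have hcs : CauchySeq fun k => readC Pc hcrit k v q :=
    cauchySeq_of_summable_dist (hs.congr fun k => by
      simp only [f, Real.dist_eq, Nat.succ_eq_add_one]
      rw [abs_sub_comm])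
  obtain ⟨L, hL⟩ := cauchySeq_tendsto_of_complete hcs
  rwa [hL.limsup_eq]

/-- The limit reading. -/
noncomputable def limC (v : V) (q : (V × ℕ → I) × (V × ℕ → I)) : ℝ :=
  limsup (fun n => readC Pc hcrit n v q) atTop

lemma measurable_limC (v : V) : Measurable (limC Pc hcrit v) :=
  Measurable.limsup fun n => measurable_readC Pc hcrit n v

lemma ae_limC_sq (v : V) : ∀ᵐ q ∂omg V, limC Pc hcrit v q ^ 2 = 1 := by
  have hc := Pc.tree.connected
  have hs := sqStr_pos
  have hm : ∀ n, Measurable fun q => 1 - readC Pc hcrit n v q ^ 2 := fun n =>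
    measurable_const.sub ((measurable_readC Pc hcrit n v).pow_const 2)
  have hb : ∀ x : ℝ, |x| ≤ 1 → 0 ≤ 1 - x ^ 2 ∧ 1 - x ^ 2 ≤ 1 := fun x hx => by
    rw [← sq_abs]; constructor <;> nlinarith [abs_nonneg x]
  have hi : ∀ n, ∫ q, (1 - readC Pc hcrit n v q ^ 2) ∂omg V ≤ 12 / sqStr * (1 / 2) ^ n := by
    intro n
    have P := par_th Pc hcrit n
    refine (integral_one_sub_sq_rdo P.tree P.nonneg P.lt_one (convex_bll P.tree v _)
      (K := 4 ^ n) (by positivity) (self_mem_bll hc v _)).trans_eq ?_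
    rw [(sqrt_four_pow n).1, div_pow, one_pow]
    field_simp
  have hlim : Tendsto (fun n => ∫ q, (1 - readC Pc hcrit n v q ^ 2) ∂omg V) atTop
      (𝓝 (∫ q, (1 - limC Pc hcrit v q ^ 2) ∂omg V)) := by
    refine tendsto_integral_of_dominated_convergence (fun _ => (1 : ℝ))
      (fun n => (hm n).aestronglyMeasurable) (integrable_const _)
      (fun n => Eventually.of_forall fun q => ?_) ?_
    · obtain ⟨a, b⟩ := hb _ (abs_readC_le Pc hcrit n v q)
      rw [Real.norm_eq_abs]; exact abs_le.mpr ⟨by linarith, b⟩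
    · filter_upwards [ae_tendsto_readC Pc hcrit v] with q hq
      exact tendsto_const_nhds.sub (hq.pow 2)
  have hnn : 0 ≤ᵐ[omg V] fun q => 1 - limC Pc hcrit v q ^ 2 := by
    filter_upwards [ae_tendsto_readC Pc hcrit v] with q hq
    exact ge_of_tendsto (tendsto_const_nhds.sub (hq.pow 2))
      (Eventually.of_forall fun n => (hb _ (abs_readC_le Pc hcrit n v q)).1)
  have h0 : ∫ q, (1 - limC Pc hcrit v q ^ 2) ∂omg V = 0 := by
    refine le_antisymm (le_of_tendsto_of_tendsto' hlim ?_ hi) (integral_nonneg_of_ae hnn)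
    simpa using (tendsto_pow_atTop_nhds_zero_of_lt_one (by norm_num : (0:ℝ) ≤ 1 / 2)
      (by norm_num)).const_mul (12 / sqStr)
  have hint : Integrable (fun q => 1 - limC Pc hcrit v q ^ 2) (omg V) := by
    refine (integrable_const (1 : ℝ)).mono'
      (measurable_const.sub ((measurable_limC Pc hcrit v).pow_const 2)).aestronglyMeasurable ?_
    filter_upwards [hnn] with q hq
    rw [Real.norm_eq_abs, abs_of_nonneg hq]
    linarith [sq_nonneg (limC Pc hcrit v q)]
  filter_upwards [(integral_eq_zero_iff_of_nonneg_ae hnn hint).mp h0] with q hq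
  simp only [Pi.zero_apply] at hq
  linarith

omit [Countable V] [DecidableEq V] [G.LocallyFinite] in
lemma continuous_prior (D : Finset V) (η : V → Bool) : Continuous fun t : ℝ => prior G t D η := by
  unfold prior
  refine continuous_const.mul (continuous_finsetProd _ fun e _ => ?_)
  induction e using Sym2.ind with
  | _ x y => simp only [edgeWeight_mk]; fun_prop

lemma integral_match_limC {D : Finset V} (hD : Convex' G D) (hDne : D.Nonempty) (η₀ : V → Bool) :
    ∫ q, match' D η₀ (fun v => limC Pc hcrit v q) ∂omg V = prior G θc D η₀ := by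
  have hc := Pc.tree.connected
  have hs := sqStr_pos
  have hmm : ∀ x : V → (V × ℕ → I) × (V × ℕ → I) → ℝ, (∀ v, Measurable (x v)) →
      Measurable fun q => match' D η₀ fun v => x v q := fun x hx => by
    unfold match'
    exact Finset.measurable_prod _ fun v _ =>
      (measurable_const.add ((hx v).const_mul _)).div_const _
  have hlim : Tendsto (fun n => ∫ q, match' D η₀ (fun v => readC Pc hcrit n v q) ∂omg V) atTop
      (𝓝 (∫ q, match' D η₀ (fun v => limC Pc hcrit v q) ∂omg V)) := by
    refine tendsto_integral_of_dominated_convergence (fun _ => (1 : ℝ))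
      (fun n => (hmm _ fun v => measurable_readC Pc hcrit n v).aestronglyMeasurable) (integrable_const _)
      (fun n => Eventually.of_forall fun q => ?_) ?_
    · obtain ⟨a, b⟩ := match'_range D η₀ (x := fun v => readC Pc hcrit n v q)
        fun v => abs_readC_le Pc hcrit n v q
      rw [Real.norm_eq_abs, abs_of_nonneg a]; exact b
    · filter_upwards [(Finset.eventually_all D).mpr fun v _ => ae_tendsto_readC Pc hcrit v] with q hq
      exact tendsto_finsetProd _ fun v hv =>
        (tendsto_const_nhds.add (tendsto_const_nhds.mul (hq v hv))).div_const _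
  have hth : Tendsto (fun n => th Pc hcrit n) atTop (𝓝 θc) := by
    refine tendsto_iff_dist_tendsto_zero.mpr (squeeze_zero (fun n => dist_nonneg)
      (g := fun n => θc * (1 / 2) ^ n) (fun n => ?_) ?_)
    · rw [Real.dist_eq, th, abs_le]
      have := gap_le Pc hcrit n
      have := gap_pos Pc hcrit n
      constructor <;> linarith
    · simpa using (tendsto_pow_atTop_nhds_zero_of_lt_one (by norm_num : (0:ℝ) ≤ 1 / 2)
        (by norm_num)).const_mul θc
  refine tendsto_nhds_unique hlim ?_
  have hpr := ((continuous_prior (G := G) D η₀).tendsto θc).comp hth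
  refine hpr.congr_dist ?_
  set c : ℝ := D.card * (4 / sqStr) with hcdef
  refine squeeze_zero (fun n => dist_nonneg) (g := fun n => c * (1 / 2) ^ n) (fun n => ?_)
    (by simpa using (tendsto_pow_atTop_nhds_zero_of_lt_one (by norm_num : (0:ℝ) ≤ 1 / 2)
      (by norm_num)).const_mul c)
  have P := par_th Pc hcrit n
  obtain ⟨o, ho⟩ := hDne
  obtain ⟨R, hR⟩ := exists_bll_superset hc o (D ∪ D.biUnion fun v => bll G v (radC Pc hcrit n))
  set A := bll G o R
  have hAc : Convex' G A := convex_bll Pc.tree o R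
  have hDA : D ⊆ A := Finset.subset_union_left.trans hR
  set x : V → (V × ℕ → I) × (V × ℕ → I) → ℝ :=
    fun v => rdo G (th Pc hcrit n) A (4 ^ n) (4 ^ n) v with hx
  set g := fun q => match' D η₀ fun v => readC Pc hcrit n v q
  set h := fun q => match' D η₀ fun v => x v q
  have hgi : Integrable g (omg V) := integrable_bdd
    (hmm _ fun v => measurable_readC Pc hcrit n v) 1 fun q => by
      obtain ⟨a, b⟩ := match'_range D η₀ (x := fun v => readC Pc hcrit n v q)
        fun v => abs_readC_le Pc hcrit n v q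
      rw [abs_of_nonneg a]; exact b
  have hhi : Integrable h (omg V) := integrable_bdd (hmm _ fun v => measurable_rdo _ _ _ v) 1
    fun q => by
      obtain ⟨a, b⟩ := match'_range D η₀ (x := fun v => x v q) fun v => abs_rdo_le _ _ _ _ q
      rw [abs_of_nonneg a]; exact b
  have h2 := integral_match_rdo P.tree P.nonneg P.lt_one hAc hD ⟨o, ho⟩ hDA η₀
    (K := 4 ^ n) (by positivity)
  rw [(sqrt_four_pow n).1] at h2
  have h1 : |∫ q, g q ∂omg V - ∫ q, h q ∂omg V| ≤ D.card * (1 / sqStr * (1 / 2) ^ n) := by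
    rw [← integral_sub hgi hhi]
    have hd : ∀ v, Integrable (fun q => |readC Pc hcrit n v q - x v q| / 2) (omg V) := fun v =>
      (integrable_rdo_sub (bll G v (radC Pc hcrit n)) A (4 ^ n) (4 ^ n) (4 ^ n) (4 ^ n) v).div_const 2
    refine abs_integral_le_integral_abs.trans ?_
    refine (integral_mono_of_nonneg (Eventually.of_forall fun q => abs_nonneg _)
      (integrable_finsetSum D fun v _ => hd v)
      (Eventually.of_forall fun q => match'_sub D η₀ (fun v => abs_readC_le Pc hcrit n v q)
        (fun v => abs_rdo_le _ _ _ _ q))).trans ?_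
    rw [integral_finsetSum _ fun v _ => hd v]
    refine (Finset.sum_le_card_nsmul _ _ (1 / sqStr * (1 / 2) ^ n) fun v hv => ?_).trans_eq
      (by rw [nsmul_eq_mul])
    rw [integral_div]
    have := readC_volume Pc hcrit n v hAc
      ((Finset.subset_biUnion_of_mem (fun v => bll G v (radC Pc hcrit n)) hv).trans
        (Finset.subset_union_right.trans hR))
    have : 0 ≤ ∫ q, |readC Pc hcrit n v q - x v q| ∂omg V := integral_nonneg fun q => abs_nonneg _
    simp only [x] at this ⊢
    linarith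
  rw [Function.comp_apply, Real.dist_eq, abs_sub_comm]
  refine (abs_sub_le _ (∫ q, h q ∂omg V) _).trans ((add_le_add h1 h2).trans_eq ?_)
  rw [hcdef, div_pow, one_pow]
  field_simp
  ring

lemma readC_iso (g : G ≃g G) (U : V → I) (n : ℕ) (v : V) :
    readC Pc hcrit n v (clk (fun w => U (g.symm w)), src' fun w => U (g.symm w)) =
      readC Pc hcrit n (g.symm v) (clk U, src' U) := by
  simp only [readC, rdo, rd]
  refine congrArg clipOne (congrArg _ (Finset.sum_congr rfl fun k _ => ?_))
  have hb : bll G v (radC Pc hcrit n) = (bll G (g.symm v) (radC Pc hcrit n)).image g := by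
    rw [← bll_image Pc.tree.connected g]; simp
  rw [hb]
  change est (fun i => clk U (g.symm i.1, i.2)) (v, k) *
    zed (out G (th Pc hcrit n) ((bll G (g.symm v) (radC Pc hcrit n)).image g) (4 ^ n)
      (fun i => clk U (g.symm i.1, i.2)) (fun i => src' U (g.symm i.1, i.2)) (v, k)) = _
  rw [out_image]
  rfl

include Pc hcrit in
/-- At the threshold the free Ising measure is a factor of IID. -/
theorem isFIID_threshold : IsFIIDFreeIsing G θc := by
  set pair : (V → I) → (V × ℕ → I) × (V × ℕ → I) := fun U => (clk U, src' U) with hpair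
  refine ⟨fun U v => decide (0 < limC Pc hcrit v (pair U)), ?_, ?_, ?_⟩
  · refine measurable_pi_lambda _ fun v => ?_
    apply measurable_to_bool
    have e : (fun U : V → I => decide (0 < limC Pc hcrit v (pair U))) ⁻¹' {true} =
        {U | 0 < limC Pc hcrit v (pair U)} := by
      ext U; simp
    rw [e]
    exact measurableSet_lt measurable_const ((measurable_limC Pc hcrit v).comp measurable_clk_src)
  · intro g
    refine Eventually.of_forall fun U => funext fun v => ?_
    simp only [limC, pair, readC_iso Pc hcrit g U]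
    congr
  · intro D hDc η₀
    have hD : Convex' G D := convex_of_connected Pc.tree hDc
    have hDne : D.Nonempty := by
      obtain ⟨x⟩ := hDc.nonempty
      exact ⟨x.1, x.2⟩
    set E : Set ((V × ℕ → I) × (V × ℕ → I)) :=
      {q | ∀ v ∈ D, decide (0 < limC Pc hcrit v q) = η₀ v} with hE
    have hEm : MeasurableSet E := by
      have : E = ⋂ v ∈ D, {q | decide (0 < limC Pc hcrit v q) = η₀ v} := by ext q; simp [hE]
      rw [this]
      refine Finset.measurableSet_biInter D fun v _ => ?_
      cases h : η₀ v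
      · simpa [not_lt] using measurableSet_le (measurable_limC Pc hcrit v) measurable_const
      · simpa using measurableSet_lt measurable_const (measurable_limC Pc hcrit v)
    have hpre : {U | ∀ v ∈ D, decide (0 < limC Pc hcrit v (pair U)) = η₀ v} = pair ⁻¹' E := rfl
    rw [hpre, ← Measure.map_apply measurable_clk_src hEm, map_clk_src]
    have hind : ∀ᵐ q ∂omg V, match' D η₀ (fun v => limC Pc hcrit v q) =
        E.indicator (fun _ => (1 : ℝ)) q := by
      filter_upwards [(Finset.eventually_all D).mpr fun v _ => ae_limC_sq Pc hcrit v] with q hq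
      by_cases hqE : q ∈ E
      · rw [Set.indicator_of_mem hqE]
        refine Finset.prod_eq_one fun v hv => ?_
        have h := hqE v hv
        rcases sq_eq_one_iff.mp (hq v hv) with e | e <;> norm_num [e, ← h, spin]
      · rw [Set.indicator_of_notMem hqE]
        obtain ⟨v, hv, hne⟩ : ∃ v ∈ D, decide (0 < limC Pc hcrit v q) ≠ η₀ v := by
          simpa [hE] using hqE
        refine Finset.prod_eq_zero hv ?_
        rcases sq_eq_one_iff.mp (hq v hv) with e | e <;> rcases hh : η₀ v <;>
          simp_all [spin]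
    have := integral_match_limC Pc hcrit hD hDne η₀
    rw [integral_congr_ae hind, integral_indicator_const _ hEm] at this
    simpa [prior, Measure.real] using this

end Vale.Agent.P161.Crit
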