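import Vale.Agent.P161.Crit.Mart

/-!
# Averaging over the clocks
-/

namespace Vale.Agent.P161.Crit

open MeasureTheory unitInterval Function SimpleGraph Vale.Agent.P161

variable {V : Type*} {G : SimpleGraph V} {θ θ' : ℝ}

/-- Clocks and inputs. -/
noncomputable abbrev omg (V : Type*) : Measure ((V × ℕ → I) × (V × ℕ → I)) :=
  (iidLabels (V × ℕ)).prod (iidLabels (V × ℕ))

/-- The field seen at time `(k, r)`. -/
noncomputable def fout (G : SimpleGraph V) (θ : ℝ) (A : Finset V) (K k : ℕ) (r : ℝ)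
    (q : (V × ℕ → I) × (V × ℕ → I)) : V → ℝ :=
  fld K (estT q.1 k r) (out G θ A K q.1 q.2)

/-- Expectation of an observable of two coupled systems at time `(k, r)`. -/
noncomputable def Pe (G : SimpleGraph V) (θ θ' : ℝ) (A A' : Finset V) (K k : ℕ) (r : ℝ)
    (Ψ : (V → ℝ) → (V → ℝ) → ℝ) : ℝ :=
  ∫ q, Ψ (fout G θ A K k r q) (fout G θ' A' K k r q) ∂omg V

/-- An observable of two fields. -/
structure IsPTest (A A' : Finset V) (Ψ : (V → ℝ) → (V → ℝ) → ℝ) : Prop where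
  loc : ∀ a a' b b' : V → ℝ, (∀ v ∈ A, a v = a' v) → (∀ v ∈ A', b v = b' v) → Ψ a b = Ψ a' b'
  meas : Measurable fun p : (V → ℝ) × (V → ℝ) => Ψ p.1 p.2
  cont : ContinuousOn (fun p : (V → ℝ) × (V → ℝ) => Ψ p.1 p.2) ({h | IsFld h} ×ˢ {h | IsFld h})
  bdd : ∃ C, ∀ a b, IsFld a → IsFld b → |Ψ a b| ≤ C

lemma isFld_fout (G : SimpleGraph V) (θ : ℝ) (A : Finset V) (K k : ℕ) (r : ℝ)
    (q : (V × ℕ → I) × (V × ℕ → I)) : IsFld (fout G θ A K k r q) :=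
  isFld_fld (isStr_estT _ _ _) _

lemma measurable_fout (G : SimpleGraph V) (θ : ℝ) (A : Finset V) (K k : ℕ) :
    Measurable fun p : ℝ × ((V × ℕ → I) × (V × ℕ → I)) => fout G θ A K k p.1 p.2 :=
  measurable_fld K (measurable_estT k measurable_fst (measurable_fst.comp measurable_snd))
    ((measurable_out A K).comp measurable_snd)

lemma fout_mk (G : SimpleGraph V) (θ : ℝ) (A : Finset V) (K k : ℕ) (r : ℝ) (ρ u : V × ℕ → I) :
    fout G θ A K k r (ρ, u) = fld K (estT ρ k r) (out G θ A K ρ u) := rfl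

attribute [irreducible] fout

namespace IsPTest

variable {A A' : Finset V} {Ψ Ψ' : (V → ℝ) → (V → ℝ) → ℝ}

lemma measurable_fout₂ (hΨ : IsPTest A A' Ψ) (G : SimpleGraph V) (θ θ' : ℝ) (B B' : Finset V)
    (K k : ℕ) :
    Measurable fun p : ℝ × ((V × ℕ → I) × (V × ℕ → I)) =>
      Ψ (fout G θ B K k p.1 p.2) (fout G θ' B' K k p.1 p.2) :=
  hΨ.meas.comp ((measurable_fout G θ B K k).prodMk (measurable_fout G θ' B' K k))

lemma integrable (hΨ : IsPTest A A' Ψ) (G : SimpleGraph V) (θ θ' : ℝ) (B B' : Finset V) (K k : ℕ)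
    (r : ℝ) :
    Integrable (fun q => Ψ (fout G θ B K k r q) (fout G θ' B' K k r q)) (omg V) := by
  obtain ⟨C, hC⟩ := hΨ.bdd
  exact (integrable_const C).mono'
    ((hΨ.measurable_fout₂ G θ θ' B B' K k).comp measurable_prodMk_left).aestronglyMeasurable
    (.of_forall fun q => hC _ _ (isFld_fout _ _ _ _ _ _ _) (isFld_fout _ _ _ _ _ _ _))

lemma fst {Φ : (V → ℝ) → ℝ} (hΦ : IsTest A Φ) {C : ℝ} (hC : ∀ h, IsFld h → |Φ h| ≤ C) :
    IsPTest A A' fun a _ => Φ a :=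
  ⟨fun a a' _ _ ha _ => hΦ.loc a a' ha, hΦ.meas.comp measurable_fst,
    hΦ.cont.comp continuousOn_fst fun _ hp => hp.1, C, fun a _ ha _ => hC a ha⟩

lemma snd {Φ : (V → ℝ) → ℝ} (hΦ : IsTest A' Φ) {C : ℝ} (hC : ∀ h, IsFld h → |Φ h| ≤ C) :
    IsPTest A A' fun _ b => Φ b :=
  ⟨fun _ _ b b' _ hb => hΦ.loc b b' hb, hΦ.meas.comp measurable_snd,
    hΦ.cont.comp continuousOn_snd fun _ hp => hp.2, C, fun _ b _ hb => hC b hb⟩

lemma const (A A' : Finset V) (c : ℝ) : IsPTest A A' fun _ _ : V → ℝ => c :=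
  ⟨fun _ _ _ _ _ _ => rfl, measurable_const, continuousOn_const, |c|, fun _ _ _ _ => le_rfl⟩

lemma add (h1 : IsPTest A A' Ψ) (h2 : IsPTest A A' Ψ') :
    IsPTest A A' fun a b => Ψ a b + Ψ' a b := by
  obtain ⟨C, hC⟩ := h1.bdd
  obtain ⟨C', hC'⟩ := h2.bdd
  exact ⟨fun a a' b b' ha hb => by rw [h1.loc a a' b b' ha hb, h2.loc a a' b b' ha hb],
    h1.meas.add h2.meas, h1.cont.add h2.cont, C + C',
    fun a b ha hb => (abs_add_le _ _).trans (add_le_add (hC a b ha hb) (hC' a b ha hb))⟩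

lemma mul (h1 : IsPTest A A' Ψ) (h2 : IsPTest A A' Ψ') :
    IsPTest A A' fun a b => Ψ a b * Ψ' a b := by
  obtain ⟨C, hC⟩ := h1.bdd
  obtain ⟨C', hC'⟩ := h2.bdd
  exact ⟨fun a a' b b' ha hb => by rw [h1.loc a a' b b' ha hb, h2.loc a a' b b' ha hb],
    h1.meas.mul h2.meas, h1.cont.mul h2.cont, C * C', fun a b ha hb => by
      rw [abs_mul]
      exact mul_le_mul (hC a b ha hb) (hC' a b ha hb) (abs_nonneg _)
        ((abs_nonneg _).trans (hC a b ha hb))⟩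

lemma sub (h1 : IsPTest A A' Ψ) (h2 : IsPTest A A' Ψ') :
    IsPTest A A' fun a b => Ψ a b - Ψ' a b := by
  have h := h1.add ((const A A' (-1)).mul h2)
  simpa [sub_eq_add_neg] using h

lemma sq (h1 : IsPTest A A' Ψ) : IsPTest A A' fun a b => Ψ a b ^ 2 := by
  simpa [pow_two] using h1.mul h1

lemma sum {ι : Type*} (s : Finset ι) {F : ι → (V → ℝ) → (V → ℝ) → ℝ}
    (h1 : ∀ i ∈ s, IsPTest A A' (F i)) : IsPTest A A' fun a b => ∑ i ∈ s, F i a b := by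
  classical
  induction s using Finset.induction_on with
  | empty => simpa using const A A' 0
  | @insert i s hi ih =>
    simp only [Finset.sum_insert hi]
    exact (h1 i (Finset.mem_insert_self i s)).add
      (ih fun k hk => h1 k (Finset.mem_insert_of_mem hk))

lemma comp_real (h1 : IsPTest A A' Ψ) {φ : ℝ → ℝ} (hφ : Continuous φ) :
    IsPTest A A' fun a b => φ (Ψ a b) := by
  obtain ⟨C, hC⟩ := h1.bdd
  obtain ⟨M, hM⟩ := (isCompact_Icc (a := -C) (b := C)).exists_bound_of_continuousOn hφ.continuousOn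
  exact ⟨fun a a' b b' ha hb => by rw [h1.loc a a' b b' ha hb], hφ.measurable.comp h1.meas,
    hφ.comp_continuousOn h1.cont, M, fun a b ha hb => hM _ (abs_le.mp (hC a b ha hb))⟩

lemma mono_left {B : Finset V} (h1 : IsPTest A A' Ψ) (hsub : A ⊆ B) : IsPTest B A' Ψ :=
  ⟨fun a a' b b' ha hb => h1.loc a a' b b' (fun v hv => ha v (hsub hv)) hb, h1.meas, h1.cont, h1.bdd⟩

end IsPTest

section Linear

variable {A A' B B' : Finset V} {K k : ℕ} {r : ℝ} {Ψ Ψ' : (V → ℝ) → (V → ℝ) → ℝ}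

lemma Pe_nonneg (h : ∀ a b, IsFld a → IsFld b → 0 ≤ Ψ a b) :
    0 ≤ Pe G θ θ' A A' K k r Ψ :=
  integral_nonneg fun q => h _ _ (isFld_fout _ _ _ _ _ _ _) (isFld_fout _ _ _ _ _ _ _)

lemma Pe_mono (h1 : IsPTest B B' Ψ) (h2 : IsPTest B B' Ψ')
    (h : ∀ a b, IsFld a → IsFld b → Ψ a b ≤ Ψ' a b) :
    Pe G θ θ' A A' K k r Ψ ≤ Pe G θ θ' A A' K k r Ψ' :=
  integral_mono (h1.integrable G θ θ' A A' K k r) (h2.integrable G θ θ' A A' K k r)
    fun q => h _ _ (isFld_fout _ _ _ _ _ _ _) (isFld_fout _ _ _ _ _ _ _)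

lemma Pe_add (h1 : IsPTest B B' Ψ) (h2 : IsPTest B B' Ψ') :
    Pe G θ θ' A A' K k r (fun a b => Ψ a b + Ψ' a b) =
      Pe G θ θ' A A' K k r Ψ + Pe G θ θ' A A' K k r Ψ' :=
  integral_add (h1.integrable G θ θ' A A' K k r) (h2.integrable G θ θ' A A' K k r)

lemma Pe_const_mul (c : ℝ) :
    Pe G θ θ' A A' K k r (fun a b => c * Ψ a b) = c * Pe G θ θ' A A' K k r Ψ :=
  integral_const_mul c _

lemma Pe_sum {ι : Type*} (s : Finset ι) {F : ι → (V → ℝ) → (V → ℝ) → ℝ}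
    (h1 : ∀ i ∈ s, IsPTest B B' (F i)) :
    Pe G θ θ' A A' K k r (fun a b => ∑ i ∈ s, F i a b) = ∑ i ∈ s, Pe G θ θ' A A' K k r (F i) :=
  integral_finsetSum s fun i hi => (h1 i hi).integrable G θ θ' A A' K k r

lemma Pe_congr (h : ∀ a b, IsFld a → IsFld b → Ψ a b = Ψ' a b) :
    Pe G θ θ' A A' K k r Ψ = Pe G θ θ' A A' K k r Ψ' :=
  integral_congr_ae (.of_forall fun q => h _ _ (isFld_fout _ _ _ _ _ _ _) (isFld_fout _ _ _ _ _ _ _))

lemma Pe_succ (Ψ : (V → ℝ) → (V → ℝ) → ℝ) :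
    Pe G θ θ' A A' K (k + 1) 0 Ψ = Pe G θ θ' A A' K k (1 / 2) Ψ := by
  refine integral_congr_ae (.of_forall fun q => ?_)
  obtain ⟨ρ, u⟩ := q
  simp only [fout_mk, estT_succ]

lemma Pe_swap (Ψ : (V → ℝ) → (V → ℝ) → ℝ) :
    Pe G θ θ' A A' K k r Ψ = Pe G θ' θ A' A K k r (fun a b => Ψ b a) := rfl

lemma measurable_Pe (h1 : IsPTest B B' Ψ) :
    Measurable fun r => Pe G θ θ' A A' K k r Ψ :=
  ((h1.measurable_fout₂ G θ θ' A A' K k).stronglyMeasurable.integral_prod_right'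
    (ν := omg V)).measurable

end Linear

section AveragedGrowth

variable [Countable V] [DecidableEq V]

lemma estS_filter {C : Finset V} {K k : ℕ} {ρ : V × ℕ → I} {r : ℝ}
    [DecidablePred (Bef ρ k r)] {v : V} (hv : v ∈ C) {l : ℕ} (hl : l < K) :
    estS ρ ((C ×ˢ Finset.range K).filter (Bef ρ k r)) (v, l) = estT ρ k r (v, l) := by
  unfold estS estT
  by_cases hB : Bef ρ k r (v, l)
  · rw [if_pos hB, if_pos (Finset.mem_filter.mpr
      ⟨Finset.mem_product.mpr ⟨hv, Finset.mem_range.mpr hl⟩, hB⟩)]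
  · rw [if_neg hB, if_neg fun h => hB (Finset.mem_filter.mp h).2]

omit [Countable V] [DecidableEq V] in
lemma integrable_fout₂ {A A' B B' : Finset V} {Ψ : (V → ℝ) → (V → ℝ) → ℝ}
    (hΨ : IsPTest A A' Ψ) (K k : ℕ) (r : ℝ) (ρ : V × ℕ → I) :
    Integrable (fun u => Ψ (fout G θ B K k r (ρ, u)) (fout G θ' B' K k r (ρ, u)))
      (iidLabels (V × ℕ)) := by
  obtain ⟨C, hC⟩ := hΨ.bdd
  have hm : Measurable fun u : V × ℕ → I =>
      Ψ (fout G θ B K k r (ρ, u)) (fout G θ' B' K k r (ρ, u)) :=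
    (hΨ.measurable_fout₂ G θ θ' B B' K k).comp
      ((measurable_const (a := r)).prodMk ((measurable_const (a := ρ)).prodMk measurable_id))
  exact integrable_bdd hm C fun u => hC _ _ (isFld_fout _ _ _ _ _ _ _) (isFld_fout _ _ _ _ _ _ _)

/-- Growth over an interval of one round for fixed clocks. -/
lemma grow_fixed (hθ0 : 0 ≤ θ) (hθ1 : θ < 1) (hθ0' : 0 ≤ θ') (hθ1' : θ' < 1) (A A' : Finset V)
    {K k : ℕ} (hk : k < K) (v : V) {φ : ℝ → ℝ → ℝ} (hφ : Continuous fun p : ℝ × ℝ => φ p.1 p.2)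
    {P₁ P₂ : V → (V → ℝ) → (V → ℝ) → ℝ}
    (hP₁ : ∀ w ∈ A ∪ A', IsPTest A A' (P₁ w)) (hP₂ : ∀ w ∈ A ∪ A', IsPTest A A' (P₂ w))
    (hP₁0 : ∀ w a b, IsFld a → IsFld b → 0 ≤ P₁ w a b)
    (hP₂0 : ∀ w a b, IsFld a → IsFld b → 0 ≤ P₂ w a b)
    {s₀ s : ℝ} (hs : s₀ ≤ s) (ρ : V × ℕ → I)
    (hρ : Set.InjOn (fun i : V × ℕ => (i.2, ρ i)) ((A ∪ A') ×ˢ Finset.range K : Finset _))
    (hstep : ∀ j : V × ℕ, ∀ y y', j.2 = k → j.1 ∈ A ∪ A' → (ρ j : ℝ) < s →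
      ∫ t : I, φ (mag G θ A K (estT ρ j.2 (ρ j)) y v + jm G θ A K ρ y v j t)
          (mag G θ' A' K (estT ρ j.2 (ρ j)) y' v + jm G θ' A' K ρ y' v j t) ≤
        φ (mag G θ A K (estT ρ j.2 (ρ j)) y v) (mag G θ' A' K (estT ρ j.2 (ρ j)) y' v) +
          (est ρ j ^ 2 * P₁ j.1 (fld K (estT ρ j.2 (ρ j)) y) (fld K (estT ρ j.2 (ρ j)) y') +
           est ρ j ^ 4 * P₂ j.1 (fld K (estT ρ j.2 (ρ j)) y) (fld K (estT ρ j.2 (ρ j)) y'))) :
    ∫ u, φ (mu G θ A (fout G θ A K k s (ρ, u)) v) (mu G θ' A' (fout G θ' A' K k s (ρ, u)) v)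
        ∂iidLabels (V × ℕ) ≤
      (∫ u, φ (mu G θ A (fout G θ A K k s₀ (ρ, u)) v) (mu G θ' A' (fout G θ' A' K k s₀ (ρ, u)) v)
        ∂iidLabels (V × ℕ)) +
      ∑ w ∈ A ∪ A', (if s₀ ≤ (ρ (w, k) : ℝ) ∧ (ρ (w, k) : ℝ) < s then
        (ρ (w, k) : ℝ) ^ 2 * ∫ u, P₁ w (fout G θ A K k (ρ (w, k)) (ρ, u))
            (fout G θ' A' K k (ρ (w, k)) (ρ, u)) ∂iidLabels (V × ℕ) +
          (ρ (w, k) : ℝ) ^ 4 * ∫ u, P₂ w (fout G θ A K k (ρ (w, k)) (ρ, u))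
            (fout G θ' A' K k (ρ (w, k)) (ρ, u)) ∂iidLabels (V × ℕ) else 0) := by
  classical
  set U := A ∪ A'
  set B : V × ℕ → (V → ℝ) → (V → ℝ) → ℝ := fun j a b =>
    if j.1 ∈ U then est ρ j ^ 2 * P₁ j.1 a b + est ρ j ^ 4 * P₂ j.1 a b else 0 with hBdef
  set S₀ := (U ×ˢ Finset.range K).filter (Bef ρ k s₀) with hS₀
  set S := (U ×ˢ Finset.range K).filter (Bef ρ k s) with hS
  have closed : ∀ r : ℝ, ∀ j ∈ (U ×ˢ Finset.range K).filter (Bef ρ k r),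
      preds U K ρ j ⊆ (U ×ˢ Finset.range K).filter (Bef ρ k r) := by
    intro r j hj i hi
    obtain ⟨⟨hiU, hiK⟩, hb⟩ := mem_preds.mp hi
    exact Finset.mem_filter.mpr ⟨Finset.mem_product.mpr ⟨hiU, Finset.mem_range.mpr hiK⟩,
      bef_trans hb (Finset.mem_filter.mp hj).2⟩
  have hsub : S₀ ⊆ S := fun i hi => by
    obtain ⟨h1, h2⟩ := Finset.mem_filter.mp hi
    exact Finset.mem_filter.mpr ⟨h1, h2.imp_right fun h => ⟨h.1, h.2.trans_le hs⟩⟩
  have hnew : ∀ j ∈ U ×ˢ Finset.range K, j ∈ S → j ∉ S₀ →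
      j.2 = k ∧ s₀ ≤ (ρ j : ℝ) ∧ (ρ j : ℝ) < s := by
    intro j hjU hj hj0
    rcases (Finset.mem_filter.mp hj).2 with h | ⟨h, h'⟩
    · exact absurd (Finset.mem_filter.mpr ⟨hjU, Or.inl h⟩) hj0
    · refine ⟨h, ?_, h'⟩
      by_contra hc
      exact hj0 (Finset.mem_filter.mpr ⟨hjU, Or.inr ⟨h, lt_of_not_ge hc⟩⟩)
  have hBc : ∀ j, Continuous fun u : V × ℕ → I =>
      B j (fld K (estT ρ j.2 (ρ j)) (out G θ A K ρ u))
        (fld K (estT ρ j.2 (ρ j)) (out G θ' A' K ρ u)) := by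
    intro j
    by_cases hjU : j.1 ∈ U
    · simp only [hBdef, if_pos hjU]
      have hf : ∀ (C : Finset V) (ψ : ℝ), 0 ≤ ψ → ψ < 1 → Continuous fun u : V × ℕ → I =>
          fld K (estT ρ j.2 (ρ j)) (out G ψ C K ρ u) := fun C ψ h0 h1 =>
        (continuous_pi fun x => continuous_fld (isStr_estT ρ _ _) x).comp
          (continuous_out h0 h1 C K ρ)
      have hc : ∀ {Ψ : (V → ℝ) → (V → ℝ) → ℝ}, IsPTest A A' Ψ → Continuous fun u : V × ℕ → I =>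
          Ψ (fld K (estT ρ j.2 (ρ j)) (out G θ A K ρ u))
            (fld K (estT ρ j.2 (ρ j)) (out G θ' A' K ρ u)) := fun {Ψ} hΨ' =>
        hΨ'.cont.comp_continuous ((hf A θ hθ0 hθ1).prodMk (hf A' θ' hθ0' hθ1'))
          fun u => ⟨isFld_fld (isStr_estT ρ _ _) _, isFld_fld (isStr_estT ρ _ _) _⟩
      exact (continuous_const.mul (hc (hP₁ _ hjU))).add (continuous_const.mul (hc (hP₂ _ hjU)))
    · simp only [hBdef, if_neg hjU]
      exact continuous_const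
  have g := grow (G := G) hθ0 hθ1 hθ0' hθ1' A A' hρ v hφ hBc (S₀ := S₀) (closed s₀) (T := S)
    (fun j y y' _ hjT hj0 => by
      obtain ⟨hjU, -⟩ := Finset.mem_filter.mp hjT
      obtain ⟨e1, -, e3⟩ := hnew j hjU hjT hj0
      simp only [hBdef, if_pos (Finset.mem_product.mp hjU).1]
      exact hstep j y y' e1 (Finset.mem_product.mp hjU).1 e3)
    S hsub (Finset.filter_subset _ _) subset_rfl (closed s)
  have hfe : ∀ (r : ℝ) (C : Finset V) (ψ : ℝ), C ⊆ U → ∀ u,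
      mag G ψ C K (estS ρ ((U ×ˢ Finset.range K).filter (Bef ρ k r))) (out G ψ C K ρ u) v =
        mu G ψ C (fout G ψ C K k r (ρ, u)) v := fun r C ψ hC u => by
    rw [fout_mk]
    exact mu_congr (fun x hx => fld_congr fun l hl => by rw [estS_filter (hC hx) hl]) v
  simp only [hS₀, hS, hfe _ A θ Finset.subset_union_left, hfe _ A' θ' Finset.subset_union_right] at g
  refine g.trans (add_le_add le_rfl ?_)
  have hS' : S \ S₀ = (U.filter fun w => s₀ ≤ (ρ (w, k) : ℝ) ∧ (ρ (w, k) : ℝ) < s).image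
      fun w => (w, k) := by
    ext ⟨w, l⟩
    simp only [Finset.mem_sdiff, Finset.mem_image, Finset.mem_filter, Prod.mk.injEq]
    constructor
    · rintro ⟨h1, h2⟩
      obtain ⟨hm, -⟩ := Finset.mem_filter.mp h1
      obtain ⟨rfl, hh⟩ := hnew _ hm h1 h2
      exact ⟨w, ⟨(Finset.mem_product.mp hm).1, hh⟩, rfl, rfl⟩
    · rintro ⟨x, ⟨hx, hh1, hh2⟩, rfl, rfl⟩
      refine ⟨Finset.mem_filter.mpr ⟨Finset.mem_product.mpr ⟨hx, Finset.mem_range.mpr hk⟩,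
        Or.inr ⟨rfl, hh2⟩⟩, fun h => ?_⟩
      rcases (Finset.mem_filter.mp h).2 with h' | ⟨-, h'⟩
      · exact lt_irrefl _ h'
      · linarith
  rw [← hS₀, ← hS, hS', Finset.sum_image (fun a _ b _ h => (Prod.ext_iff.mp h).1), Finset.sum_filter]
  refine Finset.sum_le_sum fun w hw => ?_
  split_ifs with hh
  · obtain ⟨a0, a1, -⟩ := est1_mem (t := ρ (w, k)) (ρ (w, k)).2.1
    have i1 := integrable_fout₂ (G := G) (θ := θ) (θ' := θ') (B := A) (B' := A') (hP₁ w hw) K k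
      (ρ (w, k)) ρ
    have i2 := integrable_fout₂ (G := G) (θ := θ) (θ' := θ') (B := A) (B' := A') (hP₂ w hw) K k
      (ρ (w, k)) ρ
    rw [← integral_const_mul, ← integral_const_mul, ← integral_add (i1.const_mul _) (i2.const_mul _)]
    simp only [hBdef, if_pos hw, ← fout_mk, est]
    exact integral_mono ((i1.const_mul _).add (i2.const_mul _)) ((i1.const_mul _).add (i2.const_mul _))
      fun u => add_le_add
        (mul_le_mul_of_nonneg_right (pow_le_pow_left₀ a0 a1 2)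
          (hP₁0 w _ _ (isFld_fout _ _ _ _ _ _ _) (isFld_fout _ _ _ _ _ _ _)))
        (mul_le_mul_of_nonneg_right (pow_le_pow_left₀ a0 a1 4)
          (hP₂0 w _ _ (isFld_fout _ _ _ _ _ _ _) (isFld_fout _ _ _ _ _ _ _)))
  · exact le_rfl

/-- The average over the clocks of one term of the growth. -/
lemma ring_avg {A A' : Finset V} {Ψ : (V → ℝ) → (V → ℝ) → ℝ} (hA : IsPTest A A' Ψ) (h0 : ∀ a b, IsFld a → IsFld b → 0 ≤ Ψ a b)
    {K k : ℕ} (w : V) (n : ℕ) {s₀ s : ℝ} (hs₀ : 0 ≤ s₀) (hs : s₀ ≤ s) (hs1 : s ≤ 1 / 2) :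
    Integrable (fun ρ : V × ℕ → I => if s₀ ≤ (ρ (w, k) : ℝ) ∧ (ρ (w, k) : ℝ) < s then
        (ρ (w, k) : ℝ) ^ n * ∫ u, Ψ (fout G θ A K k (ρ (w, k)) (ρ, u))
            (fout G θ' A' K k (ρ (w, k)) (ρ, u)) ∂iidLabels (V × ℕ) else 0) (iidLabels (V × ℕ)) ∧
    (∫ ρ : V × ℕ → I, (if s₀ ≤ (ρ (w, k) : ℝ) ∧ (ρ (w, k) : ℝ) < s then
        (ρ (w, k) : ℝ) ^ n * ∫ u, Ψ (fout G θ A K k (ρ (w, k)) (ρ, u))
            (fout G θ' A' K k (ρ (w, k)) (ρ, u)) ∂iidLabels (V × ℕ) else 0) ∂iidLabels (V × ℕ)) ≤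
      2 * ∫ r in s₀..s, r ^ n * Pe G θ θ' A A' K k r Ψ := by
  classical
  obtain ⟨C, hC⟩ := hA.bdd
  set cl : ℝ → ℝ := fun r => max 0 (min r 1) with hcl_def
  have hcl : ∀ r ∈ Set.Icc (0 : ℝ) 1, cl r = r := fun r hr => by
    simp only [cl]; rw [min_eq_left hr.2, max_eq_right hr.1]
  have hcl1 : ∀ r, 0 ≤ cl r ∧ cl r ≤ 1 := fun r =>
    ⟨le_max_left _ _, max_le zero_le_one (min_le_right _ _)⟩
  set J : ℝ → (V × ℕ → I) → ℝ := fun r ρ =>
    ∫ u, Ψ (fout G θ A K k r (ρ, u)) (fout G θ' A' K k r (ρ, u)) ∂iidLabels (V × ℕ) with hJ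
  have hJm : Measurable fun p : ℝ × (V × ℕ → I) => J p.1 p.2 := by
    have e : Measurable fun p : (ℝ × (V × ℕ → I)) × (V × ℕ → I) => (p.1.1, (p.1.2, p.2)) :=
      (measurable_fst.comp measurable_fst).prodMk
        ((measurable_snd.comp measurable_fst).prodMk measurable_snd)
    exact (((hA.measurable_fout₂ G θ θ' A A' K k).comp e).stronglyMeasurable.integral_prod_right'
      (ν := iidLabels (V × ℕ))).measurable
  have hJb : ∀ r ρ, |J r ρ| ≤ C := fun r ρ => by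
    show ‖∫ u, Ψ (fout G θ A K k r (ρ, u)) (fout G θ' A' K k r (ρ, u)) ∂iidLabels (V × ℕ)‖ ≤ C
    refine (norm_integral_le_of_norm_le_const (C := C) (.of_forall fun u => ?_)).trans (le_of_eq (by rw [probReal_univ, mul_one]))
    exact hC _ _ (isFld_fout _ _ _ _ _ _ _) (isFld_fout _ _ _ _ _ _ _)
  set H : ℝ → (V × ℕ → I) → ℝ := fun r ρ => cl r ^ n * J r ρ with hH
  have hHm : Measurable fun p : ℝ × (V × ℕ → I) => H p.1 p.2 :=
    (((continuous_const.max (continuous_id.min continuous_const)).measurable.comp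
      measurable_fst).pow_const n).mul hJm
  have hHb : ∀ r ρ, |H r ρ| ≤ C := fun r ρ => by
    simp only [H]
    rw [abs_mul, abs_of_nonneg (pow_nonneg (hcl1 r).1 n)]
    exact (mul_le_of_le_one_left (abs_nonneg _) (pow_le_one₀ (hcl1 r).1 (hcl1 r).2)).trans (hJb r ρ)
  have hH0 : ∀ r ρ, 0 ≤ H r ρ := fun r ρ => mul_nonneg (pow_nonneg (hcl1 r).1 n)
    (integral_nonneg fun u => h0 _ _ (isFld_fout _ _ _ _ _ _ _) (isFld_fout _ _ _ _ _ _ _))
  have e : (fun ρ : V × ℕ → I => if s₀ ≤ (ρ (w, k) : ℝ) ∧ (ρ (w, k) : ℝ) < s then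
        (ρ (w, k) : ℝ) ^ n * J (ρ (w, k)) ρ else 0) =
      fun ρ => if s₀ ≤ (ρ (w, k) : ℝ) ∧ (ρ (w, k) : ℝ) < s then H (ρ (w, k)) ρ else 0 := by
    funext ρ
    simp only [H, hcl _ (ρ (w, k)).2]
  refine ⟨?_, ?_⟩
  · show Integrable (fun ρ : V × ℕ → I => if s₀ ≤ (ρ (w, k) : ℝ) ∧ (ρ (w, k) : ℝ) < s then
      (ρ (w, k) : ℝ) ^ n * J (ρ (w, k)) ρ else 0) _
    rw [e]
    have hρw : Measurable fun ρ : V × ℕ → I => (ρ (w, k) : ℝ) :=
      measurable_subtype_coe.comp (measurable_pi_apply _)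
    refine integrable_bdd (Measurable.ite ((measurableSet_le measurable_const hρw).inter
      (measurableSet_lt hρw measurable_const)) (hHm.comp (hρw.prodMk measurable_id))
      measurable_const) C fun ρ => ?_
    split_ifs
    · exact hHb _ _
    · simpa using (abs_nonneg _).trans (hHb 0 ρ)
  · show ∫ ρ : V × ℕ → I, (if s₀ ≤ (ρ (w, k) : ℝ) ∧ (ρ (w, k) : ℝ) < s then
      (ρ (w, k) : ℝ) ^ n * J (ρ (w, k)) ρ else 0) ∂iidLabels (V × ℕ) ≤ _
    rw [e]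
    refine (integral_ring (w, k) hHm hHb hH0 (fun r ρ a hr ha => ?_) hs₀ hs hs1).trans (le_of_eq ?_)
    · have hnb : ¬ Bef ρ k r (w, k) := by
        rintro (h | ⟨-, h⟩)
        · exact lt_irrefl _ h
        · linarith
      simp only [H, J, fout_mk]
      congr 1
      refine integral_congr_ae (.of_forall fun u => ?_)
      simp only
      rw [fld_out_update (fun _ => ha) le_rfl hnb, fld_out_update (fun _ => ha) le_rfl hnb]
    · refine congrArg _ (intervalIntegral.integral_congr fun r hr => ?_)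
      rw [Set.uIcc_of_le hs] at hr
      simp only [H]
      rw [integral_const_mul, hcl r ⟨hs₀.trans hr.1, hr.2.trans (hs1.trans (by norm_num))⟩]
      unfold Pe
      rw [integral_prod (fun q => Ψ (fout G θ A K k r q) (fout G θ' A' K k r q))
        (hA.integrable G θ θ' A A' K k r)]

/-- Growth of an expectation over an interval of one round. -/
theorem grow_avg (hθ0 : 0 ≤ θ) (hθ1 : θ < 1) (hθ0' : 0 ≤ θ') (hθ1' : θ' < 1) (A A' : Finset V)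
    {K k : ℕ} (hk : k < K) (v : V) {φ : ℝ → ℝ → ℝ} (hφ : Continuous fun p : ℝ × ℝ => φ p.1 p.2)
    {P₁ P₂ : V → (V → ℝ) → (V → ℝ) → ℝ}
    (hP₁ : ∀ w ∈ A ∪ A', IsPTest A A' (P₁ w)) (hP₂ : ∀ w ∈ A ∪ A', IsPTest A A' (P₂ w))
    (hP₁0 : ∀ w a b, IsFld a → IsFld b → 0 ≤ P₁ w a b)
    (hP₂0 : ∀ w a b, IsFld a → IsFld b → 0 ≤ P₂ w a b)
    {s₀ s : ℝ} (hs₀ : 0 ≤ s₀) (hs : s₀ ≤ s) (hs1 : s ≤ 1 / 2)
    (hstep : ∀ ρ : V × ℕ → I, ∀ j : V × ℕ, ∀ y y', j.2 = k → j.1 ∈ A ∪ A' → (ρ j : ℝ) < s →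
      ∫ t : I, φ (mag G θ A K (estT ρ j.2 (ρ j)) y v + jm G θ A K ρ y v j t)
          (mag G θ' A' K (estT ρ j.2 (ρ j)) y' v + jm G θ' A' K ρ y' v j t) ≤
        φ (mag G θ A K (estT ρ j.2 (ρ j)) y v) (mag G θ' A' K (estT ρ j.2 (ρ j)) y' v) +
          (est ρ j ^ 2 * P₁ j.1 (fld K (estT ρ j.2 (ρ j)) y) (fld K (estT ρ j.2 (ρ j)) y') +
           est ρ j ^ 4 * P₂ j.1 (fld K (estT ρ j.2 (ρ j)) y) (fld K (estT ρ j.2 (ρ j)) y'))) :
    Pe G θ θ' A A' K k s (fun a b => φ (mu G θ A a v) (mu G θ' A' b v)) ≤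
      Pe G θ θ' A A' K k s₀ (fun a b => φ (mu G θ A a v) (mu G θ' A' b v)) +
        2 * ((∫ r in s₀..s, r ^ 2 * Pe G θ θ' A A' K k r (fun a b => ∑ w ∈ A ∪ A', P₁ w a b)) +
          ∫ r in s₀..s, r ^ 4 * Pe G θ θ' A A' K k r (fun a b => ∑ w ∈ A ∪ A', P₂ w a b)) := by
  classical
  have habs : |θ| < 1 := by rwa [abs_of_nonneg hθ0]
  have habs' : |θ'| < 1 := by rwa [abs_of_nonneg hθ0']
  have hΨ : IsPTest A A' fun a b => φ (mu G θ A a v) (mu G θ' A' b v) := by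
    obtain ⟨M, hM⟩ := ((isCompact_Icc (a := (-1 : ℝ)) (b := 1)).prod
      (isCompact_Icc (a := (-1 : ℝ)) (b := 1))).exists_bound_of_continuousOn hφ.continuousOn
    exact ⟨fun a a' b b' ha hb => by rw [mu_congr ha v, mu_congr hb v],
      hφ.measurable.comp (((measurable_mu A v).comp measurable_fst).prodMk
        ((measurable_mu A' v).comp measurable_snd)),
      hφ.comp_continuousOn (((continuousOn_mu habs A v).comp continuousOn_fst fun _ hp => hp.1).prodMk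
        ((continuousOn_mu habs' A' v).comp continuousOn_snd fun _ hp => hp.2)),
      M, fun a b ha hb => hM (_, _) ⟨abs_le.mp (abs_mu_le hθ0 hθ1 A ha v),
        abs_le.mp (abs_mu_le hθ0' hθ1' A' hb v)⟩⟩
  set f : ℝ → (V × ℕ → I) → ℝ := fun r ρ => ∫ u, φ (mu G θ A (fout G θ A K k r (ρ, u)) v)
    (mu G θ' A' (fout G θ' A' K k r (ρ, u)) v) ∂iidLabels (V × ℕ)
  have hfm : ∀ r, Integrable (f r) (iidLabels (V × ℕ)) := fun r =>
    (hΨ.integrable G θ θ' A A' K k r).integral_prod_left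
  have hfP : ∀ r, ∫ ρ, f r ρ ∂iidLabels (V × ℕ) =
      Pe G θ θ' A A' K k r (fun a b => φ (mu G θ A a v) (mu G θ' A' b v)) := fun r =>
    (integral_prod _ (hΨ.integrable G θ θ' A A' K k r)).symm
  set T : ℕ → (V → (V → ℝ) → (V → ℝ) → ℝ) → V → (V × ℕ → I) → ℝ := fun n P w ρ =>
    if s₀ ≤ (ρ (w, k) : ℝ) ∧ (ρ (w, k) : ℝ) < s then
      (ρ (w, k) : ℝ) ^ n * ∫ u, P w (fout G θ A K k (ρ (w, k)) (ρ, u))
        (fout G θ' A' K k (ρ (w, k)) (ρ, u)) ∂iidLabels (V × ℕ) else 0 with hT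
  have fixed : ∀ᵐ ρ ∂iidLabels (V × ℕ),
      f s ρ ≤ f s₀ ρ + (∑ w ∈ A ∪ A', T 2 P₁ w ρ + ∑ w ∈ A ∪ A', T 4 P₂ w ρ) := by
    filter_upwards [ae_injOn ((A ∪ A') ×ˢ Finset.range K)] with ρ hρ
    refine (grow_fixed hθ0 hθ1 hθ0' hθ1' A A' hk v hφ hP₁ hP₂ hP₁0 hP₂0 hs ρ hρ
      (hstep ρ)).trans_eq ?_
    rw [← Finset.sum_add_distrib]
    refine congrArg _ (Finset.sum_congr rfl fun w _ => ?_)
    simp only [T]
    by_cases hc : s₀ ≤ (ρ (w, k) : ℝ) ∧ (ρ (w, k) : ℝ) < s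
    · simp only [if_pos hc]
    · simp only [if_neg hc, add_zero]
  have r1 := fun w (hw : w ∈ A ∪ A') => ring_avg (G := G) (θ := θ) (θ' := θ') (K := K) (k := k)
    (hP₁ w hw) (hP₁0 w) w 2 hs₀ hs hs1
  have r2 := fun w (hw : w ∈ A ∪ A') => ring_avg (G := G) (θ := θ) (θ' := θ') (K := K) (k := k)
    (hP₂ w hw) (hP₂0 w) w 4 hs₀ hs hs1
  have i1 : Integrable (fun ρ => ∑ w ∈ A ∪ A', T 2 P₁ w ρ) (iidLabels (V × ℕ)) :=
    integrable_finsetSum _ fun w hw => (r1 w hw).1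
  have i2 : Integrable (fun ρ => ∑ w ∈ A ∪ A', T 4 P₂ w ρ) (iidLabels (V × ℕ)) :=
    integrable_finsetSum _ fun w hw => (r2 w hw).1
  have e0 : ∫ ρ, (f s₀ ρ + (∑ w ∈ A ∪ A', T 2 P₁ w ρ + ∑ w ∈ A ∪ A', T 4 P₂ w ρ))
      ∂iidLabels (V × ℕ) = Pe G θ θ' A A' K k s₀ (fun a b => φ (mu G θ A a v) (mu G θ' A' b v)) +
        ((∑ w ∈ A ∪ A', ∫ ρ, T 2 P₁ w ρ ∂iidLabels (V × ℕ)) +
          ∑ w ∈ A ∪ A', ∫ ρ, T 4 P₂ w ρ ∂iidLabels (V × ℕ)) := by
    rw [integral_add (hfm s₀) (i1.fun_add i2), hfP, integral_add i1 i2,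
      integral_finsetSum _ fun w hw => (r1 w hw).1, integral_finsetSum _ fun w hw => (r2 w hw).1]
  rw [← hfP s]
  refine ((integral_mono_ae (hfm s) ((hfm s₀).fun_add (i1.fun_add i2)) fixed).trans_eq e0).trans ?_
  refine add_le_add le_rfl ?_
  have sums : ∀ (n : ℕ) (P : V → (V → ℝ) → (V → ℝ) → ℝ), (∀ w ∈ A ∪ A', IsPTest A A' (P w)) →
      ∑ w ∈ A ∪ A', ∫ r in s₀..s, r ^ n * Pe G θ θ' A A' K k r (P w) =
        ∫ r in s₀..s, r ^ n * Pe G θ θ' A A' K k r (fun a b => ∑ w ∈ A ∪ A', P w a b) := by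
    intro n P hP
    rw [← intervalIntegral.integral_finsetSum]
    · refine intervalIntegral.integral_congr fun r _ => ?_
      rw [Pe_sum _ hP, Finset.mul_sum]
    · intro w hw
      obtain ⟨C, hC⟩ := (hP w hw).bdd
      refine IntervalIntegrable.continuousOn_mul ?_ (continuous_pow n).continuousOn
      refine (intervalIntegrable_const (c := C)).mono_fun'
        (measurable_Pe (hP w hw)).aestronglyMeasurable (.of_forall fun r => ?_)
      refine (norm_integral_le_of_norm_le_const (C := C) (.of_forall fun q => ?_)).trans (by simp)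
      exact hC _ _ (isFld_fout _ _ _ _ _ _ _) (isFld_fout _ _ _ _ _ _ _)
  rw [← sums 2 P₁ hP₁, ← sums 4 P₂ hP₂, mul_add, Finset.mul_sum, Finset.mul_sum]
  exact add_le_add (Finset.sum_le_sum fun w hw => (r1 w hw).2)
    (Finset.sum_le_sum fun w hw => (r2 w hw).2)

end AveragedGrowth

end Vale.Agent.P161.Crit
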