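import Vale.Agent.P161.Crit.Geo

/-!
# Weighted sums over spheres of a regular tree
-/

namespace Vale.Agent.P161.Crit

open SimpleGraph Vale.Agent.P161

variable {V : Type*} {G : SimpleGraph V} [G.LocallyFinite] {d : ℕ}
variable (hG : G.IsTree) (hdeg : ∀ v, G.degree v = d)
include hG hdeg

lemma mem_sph_succ_iff {i j : V} {k : ℕ} (h : G.dist i j = k + 1) :
    tow G j i ∈ sph G i k ∧ j ∈ outs G i (tow G j i) := by
  have hne : j ≠ i := by rintro rfl; simp at h
  obtain ⟨ha, hd⟩ := tow_spec hG hne
  rw [dist_comm (u := j), dist_comm (u := tow G j i)] at hd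
  exact ⟨(mem_sph hG.connected).mpr (by omega), mem_outs.mpr ⟨ha.symm, by omega⟩⟩

omit hdeg in
lemma sum_bll_sph (i : V) (n : ℕ) (f : V → ℝ) :
    ∑ j ∈ bll G i n, f j = ∑ k ∈ Finset.range (n + 1), ∑ j ∈ sph G i k, f j := by
  classical
  rw [bll, Finset.sum_biUnion]
  intro a _ b _ hab
  rw [Function.onFun, Finset.disjoint_left]
  intro y hya hyb
  rw [mem_sph hG.connected] at hya hyb
  exact hab (hya.symm.trans hyb)

omit hdeg in
lemma sum_sph_succ (i : V) (k : ℕ) (f : V → ℝ) :
    ∑ j ∈ sph G i (k + 1), f j = ∑ p ∈ sph G i k, ∑ j ∈ outs G i p, f j := by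
  classical
  have e : sph G i (k + 1) = (sph G i k).biUnion fun p => outs G i p := by
    ext j
    rw [Finset.mem_biUnion, mem_sph hG.connected]
    constructor
    · intro h
      have hne : j ≠ i := by rintro rfl; simp at h
      obtain ⟨ha, hd⟩ := tow_spec hG hne
      rw [dist_comm (u := j), dist_comm (u := tow G j i)] at hd
      exact ⟨tow G j i, (mem_sph hG.connected).mpr (by omega), mem_outs.mpr ⟨ha.symm, by omega⟩⟩
    · rintro ⟨p, hp, hj⟩
      rw [mem_sph hG.connected] at hp
      rw [(mem_outs.mp hj).2, hp]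
  rw [e, Finset.sum_biUnion]
  intro a _ b _ hab
  rw [Function.onFun, Finset.disjoint_left]
  intro x hxa hxb
  obtain ⟨a1, a2⟩ := mem_outs.mp hxa
  obtain ⟨b1, b2⟩ := mem_outs.mp hxb
  exact hab (closer_unique hG a1 b1 a2.symm b2.symm)

lemma card_outs_self (i : V) : (outs G i i).card = d := by
  classical
  rw [outs, Finset.filter_true_of_mem fun y hy => by
    rw [mem_neighborFinset] at hy; simp [dist_eq_one_iff_adj.mpr hy],
    card_neighborFinset_eq_degree, hdeg]

lemma card_outs_le {i p : V} (h : p ≠ i) : (outs G i p).card ≤ d - 1 := by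
  classical
  obtain ⟨ha, hd⟩ := tow_spec hG h
  rw [dist_comm (u := p), dist_comm (u := tow G p i)] at hd
  rw [← hdeg p, ← card_neighborFinset_eq_degree,
    ← Finset.card_erase_of_mem ((G.mem_neighborFinset _ _).mpr ha)]
  refine Finset.card_le_card fun y hy => ?_
  obtain ⟨hy1, hy2⟩ := mem_outs.mp hy
  exact Finset.mem_erase.mpr ⟨fun e => by rw [e] at hy2; omega, (G.mem_neighborFinset _ _).mpr hy1⟩

/-- The weight of a sphere seen from another vertex. -/
theorem sum_sph_shift (hd : 2 ≤ d) {θ : ℝ} (hθ0 : 0 ≤ θ) (hθ1 : θ ≤ 1)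
    (hθd : ((d : ℝ) - 1) * θ ^ 2 ≤ 1) (i s : V) :
    ∀ k, θ ^ k * ∑ j ∈ sph G i k, θ ^ G.dist j s ≤ ((k : ℝ) + 3) * θ ^ G.dist i s := by
  classical
  have hd' : (2 : ℝ) ≤ d := by exact_mod_cast hd
  have hchild : ∀ p, ∑ j ∈ outs G i p, θ ^ (G.dist j s + 1) ≤
      ((outs G i p).card : ℝ) * θ ^ 2 * θ ^ G.dist p s +
        if p ∈ geo G i s then θ ^ G.dist p s else 0 := by
    intro p
    have hsplit : ∀ j ∈ outs G i p, θ ^ (G.dist j s + 1) ≤ θ ^ 2 * θ ^ G.dist p s +
        if p ∈ geo G i s ∧ p ≠ s ∧ j = tow G p s then θ ^ G.dist p s else 0 := by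
      intro j hj
      obtain ⟨ha, hdj⟩ := mem_outs.mp hj
      rcases hG.dist_eq_dist_add_one_of_adj s ha with e | e
      · rw [dist_comm (u := s), dist_comm (u := s) (v := j)] at e
        have hps : p ≠ s := by rintro rfl; simp at e
        have hjt : j = tow G p s := (tow_eq hG ha e).symm
        have hg : p ∈ geo G i s := by
          have hif : ¬ Far G p j i := by unfold Far; omega
          have hsf : Far G p j s := by
            unfold Far; rw [dist_comm (u := s) (v := j), dist_comm (u := s) (v := p)]; omega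
          rw [mem_geo hG, dist_across hG ha hif hsf]
          omega
        rw [if_pos ⟨hg, hps, hjt⟩, ← e]
        exact le_add_of_nonneg_left (by positivity)
      · rw [dist_comm (u := s), dist_comm (u := s) (v := p)] at e
        have h0 : 0 ≤ (if p ∈ geo G i s ∧ p ≠ s ∧ j = tow G p s then θ ^ G.dist p s else 0) := by
          split_ifs <;> positivity
        rw [e, show θ ^ (G.dist p s + 1 + 1) = θ ^ 2 * θ ^ G.dist p s by ring]
        linarith
    refine (Finset.sum_le_sum hsplit).trans ?_
    rw [Finset.sum_add_distrib, Finset.sum_const, nsmul_eq_mul, ← mul_assoc]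
    refine add_le_add le_rfl ?_
    by_cases hp : p ∈ geo G i s
    · rw [if_pos hp]
      by_cases hps : p = s
      · simp [hp, hps, pow_nonneg hθ0]
      · rw [Finset.sum_eq_single (tow G p s) (fun b _ hb => by simp [hb])
          (fun h => absurd (tow_mem_outs hG hp hps) h), if_pos ⟨hp, hps, rfl⟩]
    · simp [hp]
  intro k
  induction k with
  | zero =>
    simp only [sph, Finset.sum_singleton, pow_zero, one_mul, Nat.cast_zero, zero_add]
    nlinarith [pow_nonneg hθ0 (G.dist i s)]
  | succ k ih =>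
    have e1 : θ ^ (k + 1) * ∑ j ∈ sph G i (k + 1), θ ^ G.dist j s =
        θ ^ k * ∑ p ∈ sph G i k, ∑ j ∈ outs G i p, θ ^ (G.dist j s + 1) := by
      rw [sum_sph_succ hG, pow_succ, mul_assoc]
      congr 1
      rw [Finset.mul_sum]
      refine Finset.sum_congr rfl fun p _ => ?_
      rw [Finset.mul_sum]
      exact Finset.sum_congr rfl fun j _ => by rw [pow_succ]; ring
    rw [e1]
    have hm := Finset.sum_le_sum fun p (_ : p ∈ sph G i k) => hchild p
    rw [Finset.sum_add_distrib, ← Finset.sum_filter] at hm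
    refine (mul_le_mul_of_nonneg_left hm (pow_nonneg hθ0 k)).trans ?_
    rw [mul_add]
    have hsec : θ ^ k * ∑ p ∈ (sph G i k).filter (· ∈ geo G i s), θ ^ G.dist p s ≤
        θ ^ G.dist i s := by
      rcases ((sph G i k).filter (· ∈ geo G i s)).eq_empty_or_nonempty with he | ⟨p, hp⟩
      · rw [he, Finset.sum_empty, mul_zero]; positivity
      · have hone : (sph G i k).filter (· ∈ geo G i s) = {p} := by
          refine Finset.eq_singleton_iff_unique_mem.mpr ⟨hp, fun x hx => ?_⟩
          obtain ⟨hx1, hx2⟩ := Finset.mem_filter.mp hx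
          obtain ⟨hp1, hp2⟩ := Finset.mem_filter.mp hp
          rw [mem_sph hG.connected] at hx1 hp1
          exact geo_inj hG hx2 hp2 (hx1.trans hp1.symm)
        obtain ⟨hp1, hp2⟩ := Finset.mem_filter.mp hp
        rw [mem_sph hG.connected] at hp1
        rw [mem_geo hG] at hp2
        rw [hone, Finset.sum_singleton, ← pow_add, ← hp2, hp1]
    rcases k with _ | k
    · simp only [sph, Finset.sum_singleton, pow_zero, one_mul] at hsec ⊢
      rw [card_outs_self hG hdeg]
      have h2 : (d : ℝ) * θ ^ 2 ≤ 2 := by nlinarith [sq_nonneg θ]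
      have := mul_le_mul_of_nonneg_right h2 (pow_nonneg hθ0 (G.dist i s))
      push_cast
      linarith [pow_nonneg hθ0 (G.dist i s)]
    · have hc : ∀ p ∈ sph G i (k + 1), ((outs G i p).card : ℝ) * θ ^ 2 * θ ^ G.dist p s ≤
          1 * θ ^ G.dist p s := fun p hp => by
        rw [mem_sph hG.connected] at hp
        have hne : p ≠ i := by rintro rfl; simp at hp
        refine mul_le_mul_of_nonneg_right ?_ (pow_nonneg hθ0 _)
        refine le_trans (mul_le_mul_of_nonneg_right ?_ (sq_nonneg θ)) hθd
        have := card_outs_le hG hdeg hne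
        calc ((outs G i p).card : ℝ) ≤ ((d - 1 : ℕ) : ℝ) := by exact_mod_cast this
          _ = (d : ℝ) - 1 := by rw [Nat.cast_sub (by omega)]; simp
      have := mul_le_mul_of_nonneg_left (Finset.sum_le_sum hc) (pow_nonneg hθ0 (k + 1))
      simp only [one_mul] at this
      push_cast at ih ⊢
      linarith

end Vale.Agent.P161.Crit
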