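import Vale.Agent.P161.Crit.Static
import Vale.Agent.P161.Crit.Spheres

/-!
# Side branches along geodesics
-/

namespace Vale.Agent.P161.Crit

open MeasureTheory unitInterval Function SimpleGraph Vale.Agent.P161

variable {V : Type*} {G : SimpleGraph V} {θ : ℝ}

/-- The damping caused by the side branch at `i`. -/
noncomputable def Xf (G : SimpleGraph V) (θ : ℝ) (A : Finset V) (p i n : V) (h : V → ℝ) : ℝ :=
  Real.exp (-(1 / 768) * mu G θ (side G A p i n) h i ^ 2)

lemma Xf_pos (A : Finset V) (p i n : V) (h : V → ℝ) : 0 < Xf G θ A p i n h := Real.exp_pos _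

lemma Xf_le_one (A : Finset V) (p i n : V) (h : V → ℝ) : Xf G θ A p i n h ≤ 1 :=
  Real.exp_le_one_iff.mpr (mul_nonpos_of_nonpos_of_nonneg (by norm_num) (sq_nonneg _))

variable (G θ) in
/-- The weighted size of a branch, discounted by its side branches. -/
noncomputable def PP [G.LocallyFinite] (A : Finset V) : ℕ → V → V → (V → ℝ) → ℝ
  | 0, _, _, _ => 1
  | m + 1, p, w, h => 1 + θ ^ 2 * ∑ z ∈ kids G p w, Xf G θ A p w z h * PP A m w z h

/-- The weighted size of the ball around `o`. -/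
noncomputable def PB (G : SimpleGraph V) [G.LocallyFinite] (θ : ℝ) (A : Finset V) (m : ℕ) (o : V)
    (h : V → ℝ) : ℝ :=
  1 + θ ^ 2 * ∑ z ∈ G.neighborFinset o, PP G θ A m o z h

section Basic

variable [G.LocallyFinite]

lemma one_le_PP (A : Finset V) : ∀ (m : ℕ) (p w : V) (h : V → ℝ), 1 ≤ PP G θ A m p w h
  | 0, _, _, _ => le_rfl
  | m + 1, p, w, h => by
    rw [PP]
    have : 0 ≤ θ ^ 2 * ∑ z ∈ kids G p w, Xf G θ A p w z h * PP G θ A m w z h :=
      mul_nonneg (sq_nonneg _) (Finset.sum_nonneg fun z _ =>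
        mul_nonneg (Xf_pos _ _ _ _ _).le (zero_le_one.trans (one_le_PP A m w z h)))
    linarith

lemma one_le_PB (A : Finset V) (m : ℕ) (o : V) (h : V → ℝ) : 1 ≤ PB G θ A m o h := by
  have : 0 ≤ θ ^ 2 * ∑ z ∈ G.neighborFinset o, PP G θ A m o z h :=
    mul_nonneg (sq_nonneg _) (Finset.sum_nonneg fun z _ => zero_le_one.trans (one_le_PP A m o z h))
  unfold PB
  linarith

variable (hG : G.IsTree)
include hG

omit [G.LocallyFinite] in
lemma side_subset_half {A : Finset V} {p i n : V} (hn : G.Adj i n) :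
    side G A p i n ⊆ half G A n i := fun z hz => by
  obtain ⟨h1, -, h3⟩ := mem_side.mp hz
  exact mem_half.mpr ⟨h1, (far_swap hG hn).mpr h3⟩

omit [G.LocallyFinite] in
lemma side_subset_half' {A : Finset V} {p i n : V} (hp : G.Adj i p) :
    side G A p i n ⊆ half G A p i := fun z hz => by
  obtain ⟨h1, h2, -⟩ := mem_side.mp hz
  exact mem_half.mpr ⟨h1, (far_swap hG hp).mpr h2⟩

omit [G.LocallyFinite] in
lemma half_subset_child {A : Finset V} {p w z : V} (hp : G.Adj p w) (hz : G.Adj w z)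
    (hne : z ≠ p) : half G A w z ⊆ half G A p w := fun x hx => by
  obtain ⟨h1, h2⟩ := mem_half.mp hx
  exact mem_half.mpr ⟨h1, far_child hG hp hz hne h2⟩

omit [G.LocallyFinite] in
lemma convex_side {A : Finset V} (hA : Convex' G A) {p i n : V} (hp : G.Adj i p) (hn : G.Adj i n) :
    Convex' G (side G A p i n) := by
  classical
  have : side G A p i n = (A.filter fun x => ¬ Far G i p x).filter fun x => ¬ Far G i n x := by
    ext x; simp [mem_side, and_assoc]
  rw [this]
  exact (hA.filter_not_far hG hp).filter_not_far hG hn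

variable (hθ0 : 0 ≤ θ) (hθ1 : θ < 1)
include hθ0 hθ1

omit [G.LocallyFinite] in
lemma isB_Xf {A : Finset V} (p i n : V) :
    IsB (side G A p i n) fun h => Xf G θ A p i n h :=
  (IsB.mu' hθ0 hθ1 (side G A p i n) i).comp_real
    (φ := fun x => Real.exp (-(1 / 768) * x ^ 2)) (by fun_prop)

omit [G.LocallyFinite] hθ0 hθ1 in
lemma Xf_neg [DecidableEq V] {A : Finset V} {p i n : V} (hi : i ∈ A) (h : V → ℝ) :
    Xf G θ A p i n (fun v => -h v) = Xf G θ A p i n h := by
  unfold Xf
  rw [mu_neg h (mem_side.mpr ⟨hi, not_far_self, not_far_self⟩), neg_sq]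

lemma isB_PP {A : Finset V} : ∀ (m : ℕ) {p w : V}, G.Adj p w →
    IsB (half G A p w) fun h => PP G θ A m p w h := by
  intro m
  induction m with
  | zero => intro p w _; simpa [PP] using IsB.const (half G A p w) 1
  | succ m ih =>
    intro p w hpw
    simp only [PP]
    refine (IsB.const _ 1).add ((IsB.const _ (θ ^ 2)).mul (IsB.sum _ fun z hz => ?_))
    obtain ⟨hzp, hwz⟩ := mem_kids.mp hz
    exact ((isB_Xf hG hθ0 hθ1 p w z).mono (side_subset_half' hG hpw.symm)).mul
      ((ih hwz).mono (half_subset_child hG hpw hwz hzp))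

omit hθ0 hθ1 in
lemma PP_neg [DecidableEq V] {A : Finset V} : ∀ (m : ℕ) {p w : V}, brn G m p w ⊆ A → ∀ h : V → ℝ,
    PP G θ A m p w (fun v => -h v) = PP G θ A m p w h := by
  intro m
  induction m with
  | zero => intros; rfl
  | succ m ih =>
    intro p w hsub h
    simp only [PP]
    congr 2
    refine Finset.sum_congr rfl fun z hz => ?_
    have hw : w ∈ A := hsub (by simp [brn])
    rw [Xf_neg hG hw, ih (fun x hx => hsub (by
      simp only [brn, Finset.mem_insert, Finset.mem_biUnion]; exact Or.inr ⟨z, hz, hx⟩))]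

lemma isB_PB (A : Finset V) (m : ℕ) (o : V) : IsB A fun h => PB G θ A m o h := by
  simp only [PB]
  refine (IsB.const _ 1).add ((IsB.const _ (θ ^ 2)).mul (IsB.sum _ fun z hz => ?_))
  exact (isB_PP hG hθ0 hθ1 m ((G.mem_neighborFinset o z).mp hz)).mono fun x hx => mem_of_mem_half hx

end Basic

section Expansion

variable [G.LocallyFinite] [DecidableEq V] (hG : G.IsTree)
include hG

lemma geo_cons {w z x : V} (hwz : G.Adj w z) (hx : Far G w z x) :
    geo G w x = insert w (geo G z x) ∧ w ∉ geo G z x ∧ G.dist w x = G.dist z x + 1 ∧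
      tow G w x = z := by
  have ht : tow G w x = z := tow_of_far hG hwz hx
  have hne : w ≠ x := fun e => not_far_self (e ▸ hx)
  obtain ⟨-, hd⟩ := tow_spec hG hne
  rw [ht] at hd
  have := geo_eq_insert hG hne
  rw [ht] at this
  exact ⟨this, by rw [← ht]; exact (geo_step hG hne).1, hd, ht⟩

lemma sum_le_PP (hθ0 : 0 ≤ θ) {A : Finset V} (h : V → ℝ) : ∀ (m : ℕ) {p w : V}, G.Adj p w →
    ∑ x ∈ brn G m p w, θ ^ (2 * G.dist w x) *
      ∏ i ∈ (geo G w x).erase x, Xf G θ A (tow G i p) i (tow G i x) h ≤ PP G θ A m p w h := by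
  intro m
  induction m with
  | zero => intro p w _; simp [brn, PP, geo_self hG]
  | succ m ih =>
    intro p w hpw
    rw [sum_brn_succ hG m, PP, geo_self hG]
    simp only [dist_self, mul_zero, pow_zero, one_mul, Finset.erase_singleton, Finset.prod_empty]
    refine add_le_add le_rfl ?_
    rw [Finset.mul_sum]
    refine Finset.sum_le_sum fun z hz => ?_
    obtain ⟨hzp, hwz⟩ := mem_kids.mp hz
    rw [← mul_assoc]
    refine le_trans (le_of_eq ?_) (mul_le_mul_of_nonneg_left (ih hwz)
      (mul_nonneg (sq_nonneg θ) (Xf_pos _ _ _ _ _).le))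
    rw [Finset.mul_sum]
    refine Finset.sum_congr rfl fun x hx => ?_
    obtain ⟨hfar, -⟩ := (mem_brn hG m hwz x).mp hx
    obtain ⟨e, hnot, hd, ht⟩ := geo_cons hG hwz hfar
    have hwx : w ≠ x := fun e => not_far_self (e ▸ hfar)
    rw [e, Finset.erase_insert_of_ne hwx, Finset.prod_insert (fun h => hnot (Finset.mem_of_mem_erase h)),
      ht, tow_of_far hG hpw.symm (far_self hpw.symm), hd,
      Finset.prod_congr rfl (g := fun i => Xf G θ A (tow G i w) i (tow G i x) h) fun i hi => by
        obtain ⟨hix, hiz⟩ := Finset.mem_erase.mp hi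
        have hiw : i ≠ w := fun e => hnot (e ▸ hiz)
        have hc : w ∈ geo G x p := by
          rw [mem_geo hG]
          have := far_dist hG hpw (far_child hG hpw hwz hzp hfar)
          rw [dist_eq_one_iff_adj.mpr hpw.symm]
          omega
        rw [tow_geo hG hc (by rw [geo_comm hG, e]; exact Finset.mem_insert_of_mem hiz) hiw]]
    ring

lemma sum_le_PB (hθ0 : 0 ≤ θ) {A : Finset V} (h : V → ℝ) (o : V) (m : ℕ) :
    ∑ x ∈ bll G o (m + 1), θ ^ (2 * G.dist o x) *
      ∏ i ∈ inner' G o x, Xf G θ A (tow G i o) i (tow G i x) h ≤ PB G θ A m o h := by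
  rw [sum_bll_succ hG, PB, inner', geo_self hG]
  simp only [dist_self, mul_zero, pow_zero, one_mul, Finset.erase_singleton, Finset.erase_empty,
    Finset.prod_empty]
  refine add_le_add le_rfl ?_
  rw [Finset.mul_sum]
  refine Finset.sum_le_sum fun z hz => ?_
  have hoz : G.Adj o z := (G.mem_neighborFinset o z).mp hz
  refine le_trans (le_of_eq ?_) (mul_le_mul_of_nonneg_left (sum_le_PP hG hθ0 h m hoz) (sq_nonneg θ))
  rw [Finset.mul_sum]
  refine Finset.sum_congr rfl fun x hx => ?_
  obtain ⟨hfar, -⟩ := (mem_brn hG m hoz x).mp hx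
  obtain ⟨e, hnot, hd, -⟩ := geo_cons hG hoz hfar
  have : inner' G o x = (geo G z x).erase x := by
    ext i
    rw [mem_inner hG, e, Finset.mem_insert, Finset.mem_erase]
    constructor
    · rintro ⟨h1 | h1, h2, h3⟩
      exacts [absurd h1 h2, ⟨h3, h1⟩]
    · rintro ⟨h1, h2⟩
      exact ⟨Or.inr h2, fun e => hnot (e ▸ h2), h1⟩
  rw [this, hd]
  ring

variable (hθ0 : 0 ≤ θ) (hθ1 : θ < 1) {h : V → ℝ} (hh : IsFld h)
include hθ0 hθ1 hh

/-- The weight is at most the product of the side dampings. -/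
lemma Wt_le_prod_Xf {A : Finset V} (hA : Convex' G A) {x y : V} (hx : x ∈ A) (hy : y ∈ A) :
    Wt G θ A h x y ≤ ∏ i ∈ inner' G x y, Xf G θ A (tow G i x) i (tow G i y) h := by
  unfold Wt Xf
  rw [← Real.exp_sum]
  refine Real.exp_le_exp.mpr ?_
  rw [Finset.mul_sum]
  refine Finset.sum_le_sum fun i hi => ?_
  obtain ⟨gi, i1, i2⟩ := (mem_inner hG).mp hi
  have hiA := geo_subset hG hA hx hy gi
  have hn : tow G i y ≠ tow G i x := by
    intro e
    obtain ⟨ha, h1⟩ := tow_spec hG i1
    obtain ⟨-, h2⟩ := tow_spec hG i2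
    rw [mem_geo hG] at gi
    rw [e] at h2
    have t : G.dist x y ≤ G.dist x (tow G i x) + G.dist (tow G i x) y := hG.connected.dist_triangle
    rw [dist_comm (u := tow G i x) (v := x), dist_comm (u := i) (v := x)] at h1
    omega
  have := (side_facts hG hθ0 hθ1 hh hA hiA
    (hA.step_mem hiA hx (tow_adj hG i1) (tow_spec hG i1).2)
    (hA.step_mem hiA hy (tow_adj hG i2) (tow_spec hG i2).2) (tow_adj hG i1) (tow_adj hG i2) hn).2
  nlinarith

/-- Weights split at an intermediate vertex. -/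
lemma Wt_split {A : Finset V} {x o y : V} (ho : o ∈ geo G x y) :
    Wt G θ A h x y ≤ Wt G θ A h o x * Wt G θ A h o y := by
  have hsub : ∀ {a b c : V}, c ∈ geo G a b → ∀ i ∈ inner' G c a,
      i ∈ inner' G a b ∧ om G θ A h (tow G i c) i (tow G i a) =
        om G θ A h (tow G i a) i (tow G i b) := by
    intro a b c hc i hi
    obtain ⟨gi, i1, i2⟩ := (mem_inner hG).mp hi
    have gi' : i ∈ geo G a c := geo_comm hG c a ▸ gi
    refine ⟨(mem_inner hG).mpr ⟨geo_left_subset hG hc gi', i2, ?_⟩, ?_⟩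
    · rintro rfl
      have := (mem_geo hG).mp hc
      have := (mem_geo hG).mp gi'
      exact i1 ((hG.connected.dist_eq_zero_iff.mp (show G.dist i c = 0 by
        rw [dist_comm (u := i) (v := c)]; omega)))
    · rw [tow_geo hG hc gi' i1]; unfold om; ring
  have ho' : o ∈ geo G y x := geo_comm hG x y ▸ ho
  have hdisj : Disjoint (inner' G o x) (inner' G o y) := by
    rw [Finset.disjoint_left]
    intro i hix hiy
    obtain ⟨g1, i1, -⟩ := (mem_inner hG).mp hix
    obtain ⟨g2, -, -⟩ := (mem_inner hG).mp hiy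
    rw [mem_geo hG] at g1 g2 ho
    have t : G.dist x y ≤ G.dist x i + G.dist i y := hG.connected.dist_triangle
    rw [dist_comm (u := x) (v := o)] at ho
    rw [dist_comm (u := x) (v := i)] at t
    exact i1 (hG.connected.dist_eq_zero_iff.mp (show G.dist o i = 0 by omega)).symm
  have e2 : ∀ i ∈ inner' G o y, i ∈ inner' G x y ∧ om G θ A h (tow G i o) i (tow G i y) =
      om G θ A h (tow G i x) i (tow G i y) := fun i hi => by
    obtain ⟨a, b⟩ := hsub ho' i hi
    exact ⟨inner_comm hG y x ▸ a, by rw [b]; unfold om; ring⟩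
  unfold Wt
  rw [← Real.exp_add]
  refine Real.exp_le_exp.mpr ?_
  rw [← mul_add, Finset.sum_congr rfl fun i hi => (hsub ho i hi).2,
    Finset.sum_congr rfl fun i hi => (e2 i hi).2, ← Finset.sum_union hdisj]
  refine mul_le_mul_of_nonpos_left (Finset.sum_le_sum_of_subset_of_nonneg ?_
    fun i _ _ => om_nonneg _ _ _ _ _ _) (by norm_num)
  intro i hi
  rcases Finset.mem_union.mp hi with h' | h'
  exacts [(hsub ho i h').1, (e2 i h').1]

/-- The weighted sum over a ball is at most the branch recursion. -/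
lemma sum_Wt_le_PB (o : V) {m n : ℕ} (hmn : n ≤ m + 1) :
    ∑ x ∈ bll G o n, θ ^ (2 * G.dist o x) * Wt G θ (bll G o (m + 1)) h o x ≤
      PB G θ (bll G o (m + 1)) m o h := by
  refine le_trans ?_ (sum_le_PB hG hθ0 h o m)
  refine (Finset.sum_le_sum fun x hx => mul_le_mul_of_nonneg_left
    (Wt_le_prod_Xf hG hθ0 hθ1 hh (convex_bll hG o _) (self_mem_bll hG.connected o _)
      (bll_mono hG.connected o hmn hx)) (by positivity)).trans ?_
  exact Finset.sum_le_sum_of_subset_of_nonneg (bll_mono hG.connected o hmn) fun x _ _ =>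
    mul_nonneg (by positivity) (Finset.prod_nonneg fun i _ => (Xf_pos _ _ _ _ _).le)

end Expansion

end Vale.Agent.P161.Crit
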