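import Vale.Agent.P161.Cube

/-!
# The inverse of a tilted distribution function
-/

namespace Vale.Agent.P161.Crit

open MeasureTheory unitInterval Function Vale.Agent.P161

/-- Clip a real into `[-1/2, 1/2]`. -/
noncomputable def clipHalf (a : ℝ) : ℝ := max (-(1 / 2)) (min a (1 / 2))

lemma clipHalf_mem (a : ℝ) : -(1 / 2) ≤ clipHalf a ∧ clipHalf a ≤ 1 / 2 :=
  ⟨le_max_left _ _, max_le (by norm_num) (min_le_right _ _)⟩

lemma clipHalf_eq {a : ℝ} (h : |a| ≤ 1 / 2) : clipHalf a = a := by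
  obtain ⟨h1, h2⟩ := abs_le.mp h
  rw [clipHalf, min_eq_left h2, max_eq_right h1]

/-- The distribution function `y + a (y² - y)`. -/
noncomputable def cdfMix (a y : ℝ) : ℝ := y + a * (y ^ 2 - y)

lemma exists_cdfMix (a : ℝ) (u : I) : ∃ y : I, cdfMix (clipHalf a) y = u := by
  have hc : Continuous fun y : ℝ => cdfMix (clipHalf a) y := by unfold cdfMix; fun_prop
  have := intermediate_value_Icc zero_le_one hc.continuousOn
  obtain ⟨y, hy, hyu⟩ := this (a := (u : ℝ)) (by simpa [cdfMix] using u.2)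
  exact ⟨⟨y, hy⟩, hyu⟩

/-- The inverse distribution function. -/
noncomputable def invCdf (a : ℝ) (u : I) : I := (exists_cdfMix a u).choose

lemma cdfMix_invCdf (a : ℝ) (u : I) : cdfMix (clipHalf a) (invCdf a u) = u :=
  (exists_cdfMix a u).choose_spec

lemma cdfMix_inj_bound {a : ℝ} (h1 : -(1 / 2) ≤ a) (h2 : a ≤ 1 / 2) (y y' : I) :
    |(y : ℝ) - y'| ≤ 2 * |cdfMix a y - cdfMix a y'| := by
  have e : cdfMix a y - cdfMix a y' = ((y : ℝ) - y') * (1 + a * ((y : ℝ) + y' - 1)) := by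
    simp only [cdfMix]; ring
  have hf : 1 / 2 ≤ 1 + a * ((y : ℝ) + y' - 1) := by
    nlinarith [y.2.1, y.2.2, y'.2.1, y'.2.2]
  rw [e, abs_mul, abs_of_nonneg (show (0 : ℝ) ≤ 1 + a * ((y : ℝ) + y' - 1) by linarith)]
  nlinarith [abs_nonneg ((y : ℝ) - y')]

lemma invCdf_dist (a a' : ℝ) (u u' : I) :
    |(invCdf a u : ℝ) - invCdf a' u'| ≤ 2 * (|(u : ℝ) - u'| + |a - a'|) := by
  set y := invCdf a u
  set y' := invCdf a' u'
  have e1 := cdfMix_invCdf a u
  have e2 := cdfMix_invCdf a' u'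
  obtain ⟨h1, h2⟩ := clipHalf_mem a
  refine (cdfMix_inj_bound h1 h2 y y').trans (mul_le_mul_of_nonneg_left ?_ zero_le_two)
  have h3 : |clipHalf a - clipHalf a'| ≤ |a - a'| := by
    unfold clipHalf
    refine (abs_max_sub_max_le_max _ _ _ _).trans ?_
    rw [sub_self, abs_zero, max_eq_right (abs_nonneg _)]
    refine (abs_min_sub_min_le_max _ _ _ _).trans_eq ?_
    rw [sub_self, abs_zero, max_eq_left (abs_nonneg _)]
  have e : cdfMix (clipHalf a) y - cdfMix (clipHalf a) y' =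
      ((u : ℝ) - u') + (clipHalf a' - clipHalf a) * ((y' : ℝ) ^ 2 - y') := by
    rw [e1, ← e2]; simp only [cdfMix, y']; ring
  rw [e]
  refine (abs_add_le _ _).trans (add_le_add le_rfl ?_)
  have hb : |(y' : ℝ) ^ 2 - y'| ≤ 1 :=
    abs_le.mpr ⟨by nlinarith [y'.2.1, y'.2.2], by nlinarith [y'.2.1, y'.2.2]⟩
  calc |(clipHalf a' - clipHalf a) * ((y' : ℝ) ^ 2 - y')|
      ≤ |a - a'| * 1 := by
        rw [abs_mul, abs_sub_comm (clipHalf a')]
        exact mul_le_mul h3 hb (abs_nonneg _) (abs_nonneg _)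
    _ = _ := mul_one _

lemma continuous_invCdf : Continuous fun p : ℝ × I => invCdf p.1 p.2 := by
  refine continuous_induced_rng.mpr (LipschitzWith.continuous (K := 4) ?_)
  refine LipschitzWith.of_dist_le_mul fun p q => ?_
  simp only [Function.comp_apply, Real.dist_eq, Prod.dist_eq, Subtype.dist_eq]
  refine (invCdf_dist _ _ _ _).trans ?_
  push_cast
  linarith [le_max_left |p.1 - q.1| |(p.2 : ℝ) - q.2|, le_max_right |p.1 - q.1| |(p.2 : ℝ) - q.2|]

lemma cdfMix_mem {a : ℝ} (h : |a| ≤ 1) (y : I) : cdfMix a y ∈ Set.Icc (0 : ℝ) 1 := by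
  obtain ⟨h1, h2⟩ := abs_le.mp h
  constructor <;> unfold cdfMix <;>
    nlinarith [mul_nonneg y.2.1 (sub_nonneg.mpr y.2.2),
      mul_nonneg (sub_nonneg.mpr y.2.2) (show (0 : ℝ) ≤ 1 + a * y by nlinarith [y.2.1, y.2.2]),
      mul_nonneg y.2.1 (show (0 : ℝ) ≤ 1 + a * (y - 1) by nlinarith [y.2.1, y.2.2])]

lemma invCdf_cdfMix {a : ℝ} (h : |a| ≤ 1 / 2) (y : I) :
    invCdf a ⟨cdfMix a y, cdfMix_mem (h.trans (by norm_num)) y⟩ = y := by
  obtain ⟨h1, h2⟩ := abs_le.mp h
  have e := cdfMix_invCdf a ⟨cdfMix a y, cdfMix_mem (h.trans (by norm_num)) y⟩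
  rw [clipHalf_eq h] at e
  have := cdfMix_inj_bound h1 h2 (invCdf a ⟨cdfMix a y, cdfMix_mem (h.trans (by norm_num)) y⟩) y
  rw [e] at this
  simp only [sub_self, abs_zero, mul_zero] at this
  exact Subtype.ext (sub_eq_zero.mp (abs_eq_zero.mp (le_antisymm this (abs_nonneg _))))

/-- Change of variables for the inverse distribution function. -/
lemma integral_invCdf {a : ℝ} (h : |a| ≤ 1 / 2) {φ : I → ℝ} (hφ : Continuous φ) :
    ∫ t, φ (invCdf a t) = ∫ t : I, φ t * (1 + a * (2 * (t : ℝ) - 1)) := by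
  have hproj : ∀ x : ℝ, x ∈ Set.Icc (0 : ℝ) 1 →
      (Set.projIcc 0 1 zero_le_one x : ℝ) = x := fun x hx => by
    simp [Set.projIcc_of_mem _ hx]
  rw [integral_unitInterval, integral_unitInterval]
  have hd : ∀ x ∈ Set.uIcc (0 : ℝ) 1,
      HasDerivAt (cdfMix a) (1 + a * (2 * x - 1)) x := fun x _ => by
    have := (hasDerivAt_id x).add ((((hasDerivAt_id x).pow 2).sub (hasDerivAt_id x)).const_mul a)
    exact this.congr_deriv (by simp)
  have hg : Continuous fun x : ℝ => φ (invCdf a (Set.projIcc 0 1 zero_le_one x)) :=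
    hφ.comp (continuous_invCdf.comp
      (continuous_const.prodMk (continuous_projIcc (h := zero_le_one))))
  have key := intervalIntegral.integral_comp_mul_deriv hd
    (by fun_prop) hg
  rw [show cdfMix a 0 = 0 by simp [cdfMix], show cdfMix a 1 = 1 by simp [cdfMix]] at key
  rw [← key]
  refine intervalIntegral.integral_congr fun x hx => ?_
  rw [Set.uIcc_of_le zero_le_one] at hx
  have e : Set.projIcc (0 : ℝ) 1 zero_le_one (cdfMix a x) =
      ⟨cdfMix a (Set.projIcc (0 : ℝ) 1 zero_le_one x : I),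
        cdfMix_mem (h.trans (by norm_num)) _⟩ := by
    apply Subtype.ext
    simp only [hproj x hx]
    exact hproj _ (cdfMix_mem (h.trans (by norm_num)) ⟨x, hx⟩)
  simp only [Function.comp_apply]
  rw [e, invCdf_cdfMix h, hproj x hx]

lemma invCdf_zero (u : I) : invCdf 0 u = u := by
  have h := cdfMix_invCdf 0 u
  rw [clipHalf_eq (by norm_num)] at h
  exact Subtype.ext (by simpa [cdfMix] using h)

end Vale.Agent.P161.Crit
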