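import Vale.Agent.P161.Tree

/-!
# Geodesics, branches and symmetries of a regular tree
-/

namespace Vale.Agent.P161.Crit

open SimpleGraph Vale.Agent.P161

variable {V : Type*} {G : SimpleGraph V}

open Classical in
/-- The neighbour of `c` in the direction of `o` (or `c` itself). -/
noncomputable def tow (G : SimpleGraph V) (c o : V) : V :=
  if h : ∃ z, G.Adj c z ∧ G.dist c o = G.dist z o + 1 then h.choose else c

section Steps

variable (hG : G.IsTree)
include hG

lemma tow_spec {c o : V} (h : c ≠ o) :
    G.Adj c (tow G c o) ∧ G.dist c o = G.dist (tow G c o) o + 1 := by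
  have he := exists_step hG.connected h
  rw [tow, dif_pos he]
  exact he.choose_spec

lemma tow_adj {c o : V} (h : c ≠ o) : G.Adj c (tow G c o) := (tow_spec hG h).1

lemma tow_eq {c o z : V} (ha : G.Adj c z) (hd : G.dist c o = G.dist z o + 1) : tow G c o = z := by
  have hne : c ≠ o := by rintro rfl; simp at hd
  obtain ⟨h1, h2⟩ := tow_spec hG hne
  refine closer_unique hG h1.symm ha.symm (u := o) ?_ ?_
  · rw [dist_comm (u := o), dist_comm (u := o) (v := c)]; omega
  · rw [dist_comm (u := o), dist_comm (u := o) (v := c)]; omega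

lemma tow_of_far {c p o : V} (ha : G.Adj c p) (h : Far G c p o) : tow G c o = p := by
  refine tow_eq hG ha ?_
  rw [dist_comm (u := c), dist_comm (u := p)]
  exact far_dist hG ha h

lemma far_tow {c o : V} (h : c ≠ o) : Far G c (tow G c o) o := by
  obtain ⟨-, h2⟩ := tow_spec hG h
  unfold Far
  rw [dist_comm (u := o), dist_comm (u := o) (v := c)]
  omega

lemma tow_adjacent {c o : V} (h : G.Adj c o) : tow G c o = o :=
  tow_of_far hG h (far_self h)

lemma dist_through {i p x o : V} (h : G.Adj i p) (ho : Far G i p o) (hx : ¬ Far G i p x) :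
    G.dist x o = G.dist x i + G.dist i o := by
  rw [dist_across hG h hx ho, dist_comm (u := i) (v := o), far_dist hG h ho,
    dist_comm (u := p) (v := o)]
  omega

lemma iso_tow (g : G ≃g G) {c o : V} (h : c ≠ o) : g (tow G c o) = tow G (g c) (g o) := by
  obtain ⟨h1, h2⟩ := tow_spec hG h
  refine (tow_eq hG (g.map_adj_iff.mpr h1) ?_).symm
  rw [iso_dist hG.connected, iso_dist hG.connected, h2]

end Steps

section Geodesic

variable [G.LocallyFinite]

open Classical in
/-- The vertices on the geodesic from `o` to `u`. -/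
noncomputable def geo (G : SimpleGraph V) [G.LocallyFinite] (o u : V) : Finset V :=
  (bll G o (G.dist o u)).filter fun c => G.dist o c + G.dist c u = G.dist o u

open Classical in
/-- The inner vertices of the geodesic from `o` to `u`. -/
noncomputable def inner' (G : SimpleGraph V) [G.LocallyFinite] (o u : V) : Finset V :=
  ((geo G o u).erase o).erase u

variable (hG : G.IsTree)
include hG

lemma mem_geo {o u c : V} : c ∈ geo G o u ↔ G.dist o c + G.dist c u = G.dist o u := by
  classical
  rw [geo, Finset.mem_filter, mem_bll hG.connected]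
  exact ⟨fun h => h.2, fun h => ⟨by omega, h⟩⟩

lemma geo_comm (o u : V) : geo G o u = geo G u o := by
  ext c
  rw [mem_geo hG, mem_geo hG, dist_comm (u := u) (v := c), dist_comm (u := c) (v := o),
    dist_comm (u := u) (v := o)]
  omega

lemma inner_comm (o u : V) : inner' G o u = inner' G u o := by
  classical
  rw [inner', inner', geo_comm hG o u, Finset.erase_right_comm]

lemma left_mem_geo (o u : V) : o ∈ geo G o u := by simp [mem_geo hG]

lemma right_mem_geo (o u : V) : u ∈ geo G o u := by simp [mem_geo hG]

lemma geo_self (o : V) : geo G o o = {o} := by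
  ext c
  rw [mem_geo hG, dist_self, Finset.mem_singleton]
  constructor
  · intro h; exact (hG.connected.dist_eq_zero_iff.mp (by omega : G.dist o c = 0)).symm
  · rintro rfl; simp

lemma geo_subset {A : Finset V} (hA : Convex' G A) {o u : V} (ho : o ∈ A) (hu : u ∈ A) :
    geo G o u ⊆ A := fun c hc => hA o ho u hu c ((mem_geo hG).mp hc)

lemma geo_step {o u : V} (h : o ≠ u) :
    o ∉ geo G (tow G o u) u ∧ ∀ c, c ∈ geo G o u ↔ c = o ∨ c ∈ geo G (tow G o u) u := by
  obtain ⟨ha, hd⟩ := tow_spec hG h
  refine ⟨fun hc => ?_, fun c => ⟨fun hc => ?_, ?_⟩⟩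
  · rw [mem_geo hG] at hc; omega
  · rw [mem_geo hG] at hc ⊢
    by_cases hco : c = o
    · exact Or.inl hco
    right
    have hfu : Far G o (tow G o u) u := far_tow hG h
    have hfc : Far G o (tow G o u) c := by
      by_contra hn
      have := dist_across hG ha hn hfu
      have h1 : G.dist o c = 0 := by
        rw [dist_comm (u := o) (v := c)] at hc ⊢
        omega
      exact hco (hG.connected.dist_eq_zero_iff.mp h1).symm
    have e := far_dist hG ha hfc
    rw [dist_comm (u := c), dist_comm (u := c) (v := tow G o u)] at e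
    omega
  · rintro (rfl | hc)
    · exact left_mem_geo hG _ _
    · rw [mem_geo hG] at hc ⊢
      have t1 : G.dist o c ≤ G.dist o (tow G o u) + G.dist (tow G o u) c :=
        hG.connected.dist_triangle
      have t2 : G.dist o u ≤ G.dist o c + G.dist c u := hG.connected.dist_triangle
      rw [dist_eq_one_iff_adj.mpr ha] at t1
      omega

lemma geo_eq_insert [DecidableEq V] {o u : V} (h : o ≠ u) :
    geo G o u = insert o (geo G (tow G o u) u) := by
  ext c; rw [Finset.mem_insert]; exact (geo_step hG h).2 c

lemma tow_mem_geo {o u : V} (h : o ≠ u) : tow G o u ∈ geo G o u :=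
  ((geo_step hG h).2 _).mpr (Or.inr (left_mem_geo hG _ _))

lemma card_geo : ∀ (o u : V), (geo G o u).card = G.dist o u + 1 := by
  classical
  suffices ∀ n, ∀ o u : V, G.dist o u = n → (geo G o u).card = n + 1 from fun o u => this _ o u rfl
  intro n
  induction n with
  | zero =>
    intro o u h
    obtain rfl := hG.connected.dist_eq_zero_iff.mp h
    simp [geo_self hG]
  | succ n ih =>
    intro o u h
    have hne : o ≠ u := by rintro rfl; simp at h
    rw [geo_eq_insert hG hne, Finset.card_insert_of_notMem (geo_step hG hne).1,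
      ih _ _ (by have := (tow_spec hG hne).2; omega)]

lemma geo_inj {o u c c' : V} (hc : c ∈ geo G o u) (hc' : c' ∈ geo G o u)
    (h : G.dist o c = G.dist o c') : c = c' := by
  classical
  have hinj : Set.InjOn (G.dist o) (geo G o u : Set V) := by
    have him : (geo G o u).image (G.dist o) = Finset.range (G.dist o u + 1) := by
      ext k
      simp only [Finset.mem_image, Finset.mem_range]
      constructor
      · rintro ⟨x, hx, rfl⟩; rw [mem_geo hG] at hx; omega
      · intro hk
        suffices ∀ n, ∀ a, G.dist a u = n → ∀ k ≤ n, ∃ x ∈ geo G a u, G.dist a x = k from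
          this _ o rfl k (by omega)
        intro n
        induction n with
        | zero => intro a _ k hk; exact ⟨a, left_mem_geo hG _ _, by simp; omega⟩
        | succ n ih =>
          intro a ha k hk
          rcases k with _ | k
          · exact ⟨a, left_mem_geo hG _ _, by simp⟩
          · have hne : a ≠ u := by rintro rfl; simp at ha
            obtain ⟨hadj, hd⟩ := tow_spec hG hne
            obtain ⟨x, hx, hxk⟩ := ih (tow G a u) (by omega) k (by omega)
            refine ⟨x, ((geo_step hG hne).2 x).mpr (Or.inr hx), ?_⟩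
            rw [mem_geo hG] at hx
            have hm := ((geo_step hG hne).2 x).mpr (Or.inr ((mem_geo hG).mpr hx))
            rw [mem_geo hG] at hm
            omega
    exact Finset.card_image_iff.mp (by rw [him, Finset.card_range, card_geo hG])
  exact hinj hc hc' h

lemma mem_inner {o u i : V} : i ∈ inner' G o u ↔ i ∈ geo G o u ∧ i ≠ o ∧ i ≠ u := by
  classical
  simp only [inner', Finset.mem_erase, ne_eq]
  tauto

/-- Beyond the first edge the directions back to the root do not change. -/
lemma tow_stable {o u c : V} (h : o ≠ u) (hc : c ∈ geo G (tow G o u) u) (hne : c ≠ tow G o u) :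
    tow G c o = tow G c (tow G o u) := by
  obtain ⟨ha, hd⟩ := tow_spec hG h
  obtain ⟨h1, h2⟩ := tow_spec hG hne
  have hm := ((geo_step hG h).2 c).mpr (Or.inr hc)
  rw [mem_geo hG] at hc hm
  refine tow_eq hG h1 ?_
  have t1 : G.dist (tow G c (tow G o u)) o ≤
      G.dist (tow G c (tow G o u)) (tow G o u) + G.dist (tow G o u) o := hG.connected.dist_triangle
  have t2 : G.dist c o ≤ G.dist c (tow G c (tow G o u)) + G.dist (tow G c (tow G o u)) o :=
    hG.connected.dist_triangle
  rw [dist_eq_one_iff_adj.mpr ha.symm] at t1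
  rw [dist_eq_one_iff_adj.mpr h1] at t2
  rw [dist_comm (u := c) (v := tow G o u)] at h2
  rw [dist_comm (u := c) (v := o)] at t2 ⊢
  omega

/-- On a geodesic the directions to an intermediate point agree with those to the end. -/
lemma tow_geo {x y i c : V} (hc : c ∈ geo G x y) (hi : i ∈ geo G x c) (hne : i ≠ c) :
    tow G i y = tow G i c := by
  obtain ⟨h1, h2⟩ := tow_spec hG hne
  rw [mem_geo hG] at hc hi
  refine tow_eq hG h1 ?_
  have t1 : G.dist x y ≤ G.dist x i + G.dist i y := hG.connected.dist_triangle
  have t2 : G.dist i y ≤ G.dist i c + G.dist c y := hG.connected.dist_triangle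
  have t3 : G.dist (tow G i c) y ≤ G.dist (tow G i c) c + G.dist c y := hG.connected.dist_triangle
  have t4 : G.dist i y ≤ G.dist i (tow G i c) + G.dist (tow G i c) y := hG.connected.dist_triangle
  rw [dist_eq_one_iff_adj.mpr h1] at t4
  omega

lemma geo_left_subset {x y c : V} (hc : c ∈ geo G x y) : geo G x c ⊆ geo G x y := by
  intro i hi
  rw [mem_geo hG] at hc hi ⊢
  have t1 : G.dist x y ≤ G.dist x i + G.dist i y := hG.connected.dist_triangle
  have t2 : G.dist i y ≤ G.dist i c + G.dist c y := hG.connected.dist_triangle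
  omega

/-- Side branches at different inner vertices are disjoint. -/
lemma side_inj {o u i j x : V} (hi : i ∈ inner' G o u) (hj : j ∈ inner' G o u)
    (hio : ¬ Far G i (tow G i o) x) (hiu : ¬ Far G i (tow G i u) x)
    (hjo : ¬ Far G j (tow G j o) x) (hju : ¬ Far G j (tow G j u) x) : i = j := by
  obtain ⟨gi, i1, i2⟩ := (mem_inner hG).mp hi
  obtain ⟨gj, j1, j2⟩ := (mem_inner hG).mp hj
  have a1 := dist_through hG (tow_adj hG i1) (far_tow hG i1) hio
  have a2 := dist_through hG (tow_adj hG i2) (far_tow hG i2) hiu
  have b1 := dist_through hG (tow_adj hG j1) (far_tow hG j1) hjo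
  have b2 := dist_through hG (tow_adj hG j2) (far_tow hG j2) hju
  refine geo_inj hG gi gj ?_
  rw [mem_geo hG] at gi gj
  rw [dist_comm (u := i) (v := o)] at a1
  rw [dist_comm (u := j) (v := o)] at b1
  omega

lemma geo_image [DecidableEq V] (g : G ≃g G) (o u : V) :
    geo G (g o) (g u) = (geo G o u).image g := by
  ext c
  rw [Finset.mem_image, mem_geo hG]
  constructor
  · intro h
    refine ⟨g.symm c, (mem_geo hG).mpr ?_, by simp⟩
    rw [← iso_dist hG.connected g o, ← iso_dist hG.connected g (g.symm c) u,
      ← iso_dist hG.connected g o u]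
    simpa using h
  · rintro ⟨x, hx, rfl⟩
    rw [iso_dist hG.connected, iso_dist hG.connected, iso_dist hG.connected]
    exact (mem_geo hG).mp hx

end Geodesic

section Branches

variable [G.LocallyFinite]

open Classical in
/-- The neighbours of `w` other than `p`. -/
noncomputable def kids (G : SimpleGraph V) [G.LocallyFinite] (p w : V) : Finset V :=
  (G.neighborFinset w).erase p

open Classical in
/-- The branch behind `w`, seen from `p`, to depth `m`. -/
noncomputable def brn (G : SimpleGraph V) [G.LocallyFinite] : ℕ → V → V → Finset V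
  | 0, _, w => {w}
  | m + 1, p, w => insert w ((kids G p w).biUnion fun z => brn G m w z)

lemma mem_kids {p w z : V} : z ∈ kids G p w ↔ z ≠ p ∧ G.Adj w z := by
  classical
  simp [kids]

lemma card_kids {d : ℕ} (hdeg : ∀ v, G.degree v = d) {p w : V} (h : G.Adj p w) :
    (kids G p w).card = d - 1 := by
  classical
  rw [kids, Finset.card_erase_of_mem ((G.mem_neighborFinset _ _).mpr h.symm),
    card_neighborFinset_eq_degree, hdeg]

variable (hG : G.IsTree)
include hG

omit [G.LocallyFinite] in
lemma far_child {p w z x : V} (hp : G.Adj p w) (hz : G.Adj w z) (hne : z ≠ p)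
    (hx : Far G w z x) : Far G p w x := by
  by_contra hn
  have e1 := not_far_dist hG hp hn
  have e2 := far_dist hG hz hx
  refine hne (closer_unique hG hz.symm hp (u := x) ?_ ?_) <;> omega

lemma mem_brn : ∀ (m : ℕ) {p w : V}, G.Adj p w →
    ∀ x, x ∈ brn G m p w ↔ Far G p w x ∧ G.dist w x ≤ m := by
  classical
  intro m
  induction m with
  | zero =>
    intro p w h x
    simp only [brn, Finset.mem_singleton]
    constructor
    · rintro rfl; exact ⟨far_self h, by simp⟩
    · rintro ⟨-, hd⟩; exact (hG.connected.dist_eq_zero_iff.mp (by omega : G.dist w x = 0)).symm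
  | succ m ih =>
    intro p w h x
    simp only [brn, Finset.mem_insert, Finset.mem_biUnion, mem_kids]
    constructor
    · rintro (rfl | ⟨z, ⟨hzp, hz⟩, hx⟩)
      · exact ⟨far_self h, by simp⟩
      · obtain ⟨hf, hd⟩ := (ih hz x).mp hx
        refine ⟨far_child hG h hz hzp hf, ?_⟩
        have := far_dist hG hz hf
        rw [dist_comm (u := x), dist_comm (u := x) (v := z)] at this
        omega
    · rintro ⟨hf, hd⟩
      by_cases hxw : x = w
      · exact Or.inl hxw
      · right
        obtain ⟨ha, hd'⟩ := tow_spec hG (Ne.symm hxw)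
        refine ⟨tow G w x, ⟨?_, ha⟩, (ih ha x).mpr ⟨far_tow hG (Ne.symm hxw), by omega⟩⟩
        intro e
        rw [e] at hd'
        have e2 := far_dist hG h hf
        rw [dist_comm (u := x), dist_comm (u := x) (v := w)] at e2
        omega

lemma brn_disjoint {p w : V} (m : ℕ) :
    Set.PairwiseDisjoint (kids G p w : Set V) fun z => brn G m w z := by
  classical
  intro a ha b hb hab
  rw [Function.onFun, Finset.disjoint_left]
  intro x hxa hxb
  have h1 := (mem_kids.mp (Finset.mem_coe.mp ha)).2
  have h2 := (mem_kids.mp (Finset.mem_coe.mp hb)).2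
  have e1 := ((mem_brn hG m h1 x).mp hxa).1
  have e2 := ((mem_brn hG m h2 x).mp hxb).1
  exact hab ((tow_of_far hG h1 e1).symm.trans (tow_of_far hG h2 e2))

lemma sum_brn_succ {p w : V} (m : ℕ) (f : V → ℝ) :
    ∑ x ∈ brn G (m + 1) p w, f x = f w + ∑ z ∈ kids G p w, ∑ x ∈ brn G m w z, f x := by
  classical
  rw [brn, Finset.sum_insert, Finset.sum_biUnion (brn_disjoint hG m)]
  simp only [Finset.mem_biUnion, not_exists, not_and]
  intro z hz hw
  exact not_far_self ((mem_brn hG m (mem_kids.mp hz).2 w).mp hw).1

lemma sum_bll_succ (o : V) (m : ℕ) (f : V → ℝ) :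
    ∑ x ∈ bll G o (m + 1), f x =
      f o + ∑ z ∈ G.neighborFinset o, ∑ x ∈ brn G m o z, f x := by
  classical
  have hd : Set.PairwiseDisjoint (G.neighborFinset o : Set V) fun z => brn G m o z := by
    intro a ha b hb hab
    rw [Function.onFun, Finset.disjoint_left]
    intro x hxa hxb
    simp only [Finset.mem_coe, mem_neighborFinset] at ha hb
    exact hab ((tow_of_far hG ha ((mem_brn hG m ha x).mp hxa).1).symm.trans
      (tow_of_far hG hb ((mem_brn hG m hb x).mp hxb).1))
  have hset : bll G o (m + 1) = insert o ((G.neighborFinset o).biUnion fun z => brn G m o z) := by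
    ext x
    simp only [Finset.mem_insert, Finset.mem_biUnion, mem_neighborFinset, mem_bll hG.connected]
    constructor
    · intro hx
      by_cases hxo : x = o
      · exact Or.inl hxo
      · obtain ⟨ha, hd'⟩ := tow_spec hG (Ne.symm hxo)
        exact Or.inr ⟨_, ha, (mem_brn hG m ha x).mpr ⟨far_tow hG (Ne.symm hxo), by omega⟩⟩
    · rintro (rfl | ⟨z, hz, hx⟩)
      · simp
      · obtain ⟨hf, hd'⟩ := (mem_brn hG m hz x).mp hx
        have := far_dist hG hz hf
        rw [dist_comm (u := x), dist_comm (u := x) (v := z)] at this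
        omega
  rw [hset, Finset.sum_insert, Finset.sum_biUnion hd]
  simp only [Finset.mem_biUnion, mem_neighborFinset, not_exists, not_and]
  intro z hz hw
  exact not_far_self ((mem_brn hG m hz o).mp hw).1

lemma card_sph {d : ℕ} (hdeg : ∀ v, G.degree v = d) (v : V) (n : ℕ) :
    (sph G v (n + 1)).card = d * (d - 1) ^ n := by
  classical
  induction n with
  | zero =>
    simp only [sph, Finset.singleton_biUnion, pow_zero, mul_one]
    rw [Finset.filter_true_of_mem fun y hy => by
      rw [mem_neighborFinset] at hy; simp [dist_eq_one_iff_adj.mpr hy],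
      card_neighborFinset_eq_degree, hdeg]
  | succ n ih =>
    rw [sph, Finset.card_biUnion, Finset.sum_const_nat (m := d - 1), ih, pow_succ, mul_assoc]
    · intro x hx
      rw [mem_sph hG.connected] at hx
      have hne : x ≠ v := by rintro rfl; simp at hx
      have e : ((G.neighborFinset x).filter fun y => G.dist v y = n + 1 + 1) =
          (G.neighborFinset x).erase (tow G x v) := by
        ext y
        simp only [Finset.mem_filter, mem_neighborFinset, Finset.mem_erase]
        obtain ⟨ha, hd⟩ := tow_spec hG hne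
        constructor
        · rintro ⟨hy, hd'⟩
          refine ⟨?_, hy⟩
          rintro rfl
          rw [dist_comm (u := x), dist_comm (u := tow G x v)] at hd
          omega
        · rintro ⟨hny, hy⟩
          refine ⟨hy, ?_⟩
          rcases hG.dist_eq_dist_add_one_of_adj v hy with e | e
          · exact absurd (tow_eq hG hy (by rw [dist_comm (u := x), dist_comm (u := y)]; omega)).symm hny
          · omega
      rw [e, Finset.card_erase_of_mem ((G.mem_neighborFinset _ _).mpr (tow_adj hG hne)),
        card_neighborFinset_eq_degree, hdeg]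
    · intro a ha b hb hab
      rw [Function.onFun, Finset.disjoint_left]
      intro y hya hyb
      rw [Finset.mem_coe, mem_sph hG.connected] at ha hb
      simp only [Finset.mem_filter, mem_neighborFinset] at hya hyb
      exact hab (closer_unique hG hya.1 hyb.1 (u := v) (by omega) (by omega))

end Branches

section Symmetry

variable [G.LocallyFinite] {d : ℕ}

open Classical in
/-- The neighbours of `p` farther from `o`. -/
noncomputable def outs (G : SimpleGraph V) [G.LocallyFinite] (o p : V) : Finset V :=
  (G.neighborFinset p).filter fun y => G.dist o y = G.dist o p + 1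

lemma mem_outs {o p y : V} : y ∈ outs G o p ↔ G.Adj p y ∧ G.dist o y = G.dist o p + 1 := by
  classical
  simp [outs]

variable (hG : G.IsTree) (hdeg : ∀ v, G.degree v = d)
include hG hdeg

lemma card_outs {o o' p p' : V} (h : G.dist o p = G.dist o' p') :
    (outs G o p).card = (outs G o' p').card := by
  classical
  have key : ∀ o p : V, (outs G o p).card = if G.dist o p = 0 then d else d - 1 := by
    intro o p
    split_ifs with h0
    · obtain rfl := hG.connected.dist_eq_zero_iff.mp h0
      rw [outs, Finset.filter_true_of_mem fun y hy => by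
        rw [mem_neighborFinset] at hy; simp [dist_eq_one_iff_adj.mpr hy],
        card_neighborFinset_eq_degree, hdeg]
    · have hne : p ≠ o := by rintro rfl; simp at h0
      obtain ⟨ha, hd⟩ := tow_spec hG hne
      rw [dist_comm (u := p), dist_comm (u := tow G p o)] at hd
      have e : outs G o p = (G.neighborFinset p).erase (tow G p o) := by
        ext y
        simp only [mem_outs, Finset.mem_erase, mem_neighborFinset]
        constructor
        · rintro ⟨hy, hd'⟩
          exact ⟨by rintro rfl; omega, hy⟩
        · rintro ⟨hny, hy⟩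
          refine ⟨hy, ?_⟩
          rcases hG.dist_eq_dist_add_one_of_adj o hy with e | e
          · exact absurd (tow_eq hG hy (by rw [dist_comm (u := p), dist_comm (u := y)]; omega)).symm hny
          · omega
      rw [e, Finset.card_erase_of_mem ((G.mem_neighborFinset _ _).mpr ha),
        card_neighborFinset_eq_degree, hdeg]
  rw [key, key, h]

omit hdeg in
lemma tow_mem_outs {o u p : V} (hp : p ∈ geo G o u) (hne : p ≠ u) :
    tow G p u ∈ outs G o p := by
  obtain ⟨ha, hd⟩ := tow_spec hG hne
  rw [mem_geo hG] at hp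
  refine mem_outs.mpr ⟨ha, ?_⟩
  have t1 : G.dist o (tow G p u) ≤ G.dist o p + G.dist p (tow G p u) := hG.connected.dist_triangle
  have t2 : G.dist o u ≤ G.dist o (tow G p u) + G.dist (tow G p u) u := hG.connected.dist_triangle
  rw [dist_eq_one_iff_adj.mpr ha] at t1
  omega

/-- Automorphisms act transitively on pairs of vertices at a given distance. -/
theorem exists_iso {o u o' u' : V} (hd : G.dist o u = G.dist o' u') :
    ∃ g : G ≃g G, g o = o' ∧ g u = u' := by
  classical
  have hπ : ∀ p p' : V, G.dist o p = G.dist o' p' →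
      ∃ e : outs G o p ≃ outs G o' p',
        ∀ (hp : p ∈ geo G o u) (hpu : p ≠ u) (hp' : p' ∈ geo G o' u') (hpu' : p' ≠ u'),
          (e ⟨tow G p u, tow_mem_outs hG hp hpu⟩ : V) = tow G p' u' := by
    intro p p' hpp
    let e := Finset.equivOfCardEq (card_outs hG hdeg hpp)
    by_cases hc : p ∈ geo G o u ∧ p ≠ u ∧ p' ∈ geo G o' u' ∧ p' ≠ u'
    · obtain ⟨h1, h2, h3, h4⟩ := hc
      refine ⟨e.trans (Equiv.swap (e ⟨_, tow_mem_outs hG h1 h2⟩) ⟨_, tow_mem_outs hG h3 h4⟩),
        fun _ _ _ _ => ?_⟩
      simp
    · exact ⟨e, fun h1 h2 h3 h4 => absurd ⟨h1, h2, h3, h4⟩ hc⟩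
  choose π hπs using hπ
  let step : V → V → V → V := fun p p' y =>
    if h : G.dist o p = G.dist o' p' ∧ y ∈ outs G o p then (π p p' h.1 ⟨y, h.2⟩ : V) else y
  let back : V → V → V → V := fun p p' y =>
    if h : G.dist o p = G.dist o' p' ∧ y ∈ outs G o' p' then ((π p p' h.1).symm ⟨y, h.2⟩ : V) else y
  let F : ℕ → V → V := fun n =>
    Nat.rec (fun _ => o') (fun _ f x => step (tow G x o) (f (tow G x o)) x) n
  let B : ℕ → V → V := fun n =>
    Nat.rec (fun _ => o) (fun _ f x => back (f (tow G x o')) (tow G x o') x) n
  have hF : ∀ n x, G.dist o x = n → G.dist o' (F n x) = n ∧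
      (n ≠ 0 → tow G (F n x) o' = F (n - 1) (tow G x o)) ∧ B n (F n x) = x := by
    intro n
    induction n with
    | zero =>
      intro x hx
      refine ⟨by simp [F], fun h => absurd rfl h, ?_⟩
      obtain rfl := hG.connected.dist_eq_zero_iff.mp hx
      simp [B]
    | succ n ih =>
      intro x hx
      have hne : x ≠ o := by rintro rfl; simp at hx
      obtain ⟨ha, hdx⟩ := tow_spec hG hne
      rw [dist_comm (u := x), dist_comm (u := tow G x o)] at hdx
      obtain ⟨i1, -, i3⟩ := ih (tow G x o) (by omega)
      have hout : x ∈ outs G o (tow G x o) := mem_outs.mpr ⟨ha.symm, hdx⟩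
      have hdd : G.dist o (tow G x o) = G.dist o' (F n (tow G x o)) := by omega
      have eF : F (n + 1) x = (π _ _ hdd ⟨x, hout⟩ : V) := by
        show step (tow G x o) (F n (tow G x o)) x = _
        simp only [step]
        rw [dif_pos ⟨hdd, hout⟩]
      have hm := mem_outs.mp (π _ _ hdd ⟨x, hout⟩).2
      rw [← eF] at hm
      have htow : tow G (F (n + 1) x) o' = F n (tow G x o) :=
        tow_eq hG hm.1.symm (by rw [dist_comm, hm.2, dist_comm])
      refine ⟨by omega, fun _ => htow, ?_⟩
      show back (B n (tow G (F (n + 1) x) o')) (tow G (F (n + 1) x) o') (F (n + 1) x) = x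
      rw [htow, i3]
      simp only [back]
      rw [dif_pos ⟨hdd, eF ▸ (π _ _ hdd ⟨x, hout⟩).2⟩]
      have : (⟨F (n + 1) x, eF ▸ (π _ _ hdd ⟨x, hout⟩).2⟩ : outs G o' (F n (tow G x o))) =
          π _ _ hdd ⟨x, hout⟩ := Subtype.ext eF
      rw [this, Equiv.symm_apply_apply]
  have hB : ∀ n x, G.dist o' x = n → G.dist o (B n x) = n ∧
      (n ≠ 0 → tow G (B n x) o = B (n - 1) (tow G x o')) ∧ F n (B n x) = x := by
    intro n
    induction n with
    | zero =>
      intro x hx
      refine ⟨by simp [B], fun h => absurd rfl h, ?_⟩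
      obtain rfl := hG.connected.dist_eq_zero_iff.mp hx
      simp [F]
    | succ n ih =>
      intro x hx
      have hne : x ≠ o' := by rintro rfl; simp at hx
      obtain ⟨ha, hdx⟩ := tow_spec hG hne
      rw [dist_comm (u := x), dist_comm (u := tow G x o')] at hdx
      obtain ⟨i1, -, i3⟩ := ih (tow G x o') (by omega)
      have hout : x ∈ outs G o' (tow G x o') := mem_outs.mpr ⟨ha.symm, hdx⟩
      have hdd : G.dist o (B n (tow G x o')) = G.dist o' (tow G x o') := by omega
      have eB : B (n + 1) x = ((π _ _ hdd).symm ⟨x, hout⟩ : V) := by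
        show back (B n (tow G x o')) (tow G x o') x = _
        simp only [back]
        rw [dif_pos ⟨hdd, hout⟩]
      have hm := mem_outs.mp ((π _ _ hdd).symm ⟨x, hout⟩).2
      rw [← eB] at hm
      have htow : tow G (B (n + 1) x) o = B n (tow G x o') :=
        tow_eq hG hm.1.symm (by rw [dist_comm, hm.2, dist_comm])
      refine ⟨by omega, fun _ => htow, ?_⟩
      show step (tow G (B (n + 1) x) o) (F n (tow G (B (n + 1) x) o)) (B (n + 1) x) = x
      rw [htow, i3]
      simp only [step]
      rw [dif_pos ⟨hdd, eB ▸ ((π _ _ hdd).symm ⟨x, hout⟩).2⟩]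
      have : (⟨B (n + 1) x, eB ▸ ((π _ _ hdd).symm ⟨x, hout⟩).2⟩ : outs G o (B n (tow G x o'))) =
          (π _ _ hdd).symm ⟨x, hout⟩ := Subtype.ext eB
      rw [this, Equiv.apply_symm_apply]
  let f : V → V := fun x => F (G.dist o x) x
  let b : V → V := fun x => B (G.dist o' x) x
  have hbf : ∀ x, b (f x) = x := fun x => by
    obtain ⟨h1, -, h3⟩ := hF _ x rfl
    show B (G.dist o' (F _ x)) _ = x
    rw [h1, h3]
  have hfb : ∀ x, f (b x) = x := fun x => by
    obtain ⟨h1, -, h3⟩ := hB _ x rfl
    show F (G.dist o (B _ x)) _ = x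
    rw [h1, h3]
  have hfo : f o = o' := by simp [f, F]
  have hpar : ∀ x, x ≠ o → f x ≠ o' ∧ tow G (f x) o' = f (tow G x o) := by
    intro x hx
    have hne : f x ≠ o' := fun e => hx (by rw [← hbf x, e, ← hfo, hbf])
    refine ⟨hne, ?_⟩
    obtain ⟨-, hdx⟩ := tow_spec hG hx
    rw [dist_comm (u := x), dist_comm (u := tow G x o)] at hdx
    show tow G (F _ x) o' = F (G.dist o (tow G x o)) _
    rw [(hF _ x rfl).2.1 (by omega), show G.dist o x - 1 = G.dist o (tow G x o) by omega]
  have hadj : ∀ x y, G.Adj x y → G.Adj (f x) (f y) := by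
    intro x y hxy
    have key : ∀ x y, G.Adj x y → G.dist o x = G.dist o y + 1 → G.Adj (f x) (f y) := by
      intro x y hxy hd'
      have hx : x ≠ o := by rintro rfl; simp at hd'
      have : tow G x o = y := tow_eq hG hxy (by rw [dist_comm, hd', dist_comm])
      rw [← this, ← (hpar x hx).2]
      exact tow_adj hG (hpar x hx).1
    rcases hG.dist_eq_dist_add_one_of_adj o hxy with e | e
    · exact key x y hxy e
    · exact (key y x hxy.symm e).symm
  have hadj' : ∀ x y, G.Adj x y → G.Adj (b x) (b y) := by
    intro x y hxy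
    have key : ∀ x y, G.Adj x y → G.dist o' x = G.dist o' y + 1 → G.Adj (b x) (b y) := by
      intro x y hxy hd'
      have hx : b x ≠ o := fun e => by
        have : x = o' := by rw [← hfb x, e, hfo]
        subst this; simp at hd'
      have hy : tow G x o' = y := tow_eq hG hxy (by rw [dist_comm, hd', dist_comm])
      obtain ⟨-, h2⟩ := hpar (b x) hx
      rw [hfb, hy] at h2
      rw [h2, hbf]
      exact tow_adj hG hx
    rcases hG.dist_eq_dist_add_one_of_adj o' hxy with e | e
    · exact key x y hxy e
    · exact (key y x hxy.symm e).symm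
  let g : G ≃g G :=
    { toEquiv := ⟨f, b, hbf, hfb⟩
      map_rel_iff' := ⟨fun h => by simpa [hbf] using hadj' _ _ h, fun h => hadj _ _ h⟩ }
  refine ⟨g, hfo, ?_⟩
  suffices ∀ k c, G.dist c u = k → c ∈ geo G o u →
      G.dist o' (f c) = G.dist o c → f c ∈ geo G o' u' → f u = u' from
    this _ o rfl (left_mem_geo hG _ _) (by simp [hfo]) (hfo ▸ left_mem_geo hG _ _)
  intro k
  induction k with
  | zero =>
    intro c hk _ hcd hcg
    obtain rfl := hG.connected.dist_eq_zero_iff.mp hk
    exact geo_inj hG hcg (right_mem_geo hG _ _) (by omega)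
  | succ k ih =>
    intro c hk hc hcd hcg
    have hcu : c ≠ u := by rintro rfl; simp at hk
    have hcu' : f c ≠ u' := by
      intro e
      rw [mem_geo hG] at hc
      rw [e] at hcd
      omega
    obtain ⟨ha, hdk⟩ := tow_spec hG hcu
    have hout := tow_mem_outs hG hc hcu
    obtain ⟨-, hod⟩ := mem_outs.mp hout
    have htow : tow G (tow G c u) o = c := tow_eq hG ha.symm (by rw [dist_comm, hod, dist_comm])
    have hfc : F (G.dist o c) c = f c := rfl
    have e : f (tow G c u) = tow G (f c) u' := by
      show F (G.dist o (tow G c u)) (tow G c u) = _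
      rw [hod]
      show step (tow G (tow G c u) o) (F (G.dist o c) (tow G (tow G c u) o)) (tow G c u) = _
      rw [htow]
      simp only [step]
      rw [hfc, dif_pos ⟨hcd.symm, hout⟩]
      exact hπs c (f c) hcd.symm hc hcu hcg hcu'
    refine ih (tow G c u) (by omega) ?_ ?_ ?_
    · rw [mem_geo hG] at hc ⊢; omega
    · rw [e, hod, (mem_outs.mp (tow_mem_outs hG hcg hcu')).2, hcd]
    · rw [e]
      obtain ⟨ha', hd'⟩ := tow_spec hG hcu'
      have := (mem_outs.mp (tow_mem_outs hG hcg hcu')).2
      rw [mem_geo hG] at hcg ⊢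
      omega

end Symmetry

end Vale.Agent.P161.Crit
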