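import Vale.Agent.P161.Finite
import Vale.Agent.P161.Crit.Alg
import Vale.Agent.P161.Crit.Geo

/-!
# Ising measures in external fields on finite subtrees
-/

namespace Vale.Agent.P161.Crit

open SimpleGraph Vale.Agent.P161

variable {V : Type*} {G : SimpleGraph V} {θ : ℝ} {h : V → ℝ}

/-- A field has values in `(-1, 1)`. -/
def IsFld (h : V → ℝ) : Prop := ∀ v, |h v| < 1

/-- Unnormalised expectation in the field `h`. -/
noncomputable def Zf (G : SimpleGraph V) (θ : ℝ) (A : Finset V) (h : V → ℝ)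
    (F : (V → Bool) → ℝ) : ℝ :=
  Ev G θ A fun η => (∏ v ∈ A, (1 + h v * spin (η v))) * F η

/-- Magnetisation in the field `h`. -/
noncomputable def mu (G : SimpleGraph V) (θ : ℝ) (A : Finset V) (h : V → ℝ) (v : V) : ℝ :=
  Zf G θ A h (fun η => spin (η v)) / Zf G θ A h fun _ => 1

/-- Covariance in the field `h`. -/
noncomputable def Cv (G : SimpleGraph V) (θ : ℝ) (A : Finset V) (h : V → ℝ) (x y : V) : ℝ :=
  Zf G θ A h (fun η => spin (η x) * spin (η y)) / Zf G θ A h (fun _ => 1) -
    mu G θ A h x * mu G θ A h y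

open Classical in
/-- The part of `A` on the `y` side of the edge `{x, y}`. -/
noncomputable def half (G : SimpleGraph V) (A : Finset V) (x y : V) : Finset V :=
  A.filter fun z => Far G x y z

/-- The cavity magnetisation at `y` looking away from `x`. -/
noncomputable def cav (G : SimpleGraph V) (θ : ℝ) (A : Finset V) (h : V → ℝ) (x y : V) : ℝ :=
  mu G θ (half G A x y) h y

open Classical in
/-- The part of `A` hanging from `i` outside the directions `p` and `n`. -/
noncomputable def side (G : SimpleGraph V) (A : Finset V) (p i n : V) : Finset V :=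
  A.filter fun z => ¬ Far G i p z ∧ ¬ Far G i n z

lemma mem_half {A : Finset V} {x y z : V} : z ∈ half G A x y ↔ z ∈ A ∧ Far G x y z := by
  classical
  simp [half]

lemma mem_side {A : Finset V} {p i n z : V} :
    z ∈ side G A p i n ↔ z ∈ A ∧ ¬ Far G i p z ∧ ¬ Far G i n z := by
  classical
  simp [side]

lemma factor_pos (hh : IsFld h) (v : V) (η : V → Bool) : 0 < 1 + h v * spin (η v) := by
  obtain ⟨a, b⟩ := abs_lt.mp (hh v)
  rcases spin_cases (η v) with e | e <;> rw [e] <;> linarith

lemma prod_factor_pos (hh : IsFld h) (A : Finset V) (η : V → Bool) :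
    0 < ∏ v ∈ A, (1 + h v * spin (η v)) := Finset.prod_pos fun v _ => factor_pos hh v η

lemma Zf_one_pos (hθ : |θ| < 1) (hh : IsFld h) (A : Finset V) :
    0 < Zf G θ A h fun _ => 1 :=
  Ev_pos hθ fun η => by simpa using prod_factor_pos hh A η

lemma Zf_congr {A : Finset V} {F F' : (V → Bool) → ℝ} (he : ∀ η, F η = F' η) :
    Zf G θ A h F = Zf G θ A h F' := Ev_congr fun η => by rw [he η]

lemma Zf_add {A : Finset V} (F F' : (V → Bool) → ℝ) :
    Zf G θ A h (fun η => F η + F' η) = Zf G θ A h F + Zf G θ A h F' := by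
  simp only [Zf, ← Ev_add, mul_add]

lemma Zf_const_mul {A : Finset V} (c : ℝ) (F : (V → Bool) → ℝ) :
    Zf G θ A h (fun η => c * F η) = c * Zf G θ A h F := by
  rw [Zf, Zf, ← Ev_const_mul]; exact Ev_congr fun η => by ring

lemma mu_congr {A : Finset V} {h' : V → ℝ} (he : ∀ v ∈ A, h v = h' v) (v : V) :
    mu G θ A h v = mu G θ A h' v := by
  have : ∀ F, Zf G θ A h F = Zf G θ A h' F := fun F => Ev_congr fun η => by
    rw [Finset.prod_congr rfl fun w hw => by rw [he w hw]]
  simp only [mu, this]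

lemma abs_mu_lt (hθ : |θ| < 1) (hh : IsFld h) {A : Finset V} {v : V} (hv : v ∈ A) :
    |mu G θ A h v| < 1 := by
  have hp := Zf_one_pos (G := G) hθ hh A
  obtain ⟨p1, p2⟩ := Ev_cond_pos (G := G) hθ hv (fun η => prod_factor_pos hh A η)
  have e1 : Ev G θ A (fun η => (1 + spin (η v)) / 2 * ∏ w ∈ A, (1 + h w * spin (η w))) =
      Zf G θ A h (fun η => 1 / 2 * 1 + 1 / 2 * spin (η v)) := Ev_congr fun η => by ring
  have e2 : Ev G θ A (fun η => (1 - spin (η v)) / 2 * ∏ w ∈ A, (1 + h w * spin (η w))) =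
      Zf G θ A h (fun η => 1 / 2 * 1 + -1 / 2 * spin (η v)) := Ev_congr fun η => by ring
  rw [e1, Zf_add, Zf_const_mul, Zf_const_mul] at p1
  rw [e2, Zf_add, Zf_const_mul, Zf_const_mul] at p2
  rw [mu, abs_lt, lt_div_iff₀ hp, div_lt_iff₀ hp]
  constructor <;> linarith

lemma Cv_comm (A : Finset V) (x y : V) : Cv G θ A h x y = Cv G θ A h y x := by
  unfold Cv
  rw [Zf_congr (F' := fun η => spin (η y) * spin (η x)) fun η => mul_comm _ _, mul_comm (mu G θ A h x)]

lemma Cv_self (hθ : |θ| < 1) (hh : IsFld h) (A : Finset V) (x : V) :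
    Cv G θ A h x x = 1 - mu G θ A h x ^ 2 := by
  unfold Cv
  rw [Zf_congr (F' := fun _ => (1:ℝ)) fun η => spin_mul_self _,
    div_self (Zf_one_pos hθ hh A).ne']
  ring

section Split

variable (hG : G.IsTree)
include hG

lemma half_eq_not {x y : V} [DecidablePred fun z => Far G x y z] {A : Finset V} (h' : G.Adj x y) :
    half G A y x = A.filter fun z => ¬ Far G x y z := by
  ext z
  rw [mem_half, Finset.mem_filter, far_swap hG h']

lemma convex_half {A : Finset V} (hA : Convex' G A) {x y : V} (h' : G.Adj x y) :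
    Convex' G (half G A x y) := hA.filter_far hG h'

lemma Zf_split {A : Finset V} {u u' : V} (hu : u ∈ A) (hu' : u' ∈ A) (hadj : G.Adj u u')
    (F₁ F₂ : (V → Bool) → ℝ)
    (h1 : ∀ η η' : V → Bool, (∀ v ∈ half G A u' u, η v = η' v) → F₁ η = F₁ η')
    (h2 : ∀ η η' : V → Bool, (∀ v ∈ half G A u u', η v = η' v) → F₂ η = F₂ η') :
    Zf G θ A h (fun η => F₁ η * F₂ η) =
      Zf G θ (half G A u' u) h F₁ * Zf G θ (half G A u u') h F₂ +
        θ * (Zf G θ (half G A u' u) h (fun η => spin (η u) * F₁ η) *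
          Zf G θ (half G A u u') h (fun η => spin (η u') * F₂ η)) := by
  classical
  have e1 : half G A u' u = A.filter fun z => ¬ Far G u u' z := half_eq_not hG hadj
  have e2 : half G A u u' = A.filter fun z => Far G u u' z := by ext z; simp [mem_half]
  rw [e1] at h1 ⊢
  rw [e2] at h2 ⊢
  set A₁ := A.filter fun z => ¬ Far G u u' z
  set A₂ := A.filter fun z => Far G u u' z
  unfold Zf
  rw [Ev_congr (g := fun η => ((∏ v ∈ A₁, (1 + h v * spin (η v))) * F₁ η) *
      ((∏ v ∈ A₂, (1 + h v * spin (η v))) * F₂ η)) (fun η => by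
        rw [← Finset.prod_filter_mul_prod_filter_not A (fun z => Far G u u' z)]
        simp only [A₁, A₂]; ring),
    Ev_split hG hu hu' hadj _ _
      (fun η η' he => by rw [h1 η η' he, Finset.prod_congr rfl fun v hv => by rw [he v hv]])
      (fun η η' he => by rw [h2 η η' he, Finset.prod_congr rfl fun v hv => by rw [he v hv]])]
  congr 1
  congr 1
  congr 1 <;> exact Ev_congr fun η => by ring

variable (hθ : |θ| < 1) (hh : IsFld h)
include hθ hh

/-- The magnetisation at an end of an edge. -/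
lemma mu_edge {A : Finset V} {u u' : V} (hu : u ∈ A) (hu' : u' ∈ A) (hadj : G.Adj u u') :
    mu G θ A h u = (cav G θ A h u' u + θ * cav G θ A h u u') /
      (1 + θ * cav G θ A h u' u * cav G θ A h u u') := by
  have hu1 : u ∈ half G A u' u := mem_half.mpr ⟨hu, far_self hadj.symm⟩
  have hu2 : u' ∈ half G A u u' := mem_half.mpr ⟨hu', far_self hadj⟩
  have z := Zf_split (θ := θ) (h := h) hG hu hu' hadj (fun _ => 1) (fun _ => 1)
    (fun _ _ _ => rfl) (fun _ _ _ => rfl)
  have n := Zf_split (θ := θ) (h := h) hG hu hu' hadj (fun η => spin (η u)) (fun _ => 1)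
    (fun η η' he => by rw [he u hu1]) (fun _ _ _ => rfl)
  simp only [mul_one] at z n
  rw [Zf_congr (A := half G A u' u) (F := fun η => spin (η u) * spin (η u)) (F' := fun _ => 1)
    fun η => spin_mul_self _] at n
  have p1 := Zf_one_pos (G := G) hθ hh (half G A u' u)
  have p2 := Zf_one_pos (G := G) hθ hh (half G A u u')
  rw [mu, z, n, cav, cav, mu, mu]
  field_simp

/-- Covariance across an edge. -/
lemma Cv_step {A : Finset V} {u u' v : V} (hu : u ∈ A) (hv : v ∈ A) (hu' : u' ∈ A)
    (hadj : G.Adj u u') (hvf : Far G u u' v) :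
    Cv G θ A h u v = θ * (1 - cav G θ A h u' u ^ 2) /
      (1 + θ * cav G θ A h u' u * cav G θ A h u u') ^ 2 * Cv G θ (half G A u u') h u' v := by
  have hu1 : u ∈ half G A u' u := mem_half.mpr ⟨hu, far_self hadj.symm⟩
  have hu2 : u' ∈ half G A u u' := mem_half.mpr ⟨hu', far_self hadj⟩
  have hv2 : v ∈ half G A u u' := mem_half.mpr ⟨hv, hvf⟩
  have d1 : ∀ η η' : V → Bool, (∀ w ∈ half G A u' u, η w = η' w) → spin (η u) = spin (η' u) :=
    fun η η' he => by rw [he u hu1]
  have d2 : ∀ η η' : V → Bool, (∀ w ∈ half G A u u', η w = η' w) → spin (η v) = spin (η' v) :=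
    fun η η' he => by rw [he v hv2]
  have z := Zf_split (θ := θ) (h := h) hG hu hu' hadj (fun _ => 1) (fun _ => 1)
    (fun _ _ _ => rfl) (fun _ _ _ => rfl)
  have n := Zf_split (θ := θ) (h := h) hG hu hu' hadj (fun η => spin (η u)) (fun _ => 1)
    d1 (fun _ _ _ => rfl)
  have k := Zf_split (θ := θ) (h := h) hG hu hu' hadj (fun _ => 1) (fun η => spin (η v))
    (fun _ _ _ => rfl) d2
  have p := Zf_split (θ := θ) (h := h) hG hu hu' hadj (fun η => spin (η u)) (fun η => spin (η v))
    d1 d2
  simp only [mul_one, one_mul] at z n k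
  have hs : ∀ (B : Finset V) (x : V), Zf G θ B h (fun η => spin (η x) * spin (η x)) =
      Zf G θ B h fun _ => 1 := fun B x => Zf_congr fun η => spin_mul_self _
  rw [hs] at n p
  have p1 := Zf_one_pos (G := G) hθ hh (half G A u' u)
  have p2 := Zf_one_pos (G := G) hθ hh (half G A u u')
  have a0 := abs_mu_lt (G := G) hθ hh hu1
  have b0 := abs_mu_lt (G := G) hθ hh hu2
  have hden : (0:ℝ) < 1 + θ * (mu G θ (half G A u' u) h u) * (mu G θ (half G A u u') h u') := by
    have := one_add_mul_pos (x := mu G θ (half G A u' u) h u * θ)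
      (y := mu G θ (half G A u u') h u') (by
        rw [abs_mul]; exact mul_le_one₀ a0.le (abs_nonneg _) hθ.le) b0
    rw [mul_comm θ]; exact this
  unfold Cv
  rw [p]
  unfold mu at hden ⊢
  unfold cav mu
  rw [z, n, k]
  field_simp
  ring

lemma half_half {A : Finset V} {o o' x y : V} (ha : G.Adj o o') (hxy : G.Adj x y)
    (hxf : Far G o o' x) (hyd : G.dist o y = G.dist o x + 1) :
    half G (half G A o o') x y = half G A x y := by
  ext z
  rw [mem_half, mem_half, mem_half]
  refine ⟨fun hz => ⟨hz.1.1, hz.2⟩, fun ⟨hz, hf⟩ => ⟨⟨hz, ?_⟩, hf⟩⟩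
  by_contra hn
  have hox : ¬ Far G x y o := by unfold Far; omega
  have e0 := far_dist hG ha hxf
  rw [dist_comm (u := x), dist_comm (u := x) (v := o')] at e0
  have hox' : ¬ Far G x y o' := by
    unfold Far
    have : G.dist o y ≤ G.dist o o' + G.dist o' y := hG.connected.dist_triangle
    rw [dist_eq_one_iff_adj.mpr ha] at this
    omega
  have e1 := dist_across hG hxy hox hf
  have e2 := dist_across hG hxy hox' hf
  have e3 := not_far_dist hG ha hn
  rw [dist_comm (u := z) (v := o), dist_comm (u := z) (v := o')] at e3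
  omega

variable [G.LocallyFinite]

/-- The covariance is a product over the geodesic. -/
lemma Cv_path [DecidableEq V] : ∀ {A : Finset V}, Convex' G A → ∀ {o u : V}, o ∈ A → u ∈ A →
    Cv G θ A h o u = θ ^ G.dist o u * (1 - mu G θ A h o ^ 2) *
      ∏ c ∈ (geo G o u).erase o, rho θ (cav G θ A h (tow G c o) c) := by
  suffices ∀ n, ∀ {A : Finset V}, Convex' G A → ∀ {o u : V}, o ∈ A → u ∈ A → G.dist o u = n →
      Cv G θ A h o u = θ ^ n * (1 - mu G θ A h o ^ 2) *
        ∏ c ∈ (geo G o u).erase o, rho θ (cav G θ A h (tow G c o) c) from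
    fun {A} hA {o u} ho hu => this _ hA ho hu rfl
  intro n
  induction n with
  | zero =>
    intro A _ o u _ _ hd
    obtain rfl := hG.connected.dist_eq_zero_iff.mp hd
    simp [geo_self hG, Cv_self hθ hh]
  | succ n ih =>
    intro A hA o u ho hu hd
    have hne : o ≠ u := by rintro rfl; simp at hd
    obtain ⟨hadj, hd'⟩ := tow_spec hG hne
    set o' := tow G o u with ho'
    have ho'A : o' ∈ A := hA.step_mem ho hu hadj hd'
    have huf : Far G o o' u := far_tow hG hne
    rw [Cv_step hG hθ hh ho hu ho'A hadj huf,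
      ih (convex_half hG hA hadj) (mem_half.mpr ⟨ho'A, far_self hadj⟩) (mem_half.mpr ⟨hu, huf⟩)
        (by omega), geo_eq_insert hG hne, ← ho', Finset.erase_insert (geo_step hG hne).1,
      ← Finset.mul_prod_erase (geo G o' u) _ (left_mem_geo hG o' u)]
    rw [tow_adjacent hG hadj.symm]
    have hb : mu G θ (half G A o o') h o' = cav G θ A h o o' := rfl
    rw [hb, Finset.prod_congr rfl (g := fun c => rho θ (cav G θ A h (tow G c o) c)) fun c hc => by
      obtain ⟨hc1, hc2⟩ := Finset.mem_erase.mp hc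
      rw [tow_stable hG hne hc2 hc1]
      obtain ⟨hs1, hs2⟩ := tow_spec hG hc1
      unfold cav
      rw [half_half hG hθ hh hadj hs1.symm]
      · by_contra hn
        have := dist_across hG hadj hn huf
        have hm := ((geo_step hG hne).2 c).mpr (Or.inr hc2)
        rw [mem_geo hG] at hc2 hm
        have e := not_far_dist hG hadj hn
        have t : G.dist c o' ≤ G.dist c (tow G c o') + G.dist (tow G c o') o' := hG.connected.dist_triangle
        have t2 : G.dist o u ≤ G.dist o (tow G c o') + G.dist (tow G c o') u :=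
          hG.connected.dist_triangle
        have t3 : G.dist (tow G c o') u ≤ G.dist (tow G c o') c + G.dist c u :=
          hG.connected.dist_triangle
        rw [dist_eq_one_iff_adj.mpr hs1.symm] at t3
        rw [dist_comm (u := tow G c o') (v := o)] at e
        rw [dist_comm (u := c) (v := o')] at hs2
        rw [dist_comm (u := tow G c o') (v := o')] at hs2 e
        omega
      · have hts := tow_stable hG hne hc2 hc1
        have hco : c ≠ o := fun e => (geo_step hG hne).1 (by rw [e] at hc2; exact hc2)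
        have := (tow_spec hG hco).2
        rw [hts] at this
        rw [dist_comm (u := c), dist_comm (u := tow G c o')] at this
        exact this]
    rw [mu_edge hG hθ hh ho ho'A hadj]
    have a0 := abs_mu_lt (G := G) hθ hh (mem_half.mpr ⟨ho, far_self hadj.symm⟩ : o ∈ half G A o' o)
    have b0 := abs_mu_lt (G := G) hθ hh (mem_half.mpr ⟨ho'A, far_self hadj⟩ : o' ∈ half G A o o')
    change |cav G θ A h o' o| < 1 at a0
    change |cav G θ A h o o'| < 1 at b0
    set a := cav G θ A h o' o
    set b := cav G θ A h o o'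
    set P := ∏ c ∈ (geo G o' u).erase o', rho θ (cav G θ A h (tow G c o) c)
    have hZ : 0 < 1 + θ * a * b := by
      have := one_add_mul_pos (x := a * θ) (y := b)
        (by rw [abs_mul]; exact mul_le_one₀ a0.le (abs_nonneg _) hθ.le) b0
      rwa [mul_comm θ a]
    have h2 : 0 < 1 - θ ^ 2 * b ^ 2 := by
      have hlt : |θ * b| < 1 := by
        rw [abs_mul]; nlinarith [abs_nonneg θ, abs_nonneg b]
      rw [← mul_pow, ← sq_abs]
      nlinarith [abs_nonneg (θ * b)]
    rw [rho]
    field_simp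
    ring

end Split

section Weights

variable [G.LocallyFinite]

/-- Local weight at an inner vertex `i` between `p` and `n`. -/
noncomputable def om (G : SimpleGraph V) (θ : ℝ) (A : Finset V) (h : V → ℝ) (p i n : V) : ℝ :=
  cav G θ A h p i ^ 2 + cav G θ A h n i ^ 2 + mu G θ A h i ^ 2

/-- The weight of the geodesic between `x` and `y`. -/
noncomputable def Wt (G : SimpleGraph V) [G.LocallyFinite] (θ : ℝ) (A : Finset V) (h : V → ℝ)
    (x y : V) : ℝ :=
  Real.exp (-(1 / 256) * ∑ i ∈ inner' G x y, om G θ A h (tow G i x) i (tow G i y))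

lemma om_nonneg (θ : ℝ) (A : Finset V) (h : V → ℝ) (p i n : V) : 0 ≤ om G θ A h p i n := by
  unfold om; positivity

lemma Wt_le_one (θ : ℝ) (A : Finset V) (h : V → ℝ) (x y : V) : Wt G θ A h x y ≤ 1 :=
  Real.exp_le_one_iff.mpr (mul_nonpos_of_nonpos_of_nonneg (by norm_num)
    (Finset.sum_nonneg fun i _ => om_nonneg _ _ _ _ _ _))

variable (hG : G.IsTree)
include hG

lemma Wt_comm (θ : ℝ) (A : Finset V) (h : V → ℝ) (x y : V) :
    Wt G θ A h x y = Wt G θ A h y x := by
  unfold Wt
  rw [inner_comm hG x y]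
  congr 2
  refine Finset.sum_congr rfl fun i _ => ?_
  unfold om; ring

omit [G.LocallyFinite] in
lemma half_comm_side {A : Finset V} {p i n : V} (hp : G.Adj i p) (hn : G.Adj i n) :
    half G (half G A p i) n i = side G A p i n := by
  ext z
  rw [mem_half, mem_half, mem_side, far_swap hG hp, far_swap hG hn]
  tauto

omit [G.LocallyFinite] in
lemma half_half_side {A : Finset V} {p i n : V} (hp : G.Adj i p) (hn : G.Adj i n) (hne : n ≠ p) :
    half G (half G A p i) i n = half G A i n := by
  ext z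
  rw [mem_half, mem_half, mem_half]
  exact ⟨fun h => ⟨h.1.1, h.2⟩, fun h => ⟨⟨h.1, far_child hG hp.symm hn hne h.2⟩, h.2⟩⟩

variable (hθ0 : 0 ≤ θ) (hθ1 : θ < 1) (hh : IsFld h)
include hθ0 hθ1 hh

omit [G.LocallyFinite] in
lemma abs_cav_lt {A : Finset V} {x y : V} (hy : y ∈ A) (ha : G.Adj x y) :
    |cav G θ A h x y| < 1 :=
  abs_mu_lt (by rwa [abs_of_nonneg hθ0]) hh (mem_half.mpr ⟨hy, far_self ha⟩)

omit [G.LocallyFinite] in
lemma side_facts {A : Finset V} (hA : Convex' G A) {p i n : V} (hi : i ∈ A) (hp : p ∈ A)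
    (hn : n ∈ A) (hap : G.Adj i p) (han : G.Adj i n) (hne : n ≠ p) :
    |mu G θ A h i| ≤ |cav G θ A h n i| + |cav G θ A h i n| ∧
      mu G θ (side G A p i n) h i ^ 2 ≤ 3 * om G θ A h p i n := by
  have habs : |θ| < 1 := by rwa [abs_of_nonneg hθ0]
  set b := cav G θ A h p i
  set bb := cav G θ A h n i
  set c := cav G θ A h i n
  set c' := cav G θ A h i p
  set s := mu G θ (side G A p i n) h i
  set m := mu G θ A h i
  have hb := abs_cav_lt hG hθ0 hθ1 hh hi hap.symm
  have hbb := abs_cav_lt hG hθ0 hθ1 hh hi han.symm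
  have hc := abs_cav_lt hG hθ0 hθ1 hh hn han
  have hc' := abs_cav_lt hG hθ0 hθ1 hh hp hap
  have hside : i ∈ side G A p i n := mem_side.mpr ⟨hi, not_far_self, not_far_self⟩
  have hs : |s| < 1 := abs_mu_lt habs hh hside
  have scale : ∀ {x : ℝ}, |x| < 1 → |θ * x| < 1 ∧ |θ * x| ≤ |x| := fun {x} hx => by
    rw [abs_mul, abs_of_nonneg hθ0]
    have := mul_le_of_le_one_left (abs_nonneg x) hθ1.le
    exact ⟨this.trans_lt hx, this⟩
  have em : m = comp b (θ * c') := by
    show mu G θ A h i = _
    rw [mu_edge hG habs hh hi hp hap, comp]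
    show (b + θ * c') / (1 + θ * b * c') = _
    rw [mul_assoc, mul_left_comm]
  have em' : m = comp bb (θ * c) := by
    show mu G θ A h i = _
    rw [mu_edge hG habs hh hi hn han, comp]
    show (bb + θ * c) / (1 + θ * bb * c) = _
    rw [mul_assoc, mul_left_comm]
  have ebb : bb = comp s (θ * c') := by
    show mu G θ (half G A n i) h i = _
    have hpi : p ∈ half G A n i := mem_half.mpr ⟨hp, far_child hG han.symm hap (Ne.symm hne) (far_self hap)⟩
    rw [mu_edge hG habs hh (mem_half.mpr ⟨hi, far_self han.symm⟩) hpi hap, comp]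
    unfold cav
    rw [half_comm_side hG han hap, half_half_side hG han hap (Ne.symm hne)]
    have : side G A n i p = side G A p i n := by ext z; simp only [mem_side]; tauto
    rw [this]
    show (s + θ * c') / (1 + θ * s * c') = _
    rw [mul_assoc, mul_left_comm]
  refine ⟨?_, ?_⟩
  · rw [em']
    exact (abs_comp_le hbb.le (scale hc).1).trans (add_le_add le_rfl (scale hc).2)
  · obtain ⟨t1, -⟩ := scale hc'
    have et : θ * c' = comp m (-b) := by rw [em, comp_comm b, comp_neg_cancel t1.le hb]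
    have es : s = comp bb (-(θ * c')) := by rw [ebb, comp_neg_cancel hs.le t1]
    have l1 : |s| ≤ |bb| + |θ * c'| := by
      rw [es]
      refine (abs_comp_le hbb.le (by rwa [abs_neg])).trans ?_
      rw [abs_neg]
    have l2 : |θ * c'| ≤ |m| + |b| := by
      rw [et]
      refine (abs_comp_le (abs_mu_lt habs hh hi).le (by rwa [abs_neg])).trans ?_
      rw [abs_neg]
    show s ^ 2 ≤ 3 * (b ^ 2 + bb ^ 2 + m ^ 2)
    have : |s| ≤ |bb| + |m| + |b| := by linarith
    have h2 := pow_le_pow_left₀ (abs_nonneg s) this 2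
    rw [sq_abs] at h2
    nlinarith [sq_nonneg (|bb| - |m|), sq_nonneg (|bb| - |b|), sq_nonneg (|m| - |b|), sq_abs bb,
      sq_abs m, sq_abs b]

end Weights

/-- The sum of squared cavities along the geodesic, looking away from `o`. -/
noncomputable def Gs (G : SimpleGraph V) [G.LocallyFinite] [DecidableEq V] (θ : ℝ) (A : Finset V)
    (h : V → ℝ) (o u : V) : ℝ :=
  ∑ c ∈ (geo G o u).erase o, cav G θ A h (tow G c o) c ^ 2

section Path

variable [G.LocallyFinite] [DecidableEq V] (hG : G.IsTree)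
include hG

lemma path_edge {A : Finset V} (hA : Convex' G A) {o u c : V} (ho : o ∈ A) (hu : u ∈ A)
    (hc : c ∈ (geo G o u).erase o) :
    c ∈ A ∧ tow G c o ∈ A ∧ G.Adj (tow G c o) c ∧ tow G c o ∈ geo G o u := by
  obtain ⟨hne, hcg⟩ := Finset.mem_erase.mp hc
  have hcA := geo_subset hG hA ho hu hcg
  obtain ⟨ha, hd⟩ := tow_spec hG hne
  have htg : tow G c o ∈ geo G o c := by
    rw [geo_comm hG]; exact tow_mem_geo hG hne
  exact ⟨hcA, hA.step_mem hcA ho ha hd, ha.symm, geo_left_subset hG hcg htg⟩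

lemma sum_tow_le {o u : V} {f : V → ℝ} (hf : ∀ c, 0 ≤ f c) :
    ∑ c ∈ (geo G o u).erase o, f (tow G c o) ≤ ∑ c ∈ geo G o u, f c := by
  have hinj : Set.InjOn (fun c => tow G c o) ((geo G o u).erase o : Set V) := by
    intro a ha b hb hab
    obtain ⟨ha1, ha2⟩ := Finset.mem_erase.mp (Finset.mem_coe.mp ha)
    obtain ⟨hb1, hb2⟩ := Finset.mem_erase.mp (Finset.mem_coe.mp hb)
    have e1 := (tow_spec hG ha1).2
    have e2 := (tow_spec hG hb1).2
    simp only at hab
    rw [hab] at e1
    exact geo_inj hG ha2 hb2 (by rw [dist_comm, e1, ← e2, dist_comm])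
  rw [← Finset.sum_image (f := f) (g := fun c => tow G c o) hinj]
  refine Finset.sum_le_sum_of_subset_of_nonneg ?_ fun c _ _ => hf c
  intro x hx
  obtain ⟨c, hc, rfl⟩ := Finset.mem_image.mp hx
  obtain ⟨hne, hcg⟩ := Finset.mem_erase.mp hc
  exact geo_left_subset hG hcg (by rw [geo_comm hG]; exact tow_mem_geo hG hne)

variable (hθ0 : 0 ≤ θ) (hθ1 : θ < 1) (hh : IsFld h)
include hθ0 hθ1 hh

/-- The weight dominates the exponential of both directed sums. -/
lemma exp_Gs_le_Wt {A : Finset V} (hA : Convex' G A) {o u : V} (ho : o ∈ A) (hu : u ∈ A) :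
    Real.exp (-(3 / 256) * (Gs G θ A h o u + Gs G θ A h u o)) ≤ Wt G θ A h o u := by
  refine Real.exp_le_exp.mpr ?_
  have key : ∀ i ∈ inner' G o u, om G θ A h (tow G i o) i (tow G i u) ≤
      cav G θ A h (tow G i o) i ^ 2 + 3 * cav G θ A h (tow G i u) i ^ 2 +
        2 * cav G θ A h i (tow G i u) ^ 2 := by
    intro i hi
    obtain ⟨gi, i1, i2⟩ := (mem_inner hG).mp hi
    have hiA := geo_subset hG hA ho hu gi
    have hn : tow G i u ≠ tow G i o := by
      intro e
      obtain ⟨ha, h1⟩ := tow_spec hG i1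
      obtain ⟨-, h2⟩ := tow_spec hG i2
      rw [mem_geo hG] at gi
      rw [e] at h2
      have t : G.dist o u ≤ G.dist o (tow G i o) + G.dist (tow G i o) u := hG.connected.dist_triangle
      rw [dist_comm (u := tow G i o) (v := o), dist_comm (u := i) (v := o)] at h1
      omega
    have hm := (side_facts hG hθ0 hθ1 hh hA hiA (hA.step_mem hiA ho (tow_adj hG i1) (tow_spec hG i1).2)
      (hA.step_mem hiA hu (tow_adj hG i2) (tow_spec hG i2).2) (tow_adj hG i1) (tow_adj hG i2) hn).1
    have h2 := pow_le_pow_left₀ (abs_nonneg _) hm 2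
    rw [sq_abs] at h2
    unfold om
    nlinarith [sq_nonneg (|cav G θ A h (tow G i u) i| - |cav G θ A h i (tow G i u)|),
      sq_abs (cav G θ A h (tow G i u) i), sq_abs (cav G θ A h i (tow G i u))]
  have s1 : ∑ i ∈ inner' G o u, cav G θ A h (tow G i o) i ^ 2 ≤ Gs G θ A h o u := by
    refine Finset.sum_le_sum_of_subset_of_nonneg (fun i hi => ?_) fun _ _ _ => sq_nonneg _
    obtain ⟨gi, i1, -⟩ := (mem_inner hG).mp hi
    exact Finset.mem_erase.mpr ⟨i1, gi⟩
  have s2 : ∑ i ∈ inner' G o u, cav G θ A h (tow G i u) i ^ 2 ≤ Gs G θ A h u o := by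
    refine Finset.sum_le_sum_of_subset_of_nonneg (fun i hi => ?_) fun _ _ _ => sq_nonneg _
    obtain ⟨gi, -, i2⟩ := (mem_inner hG).mp hi
    exact Finset.mem_erase.mpr ⟨i2, geo_comm hG o u ▸ gi⟩
  have s3 : ∑ i ∈ inner' G o u, cav G θ A h i (tow G i u) ^ 2 ≤ Gs G θ A h o u := by
    have htow : ∀ i ∈ inner' G o u,
        tow G i u ∈ (geo G o u).erase o ∧ tow G (tow G i u) o = i := by
      intro i hi
      obtain ⟨gi, -, i2⟩ := (mem_inner hG).mp hi
      obtain ⟨ha, hd⟩ := mem_outs.mp (tow_mem_outs hG gi i2)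
      refine ⟨Finset.mem_erase.mpr ⟨fun e => by rw [e] at hd; simp at hd,
        geo_left_subset hG (geo_comm hG o u ▸ gi) (geo_comm hG i u ▸ tow_mem_geo hG i2) |>
          fun h => geo_comm hG u o ▸ h⟩, tow_eq hG ha.symm ?_⟩
      rw [dist_comm, hd, dist_comm]
    have hinj : Set.InjOn (fun i => tow G i u) (inner' G o u : Set V) := by
      intro a ha b hb hab
      simp only at hab
      rw [← (htow a (Finset.mem_coe.mp ha)).2, hab, (htow b (Finset.mem_coe.mp hb)).2]
    have e : ∑ i ∈ inner' G o u, cav G θ A h i (tow G i u) ^ 2 =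
        ∑ c ∈ (inner' G o u).image (fun i => tow G i u), cav G θ A h (tow G c o) c ^ 2 := by
      rw [Finset.sum_image hinj]
      exact Finset.sum_congr rfl fun i hi => by rw [(htow i hi).2]
    rw [e]
    refine Finset.sum_le_sum_of_subset_of_nonneg (fun x hx => ?_) fun _ _ _ => sq_nonneg _
    obtain ⟨i, hi, rfl⟩ := Finset.mem_image.mp hx
    exact (htow i hi).1
  have := Finset.sum_le_sum key
  rw [Finset.sum_add_distrib, Finset.sum_add_distrib, ← Finset.mul_sum, ← Finset.mul_sum] at this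
  linarith

end Path

end Vale.Agent.P161.Crit
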