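import Vale.Agent.P161.Cube
import Vale.Agent.P161.Crit.Field

/-!
# Weak observations of every spin
-/

namespace Vale.Agent.P161.Crit

open MeasureTheory ProbabilityTheory unitInterval Function SimpleGraph Vale.Agent.P161

variable {V : Type*} {G : SimpleGraph V} {θ : ℝ}

/-- Strengths of observations that can be used. -/
def IsStr (e : V × ℕ → ℝ) : Prop := ∀ j, e j ∈ Set.Icc (0 : ℝ) (1 / 4)

/-- The signed reading of an observation. -/
def zed (t : I) : ℝ := 2 * (t : ℝ) - 1

lemma abs_zed_le (t : I) : |zed t| ≤ 1 :=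
  abs_le.mpr ⟨by simp only [zed]; linarith [t.2.1], by simp only [zed]; linarith [t.2.2]⟩

lemma zed_symm (t : I) : zed (σ t) = -zed t := by simp [zed, coe_symm_eq]; ring

lemma continuous_zed : Continuous zed := by unfold zed; fun_prop

/-- Likelihood of the first `K` readings at `v` for spin `s`. -/
noncomputable def lkv (K : ℕ) (e : V × ℕ → ℝ) (y : V × ℕ → I) (v : V) (s : ℝ) : ℝ :=
  ∏ k ∈ Finset.range K, (1 + e (v, k) * s * zed (y (v, k)))

/-- Likelihood of the readings in `A`. -/
noncomputable def lkA (A : Finset V) (K : ℕ) (e : V × ℕ → ℝ) (η : V → Bool) (y : V × ℕ → I) : ℝ :=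
  ∏ v ∈ A, lkv K e y v (spin (η v))

/-- The field produced by the readings at `v`. -/
noncomputable def fld (K : ℕ) (e : V × ℕ → ℝ) (y : V × ℕ → I) (v : V) : ℝ :=
  (lkv K e y v 1 - lkv K e y v (-1)) / (lkv K e y v 1 + lkv K e y v (-1))

/-- The constant left over by the field. -/
noncomputable def cst (A : Finset V) (K : ℕ) (e : V × ℕ → ℝ) (y : V × ℕ → I) : ℝ :=
  ∏ v ∈ A, (lkv K e y v 1 + lkv K e y v (-1)) / 2

/-- The density of the readings. -/
noncomputable def den (G : SimpleGraph V) (θ : ℝ) (A : Finset V) (K : ℕ) (e : V × ℕ → ℝ)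
    (y : V × ℕ → I) : ℝ := Ev G θ A fun η => lkA A K e η y

/-- Expectation over the readings of strengths `e`. -/
noncomputable def Ex (G : SimpleGraph V) (θ : ℝ) (A : Finset V) (K : ℕ) (e : V × ℕ → ℝ)
    (F : (V × ℕ → I) → ℝ) : ℝ := ∫ y, F y * den G θ A K e y ∂iidLabels (V × ℕ)

/-- The posterior magnetisation. -/
noncomputable abbrev mag (G : SimpleGraph V) (θ : ℝ) (A : Finset V) (K : ℕ) (e : V × ℕ → ℝ)
    (y : V × ℕ → I) (v : V) : ℝ := mu G θ A (fld K e y) v

/-- The posterior covariance. -/
noncomputable abbrev cov' (G : SimpleGraph V) (θ : ℝ) (A : Finset V) (K : ℕ) (e : V × ℕ → ℝ)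
    (y : V × ℕ → I) (v w : V) : ℝ := Cv G θ A (fld K e y) v w

section Basic

variable {K : ℕ} {e : V × ℕ → ℝ} (he : IsStr e)
include he

lemma lkv_pos (y : V × ℕ → I) (v : V) {s : ℝ} (hs : |s| ≤ 1) : 0 < lkv K e y v s := by
  refine Finset.prod_pos fun k _ => ?_
  obtain ⟨h0, h1⟩ := he (v, k)
  have : |e (v, k) * s * zed (y (v, k))| ≤ 1 / 4 := by
    rw [abs_mul, abs_mul, abs_of_nonneg h0]
    calc e (v, k) * |s| * |zed (y (v, k))| ≤ 1 / 4 * 1 * 1 :=
          mul_le_mul (mul_le_mul h1 hs (abs_nonneg _) (by norm_num)) (abs_zed_le _)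
            (abs_nonneg _) (by norm_num)
      _ = _ := by norm_num
  linarith [(abs_le.mp this).1]

lemma isFld_fld (y : V × ℕ → I) : IsFld (fld K e y) := fun v => by
  have a := lkv_pos (K := K) he y v (s := 1) (by simp)
  have b := lkv_pos (K := K) he y v (s := -1) (by simp)
  rw [fld, abs_lt, lt_div_iff₀ (by linarith), div_lt_iff₀ (by linarith)]
  constructor <;> linarith

lemma cst_pos (A : Finset V) (y : V × ℕ → I) : 0 < cst A K e y := by
  refine Finset.prod_pos fun v _ => ?_
  have a := lkv_pos (K := K) he y v (s := 1) (by simp)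
  have b := lkv_pos (K := K) he y v (s := -1) (by simp)
  linarith

lemma lkA_pos (A : Finset V) (η : V → Bool) (y : V × ℕ → I) : 0 < lkA A K e η y :=
  Finset.prod_pos fun v _ => lkv_pos he y v (abs_spin _).le

lemma lkA_eq (A : Finset V) (η : V → Bool) (y : V × ℕ → I) :
    lkA A K e η y = cst A K e y * ∏ v ∈ A, (1 + fld K e y v * spin (η v)) := by
  rw [cst, ← Finset.prod_mul_distrib]
  refine Finset.prod_congr rfl fun v _ => ?_
  have a := lkv_pos (K := K) he y v (s := 1) (by simp)
  have b := lkv_pos (K := K) he y v (s := -1) (by simp)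
  rcases spin_cases (η v) with h | h <;> rw [h, fld] <;> field_simp <;> ring

lemma Ev_lkA (A : Finset V) (y : V × ℕ → I) (F : (V → Bool) → ℝ) :
    Ev G θ A (fun η => lkA A K e η y * F η) = cst A K e y * Zf G θ A (fld K e y) F := by
  rw [Zf, ← Ev_const_mul]
  exact Ev_congr fun η => by rw [lkA_eq he]; ring

lemma den_eq (A : Finset V) (y : V × ℕ → I) :
    den G θ A K e y = cst A K e y * Zf G θ A (fld K e y) fun _ => 1 := by
  rw [← Ev_lkA he]; exact Ev_congr fun η => (mul_one _).symm

lemma den_pos (hθ : |θ| < 1) (A : Finset V) (y : V × ℕ → I) : 0 < den G θ A K e y :=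
  Ev_pos hθ fun η => lkA_pos he A η y

lemma den_mul_mag (hθ : |θ| < 1) (A : Finset V) (y : V × ℕ → I) (v : V) :
    den G θ A K e y * mag G θ A K e y v = Ev G θ A fun η => lkA A K e η y * spin (η v) := by
  rw [den_eq he, Ev_lkA he, mag, mu]
  field_simp [(Zf_one_pos (G := G) hθ (isFld_fld (K := K) he y) A).ne']

lemma continuous_lkv (v : V) (s : ℝ) : Continuous fun y : V × ℕ → I => lkv K e y v s := by
  unfold lkv
  exact continuous_finsetProd _ fun k _ =>
    continuous_const.add (continuous_const.mul (continuous_zed.comp (continuous_apply _)))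

lemma continuous_fld (v : V) : Continuous fun y : V × ℕ → I => fld K e y v :=
  ((continuous_lkv he v 1).sub (continuous_lkv he v (-1))).div
    ((continuous_lkv he v 1).add (continuous_lkv he v (-1)))
    fun y => by
      have a := lkv_pos (K := K) he y v (s := 1) (by simp)
      have b := lkv_pos (K := K) he y v (s := -1) (by simp)
      linarith

lemma continuous_den (A : Finset V) : Continuous fun y : V × ℕ → I => den G θ A K e y := by
  unfold den Ev lkA
  exact continuous_finsetSum _ fun s _ =>
    continuous_const.mul (continuous_finsetProd _ fun v _ => continuous_lkv he v _)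

lemma continuous_Zf (A : Finset V) (F : (V → Bool) → ℝ) :
    Continuous fun y : V × ℕ → I => Zf G θ A (fld K e y) F := by
  unfold Zf Ev
  exact continuous_finsetSum _ fun s _ => continuous_const.mul
    ((continuous_finsetProd _ fun v _ =>
      continuous_const.add ((continuous_fld he v).mul continuous_const)).mul continuous_const)

lemma continuous_mag (hθ : |θ| < 1) (A : Finset V) (v : V) :
    Continuous fun y : V × ℕ → I => mag G θ A K e y v :=
  (continuous_Zf he A _).div (continuous_Zf he A _)
    fun y => (Zf_one_pos hθ (isFld_fld he y) A).ne'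

lemma continuous_cav (hθ : |θ| < 1) (A : Finset V) (x v : V) :
    Continuous fun y : V × ℕ → I => cav G θ A (fld K e y) x v :=
  continuous_mag he hθ _ v

lemma continuous_Cv (hθ : |θ| < 1) (A : Finset V) (v w : V) :
    Continuous fun y : V × ℕ → I => cov' G θ A K e y v w :=
  ((continuous_Zf he A _).div (continuous_Zf he A _)
    fun y => (Zf_one_pos hθ (isFld_fld he y) A).ne').sub
      ((continuous_mag he hθ A v).mul (continuous_mag he hθ A w))

lemma continuous_Wt [G.LocallyFinite] (hθ : |θ| < 1) (A : Finset V) (x w : V) :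
    Continuous fun y : V × ℕ → I => Wt G θ A (fld K e y) x w := by
  unfold Wt om
  exact Real.continuous_exp.comp (continuous_const.mul (continuous_finsetSum _ fun i _ =>
    (((continuous_cav he hθ A _ _).pow 2).add ((continuous_cav he hθ A _ _).pow 2)).add
      ((continuous_mag he hθ A _).pow 2)))

end Basic

lemma fld_congr {K : ℕ} {e e' : V × ℕ → ℝ} {y y' : V × ℕ → I} {v : V}
    (h : ∀ k < K, e (v, k) * zed (y (v, k)) = e' (v, k) * zed (y' (v, k))) :
    fld K e y v = fld K e' y' v := by
  have key : ∀ s, lkv K e y v s = lkv K e' y' v s := fun s =>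
    Finset.prod_congr rfl fun k hk => by
      rw [mul_right_comm, h k (Finset.mem_range.mp hk), mul_right_comm]
  simp only [fld, key]

lemma fld_dependsOn (K : ℕ) (e : V × ℕ → ℝ) :
    DependsOn (fld K e) {j : V × ℕ | e j ≠ 0} := fun y y' h => funext fun v => by
  refine fld_congr fun k _ => ?_
  by_cases he : e (v, k) = 0
  · simp [he]
  · rw [h (v, k) he]

lemma fld_eq_zero {K : ℕ} {e : V × ℕ → ℝ} {y : V × ℕ → I} {v : V} (h : ∀ k < K, e (v, k) = 0) :
    fld K e y v = 0 := by
  have key : ∀ s, lkv K e y v s = 1 := fun s =>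
    Finset.prod_eq_one fun k hk => by simp [h k (Finset.mem_range.mp hk)]
  simp [fld, key]

lemma fld_symm (K : ℕ) (e : V × ℕ → ℝ) (y : V × ℕ → I) :
    fld K e (fun j => σ (y j)) = fun v => -fld K e y v := funext fun v => by
  have key : ∀ s, lkv K e (fun j => σ (y j)) v s = lkv K e y v (-s) := fun s =>
    Finset.prod_congr rfl fun k _ => by simp [zed_symm]
  simp only [fld, key, neg_neg]
  rw [← neg_div, neg_sub, add_comm]

/-- Adding one observation. -/
lemma lkA_update [DecidableEq V] {A : Finset V} {K : ℕ} {e : V × ℕ → ℝ} {w : V} {k : ℕ}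
    (hw : w ∈ A) (hk : k < K) (h0 : e (w, k) = 0) (a : ℝ) (η : V → Bool) (y : V × ℕ → I) :
    lkA A K (update e (w, k) a) η y =
      (1 + a * spin (η w) * zed (y (w, k))) * lkA A K e η y := by
  unfold lkA
  rw [← Finset.mul_prod_erase A _ hw, ← Finset.mul_prod_erase A (fun v => lkv K e y v _) hw,
    ← mul_assoc]
  congr 1
  · unfold lkv
    rw [← Finset.mul_prod_erase _ _ (Finset.mem_range.mpr hk),
      ← Finset.mul_prod_erase (Finset.range K) (fun l => 1 + e (w, l) * _ * _)
        (Finset.mem_range.mpr hk), update_self, h0, zero_mul, zero_mul, add_zero, one_mul]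
    congr 1
    refine Finset.prod_congr rfl fun l hl => ?_
    rw [update_of_ne]
    simp [(Finset.mem_erase.mp hl).1]
  · refine Finset.prod_congr rfl fun v hv => Finset.prod_congr rfl fun l _ => ?_
    rw [update_of_ne]
    simp [(Finset.mem_erase.mp hv).1]

lemma isStr_update [DecidableEq V] {e : V × ℕ → ℝ} (he : IsStr e) {a : ℝ}
    (ha : a ∈ Set.Icc (0 : ℝ) (1 / 4)) (j : V × ℕ) : IsStr (update e j a) := fun i => by
  by_cases h : i = j
  · subst h; simpa using ha
  · simpa [h] using he i

/-- The jump caused by one observation. -/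
noncomputable def jmp (a z m C : ℝ) : ℝ := a * z * C / (1 + a * z * m)

lemma den_update [DecidableEq V] (hθ : |θ| < 1) {A : Finset V} {K : ℕ} {e : V × ℕ → ℝ}
    (he : IsStr e) {w : V} {k : ℕ} (hw : w ∈ A) (hk : k < K) (h0 : e (w, k) = 0) (a : ℝ)
    (y : V × ℕ → I) :
    den G θ A K (update e (w, k) a) y =
      den G θ A K e y * (1 + a * zed (y (w, k)) * mag G θ A K e y w) := by
  rw [mul_add, mul_one, mul_left_comm, den_mul_mag he hθ, den, den, ← Ev_const_mul, ← Ev_add]
  exact Ev_congr fun η => by rw [lkA_update hw hk h0]; ring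

lemma mag_update [DecidableEq V] (hθ : |θ| < 1) {A : Finset V} {K : ℕ} {e : V × ℕ → ℝ}
    (he : IsStr e) {w : V} {k : ℕ} (hw : w ∈ A) (hk : k < K) (h0 : e (w, k) = 0) {a : ℝ}
    (ha : a ∈ Set.Icc (0 : ℝ) (1 / 4)) (y : V × ℕ → I) (v : V) :
    mag G θ A K (update e (w, k) a) y v = mag G θ A K e y v +
      jmp a (zed (y (w, k))) (mag G θ A K e y w) (cov' G θ A K e y v w) := by
  have he' := isStr_update he ha (w, k)
  have d := den_update (G := G) hθ he hw hk h0 a y
  have dp := den_pos (G := G) (K := K) he' hθ A y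
  have p := den_pos (G := G) (K := K) he hθ A y
  set z := zed (y (w, k))
  have n : den G θ A K (update e (w, k) a) y * mag G θ A K (update e (w, k) a) y v =
      den G θ A K e y * (mag G θ A K e y v + a * z *
        (Zf G θ A (fld K e y) (fun η => spin (η v) * spin (η w)) /
          Zf G θ A (fld K e y) fun _ => 1)) := by
    rw [den_mul_mag he' hθ, Ev_congr (g := fun η => lkA A K e η y * spin (η v) +
      a * z * (lkA A K e η y * (spin (η v) * spin (η w))))
      fun η => by rw [lkA_update hw hk h0]; ring, Ev_add, Ev_const_mul, mul_add,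
      den_mul_mag he hθ, Ev_lkA he A y (fun η => spin (η v) * spin (η w)), den_eq he]
    have := (Zf_one_pos (G := G) hθ (isFld_fld (K := K) he y) A).ne'
    field_simp
  rw [d] at n dp
  have hm : 0 < 1 + a * z * mag G θ A K e y w := (mul_pos_iff_of_pos_left p).mp dp
  rw [mul_assoc] at n
  have n' := mul_left_cancel₀ p.ne' n
  have hC : cov' G θ A K e y v w = Zf G θ A (fld K e y) (fun η => spin (η v) * spin (η w)) /
      Zf G θ A (fld K e y) (fun _ => 1) - mag G θ A K e y v * mag G θ A K e y w := rfl
  rw [jmp, hC, eq_comm, add_div' _ _ _ hm.ne', div_eq_iff hm.ne']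
  linarith

section Flip

variable [DecidableEq V]

lemma Ev_flip (G : SimpleGraph V) (θ : ℝ) (A : Finset V) (f : (V → Bool) → ℝ)
    (hf : ∀ η η' : V → Bool, (∀ v ∈ A, η v = η' v) → f η = f η') :
    Ev G θ A (fun η => f fun v => !η v) = Ev G θ A f := by
  unfold Ev
  have hc : ∀ s ∈ A.powerset, ∀ v ∈ A, (!cfg s v) = cfg (A \ s) v := fun s _ v hv => by
    by_cases h : v ∈ s <;> simp [cfg, hv, h]
  refine Finset.sum_nbij' (fun s => A \ s) (fun s => A \ s) (by simp) (by simp) ?_ ?_ ?_
  · intro s hs; exact Finset.sdiff_sdiff_eq_self (Finset.mem_powerset.mp hs)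
  · intro s hs; exact Finset.sdiff_sdiff_eq_self (Finset.mem_powerset.mp hs)
  · intro s hs
    beta_reduce
    rw [hf _ _ (hc s hs)]
    congr 1
    unfold prior
    congr 1
    refine Finset.prod_congr rfl fun e he => ?_
    induction e using Sym2.ind with
    | _ x y =>
      obtain ⟨-, hx, hy⟩ := mem_edgesIn.mp he
      rw [edgeWeight_mk, edgeWeight_mk, ← hc s hs x hx, ← hc s hs y hy]
      cases cfg s x <;> cases cfg s y <;> simp [spin]

lemma Zf_neg (A : Finset V) (h : V → ℝ) {F : (V → Bool) → ℝ}
    (hF : ∀ η η' : V → Bool, (∀ v ∈ A, η v = η' v) → F η = F η') :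
    Zf G θ A (fun v => -h v) F = Zf G θ A h fun η => F fun v => !η v := by
  unfold Zf
  rw [← Ev_flip G θ A _ (fun η η' he => by
    rw [hF η η' he, Finset.prod_congr rfl fun v hv => by rw [he v hv]])]
  refine Ev_congr fun η => ?_
  congr 1
  exact Finset.prod_congr rfl fun v _ => by cases hh : η v <;> simp [spin, hh]

lemma mu_neg {A : Finset V} (h : V → ℝ) {v : V} (hv : v ∈ A) :
    mu G θ A (fun w => -h w) v = -mu G θ A h v := by
  rw [mu, mu, Zf_neg A h (F := fun η => spin (η v)) (fun η η' he => by rw [he v hv]),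
    Zf_neg A h (F := fun _ => 1) (fun _ _ _ => rfl),
    Zf_congr (F' := fun η => -1 * spin (η v)) (fun η => by cases hh : η v <;> simp [spin, hh]),
    Zf_const_mul]
  ring

lemma Cv_neg {A : Finset V} (h : V → ℝ) {v w : V} (hv : v ∈ A) (hw : w ∈ A) :
    Cv G θ A (fun u => -h u) v w = Cv G θ A h v w := by
  unfold Cv
  rw [mu_neg h hv, mu_neg h hw,
    Zf_neg A h (F := fun η => spin (η v) * spin (η w)) (fun η η' he => by rw [he v hv, he w hw]),
    Zf_neg A h (F := fun _ => 1) (fun _ _ _ => rfl),
    Zf_congr (F := fun η => spin (!η v) * spin (!η w)) (F' := fun η => spin (η v) * spin (η w))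
      (fun η => by cases hh : η v <;> cases hw : η w <;> simp [spin, hh, hw])]
  ring

end Flip

section Product

variable {ι : Type*}

lemma integral_mul_disjoint [Countable ι] {S T : Finset ι} (hST : Disjoint S T)
    {f g : (ι → I) → ℝ} (hf : Measurable f) (hg : Measurable g) (hfS : DependsOn f (S : Set ι))
    (hgT : DependsOn g (T : Set ι)) :
    ∫ u, f u * g u ∂iidLabels ι = (∫ u, f u ∂iidLabels ι) * ∫ u, g u ∂iidLabels ι := by
  classical
  have h := (iIndepFun_infinitePi (P := fun _ : ι => (volume : Measure I))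
    (X := fun (_ : ι) (x : I) => x) (fun _ => measurable_id)).indepFun_finset S T hST
    (fun i => measurable_pi_apply i)
  set φ : ∀ S : Finset ι, (S → I) → ι → I := fun S x i => if hi : i ∈ S then x ⟨i, hi⟩ else 0
  have hφ : ∀ S, Measurable (φ S) := fun S => measurable_pi_lambda _ fun i => by
    by_cases hi : i ∈ S
    · simpa [φ, hi] using measurable_pi_apply (⟨i, hi⟩ : S)
    · simp [φ, hi]
  have ef : f = fun u => f (φ S fun i => u i) := funext fun u => hfS fun i hi => by
    simp [φ, Finset.mem_coe.mp hi]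
  have eg : g = fun u => g (φ T fun i => u i) := funext fun u => hgT fun i hi => by
    simp [φ, Finset.mem_coe.mp hi]
  have hind := h.comp (hf.comp (hφ S)) (hg.comp (hφ T))
  have mS : Measurable fun (u : ι → I) (i : S) => u i :=
    measurable_pi_lambda _ fun i => measurable_pi_apply i.1
  have mT : Measurable fun (u : ι → I) (i : T) => u i :=
    measurable_pi_lambda _ fun i => measurable_pi_apply i.1
  have := hind.integral_fun_mul_eq_mul_integral
    ((hf.comp (hφ S)).comp mS).aestronglyMeasurable
    ((hg.comp (hφ T)).comp mT).aestronglyMeasurable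
  rw [ef, eg]
  exact this

end Product

section Expectation

variable [Countable V] [DecidableEq V] {K : ℕ} {e : V × ℕ → ℝ}

lemma Ex_const_mul (A : Finset V) (c : ℝ) (F : (V × ℕ → I) → ℝ) :
    Ex G θ A K e (fun y => c * F y) = c * Ex G θ A K e F := by
  rw [Ex, Ex, ← integral_const_mul]; exact integral_congr_ae (.of_forall fun y => by ring)

variable (hθ : |θ| < 1) (he : IsStr e)
include hθ he

lemma Ex_mono (A : Finset V) {F F' : (V × ℕ → I) → ℝ} (hF : Continuous F) (hF' : Continuous F')
    (h : ∀ y, F y ≤ F' y) : Ex G θ A K e F ≤ Ex G θ A K e F' :=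
  integral_le_integral (hF.mul (continuous_den he A)) (hF'.mul (continuous_den he A))
    fun y => mul_le_mul_of_nonneg_right (h y) (den_pos he hθ A y).le

omit hθ in
lemma Ex_add (A : Finset V) {F F' : (V × ℕ → I) → ℝ} (hF : Continuous F) (hF' : Continuous F') :
    Ex G θ A K e (fun y => F y + F' y) = Ex G θ A K e F + Ex G θ A K e F' := by
  simp only [Ex, add_mul]
  exact integral_add (integrable_of_continuous (h := fun y => F y * den G θ A K e y)
    (hF.mul (continuous_den he A))) (integrable_of_continuous (h := fun y => F' y * den G θ A K e y)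
    (hF'.mul (continuous_den he A)))

omit hθ in
lemma Ex_sum (A : Finset V) {κ : Type*} (s : Finset κ) {F : κ → (V × ℕ → I) → ℝ}
    (hF : ∀ i ∈ s, Continuous (F i)) :
    Ex G θ A K e (fun y => ∑ i ∈ s, F i y) = ∑ i ∈ s, Ex G θ A K e (F i) := by
  simp only [Ex, Finset.sum_mul]
  exact integral_finsetSum _ fun i hi =>
    integrable_of_continuous (h := fun y => F i y * den G θ A K e y)
      ((hF i hi).mul (continuous_den he A))

/-- Integrating out one observation. -/
lemma Ex_update {A : Finset V} {w : V} {k : ℕ} (hw : w ∈ A) (hk : k < K) (h0 : e (w, k) = 0)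
    {a : ℝ} (ha : a ∈ Set.Icc (0 : ℝ) (1 / 4)) {F : (V × ℕ → I) → ℝ} (hF : Continuous F) :
    Ex G θ A K (update e (w, k) a) F = Ex G θ A K e fun y =>
      ∫ t : I, F (update y (w, k) t) * (1 + a * zed t * mag G θ A K e y w) := by
  have he' := isStr_update he ha (w, k)
  rw [Ex, Ex, ← integral_avgOne (w, k) (h := fun y => F y * den G θ A K (update e (w, k) a) y)
    (hF.mul (continuous_den he' A))]
  refine integral_congr_ae (.of_forall fun y => ?_)
  simp only [avgOne]
  rw [← integral_mul_const]
  refine integral_congr_ae (.of_forall fun t => ?_)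
  have hf : fld K e (update y (w, k) t) = fld K e y := fld_dependsOn K e fun i hi =>
    update_of_ne (fun h => hi (by rw [h]; exact h0)) _ _
  simp only
  rw [den_update hθ he hw hk h0, update_self]
  have hd : den G θ A K e (update y (w, k) t) = den G θ A K e y := by
    unfold den lkA lkv
    refine Ev_congr fun η => Finset.prod_congr rfl fun v _ => Finset.prod_congr rfl fun l _ => ?_
    by_cases h : (v, l) = (w, k)
    · rw [h, h0]; ring
    · rw [update_of_ne h]
  rw [hd]
  simp only [mag, hf]
  ring

omit he in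
lemma integral_linear (X Y : ℝ) : ∫ t : I, (X + Y * zed t) = X := by
  rw [integral_unitInterval]
  rw [intervalIntegral.integral_congr (g := fun x => (X - Y) + 2 * Y * x) (fun x hx => by
    rw [Set.uIcc_of_le zero_le_one] at hx
    simp only [zed, Set.projIcc_of_mem _ hx]; ring)]
  rw [intervalIntegral.integral_add intervalIntegrable_const
    (intervalIntegral.intervalIntegrable_id.const_mul _),
    intervalIntegral.integral_const_mul, integral_id, intervalIntegral.integral_const]
  simp; ring

/-- Observations that the test function ignores can be dropped. -/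
lemma Ex_drop {A : Finset V} {w : V} {k : ℕ} (hw : w ∈ A) (hk : k < K) (h0 : e (w, k) = 0)
    {a : ℝ} (ha : a ∈ Set.Icc (0 : ℝ) (1 / 4)) {F : (V × ℕ → I) → ℝ} (hF : Continuous F)
    (hd : ∀ y t, F (update y (w, k) t) = F y) :
    Ex G θ A K (update e (w, k) a) F = Ex G θ A K e F := by
  rw [Ex_update hθ he hw hk h0 ha hF]
  congr 1
  funext y
  simp only [hd]
  rw [integral_const_mul]
  have := integral_linear hθ (1 : ℝ) (a * mag G θ A K e y w)
  simp only [mul_right_comm a (mag G θ A K e y w)] at this
  rw [this, mul_one]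

/-- The law of the coordinates used by `e` is the same for all larger strengths. -/
lemma Ex_extend {A : Finset V} {e' : V × ℕ → ℝ} (he' : IsStr e')
    (hsub : ∀ j, e j ≠ 0 → e' j = e j) {F : (V × ℕ → I) → ℝ} (hF : Continuous F)
    (hd : DependsOn F {j | e j ≠ 0}) : Ex G θ A K e' F = Ex G θ A K e F := by
  suffices ∀ T ⊆ A ×ˢ Finset.range K,
      Ex G θ A K (T.piecewise e' e) F = Ex G θ A K e F by
    rw [← this _ subset_rfl]
    refine integral_congr_ae (.of_forall fun y => ?_)
    simp only [den, lkA, lkv]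
    congr 1
    refine Ev_congr fun η => Finset.prod_congr rfl fun v hv => Finset.prod_congr rfl fun l hl => ?_
    rw [Finset.piecewise_eq_of_mem _ _ _ (Finset.mem_product.mpr ⟨hv, hl⟩)]
  intro T hT
  induction T using Finset.induction_on with
  | empty => simp
  | @insert j T hj ih =>
    have ih' := ih ((Finset.subset_insert j T).trans hT)
    rw [Finset.piecewise_insert]
    by_cases h0 : e j = 0
    · obtain ⟨hw, hk⟩ := Finset.mem_product.mp (hT (Finset.mem_insert_self j T))
      have hs : IsStr (T.piecewise e' e) := fun i => by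
        by_cases hi : i ∈ T
        · rw [Finset.piecewise_eq_of_mem _ _ _ hi]; exact he' i
        · rw [Finset.piecewise_eq_of_notMem _ _ _ hi]; exact he i
      rw [Ex_drop hθ hs hw (Finset.mem_range.mp hk)
        (by rw [Finset.piecewise_eq_of_notMem _ _ _ hj]; exact h0) (he' _) hF
        (fun y t => hd fun i hi => update_of_ne (fun h => hi (by rw [h]; exact h0)) _ _), ih']
    · rw [hsub j h0, ← Finset.piecewise_eq_of_notMem T e' e hj, update_eq_self, ih']

end Expectation

end Vale.Agent.P161.Crit
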