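import Vale.Agent.P161.Crit.Cdf
import Vale.Agent.P161.Crit.Lik

/-!
# Observations in random order and the sampler driven by independent inputs
-/

namespace Vale.Agent.P161.Crit

open MeasureTheory unitInterval Function SimpleGraph Vale.Agent.P161

variable {V : Type*} {G : SimpleGraph V} {θ : ℝ}

/-- The strength of an observation made at clock value `t`. -/
noncomputable def est1 (t : ℝ) : ℝ := t * max 0 (1 - 2 * t)

/-- The strengths attached to the clocks `ρ`. -/
noncomputable def est (ρ : V × ℕ → I) (j : V × ℕ) : ℝ := est1 (ρ j)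

/-- The observations made before round `k`, clock value `r`. -/
def Bef (ρ : V × ℕ → I) (k : ℕ) (r : ℝ) (i : V × ℕ) : Prop :=
  i.2 < k ∨ (i.2 = k ∧ (ρ i : ℝ) < r)

open Classical in
/-- The strengths of the observations made so far. -/
noncomputable def estT (ρ : V × ℕ → I) (k : ℕ) (r : ℝ) (i : V × ℕ) : ℝ :=
  if Bef ρ k r i then est ρ i else 0

lemma est1_mem {t : ℝ} (h : 0 ≤ t) : 0 ≤ est1 t ∧ est1 t ≤ t ∧ est1 t ≤ 1 / 8 := by
  unfold est1
  have h0 : 0 ≤ max 0 (1 - 2 * t) := le_max_left _ _
  refine ⟨mul_nonneg h h0, mul_le_of_le_one_right h (max_le zero_le_one (by linarith)), ?_⟩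
  rcases le_total 0 (1 - 2 * t) with h' | h'
  · rw [max_eq_right h']; nlinarith [sq_nonneg (4 * t - 1)]
  · rw [max_eq_left h', mul_zero]; norm_num

lemma est1_eq_zero {t : ℝ} (h : 1 / 2 ≤ t) : est1 t = 0 := by
  rw [est1, max_eq_left (by linarith), mul_zero]

lemma continuous_est1 : Continuous est1 := by unfold est1; fun_prop

lemma isStr_est (ρ : V × ℕ → I) : IsStr (est ρ) := fun j => by
  obtain ⟨a, -, c⟩ := est1_mem (t := ρ j) (ρ j).2.1
  exact ⟨a, c.trans (by norm_num)⟩

lemma isStr_estT (ρ : V × ℕ → I) (k : ℕ) (r : ℝ) : IsStr (estT ρ k r) := fun j => by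
  unfold estT
  split_ifs
  · exact isStr_est ρ j
  · exact ⟨le_rfl, by norm_num⟩

lemma estT_ne_zero {ρ : V × ℕ → I} {k : ℕ} {r : ℝ} {i : V × ℕ} (h : estT ρ k r i ≠ 0) :
    Bef ρ k r i ∧ estT ρ k r i = est ρ i := by
  unfold estT at h ⊢
  split_ifs with hb
  · exact ⟨hb, rfl⟩
  · rw [if_neg hb] at h; exact absurd rfl h

/-- A round ends where the next one starts. -/
lemma estT_succ (ρ : V × ℕ → I) (k : ℕ) : estT ρ (k + 1) 0 = estT ρ k (1 / 2) := by
  funext i
  by_cases h1 : Bef ρ k (1 / 2) i
  · have : Bef ρ (k + 1) 0 i := Or.inl (by rcases h1 with h | ⟨h, -⟩ <;> omega)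
    rw [estT, estT, if_pos h1, if_pos this]
  · by_cases h2 : Bef ρ (k + 1) 0 i
    · rw [estT, estT, if_neg h1, if_pos h2]
      refine est1_eq_zero ?_
      rcases h2 with h | ⟨-, h⟩
      · by_contra hc
        push Not at hc
        exact h1 (if hk : i.2 < k then Or.inl hk else Or.inr ⟨by omega, hc⟩)
      · exact absurd h (not_lt.mpr (ρ i).2.1)
    · rw [estT, estT, if_neg h1, if_neg h2]

lemma estT_zero (ρ : V × ℕ → I) : estT ρ 0 0 = fun _ => 0 := funext fun i => if_neg (by
  rintro (h | ⟨-, h⟩)
  · exact absurd h (Nat.not_lt_zero _)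
  · exact absurd h (not_lt.mpr (ρ i).2.1))

open Classical in
/-- The tilt applied to the input `j`. -/
noncomputable def drift (G : SimpleGraph V) (θ : ℝ) (A : Finset V) (K : ℕ) (ρ : V × ℕ → I)
    (y : V × ℕ → I) (j : V × ℕ) : ℝ :=
  if j ∈ A ×ˢ Finset.range K then est ρ j * mag G θ A K (estT ρ j.2 (ρ j)) y j.1 else 0

open Classical in
/-- The observations of `A` made before `j`. -/
noncomputable def preds (A : Finset V) (K : ℕ) (ρ : V × ℕ → I) (j : V × ℕ) : Finset (V × ℕ) :=
  (A ×ˢ Finset.range K).filter (Bef ρ j.2 (ρ j))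

lemma mem_preds {A : Finset V} {K : ℕ} {ρ : V × ℕ → I} {i j : V × ℕ} :
    i ∈ preds A K ρ j ↔ (i.1 ∈ A ∧ i.2 < K) ∧ Bef ρ j.2 (ρ j) i := by
  classical
  simp [preds]

lemma not_bef_self (ρ : V × ℕ → I) (j : V × ℕ) : ¬ Bef ρ j.2 (ρ j) j := by simp [Bef]

lemma bef_trans {ρ : V × ℕ → I} {a b : V × ℕ} {k : ℕ} {r : ℝ} (h : Bef ρ b.2 (ρ b) a)
    (h' : Bef ρ k r b) : Bef ρ k r a := by
  rcases h with h | ⟨h, h2⟩ <;> rcases h' with h' | ⟨h', h2'⟩
  · exact Or.inl (h.trans h')
  · exact Or.inl (h' ▸ h)
  · exact Or.inl (h ▸ h')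
  · exact Or.inr ⟨h.trans h', h2.trans h2'⟩

lemma preds_subset {A : Finset V} {K : ℕ} {ρ : V × ℕ → I} {i j : V × ℕ}
    (h : i ∈ preds A K ρ j) : preds A K ρ i ⊆ preds A K ρ j := fun a ha => by
  rw [mem_preds] at *
  exact ⟨ha.1, bef_trans ha.2 h.2⟩

lemma card_preds_lt {A : Finset V} {K : ℕ} {ρ : V × ℕ → I} {i j : V × ℕ}
    (h : i ∈ preds A K ρ j) : (preds A K ρ i).card < (preds A K ρ j).card :=
  Finset.card_lt_card ⟨preds_subset h, fun hh => not_bef_self ρ i (mem_preds.mp (hh h)).2⟩

lemma preds_induction {A : Finset V} {K : ℕ} {ρ : V × ℕ → I} {P : V × ℕ → Prop}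
    (h : ∀ j, (∀ i ∈ preds A K ρ j, P i) → P j) (j : V × ℕ) : P j := by
  induction hn : (preds A K ρ j).card using Nat.strong_induction_on generalizing j with
  | _ n ih => exact h j fun i hi => ih _ (hn ▸ card_preds_lt hi) i rfl

lemma mag_congr {A : Finset V} {K : ℕ} {e : V × ℕ → ℝ} {y y' : V × ℕ → I}
    (h : ∀ i ∈ A ×ˢ Finset.range K, e i ≠ 0 → y i = y' i) (v : V) :
    mag G θ A K e y v = mag G θ A K e y' v :=
  mu_congr (fun w hw => fld_congr fun l hl => by
    by_cases h0 : e (w, l) = 0
    · simp [h0]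
    · rw [h (w, l) (Finset.mem_product.mpr ⟨hw, Finset.mem_range.mpr hl⟩) h0]) v

lemma drift_congr {A : Finset V} {K : ℕ} {ρ : V × ℕ → I} {y y' : V × ℕ → I} {j : V × ℕ}
    (h : ∀ i ∈ preds A K ρ j, y i = y' i) : drift G θ A K ρ y j = drift G θ A K ρ y' j := by
  classical
  unfold drift
  split_ifs
  · congr 1
    exact mag_congr (fun i hi h0 => h i (mem_preds.mpr
      ⟨⟨(Finset.mem_product.mp hi).1, Finset.mem_range.mp (Finset.mem_product.mp hi).2⟩,
        (estT_ne_zero h0).1⟩)) _
  · rfl

/-- Iterated sampler with fuel. -/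
noncomputable def outN (G : SimpleGraph V) (θ : ℝ) (A : Finset V) (K : ℕ) (ρ u : V × ℕ → I) :
    ℕ → V × ℕ → I
  | 0 => u
  | n + 1 => fun j => invCdf (drift G θ A K ρ (outN G θ A K ρ u n) j) (u j)

/-- The observations produced from the inputs `u`. -/
noncomputable def out (G : SimpleGraph V) (θ : ℝ) (A : Finset V) (K : ℕ) (ρ u : V × ℕ → I)
    (j : V × ℕ) : I :=
  outN G θ A K ρ u ((preds A K ρ j).card + 1) j

lemma outN_stable (A : Finset V) (K : ℕ) (ρ u : V × ℕ → I) :
    ∀ j n, (preds A K ρ j).card < n → outN G θ A K ρ u n j = out G θ A K ρ u j := by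
  refine preds_induction (A := A) (K := K) (ρ := ρ) fun j ih n hn => ?_
  obtain ⟨m, rfl⟩ : ∃ m, n = m + 1 := ⟨n - 1, by omega⟩
  simp only [out, outN]
  rw [drift_congr (y' := out G θ A K ρ u) fun i hi => ih i hi m ((card_preds_lt hi).trans_le
      (by omega)),
    drift_congr (y := outN G θ A K ρ u (preds A K ρ j).card) (y' := out G θ A K ρ u)
      fun i hi => ih i hi _ (card_preds_lt hi)]

lemma out_eq (A : Finset V) (K : ℕ) (ρ u : V × ℕ → I) (j : V × ℕ) :
    out G θ A K ρ u j = invCdf (drift G θ A K ρ (out G θ A K ρ u) j) (u j) := by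
  conv_lhs => rw [out, outN]
  beta_reduce
  rw [drift_congr (y' := out G θ A K ρ u)
    fun i hi => outN_stable A K ρ u i _ (card_preds_lt hi)]

lemma out_unique {A : Finset V} {K : ℕ} {ρ u y : V × ℕ → I}
    (h : ∀ j, y j = invCdf (drift G θ A K ρ y j) (u j)) : out G θ A K ρ u = y := by
  ext1 j
  induction j using preds_induction (A := A) (K := K) (ρ := ρ) with
  | h j ih => rw [out_eq, h j, drift_congr ih]

lemma out_congr {A : Finset V} {K : ℕ} {ρ u u' : V × ℕ → I} :
    ∀ j, (u j = u' j) → (∀ i ∈ preds A K ρ j, u i = u' i) →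
      out G θ A K ρ u j = out G θ A K ρ u' j := by
  refine preds_induction (A := A) (K := K) (ρ := ρ) fun j ih hj hp => ?_
  rw [out_eq, out_eq A K ρ u' j, hj, drift_congr fun i hi => ih i hi (hp i hi)
    fun a ha => hp a (preds_subset hi ha)]

section ClockChange

variable [DecidableEq V]

lemma estT_update {ρ : V × ℕ → I} {j : V × ℕ} {k : ℕ} {r : ℝ} {a : I}
    (ha : j.2 = k → r ≤ (a : ℝ)) (hk : k ≤ j.2) (hj : ¬ Bef ρ k r j) :
    estT (update ρ j a) k r = estT ρ k r := by
  funext i
  by_cases hi : i = j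
  · subst hi
    have hj' : ¬ Bef (update ρ i a) k r i := by
      rintro (h | ⟨h, h'⟩)
      · omega
      · rw [update_self] at h'; linarith [ha h]
    rw [estT, estT, if_neg hj, if_neg hj']
  · have hb : Bef (update ρ j a) k r i ↔ Bef ρ k r i := by simp [Bef, hi]
    by_cases hB : Bef ρ k r i
    · rw [estT, estT, if_pos hB, if_pos (hb.mpr hB)]; simp [est, hi]
    · rw [estT, estT, if_neg hB, if_neg (fun h => hB (hb.mp h))]

/-- Clocks that have not rung do not influence earlier outputs. -/
lemma out_update {A : Finset V} {K : ℕ} {ρ u : V × ℕ → I} {j : V × ℕ} {k : ℕ} {r : ℝ} {a : I}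
    (ha : j.2 = k → r ≤ (a : ℝ)) (hk : k ≤ j.2) (hj : ¬ Bef ρ k r j) :
    ∀ i, Bef ρ k r i → out G θ A K (update ρ j a) u i = out G θ A K ρ u i := by
  refine preds_induction (A := A) (K := K) (ρ := ρ) fun i ih hi => ?_
  have hij : i ≠ j := fun e => hj (e ▸ hi)
  have hρ : update ρ j a i = ρ i := update_of_ne hij _ _
  have hst : estT (update ρ j a) i.2 (ρ i) = estT ρ i.2 (ρ i) := by
    refine estT_update (fun h => ?_) ?_ fun h => hj (bef_trans h hi)
    · rcases hi with h' | ⟨h', h''⟩
      · omega
      · exact h''.le.trans (ha (h.trans h'))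
    · rcases hi with h' | ⟨h', -⟩ <;> omega
  have hy : drift G θ A K (update ρ j a) (out G θ A K (update ρ j a) u) i =
      drift G θ A K ρ (out G θ A K ρ u) i := by
    classical
    have he : est (update ρ j a) i = est ρ i := by unfold est; rw [hρ]
    by_cases hm : i ∈ A ×ˢ Finset.range K
    · rw [drift, drift, if_pos hm, if_pos hm, he, hρ, hst]
      refine congrArg _ (mag_congr (e := estT ρ i.2 (ρ i)) (fun l hl h0 => ?_) i.1)
      have hb := (estT_ne_zero h0).1
      exact ih l (mem_preds.mpr ⟨⟨(Finset.mem_product.mp hl).1,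
        Finset.mem_range.mp (Finset.mem_product.mp hl).2⟩, hb⟩) (bef_trans hb hi)
    · rw [drift, drift, if_neg hm, if_neg hm]
  rw [out_eq, out_eq A K ρ u i, hy]

/-- The field seen at a time does not depend on clocks that have not rung. -/
lemma fld_out_update {A : Finset V} {K : ℕ} {ρ u : V × ℕ → I} {j : V × ℕ} {k : ℕ} {r : ℝ}
    {a : I} (ha : j.2 = k → r ≤ (a : ℝ)) (hk : k ≤ j.2) (hj : ¬ Bef ρ k r j) :
    fld K (estT (update ρ j a) k r) (out G θ A K (update ρ j a) u) =
      fld K (estT ρ k r) (out G θ A K ρ u) := by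
  rw [estT_update ha hk hj]
  refine funext fun v => fld_congr fun l _ => ?_
  by_cases h0 : estT ρ k r (v, l) = 0
  · simp [h0]
  · rw [out_update ha hk hj _ (estT_ne_zero h0).1]

end ClockChange

section Regularity

variable (hθ0 : 0 ≤ θ) (hθ1 : θ < 1)
include hθ0 hθ1

lemma abs_mu_le (A : Finset V) {h : V → ℝ} (hh : IsFld h) (v : V) :
    |mu G θ A h v| ≤ 1 := by
  have habs : |θ| < 1 := by rwa [abs_of_nonneg hθ0]
  have hp := Zf_one_pos (G := G) habs hh A
  rw [mu, abs_div, abs_of_pos hp, div_le_one hp]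
  refine (abs_Ev_le habs _).trans (Ev_mono habs fun η => ?_)
  rw [abs_mul, abs_spin, mul_one, mul_one, abs_of_pos (prod_factor_pos hh A η)]

lemma abs_drift_le (A : Finset V) (K : ℕ) (ρ y : V × ℕ → I) (j : V × ℕ) :
    |drift G θ A K ρ y j| ≤ 1 / 8 := by
  classical
  unfold drift
  split_ifs
  · obtain ⟨a, -, c⟩ := est1_mem (t := ρ j) (ρ j).2.1
    rw [abs_mul, abs_of_nonneg (show 0 ≤ est ρ j from a)]
    exact (mul_le_of_le_one_right a (abs_mu_le hθ0 hθ1 A (isFld_fld (isStr_estT ρ _ _) y) _)).trans c
  · norm_num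

lemma continuous_drift (A : Finset V) (K : ℕ) (ρ : V × ℕ → I) (j : V × ℕ) :
    Continuous fun y => drift G θ A K ρ y j := by
  classical
  unfold drift
  split_ifs
  · exact continuous_const.mul (continuous_mag (isStr_estT ρ _ _) (by rwa [abs_of_nonneg hθ0]) A _)
  · exact continuous_const

lemma continuous_out (A : Finset V) (K : ℕ) (ρ : V × ℕ → I) :
    Continuous fun u => out G θ A K ρ u := by
  have h : ∀ n, Continuous fun u : V × ℕ → I => outN G θ A K ρ u n := by
    intro n
    induction n with
    | zero => exact continuous_id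
    | succ n ih =>
      exact continuous_pi fun j => continuous_invCdf.comp
        (((continuous_drift hθ0 hθ1 A K ρ j).comp ih).prodMk (continuous_apply j))
  exact continuous_pi fun j => (continuous_apply j).comp (h _)

end Regularity

/-- The law of the outputs on a closed set of observations. -/
lemma integral_out [Countable V] [DecidableEq V] (hG : G.IsTree) (hθ0 : 0 ≤ θ) (hθ1 : θ < 1)
    {A : Finset V} (hA : Convex' G A) (hne : A.Nonempty) {K : ℕ} {ρ : V × ℕ → I}
    (hρ : Set.InjOn (fun i : V × ℕ => (i.2, ρ i)) (A ×ˢ Finset.range K : Finset _)) :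
    ∀ (S : Finset (V × ℕ)), S ⊆ A ×ˢ Finset.range K → (∀ j ∈ S, preds A K ρ j ⊆ S) →
      ∀ f : (V × ℕ → I) → ℝ, Continuous f → DependsOn f (S : Set _) →
        ∫ u, f (out G θ A K ρ u) ∂iidLabels (V × ℕ) =
          ∫ y, f y * den G θ A K (fun i => if i ∈ S then est ρ i else 0) y ∂iidLabels (V × ℕ) := by
  classical
  have habs : |θ| < 1 := by rwa [abs_of_nonneg hθ0]
  intro S
  induction S using Finset.strongInduction with
  | _ S ih =>
    intro hSA hcl f hf hfd
    rcases S.eq_empty_or_nonempty with rfl | hSne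
    · have h1 : ∀ y, den G θ A K (fun i => if i ∈ (∅ : Finset (V × ℕ)) then est ρ i else 0) y = 1 :=
        fun y => by simp [den, lkA, lkv, Ev_one hG hA hne]
      simp only [h1, mul_one]
      exact integral_congr_ae (.of_forall fun u => hfd (by simp))
    · obtain ⟨j, hj, hmax⟩ := S.exists_max_image (fun i => (preds A K ρ i).card) hSne
      obtain ⟨hjA, hjK⟩ := Finset.mem_product.mp (hSA hj)
      set S' := S.erase j with hS'
      have hnot : ∀ i ∈ S, j ∉ preds A K ρ i := fun i hi h =>
        absurd (hmax i hi) (not_le.mpr (card_preds_lt h))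
      have hpast : preds A K ρ j = S' := by
        refine Finset.Subset.antisymm (fun i hi => Finset.mem_erase.mpr
          ⟨fun e => not_bef_self ρ j (mem_preds.mp (e ▸ hi)).2, hcl j hj hi⟩) fun i hi => ?_
        obtain ⟨hij, hiS⟩ := Finset.mem_erase.mp hi
        obtain ⟨hiA, hiK⟩ := Finset.mem_product.mp (hSA hiS)
        refine mem_preds.mpr ⟨⟨hiA, Finset.mem_range.mp hiK⟩, ?_⟩
        have hb : ¬ Bef ρ i.2 (ρ i) j := fun h =>
          hnot i hiS (mem_preds.mpr ⟨⟨hjA, Finset.mem_range.mp hjK⟩, h⟩)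
        rcases lt_trichotomy i.2 j.2 with h | h | h
        · exact Or.inl h
        · rcases lt_trichotomy (ρ i) (ρ j) with h' | h' | h'
          · exact Or.inr ⟨h, h'⟩
          · exact absurd (hρ (hSA hiS) (hSA hj) (Prod.ext h h')) hij
          · exact absurd (Or.inr ⟨h.symm, h'⟩) hb
        · exact absurd (Or.inl h) hb
      set e' : V × ℕ → ℝ := fun i => if i ∈ S' then est ρ i else 0 with he'
      have hse' : IsStr e' := fun i => by
        by_cases hi : i ∈ S'
        · rw [he']; simp only [if_pos hi]; exact isStr_est ρ i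
        · rw [he']; simp only [if_neg hi]; exact ⟨le_rfl, by norm_num⟩
      have hst : ∀ y, mag G θ A K (estT ρ j.2 (ρ j)) y j.1 = mag G θ A K e' y j.1 := fun y =>
        mu_congr (fun w hw => fld_congr fun l hl => by
          by_cases hb : (w, l) ∈ S'
          · rw [show e' (w, l) = est ρ (w, l) by rw [he']; simp only [if_pos hb], estT,
              if_pos (mem_preds.mp (hpast.symm ▸ hb)).2]
          · rw [show e' (w, l) = 0 by rw [he']; simp only [if_neg hb], estT,
              if_neg fun hB => hb (hpast ▸ mem_preds.mpr ⟨⟨hw, hl⟩, hB⟩)]) _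
      have hupd : (fun i => if i ∈ S then est ρ i else 0) = update e' j (est ρ j) := by
        funext i
        by_cases hij : i = j
        · subst hij; simp [hj]
        · simp [he', hij, hS']
      set g : (V × ℕ → I) → ℝ := fun y => ∫ t : I, f (update y j (invCdf (drift G θ A K ρ y j) t))
        with hg
      have hgc : Continuous g := by
        have := continuous_parametric_integral_of_continuous (μ := (volume : Measure I))
          (f := fun (y : V × ℕ → I) (t : I) => f (update y j (invCdf (drift G θ A K ρ y j) t)))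
          (hf.comp (continuous_fst.update j (continuous_invCdf.comp
            (((continuous_drift hθ0 hθ1 A K ρ j).comp continuous_fst).prodMk continuous_snd))))
          isCompact_univ
        rw [hg]
        simpa [setIntegral_univ] using this
      have hgd : DependsOn g (S' : Set _) := fun y y' hy => by
        simp only [hg, drift_congr (G := G) (θ := θ) (y := y) (y' := y') fun i hi => hy i (hpast ▸ hi)]
        refine integral_congr_ae (.of_forall fun t => hfd fun i hi => ?_)
        by_cases hij : i = j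
        · subst hij; simp
        · simpa [hij] using hy i (Finset.mem_erase.mpr ⟨hij, hi⟩)
      have hS'sub : ∀ i ∈ S', i ∈ S := fun i hi => Finset.mem_of_mem_erase hi
      have IH := ih S' (Finset.erase_ssubset hj) ((Finset.erase_subset j S).trans hSA)
        (fun i hi => hpast ▸ preds_subset (hpast.symm ▸ hi)) g hgc hgd
      have step1 : ∫ u, f (out G θ A K ρ u) ∂iidLabels (V × ℕ) =
          ∫ u, g (out G θ A K ρ u) ∂iidLabels (V × ℕ) := by
        rw [← integral_avgOne j (h := fun u => f (out G θ A K ρ u))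
          (hf.comp (continuous_out hθ0 hθ1 A K ρ))]
        refine integral_congr_ae (.of_forall fun u => ?_)
        refine integral_congr_ae (.of_forall fun t => hfd fun i hi => ?_)
        have hsame : ∀ i ∈ S', out G θ A K ρ (update u j t) i = out G θ A K ρ u i := fun i hi =>
          out_congr i (by simp [(Finset.mem_erase.mp hi).1]) fun b hb => by
            have : b ≠ j := fun e => hnot i (hS'sub i hi) (e ▸ hb)
            simp [this]
        by_cases hij : i = j
        · subst hij
          rw [update_self, out_eq, update_self, drift_congr fun l hl => hsame l (hpast ▸ hl)]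
        · simpa [hij] using hsame i (Finset.mem_erase.mpr ⟨hij, hi⟩)
      rw [step1, IH, hupd]
      change Ex G θ A K e' g = Ex G θ A K (update e' j (est ρ j)) f
      rw [← Prod.mk.eta (p := j)] at hjA hjK ⊢
      rw [Ex_update habs hse' hjA (Finset.mem_range.mp hjK) (by simp [he', hS'])
        ⟨(isStr_est ρ j).1, (isStr_est ρ j).2⟩ hf]
      congr 1
      funext y
      simp only [hg]
      rw [integral_invCdf (φ := fun t => f (update y j t))
        ((abs_drift_le hθ0 hθ1 A K ρ y j).trans (by norm_num))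
        (hf.comp (continuous_const.update j continuous_id))]
      refine integral_congr_ae (.of_forall fun t => ?_)
      have hd : drift G θ A K ρ y j = est ρ j * mag G θ A K e' y j.1 := by
        rw [drift, if_pos (hSA hj), hst]
      simp only [hd, zed]
      ring

/-- An observable of the field in `A`. -/
structure IsTest (A : Finset V) (Φ : (V → ℝ) → ℝ) : Prop where
  loc : ∀ h h' : V → ℝ, (∀ v ∈ A, h v = h' v) → Φ h = Φ h'
  meas : Measurable Φ
  cont : ContinuousOn Φ {h | IsFld h}

lemma IsTest.continuous_fld {A : Finset V} {Φ : (V → ℝ) → ℝ} (hΦ : IsTest A Φ) {K : ℕ}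
    {e : V × ℕ → ℝ} (he : IsStr e) : Continuous fun y : V × ℕ → I => Φ (fld K e y) :=
  hΦ.cont.comp_continuous (continuous_pi fun v => Crit.continuous_fld he v) fun y => isFld_fld he y

/-- The law of the field seen at a time. -/
theorem integral_out_fld [Countable V] [DecidableEq V] (hG : G.IsTree) (hθ0 : 0 ≤ θ)
    (hθ1 : θ < 1) {A : Finset V} (hA : Convex' G A) (hne : A.Nonempty) {K : ℕ} {ρ : V × ℕ → I}
    (hρ : Set.InjOn (fun i : V × ℕ => (i.2, ρ i)) (A ×ˢ Finset.range K : Finset _))
    {Φ : (V → ℝ) → ℝ} (hΦ : IsTest A Φ) (k : ℕ) (r : ℝ) :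
    ∫ u, Φ (fld K (estT ρ k r) (out G θ A K ρ u)) ∂iidLabels (V × ℕ) =
      Ex G θ A K (estT ρ k r) fun y => Φ (fld K (estT ρ k r) y) := by
  classical
  have habs : |θ| < 1 := by rwa [abs_of_nonneg hθ0]
  have hc := hΦ.continuous_fld (K := K) (isStr_estT ρ k r)
  rw [integral_out hG hθ0 hθ1 hA hne hρ _ subset_rfl (fun j _ => Finset.filter_subset _ _)
    (fun y => Φ (fld K (estT ρ k r) y)) hc]
  · rw [← Ex_extend (e := estT ρ k r) (e' := est ρ) habs (isStr_estT ρ k r) (isStr_est ρ)
      (fun j hj => (estT_ne_zero hj).2.symm) hc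
      (fun y y' h => by rw [fld_dependsOn K (estT ρ k r) h])]
    refine integral_congr_ae (.of_forall fun y => ?_)
    simp only [den, lkA, lkv]
    congr 1
    refine Ev_congr fun η => Finset.prod_congr rfl fun v hv => Finset.prod_congr rfl fun l hl => ?_
    rw [if_pos (Finset.mem_product.mpr ⟨hv, hl⟩)]
  · intro y y' h
    refine hΦ.loc _ _ fun v hv => fld_congr fun l hl => ?_
    rw [h (v, l) (Finset.mem_product.mpr ⟨hv, Finset.mem_range.mpr hl⟩)]

section Measurability

lemma measurable_fld (K : ℕ) {X : Type*} [MeasurableSpace X] {e : X → V × ℕ → ℝ}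
    {y : X → V × ℕ → I} (he : Measurable e) (hy : Measurable y) :
    Measurable fun x => fld K (e x) (y x) := by
  refine measurable_pi_lambda _ fun v => ?_
  have h : ∀ s, Measurable fun x => lkv K (e x) (y x) v s := fun s => by
    unfold lkv
    refine Finset.measurable_prod _ fun k _ => ?_
    have h1 : Measurable fun x => e x (v, k) := (measurable_pi_apply _).comp he
    have h2 : Measurable fun x => zed (y x (v, k)) :=
      continuous_zed.measurable.comp ((measurable_pi_apply _).comp hy)
    fun_prop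
  exact ((h 1).sub (h (-1))).div ((h 1).add (h (-1)))

lemma measurable_estT {X : Type*} [MeasurableSpace X] (k : ℕ) {r : X → ℝ} {ρ : X → V × ℕ → I}
    (hr : Measurable r) (hρ : Measurable ρ) : Measurable fun x => estT (ρ x) k (r x) := by
  classical
  refine measurable_pi_lambda _ fun i => ?_
  have h1 : Measurable fun x => (ρ x i : ℝ) :=
    measurable_subtype_coe.comp ((measurable_pi_apply i).comp hρ)
  unfold estT Bef est
  refine Measurable.ite ?_ (continuous_est1.measurable.comp h1) measurable_const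
  exact (MeasurableSet.const _).union ((MeasurableSet.const _).inter (measurableSet_lt h1 hr))

lemma measurable_mu (A : Finset V) (v : V) : Measurable fun h : V → ℝ => mu G θ A h v := by
  have hZ : ∀ F : (V → Bool) → ℝ, Measurable fun h : V → ℝ => Zf G θ A h F := fun F => by
    unfold Zf Ev
    exact Finset.measurable_sum _ fun s _ => ((Finset.measurable_prod _ fun w _ =>
      ((measurable_pi_apply w).mul_const _).const_add 1).mul_const _).const_mul _
  exact (hZ _).div (hZ _)

lemma measurable_drift (A : Finset V) (K : ℕ) (j : V × ℕ) {X : Type*} [MeasurableSpace X]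
    {ρ y : X → V × ℕ → I} (hρ : Measurable ρ) (hy : Measurable y) :
    Measurable fun x => drift G θ A K (ρ x) (y x) j := by
  classical
  unfold drift
  split_ifs
  · have h1 : Measurable fun x => (ρ x j : ℝ) :=
      measurable_subtype_coe.comp ((measurable_pi_apply j).comp hρ)
    exact (continuous_est1.measurable.comp h1).mul
      ((measurable_mu A j.1).comp (measurable_fld K (measurable_estT j.2 h1 hρ) hy))
  · exact measurable_const

lemma measurable_out (A : Finset V) (K : ℕ) :
    Measurable fun q : (V × ℕ → I) × (V × ℕ → I) => out G θ A K q.1 q.2 := by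
  classical
  have h : ∀ n, Measurable fun q : (V × ℕ → I) × (V × ℕ → I) => outN G θ A K q.1 q.2 n := by
    intro n
    induction n with
    | zero => exact measurable_snd
    | succ n ih =>
      refine measurable_pi_lambda _ fun j => ?_
      have h1 : Measurable fun q : (V × ℕ → I) × (V × ℕ → I) =>
          drift G θ A K q.1 (outN G θ A K q.1 q.2 n) j :=
        measurable_drift (G := G) (θ := θ) A K j (ρ := fun q => q.1) measurable_fst ih
      have h2 : Measurable fun q : (V × ℕ → I) × (V × ℕ → I) => q.2 j :=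
        (measurable_pi_apply j).comp measurable_snd
      have h3 : Measurable fun p : ℝ × I => invCdf p.1 p.2 := continuous_invCdf.measurable
      have h4 : (fun q : (V × ℕ → I) × (V × ℕ → I) => outN G θ A K q.1 q.2 (n + 1) j) =
          (fun p : ℝ × I => invCdf p.1 p.2) ∘
            fun q => (drift G θ A K q.1 (outN G θ A K q.1 q.2 n) j, q.2 j) := by
        funext q
        rw [Function.comp_apply, outN]
      rw [h4]
      exact Measurable.comp h3 (Measurable.prodMk h1 h2)
  refine measurable_pi_lambda _ fun j => ?_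
  have e : (fun q : (V × ℕ → I) × (V × ℕ → I) => out G θ A K q.1 q.2 j) =
      fun q => outN G θ A K q.1 q.2 ((A ×ˢ Finset.range K).card + 1) j := by
    funext q
    exact (outN_stable A K q.1 q.2 j _ (Nat.lt_succ_of_le
      (Finset.card_le_card (Finset.filter_subset _ _)))).symm
  rw [e]
  exact (measurable_pi_apply j).comp (h ((A ×ˢ Finset.range K).card + 1))

end Measurability

section Averaging

variable [Countable V] [DecidableEq V]

lemma ae_injOn (U : Finset (V × ℕ)) :
    ∀ᵐ ρ ∂iidLabels (V × ℕ), Set.InjOn (fun i : V × ℕ => (i.2, ρ i)) (U : Set _) := by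
  have hne : ∀ v w : V × ℕ, v ≠ w → ∀ᵐ ρ ∂iidLabels (V × ℕ), ρ v ≠ ρ w := by
    intro v w hvw
    rw [ae_iff]
    have hset : MeasurableSet {ρ : V × ℕ → I | ¬ ρ v ≠ ρ w} := by
      simp only [not_not]
      exact measurableSet_eq_fun (measurable_pi_apply v) (measurable_pi_apply w)
    rw [← map_update (ι := V × ℕ) v, Measure.map_apply (measurable_update₂ v) hset,
      Measure.prod_apply (measurable_update₂ v hset)]
    refine (lintegral_congr fun u => ?_).trans lintegral_zero
    have : Prod.mk u ⁻¹' ((fun p : (V × ℕ → I) × I => update p.1 v p.2) ⁻¹'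
        {ρ : V × ℕ → I | ¬ ρ v ≠ ρ w}) = Set.Icc (u w) (u w) := by
      ext t
      simp [Ne.symm hvw]
    rw [this, unitInterval.volume_Icc, sub_self, ENNReal.ofReal_zero]
  have h : ∀ᵐ ρ ∂iidLabels (V × ℕ), ∀ v ∈ U, ∀ w ∈ U, v ≠ w → ρ v ≠ ρ w := by
    refine (Finset.eventually_all U).mpr fun v _ => (Finset.eventually_all U).mpr fun w _ => ?_
    by_cases hvw : v = w
    · exact .of_forall fun _ h => absurd hvw h
    · filter_upwards [hne v w hvw] with ρ hρ _ using hρ
  filter_upwards [h] with ρ hρ v hv w hw heq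
  by_contra hne'
  exact hρ v hv w hw hne' (Prod.ext_iff.mp heq).2

omit [DecidableEq V] in
lemma integrable_bdd {X : Type*} [MeasurableSpace X] {μ : Measure X} [IsFiniteMeasure μ]
    {f : X → ℝ} (hf : Measurable f) (C : ℝ) (hC : ∀ x, |f x| ≤ C) : Integrable f μ :=
  (integrable_const C).mono' hf.aestronglyMeasurable (.of_forall hC)

/-- Resampling one coordinate, for bounded measurable functions. -/
lemma integral_resample (j : V × ℕ) {h : (V × ℕ → I) → ℝ} (hm : Measurable h) {C : ℝ}
    (hC : ∀ u, |h u| ≤ C) :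
    ∫ u, (∫ t : I, h (update u j t)) ∂iidLabels (V × ℕ) = ∫ u, h u ∂iidLabels (V × ℕ) := by
  conv_rhs => rw [← map_update j]
  rw [integral_map (measurable_update₂ j).aemeasurable hm.aestronglyMeasurable,
    integral_prod (fun p => h (update p.1 j p.2))
      (integrable_bdd (hm.comp (measurable_update₂ j)) C fun x => hC _)]

/-- Averaging over the time at which one clock rings. -/
lemma integral_ring (j : V × ℕ) {H : ℝ → (V × ℕ → I) → ℝ} {C : ℝ}
    (hm : Measurable fun p : ℝ × (V × ℕ → I) => H p.1 p.2) (hC : ∀ r ρ, |H r ρ| ≤ C)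
    (h0 : ∀ r ρ, 0 ≤ H r ρ)
    (hinv : ∀ r ρ (a : I), r ≤ (ρ j : ℝ) → r ≤ (a : ℝ) → H r (update ρ j a) = H r ρ)
    {s₀ s : ℝ} (hs₀ : 0 ≤ s₀) (hs : s₀ ≤ s) (hs1 : s ≤ 1 / 2) :
    ∫ ρ, (if s₀ ≤ (ρ j : ℝ) ∧ (ρ j : ℝ) < s then H (ρ j) ρ else 0) ∂iidLabels (V × ℕ) ≤
      2 * ∫ r in s₀..s, ∫ ρ, H r ρ ∂iidLabels (V × ℕ) := by
  classical
  set f : (V × ℕ → I) → ℝ := fun ρ =>
    if s₀ ≤ (ρ j : ℝ) ∧ (ρ j : ℝ) < s then H (ρ j) ρ else 0 with hf
  have hρj : Measurable fun ρ : V × ℕ → I => (ρ j : ℝ) :=
    measurable_subtype_coe.comp (measurable_pi_apply j)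
  have hfm : Measurable f := Measurable.ite
    ((measurableSet_le measurable_const hρj).inter (measurableSet_lt hρj measurable_const))
    (hm.comp (hρj.prodMk measurable_id)) measurable_const
  have hC0 : 0 ≤ C := (abs_nonneg _).trans (hC 0 fun _ => 0)
  have hfC : ∀ ρ, |f ρ| ≤ C := fun ρ => by
    simp only [f]; split_ifs
    · exact hC _ _
    · simpa using hC0
  have hup : Measurable fun p : (V × ℕ → I) × I => update p.1 j p.2 := measurable_update₂ j
  rw [← integral_resample j hfm hfC,
    integral_integral_swap (f := fun ρ t => f (update ρ j t))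
      (integrable_bdd (hfm.comp hup) C fun x => hfC _)]
  have hbound : ∀ r : ℝ, |∫ ρ, H r ρ ∂iidLabels (V × ℕ)| ≤ C := fun r => by
    refine abs_integral_le_integral_abs.trans ((integral_mono
      (integrable_bdd ((hm.comp measurable_prodMk_left).abs) C fun x => by
        simp only [Function.comp_apply, abs_abs]; exact hC _ _)
      (integrable_const C) fun x => hC r x).trans (by simp))
  have key : ∀ r : ℝ, r < 1 / 2 → ∀ t : I, (t : ℝ) = r →
      ∫ ρ, H r (update ρ j t) ∂iidLabels (V × ℕ) ≤ 2 * ∫ ρ, H r ρ ∂iidLabels (V × ℕ) := by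
    intro r hr t ht
    have hmr : Measurable fun ρ : V × ℕ → I => H r ρ := hm.comp measurable_prodMk_left
    rw [← integral_resample j hmr (hC r), ← integral_const_mul]
    have hlow : ∀ ρ : V × ℕ → I, 1 / 2 * H r (update ρ j t) ≤ ∫ a : I, H r (update ρ j a) := by
      intro ρ
      have hset : MeasurableSet {a : I | (1 / 2 : ℝ) ≤ (a : ℝ)} :=
        measurableSet_le measurable_const measurable_subtype_coe
      have hint : Integrable (fun a : I => H r (update ρ j a)) :=
        integrable_bdd (hmr.comp (measurable_update ρ)) C fun a => hC _ _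
      refine le_trans ?_ (setIntegral_le_integral (s := {a : I | (1 / 2 : ℝ) ≤ (a : ℝ)}) hint
        (.of_forall fun a => h0 _ _))
      rw [setIntegral_congr_fun hset (g := fun _ => H r (update ρ j t)) fun a ha => by
        have := hinv r (update ρ j t) a (by rw [update_self, ht]) (by
          simp only [Set.mem_ofPred_eq] at ha; linarith)
        rw [update_idem] at this; exact this]
      rw [setIntegral_const, smul_eq_mul]
      refine mul_le_mul_of_nonneg_right ?_ (h0 _ _)
      have e : {a : I | (1 / 2 : ℝ) ≤ (a : ℝ)} = Set.Ici ⟨1 / 2, by norm_num, by norm_num⟩ := rfl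
      rw [e, measureReal_def, unitInterval.volume_Ici, ENNReal.toReal_ofReal (by norm_num)]
      norm_num
    have hJ : Measurable fun ρ : V × ℕ → I => ∫ a : I, H r (update ρ j a) :=
      ((hmr.comp hup).stronglyMeasurable.integral_prod_right'
        (ν := (volume : Measure I))).measurable
    refine integral_mono (integrable_bdd (hmr.comp (hup.comp (measurable_id.prodMk measurable_const)))
      C fun x => hC _ _) ((integrable_bdd hJ C fun x => ?_).const_mul 2) fun ρ => by
        have := hlow ρ
        linarith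
    exact (abs_integral_le_integral_abs).trans ((integral_mono
      (integrable_bdd ((hmr.comp (measurable_update x)).abs) C fun a => by
        simp only [Function.comp_apply, abs_abs]; exact hC _ _)
      (integrable_const C) fun a => hC _ _).trans (by simp))
  set P : ℝ → ℝ := fun r => if s₀ ≤ r ∧ r < s then 2 * ∫ ρ, H r ρ ∂iidLabels (V × ℕ) else 0
  have hPm : Measurable P := Measurable.ite
    (measurableSet_Ici.inter measurableSet_Iio)
    ((hm.stronglyMeasurable.integral_prod_right' (ν := iidLabels (V × ℕ))).measurable.const_mul 2)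
    measurable_const
  have hPC : ∀ r, |P r| ≤ 2 * C := fun r => by
    simp only [P]; split_ifs
    · rw [abs_mul, abs_two]; exact mul_le_mul_of_nonneg_left (hbound r) zero_le_two
    · simpa using hC0
  refine (integral_mono (μ := (volume : Measure I))
    (g := fun t : I => P t) ?_ (integrable_bdd (hPm.comp measurable_subtype_coe) _ fun t => hPC _)
    fun t => ?_).trans ?_
  · exact (integrable_bdd (μ := (iidLabels (V × ℕ)).prod (volume : Measure I))
      (hfm.comp hup) C fun x => hfC _).integral_prod_right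
  · simp only [f, update_self, P]
    by_cases hc : s₀ ≤ (t : ℝ) ∧ (t : ℝ) < s
    · simp only [if_pos hc]
      exact key _ (by linarith [hc.2]) t rfl
    · simp [if_neg hc]
  · rw [integral_unitInterval, ← intervalIntegral.integral_const_mul,
      intervalIntegral.integral_of_le zero_le_one, intervalIntegral.integral_of_le hs,
      ← integral_indicator measurableSet_Ioc, ← integral_indicator measurableSet_Ioc]
    refine le_of_eq (integral_congr_ae ?_)
    have hn : ∀ᵐ r : ℝ, r ≠ s₀ ∧ r ≠ s ∧ r ≠ 0 := by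
      have : ∀ a : ℝ, ∀ᵐ r : ℝ, r ≠ a := fun a => by
        rw [ae_iff]; simp
      filter_upwards [this s₀, this s, this 0] with r a b c using ⟨a, b, c⟩
    filter_upwards [hn] with r hr
    by_cases h : r ∈ Set.Ioc s₀ s
    · have hI : r ∈ Set.Icc (0:ℝ) 1 := ⟨by linarith [h.1], by linarith [h.2]⟩
      have hI' : r ∈ Set.Ioc (0:ℝ) 1 := ⟨by linarith [h.1], hI.2⟩
      rw [Set.indicator_of_mem h, Set.indicator_of_mem hI']
      simp only [P, Set.projIcc_of_mem zero_le_one hI]
      rw [if_pos ⟨h.1.le, lt_of_le_of_ne h.2 hr.2.1⟩]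
    · rw [Set.indicator_of_notMem h]
      by_cases hI' : r ∈ Set.Ioc (0:ℝ) 1
      · rw [Set.indicator_of_mem hI']
        simp only [P, Set.projIcc_of_mem zero_le_one ⟨hI'.1.le, hI'.2⟩]
        rw [if_neg]
        exact fun hc => h ⟨lt_of_le_of_ne hc.1 (Ne.symm hr.1), hc.2.le⟩
      · rw [Set.indicator_of_notMem hI']

end Averaging

section Equivariance

variable [DecidableEq V] (g : G ≃g G)

lemma edgesIn_image (A : Finset V) :
    edgesIn G (A.image g) = (edgesIn G A).image (Sym2.map g) := by
  ext e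
  induction e using Sym2.ind with
  | _ a b =>
    simp only [mem_edgesIn, Finset.mem_image]
    constructor
    · rintro ⟨hab, ⟨x, hx, rfl⟩, y, hy, rfl⟩
      exact ⟨s(x, y), mem_edgesIn.mpr ⟨g.map_adj_iff.mp hab, hx, hy⟩, rfl⟩
    · rintro ⟨e, he, heq⟩
      induction e using Sym2.ind with
      | _ x y =>
        obtain ⟨hxy, hx, hy⟩ := mem_edgesIn.mp he
        rcases Sym2.eq_iff.mp heq with ⟨rfl, rfl⟩ | ⟨rfl, rfl⟩
        · exact ⟨g.map_adj_iff.mpr hxy, ⟨x, hx, rfl⟩, y, hy, rfl⟩
        · exact ⟨g.map_adj_iff.mpr hxy.symm, ⟨y, hy, rfl⟩, x, hx, rfl⟩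

lemma Ev_image (A : Finset V) (f : (V → Bool) → ℝ) :
    Ev G θ (A.image g) f = Ev G θ A (fun η => f (fun v => η (g.symm v))) := by
  unfold Ev
  rw [Finset.powerset_image, Finset.sum_image]
  · refine Finset.sum_congr rfl fun s _ => ?_
    have e : cfg (s.image g) = fun v => cfg s (g.symm v) := by
      funext v
      simp only [cfg, Finset.mem_image]
      congr 1
      exact propext ⟨fun ⟨x, hx, hxv⟩ => by rw [← hxv]; simpa using hx,
        fun h => ⟨g.symm v, h, by simp⟩⟩
    rw [e]
    congr 1
    unfold prior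
    rw [edgesIn_image g A, Finset.prod_image (fun a _ b _ h => Sym2.map.injective g.injective h)]
    congr 1
    refine Finset.prod_congr rfl fun e _ => ?_
    induction e using Sym2.ind with
    | _ x y => simp [edgeWeight_mk]
  · exact fun a _ b _ h => Finset.image_injective g.injective h

lemma mu_image (A : Finset V) (h : V → ℝ) (v : V) :
    mu G θ (A.image g) h (g v) = mu G θ A (fun w => h (g w)) v := by
  have key : ∀ F : (V → Bool) → ℝ, Zf G θ (A.image g) h F =
      Zf G θ A (fun w => h (g w)) fun η => F fun w => η (g.symm w) := fun F => by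
    unfold Zf
    rw [Ev_image]
    refine Ev_congr fun η => ?_
    rw [Finset.prod_image g.injective.injOn]
    congr 1
    exact Finset.prod_congr rfl fun w _ => by simp
  simp only [mu, key]
  simp

/-- The sampler commutes with automorphisms. -/
lemma out_image (A : Finset V) (K : ℕ) (ρ u : V × ℕ → I) (j : V × ℕ) :
    out G θ (A.image g) K (fun i => ρ (g.symm i.1, i.2)) (fun i => u (g.symm i.1, i.2)) j =
      out G θ A K ρ u (g.symm j.1, j.2) := by
  classical
  suffices out G θ (A.image g) K (fun i => ρ (g.symm i.1, i.2)) (fun i => u (g.symm i.1, i.2)) =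
      fun i => out G θ A K ρ u (g.symm i.1, i.2) from congrFun this j
  refine out_unique fun i => ?_
  rw [out_eq A K ρ u (g.symm i.1, i.2)]
  congr 1
  unfold drift
  have hm : i ∈ A.image g ×ˢ Finset.range K ↔ (g.symm i.1, i.2) ∈ A ×ˢ Finset.range K := by
    simp only [Finset.mem_product, Finset.mem_image]
    exact ⟨fun ⟨⟨a, ha, e⟩, h⟩ => ⟨by rw [← e]; simpa using ha, h⟩,
      fun ⟨ha, h⟩ => ⟨⟨_, ha, by simp⟩, h⟩⟩
  simp only [hm]
  split_ifs
  · congr 1
    show mu G θ A _ _ = mu G θ (A.image g) _ i.1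
    conv_rhs => rw [show i.1 = g (g.symm i.1) by simp]
    rw [mu_image]
    congr 1
    funext w
    simp [fld, lkv, estT, Bef, est]
  · rfl

end Equivariance

end Vale.Agent.P161.Crit
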