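import Vale.Agent.P161.Crit.Lower

/-!
# Decay of the weights along geodesics and exponential moments of their sums
-/

namespace Vale.Agent.P161.Crit

open MeasureTheory unitInterval Function SimpleGraph Vale.Agent.P161

variable {V : Type*} {G : SimpleGraph V} [G.LocallyFinite] {d : ℕ} {θ : ℝ}

/-- A regular tree with an interaction not above the reconstruction threshold. -/
structure Par (G : SimpleGraph V) [G.LocallyFinite] (d : ℕ) (θ : ℝ) : Prop where
  tree : G.IsTree
  deg : ∀ v, G.degree v = d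
  three : 3 ≤ d
  nonneg : 0 ≤ θ
  crit : ((d : ℝ) - 1) * θ ^ 2 ≤ 1

namespace Par

variable (P : Par G d θ)
include P

lemma two_le : (2 : ℝ) ≤ (d : ℝ) - 1 := by
  have : (3 : ℝ) ≤ d := by exact_mod_cast P.three
  linarith

lemma sq_le_half : θ ^ 2 ≤ 1 / 2 := by nlinarith [P.crit, P.two_le, sq_nonneg θ]

lemma lt_one : θ < 1 := by nlinarith [P.sq_le_half, P.nonneg]

lemma abs_lt_one : |θ| < 1 := by rw [abs_of_nonneg P.nonneg]; exact P.lt_one

lemma mem_Icc : θ ∈ Set.Icc (0 : ℝ) (3 / 4) := ⟨P.nonneg, by nlinarith [P.sq_le_half]⟩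

lemma cast_kids {p w : V} (h : G.Adj p w) : ((kids G p w).card : ℝ) = (d : ℝ) - 1 := by
  have := P.three
  rw [card_kids P.deg h, Nat.cast_sub (by omega)]
  simp

lemma sum_brn {p w : V} (h : G.Adj p w) (m : ℕ) :
    ∑ x ∈ brn G m p w, θ ^ (2 * G.dist w x) =
      ∑ j ∈ Finset.range (m + 1), (((d : ℝ) - 1) * θ ^ 2) ^ j := by
  classical
  induction m generalizing p w with
  | zero => simp [brn]
  | succ m ih =>
    rw [sum_brn_succ P.tree, dist_self, mul_zero, pow_zero, Finset.sum_range_succ' _ (m + 1),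
      pow_zero, add_comm (1 : ℝ)]
    congr 1
    rw [Finset.sum_congr rfl (g := fun _ => θ ^ 2 *
      ∑ j ∈ Finset.range (m + 1), (((d : ℝ) - 1) * θ ^ 2) ^ j) fun z hz => ?_]
    · rw [Finset.sum_const, nsmul_eq_mul, P.cast_kids h, ← mul_assoc, Finset.mul_sum]
      exact Finset.sum_congr rfl fun j _ => by rw [pow_succ]; ring
    · have hwz := (mem_kids.mp hz).2
      rw [← ih hwz, Finset.mul_sum]
      refine Finset.sum_congr rfl fun x hx => ?_
      have hf := ((mem_brn P.tree m hwz x).mp hx).1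
      have := (geo_cons P.tree hwz hf).2.2.1
      rw [this]; ring

variable [Countable V] [DecidableEq V]

/-- One side branch damps at a definite rate. -/
theorem kappa {A : Finset V} (hA : Convex' G A) {p w z : V} (hpw : G.Adj p w) (hz : z ∈ kids G p w)
    {K : ℕ} (hK : 0 < K) {k : ℕ} {r : ℝ} (hτ : 0 < tau k r)
    (hsub : brn G (Rad k r) p w ⊆ A) :
    ((d : ℝ) - 1) * θ ^ 2 * St G θ A K k r (Xf G θ A p w z) ≤ 1 - eta k r := by
  obtain ⟨hzp, hwz⟩ := mem_kids.mp hz
  have hw : w ∈ A := hsub ((mem_brn P.tree _ hpw w).mpr ⟨far_self hpw, by simp⟩)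
  set s := Real.sqrt (tau k r) with hs
  have hs0 : 0 < s := Real.sqrt_pos.mpr hτ
  have hs1 : s ≤ 1 := Real.sqrt_le_one.mpr (tau_le_one k r)
  have hss : s ^ 2 = tau k r := Real.sq_sqrt hτ.le
  set R := Rad k r with hR
  have hR1 : 1 / s ≤ R := by
    rw [hR, Rad, Nat.cast_add_one]
    exact (Nat.lt_floor_add_one _).le
  have hR2 : (R : ℝ) ≤ 2 / s := by
    rw [hR, Rad, Nat.cast_add_one]
    have h1 := Nat.floor_le (show 0 ≤ 1 / s by positivity)
    have h2 : 1 ≤ 1 / s := by rw [le_div_iff₀ hs0]; linarith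
    rw [show (2 : ℝ) / s = 1 / s + 1 / s by ring]
    linarith
  set h := ((d : ℝ) - 1) * θ ^ 2 with hh
  have hh0 : 0 ≤ h := mul_nonneg (by linarith [P.two_le]) (sq_nonneg θ)
  set D := side G A p w z with hD
  have hwD : w ∈ D := mem_side.mpr ⟨hw, not_far_self, not_far_self⟩
  have hDc : Convex' G D := convex_side P.tree hA hpw.symm hwz
  set T := brn G R p w \ brn G (R - 1) w z with hT
  have hbr : brn G (R - 1) w z ⊆ brn G R p w := fun x hx => by
    obtain ⟨h1, h2⟩ := (mem_brn P.tree _ hwz x).mp hx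
    refine (mem_brn P.tree _ hpw x).mpr ⟨far_child P.tree hpw hwz hzp h1, ?_⟩
    have := (geo_cons P.tree hwz h1).2.2.1
    have : 1 ≤ R := by rw [hR, Rad]; omega
    omega
  have hTD : T ⊆ D := fun x hx => by
    obtain ⟨hx1, hx2⟩ := Finset.mem_sdiff.mp hx
    obtain ⟨h1, h2⟩ := (mem_brn P.tree _ hpw x).mp hx1
    refine mem_side.mpr ⟨hsub hx1, fun hf => ((far_swap P.tree hpw).mp hf) h1, fun hf => hx2 ?_⟩
    have := (geo_cons P.tree hwz hf).2.2.1
    exact (mem_brn P.tree _ hwz x).mpr ⟨hf, by omega⟩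
  have hTc : ∀ x ∈ T, ∑ x' ∈ T, θ ^ G.dist w x' * θ ^ G.dist x x' ≤
      (((R : ℝ) + 3) * ((R : ℝ) + 1)) * θ ^ G.dist w x := by
    intro x _
    have hsubT : T ⊆ bll G w R := fun y hy => (mem_bll P.tree.connected).mpr
      ((mem_brn P.tree _ hpw y).mp (Finset.mem_sdiff.mp hy).1).2
    refine (Finset.sum_le_sum_of_subset_of_nonneg hsubT fun y _ _ =>
      mul_nonneg (pow_nonneg P.nonneg _) (pow_nonneg P.nonneg _)).trans ?_
    rw [sum_bll_sph P.tree]
    refine (Finset.sum_le_card_nsmul _ _ (((R : ℝ) + 3) * θ ^ G.dist w x) fun i hi => ?_).trans_eq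
      (by rw [Finset.card_range, nsmul_eq_mul]; push_cast; ring)
    have h1 : ∑ y ∈ sph G w i, θ ^ G.dist w y * θ ^ G.dist x y =
        θ ^ i * ∑ y ∈ sph G w i, θ ^ G.dist y x := by
      rw [Finset.mul_sum]
      refine Finset.sum_congr rfl fun y hy => ?_
      rw [(mem_sph P.tree.connected).mp hy, dist_comm]
    rw [h1]
    refine (sum_sph_shift P.tree P.deg (by have := P.three; omega) P.nonneg P.lt_one.le P.crit w x
      i).trans (mul_le_mul_of_nonneg_right ?_ (pow_nonneg P.nonneg _))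
    rw [Finset.mem_range] at hi
    have : (i : ℝ) ≤ R := by exact_mod_cast Nat.lt_succ_iff.mp hi
    linarith
  have hc0 : 0 ≤ ((R : ℝ) + 3) * ((R : ℝ) + 1) := by positivity
  have hlow := mu_sq_lower P.tree P.nonneg P.lt_one hDc hwD hTD hc0 hTc hK k r
  set H := ∑ x ∈ T, θ ^ (2 * G.dist w x)
  set SR := ∑ j ∈ Finset.range (R + 1), h ^ j with hSR
  have hH : SR / 2 ≤ H := by
    obtain ⟨R', hR'⟩ : ∃ R', R = R' + 1 := ⟨R - 1, by rw [hR, Rad]; omega⟩
    have e : H + θ ^ 2 * ∑ j ∈ Finset.range R, h ^ j = SR := by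
      show (∑ x ∈ T, θ ^ (2 * G.dist w x)) + _ = _
      rw [hSR, hh, ← P.sum_brn hpw R,
        ← Finset.sum_sdiff (f := fun x => θ ^ (2 * G.dist w x)) hbr, ← hT]
      congr 1
      rw [Finset.sum_congr rfl (g := fun x => θ ^ 2 * θ ^ (2 * G.dist z x)) fun x hx => by
        rw [(geo_cons P.tree hwz ((mem_brn P.tree _ hwz x).mp hx).1).2.2.1]; ring,
        ← Finset.mul_sum, P.sum_brn hwz, hR', Nat.add_sub_cancel]
    have e2 : SR = h * (∑ j ∈ Finset.range R, h ^ j) + 1 := by
      rw [hSR, Finset.sum_range_succ', Finset.mul_sum, pow_zero]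
      congr 1
      exact Finset.sum_congr rfl fun j _ => by ring
    have h0 : 0 ≤ ∑ j ∈ Finset.range R, h ^ j := Finset.sum_nonneg fun j _ => pow_nonneg hh0 j
    have hθh : 2 * θ ^ 2 ≤ h := mul_le_mul_of_nonneg_right P.two_le (sq_nonneg θ)
    nlinarith
  set E := St G θ A K k r (Xf G θ A p w z) with hE
  have hB : IsB D fun f => mu G θ D f w ^ 2 :=
    (IsB.mu' P.nonneg P.lt_one D w).comp_real (φ := fun x => x ^ 2) (by fun_prop)
  have hXB : IsB D fun f => Xf G θ A p w z f := isB_Xf P.tree P.nonneg P.lt_one p w z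
  have hE' : E ≤ 1 - 1 / 1536 * St G θ D K k r (fun f => mu G θ D f w ^ 2) := by
    rw [hE, St_consist P.tree P.abs_lt_one hA hDc ⟨w, hwD⟩
      (fun x hx => (mem_side.mp hx).1) hXB]
    refine (St_mono P.tree P.abs_lt_one hDc ⟨w, hwD⟩ hXB
      ((IsB.const D 1).add ((IsB.const D (-(1 / 1536))).mul hB)) fun f hf => ?_).trans_eq ?_
    · unfold Xf
      have hm : mu G θ D f w ^ 2 ≤ 1 := by
        rw [← sq_abs]
        exact pow_le_one₀ (abs_nonneg _) (abs_mu_le P.nonneg P.lt_one D hf w)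
      have hx := mul_nonneg (show (0:ℝ) ≤ 1 / 768 by norm_num) (sq_nonneg (mu G θ D f w))
      have h1 := Real.exp_le_exp.mpr (le_refl (-(1 / 768) * mu G θ D f w ^ 2))
      have h2 := Real.add_one_le_exp (1 / 768 * mu G θ D f w ^ 2)
      rw [neg_mul, Real.exp_neg]
      calc (Real.exp (1 / 768 * mu G θ D f w ^ 2))⁻¹ ≤ (1 + 1 / 768 * mu G θ D f w ^ 2)⁻¹ :=
            inv_anti₀ (by linarith) (by linarith)
        _ ≤ 1 + -(1 / 1536) * mu G θ D f w ^ 2 := by
            rw [inv_le_iff_one_le_mul₀ (by linarith)]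
            nlinarith [sq_nonneg (mu G θ D f w)]
    · rw [St_add P.tree P.abs_lt_one hDc ⟨w, hwD⟩ (IsB.const D 1)
        ((IsB.const D (-(1 / 1536))).mul hB), St_const_mul,
        St_const P.tree P.abs_lt_one hDc ⟨w, hwD⟩]
      ring
  have hE0 : 0 ≤ E := by
    have h := St_mono P.tree P.abs_lt_one (K := K) (k := k) (r := r) hA ⟨w, hw⟩ (IsB.const D 0) hXB
      fun f _ => (Xf_pos (G := G) (θ := θ) A p w z f).le
    rwa [St_const P.tree P.abs_lt_one hA ⟨w, hw⟩] at h
  have hE1 : E ≤ 1 := by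
    have h := St_mono P.tree P.abs_lt_one (K := K) (k := k) (r := r) hA ⟨w, hw⟩ hXB (IsB.const D 1)
      fun f _ => Xf_le_one (G := G) (θ := θ) A p w z f
    rwa [St_const P.tree P.abs_lt_one hA ⟨w, hw⟩] at h
  show h * E ≤ 1 - s / 400000
  by_cases hcase : h ≤ 1 - s
  · linarith [mul_le_of_le_one_right hh0 hE1]
  · push Not at hcase
    have hsum : 1 / (4 * s) ≤ SR := by
      set N := ⌊1 / (2 * s)⌋₊ with hN
      have hN1 : (N : ℝ) ≤ 1 / (2 * s) := Nat.floor_le (by positivity)
      have hN2 : 1 / (2 * s) < (N : ℝ) + 1 := Nat.lt_floor_add_one _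
      have hNR : N ≤ R := by
        have : (N : ℝ) ≤ R := hN1.trans (le_trans (by
          rw [div_le_div_iff₀ (by positivity) hs0]; linarith) hR1)
        exact_mod_cast this
      have hterm : ∀ j ∈ Finset.range (N + 1), 1 / 2 ≤ h ^ j := fun j hj => by
        rw [Finset.mem_range] at hj
        have hjN : (j : ℝ) ≤ N := by exact_mod_cast Nat.lt_succ_iff.mp hj
        have hjs : (j : ℝ) * s ≤ 1 / 2 := by
          refine (mul_le_mul_of_nonneg_right (hjN.trans hN1) hs0.le).trans_eq ?_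
          field_simp
        have hb := one_add_mul_le_pow (show (-2 : ℝ) ≤ -s by linarith) j
        have hp := pow_le_pow_left₀ (show 0 ≤ 1 + -s by linarith) (show 1 + -s ≤ h by linarith) j
        linarith
      have h1 : ((N : ℝ) + 1) * (1 / 2) ≤ SR := by
        refine le_trans ?_ (Finset.sum_le_sum_of_subset_of_nonneg
          (Finset.range_subset_range.mpr (Nat.add_le_add_right hNR 1))
          fun j _ _ => pow_nonneg hh0 j)
        have := Finset.card_nsmul_le_sum _ _ _ hterm
        rw [Finset.card_range, nsmul_eq_mul] at this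
        push_cast at this
        exact this
      have : 1 / (4 * s) = 1 / (2 * s) * (1 / 2) := by ring
      rw [this]
      nlinarith
    have hcs : tau k r * (((R : ℝ) + 3) * ((R : ℝ) + 1)) ≤ 25 := by
      have a1 : s * ((R : ℝ) + 3) ≤ 5 := by
        have := mul_le_mul_of_nonneg_left hR2 hs0.le
        rw [mul_div_cancel₀ _ hs0.ne'] at this
        nlinarith
      have a2 : s * ((R : ℝ) + 1) ≤ 5 := le_trans (by nlinarith) a1
      rw [← hss]
      calc s ^ 2 * (((R : ℝ) + 3) * ((R : ℝ) + 1)) = (s * ((R : ℝ) + 3)) * (s * ((R : ℝ) + 1)) := by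
            ring
        _ ≤ 5 * 5 := mul_le_mul a1 a2 (by positivity) (by norm_num)
        _ = 25 := by norm_num
    have hlow' : s / 208 ≤ St G θ D K k r (fun f => mu G θ D f w ^ 2) := by
      refine le_trans ?_ hlow
      rw [le_div_iff₀ (by positivity)]
      have hτH : s / 8 ≤ tau k r * H := by
        calc s / 8 = tau k r * (1 / (4 * s) / 2) := by rw [← hss]; field_simp; ring
          _ ≤ tau k r * (SR / 2) := mul_le_mul_of_nonneg_left (by linarith) hτ.le
          _ ≤ tau k r * H := mul_le_mul_of_nonneg_left hH hτ.le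
      nlinarith
    have hc1 : h ≤ 1 := P.crit
    nlinarith [mul_le_of_le_one_left hE0 hc1]

omit [Countable V] [DecidableEq V] in
lemma eta_pos {k : ℕ} {r : ℝ} (hτ : 0 < tau k r) : 0 < eta k r ∧ eta k r ≤ 1 := by
  unfold eta
  refine ⟨div_pos (Real.sqrt_pos.mpr hτ) (by norm_num), ?_⟩
  rw [div_le_one (by norm_num)]
  exact (Real.sqrt_le_one.mpr (tau_le_one k r)).trans (by norm_num)

/-- The dampings at distinct vertices of a geodesic are independent. -/
theorem St_prod_path {A : Finset V} (hA : Convex' G A) {o u : V} (ho : o ∈ A) (hu : u ∈ A)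
    (K k : ℕ) (r : ℝ) : ∀ S ⊆ inner' G o u,
    St G θ A K k r (fun f => ∏ i ∈ S, Xf G θ A (tow G i o) i (tow G i u) f) =
      ∏ i ∈ S, St G θ A K k r (Xf G θ A (tow G i o) i (tow G i u)) := by
  intro S
  induction S using Finset.strongInduction with
  | _ S ih =>
    intro hS
    rcases S.eq_empty_or_nonempty with rfl | hne
    · simp [St_const P.tree P.abs_lt_one hA ⟨o, ho⟩]
    obtain ⟨i, hi, hmax⟩ := S.exists_max_image (fun i => G.dist o i) hne
    obtain ⟨gi, i1, i2⟩ := (mem_inner P.tree).mp (hS hi)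
    have hiA := geo_subset P.tree hA ho hu gi
    obtain ⟨hadj, hdi⟩ := tow_spec P.tree i1
    set p := tow G i o with hp
    have hpA : p ∈ A := hA.step_mem hiA ho hadj hdi
    have hΦ : IsB (half G A p i) fun f => Xf G θ A p i (tow G i u) f :=
      (isB_Xf P.tree P.nonneg P.lt_one _ _ _).mono (side_subset_half' P.tree hadj)
    have hΨ : IsB (half G A i p)
        fun f => ∏ j ∈ S.erase i, Xf G θ A (tow G j o) j (tow G j u) f := by
      have one : ∀ j ∈ S.erase i, IsB (half G A i p) fun f => Xf G θ A (tow G j o) j (tow G j u) f := by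
        intro j hj
        obtain ⟨hji, hjS⟩ := Finset.mem_erase.mp hj
        obtain ⟨gj, j1, j2⟩ := (mem_inner P.tree).mp (hS hjS)
        refine (isB_Xf P.tree P.nonneg P.lt_one _ _ _).mono fun x hx => ?_
        obtain ⟨hxA, hx1, hx2⟩ := mem_side.mp hx
        refine mem_half.mpr ⟨hxA, ?_⟩
        have e1 := dist_through P.tree (tow_adj P.tree j2) (far_tow P.tree j2) hx2
        have e0 := dist_through P.tree (tow_adj P.tree j1) (far_tow P.tree j1) hx1
        have hle := hmax j hjS
        have hne' : G.dist o j ≠ G.dist o i := fun e => hji (geo_inj P.tree gj gi e)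
        rw [mem_geo P.tree] at gi gj
        rw [dist_comm (u := i) (v := o)] at hdi
        rw [dist_comm (u := j) (v := o)] at e0
        by_contra hn
        have e2 := dist_through P.tree hadj (far_tow P.tree i1) hn
        rw [dist_comm (u := i) (v := o)] at e2
        have t : G.dist x u ≤ G.dist x i + G.dist i u := P.tree.connected.dist_triangle
        omega
      refine Finset.induction_on' (S.erase i) (by simpa using IsB.const _ (1 : ℝ))
        fun {a s} ha _ has ih => ?_
      simp only [Finset.prod_insert has]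
      exact (one a ha).mul ih
    rw [← Finset.mul_prod_erase S (fun j => St G θ A K k r (Xf G θ A (tow G j o) j (tow G j u))) hi,
      ← ih (S.erase i) (Finset.erase_ssubset hi) ((Finset.erase_subset i S).trans hS),
      ← St_indep P.tree P.abs_lt_one hA hiA hpA hadj hΦ hΨ fun f _ => Xf_neg P.tree hiA f]
    exact St_congr fun f _ => (Finset.mul_prod_erase S _ hi).symm

end Par

end Vale.Agent.P161.Crit
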