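import Vale.Agent.P161.Crit.Spheres
import Vale.Agent.P161.Crit.Decay

/-!
# Decay of invariant positive kernels on the edges of a regular tree
-/

namespace Vale.Agent.P161.Crit

open SimpleGraph Vale.Agent.P161

section Abstract

variable {ι : Type*} (c : ι → ι → ℝ) (S : ι → Finset ι)

/-- The bilinear form of a kernel on two finite families. -/
def qform (P P' : Multiset ι) : ℝ := (P.map fun x => (P'.map fun y => c x y).sum).sum

/-- The end points of walks of `n` steps. -/
def walks (o : ι) : ℕ → Multiset ι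
  | 0 => {o}
  | n + 1 => (walks o n).bind fun x => (S x).val

variable {c S}

lemma sum_map_bind_val (P : Multiset ι) (f : ι → ℝ) :
    ((P.bind fun x => (S x).val).map f).sum = (P.map fun x => ∑ y ∈ S x, f y).sum := by
  induction P using Multiset.induction_on with
  | empty => simp
  | cons a P ih => simp [ih]

lemma sum_finset_map_comm (P : Multiset ι) (T : Finset ι) (f : ι → ι → ℝ) :
    ∑ y ∈ T, (P.map fun x => f x y).sum = (P.map fun x => ∑ y ∈ T, f x y).sum := by
  induction P using Multiset.induction_on with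
  | empty => simp
  | cons a P ih => simp [Finset.sum_add_distrib, ih]

lemma qform_bind (hswap : ∀ x z, ∑ y ∈ S x, c y z = ∑ y ∈ S z, c x y) (P P' : Multiset ι) :
    qform c (P.bind fun x => (S x).val) P' = qform c P (P'.bind fun x => (S x).val) := by
  unfold qform
  rw [sum_map_bind_val]
  refine congrArg Multiset.sum (Multiset.map_congr rfl fun x _ => ?_)
  rw [sum_map_bind_val, sum_finset_map_comm P' (S x) fun z y => c y z]
  exact congrArg Multiset.sum (Multiset.map_congr rfl fun z _ => hswap x z)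

/-- An invariant positive kernel is bounded on a sphere by the growth of a weight under the sphere
operator. -/
theorem power_bound (o : ι) (w : ι → ℝ) {B D : ℝ}
    (hswap : ∀ x z, ∑ y ∈ S x, c y z = ∑ y ∈ S z, c x y)
    (hcs : ∀ P P', qform c P P' ^ 2 ≤ qform c P P * qform c P' P')
    (hw : ∀ x, 0 ≤ w x) (hwo : w o = 1) (hB : 0 ≤ B) (hS : ∀ x, ∑ y ∈ S x, w y ≤ B * w x)
    (hc0 : 0 ≤ c o o) (hD : ∀ y, |c o y| ≤ D * w y) :
    |∑ y ∈ S o, c o y| ≤ B * c o o := by
  set P := walks S o with hP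
  set a : ℕ → ℝ := fun n => qform c (P 0) (P n) with ha
  have hshift : ∀ i j, qform c (P i) (P j) = a (i + j) := by
    intro i
    induction i with
    | zero => intro j; simp [a]
    | succ i ih =>
      intro j
      rw [show P (i + 1) = (P i).bind fun x => (S x).val from rfl, qform_bind hswap,
        show i + 1 + j = i + (j + 1) by omega]
      exact ih (j + 1)
  have hwalk : ∀ n, ((P n).map w).sum ≤ B ^ n := by
    intro n
    induction n with
    | zero => simp [P, walks, hwo]
    | succ n ih =>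
      rw [show P (n + 1) = (P n).bind fun x => (S x).val from rfl, sum_map_bind_val, pow_succ']
      refine (Multiset.sum_map_le_sum_map _ (fun x => B * w x) fun x _ => hS x).trans ?_
      rw [Multiset.sum_map_mul_left]
      exact mul_le_mul_of_nonneg_left ih hB
  have hD0 : 0 ≤ D := by
    have := hD o
    rw [hwo, mul_one] at this
    exact (abs_nonneg _).trans this
  have hbound : ∀ n, |a n| ≤ D * B ^ n := by
    intro n
    have h1 : a n = ((P n).map fun y => c o y).sum := by simp [a, P, walks, qform]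
    rw [h1]
    have h2 : ∀ M : Multiset ι, |(M.map fun y => c o y).sum| ≤ D * (M.map w).sum := by
      intro M
      induction M using Multiset.induction_on with
      | empty => simp
      | cons b M ih =>
        simp only [Multiset.map_cons, Multiset.sum_cons, mul_add]
        exact (abs_add_le _ _).trans (add_le_add (hD b) ih)
    exact (h2 _).trans (mul_le_mul_of_nonneg_left (hwalk n) hD0)
  have hsq : ∀ n, a n ^ 2 ≤ a 0 * a (n + n) := by
    intro n
    have h := hcs (P 0) (P n)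
    rw [hshift n n, hshift 0 0] at h
    exact h
  have e0 : a 0 = c o o := by simp [a, P, walks, qform]
  have e1 : a 1 = ∑ y ∈ S o, c o y := by simp [a, P, walks, qform]
  rw [← e1, ← e0]
  rw [← e0] at hc0
  rcases hc0.eq_or_lt with h0 | h0
  · have := hsq 1
    rw [← h0, zero_mul] at this
    rw [← h0, mul_zero, sq_nonpos_iff _ |>.mp this, abs_zero]
  by_contra hcon
  push Not at hcon
  have hpow : ∀ i, |a 1| ^ 2 ^ i * a 0 ≤ a 0 ^ 2 ^ i * |a (2 ^ i)| := by
    intro i
    induction i with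
    | zero => simp [mul_comm]
    | succ i ih =>
      have h := pow_le_pow_left₀ (by positivity) ih 2
      rw [mul_pow, mul_pow, ← pow_mul, ← pow_mul, sq_abs, ← pow_succ] at h
      have h2 : a (2 ^ i) ^ 2 ≤ a 0 * |a (2 ^ (i + 1))| := by
        refine (hsq _).trans (mul_le_mul_of_nonneg_left ?_ h0.le)
        rw [show 2 ^ (i + 1) = 2 ^ i + 2 ^ i by ring]
        exact le_abs_self _
      refine le_of_mul_le_mul_right ?_ h0
      calc |a 1| ^ 2 ^ (i + 1) * a 0 * a 0 = |a 1| ^ 2 ^ (i + 1) * a 0 ^ 2 := by ring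
        _ ≤ a 0 ^ 2 ^ (i + 1) * a (2 ^ i) ^ 2 := h
        _ ≤ a 0 ^ 2 ^ (i + 1) * (a 0 * |a (2 ^ (i + 1))|) :=
            mul_le_mul_of_nonneg_left h2 (pow_nonneg h0.le _)
        _ = _ := by ring
  rcases hB.eq_or_lt with rfl | hB'
  · have := hbound 1
    rw [zero_mul] at hcon
    rw [pow_one, mul_zero] at this
    linarith
  set t := |a 1| / (B * a 0) with ht
  have ht1 : 1 < t := by rw [ht, one_lt_div (by positivity)]; exact hcon
  obtain ⟨n, hn⟩ := pow_unbounded_of_one_lt (D / a 0) ht1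
  have h1 : t ^ n ≤ t ^ 2 ^ n := pow_le_pow_right₀ ht1.le (Nat.lt_two_pow_self).le
  have h2 : t ^ 2 ^ n ≤ D / a 0 := by
    rw [ht, div_pow, div_le_div_iff₀ (by positivity) h0, mul_pow]
    refine (hpow n).trans ?_
    calc a 0 ^ 2 ^ n * |a (2 ^ n)| ≤ a 0 ^ 2 ^ n * (D * B ^ 2 ^ n) :=
          mul_le_mul_of_nonneg_left (hbound _) (by positivity)
      _ = _ := by ring
  linarith

end Abstract

variable {V : Type*} {G : SimpleGraph V}

/-- An oriented edge. -/
abbrev Edg (G : SimpleGraph V) : Type _ := {e : V × V // G.Adj e.1 e.2}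

/-- The sum of the four distances between the end points of two edges. -/
noncomputable def esum (G : SimpleGraph V) (e f : V × V) : ℕ :=
  G.dist e.1 f.1 + G.dist e.1 f.2 + G.dist e.2 f.1 + G.dist e.2 f.2

/-- The same edge, up to orientation. -/
def SameEdge (e f : V × V) : Prop := e = f ∨ e = (f.2, f.1)

lemma esum_comm (e f : V × V) : esum G e f = esum G f e := by
  simp only [esum, dist_comm]; ring

lemma esum_congr {e e' f f' : V × V} (he : SameEdge e e') (hf : SameEdge f f') :
    esum G e f = esum G e' f' := by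
  unfold esum
  rcases he with rfl | rfl <;> rcases hf with rfl | rfl <;> ring

lemma SameEdge.symm {e f : V × V} (h : SameEdge e f) : SameEdge f e := by
  rcases h with rfl | rfl
  · exact Or.inl rfl
  · exact Or.inr rfl

lemma SameEdge.trans {e f g : V × V} (h : SameEdge e f) (h' : SameEdge f g) : SameEdge e g := by
  rcases h with rfl | rfl <;> rcases h' with rfl | rfl
  exacts [Or.inl rfl, Or.inr rfl, Or.inr rfl, Or.inl rfl]

/-- The possible patterns of the four distances. -/
lemma four_dist {a b b' z : ℕ} (c1 : a = b + 1 ∨ b = a + 1) (c2 : b' = z + 1 ∨ z = b' + 1)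
    (c3 : a = b' + 1 ∨ b' = a + 1) (c4 : b = z + 1 ∨ z = b + 1) (h : ¬ (a = z ∧ b = b')) :
    (a = b + 1 ∧ a = b' + 1 ∧ z + 2 = a ∧ 2 ≤ a) ∨
      (b = a + 1 ∧ b = z + 1 ∧ b' + 2 = b ∧ 2 ≤ b) ∨
      (b' = a + 1 ∧ b' = z + 1 ∧ b + 2 = b' ∧ 2 ≤ b') ∨
      (z = b + 1 ∧ z = b' + 1 ∧ a + 2 = z ∧ 2 ≤ z) := by
  rcases c1 with c1 | c1 <;> rcases c2 with c2 | c2 <;> rcases c3 with c3 | c3 <;> omega

variable (hG : G.IsTree)
include hG

/-- Two edges are equal or have ordered far ends. -/
lemma edge_pair (e f : Edg G) :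
    (SameEdge e.1 f.1 ∧ esum G e.1 f.1 = 2) ∨ ∃ k a b, G.dist a b = k + 1 + 1 ∧
      SameEdge e.1 (a, tow G a b) ∧ SameEdge f.1 (b, tow G b a) ∧
      esum G e.1 f.1 = 4 * (k + 1) := by
  obtain ⟨⟨p, q⟩, hpq⟩ := e
  obtain ⟨⟨x, y⟩, hxy⟩ := f
  simp only at hpq hxy ⊢
  have c1 := hG.dist_eq_dist_add_one_of_adj p hxy
  have c2 := hG.dist_eq_dist_add_one_of_adj q hxy
  have c3 := hG.dist_eq_dist_add_one_of_adj x hpq
  have c4 := hG.dist_eq_dist_add_one_of_adj y hpq
  simp only [dist_comm (u := x), dist_comm (u := y)] at c3 c4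
  obtain ⟨a, ha⟩ : ∃ n, G.dist p x = n := ⟨_, rfl⟩
  obtain ⟨b, hb⟩ : ∃ n, G.dist p y = n := ⟨_, rfl⟩
  obtain ⟨b', hb'⟩ : ∃ n, G.dist q x = n := ⟨_, rfl⟩
  obtain ⟨z, hz⟩ : ∃ n, G.dist q y = n := ⟨_, rfl⟩
  rw [ha, hb] at c1
  rw [hb', hz] at c2
  rw [ha, hb'] at c3
  rw [hb, hz] at c4
  have hfour := fun h => four_dist c1 c2 c3 c4 h
  subst ha hb hb' hz
  by_cases hcase : G.dist p x = G.dist q y ∧ G.dist p y = G.dist q x
  · obtain ⟨h1, h2⟩ := hcase
    left
    rcases c1 with hab | hab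
    · have hfar : Far G p q x := by
        unfold Far; rw [dist_comm (u := x) (v := q), dist_comm (u := x) (v := p)]; omega
      have hn : ¬ Far G p q y := by
        unfold Far; rw [dist_comm (u := y) (v := q), dist_comm (u := y) (v := p)]; omega
      have := dist_across hG hpq hn hfar
      rw [dist_comm (u := y) (v := x), dist_eq_one_iff_adj.mpr hxy,
        dist_comm (u := y) (v := p)] at this
      have hb0 : G.dist p y = 0 := by omega
      have hb0' : G.dist q x = 0 := by omega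
      obtain rfl := hG.connected.dist_eq_zero_iff.mp hb0
      obtain rfl := hG.connected.dist_eq_zero_iff.mp hb0'
      exact ⟨Or.inr rfl, by simp only [esum]; omega⟩
    · have hfar : Far G p q y := by
        unfold Far; rw [dist_comm (u := y) (v := q), dist_comm (u := y) (v := p)]; omega
      have hn : ¬ Far G p q x := by
        unfold Far; rw [dist_comm (u := x) (v := q), dist_comm (u := x) (v := p)]; omega
      have := dist_across hG hpq hn hfar
      rw [dist_eq_one_iff_adj.mpr hxy, dist_comm (u := x) (v := p)] at this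
      have ha0 : G.dist p x = 0 := by omega
      have hz0 : G.dist q y = 0 := by omega
      obtain rfl := hG.connected.dist_eq_zero_iff.mp ha0
      obtain rfl := hG.connected.dist_eq_zero_iff.mp hz0
      exact ⟨Or.inl rfl, by simp only [esum]; omega⟩
  right
  have hmax := hfour hcase
  rcases hmax with ⟨e1, e2, e3, e4⟩ | ⟨e1, e2, e3, e4⟩ | ⟨e1, e2, e3, e4⟩ | ⟨e1, e2, e3, e4⟩
  · refine ⟨G.dist p x - 2, p, x, by omega, ?_, ?_, by simp only [esum]; omega⟩
    · rw [tow_eq hG hpq e2]; exact Or.inl rfl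
    · rw [tow_eq hG hxy (by rw [SimpleGraph.dist_comm, SimpleGraph.dist_comm (u := y)]; exact e1)]; exact Or.inl rfl
  · refine ⟨G.dist p y - 2, p, y, by omega, ?_, ?_, by simp only [esum]; omega⟩
    · rw [tow_eq hG hpq e2]; exact Or.inl rfl
    · rw [tow_eq hG hxy.symm (by rw [SimpleGraph.dist_comm, SimpleGraph.dist_comm (u := x)]; exact e1)]; exact Or.inr rfl
  · refine ⟨G.dist q x - 2, q, x, by omega, ?_, ?_, by simp only [esum]; omega⟩
    · rw [tow_eq hG hpq.symm e1]; exact Or.inr rfl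
    · rw [tow_eq hG hxy (by rw [SimpleGraph.dist_comm, SimpleGraph.dist_comm (u := y)]; exact e2)]; exact Or.inl rfl
  · refine ⟨G.dist q y - 2, q, y, by omega, ?_, ?_, by simp only [esum]; omega⟩
    · rw [tow_eq hG hpq.symm e1]; exact Or.inr rfl
    · rw [tow_eq hG hxy.symm (by rw [SimpleGraph.dist_comm, SimpleGraph.dist_comm (u := x)]; exact e2)]; exact Or.inr rfl

variable [G.LocallyFinite] {d : ℕ} (hdeg : ∀ v, G.degree v = d)
include hdeg

/-- Edge pairs at the same distance are equivalent. -/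
lemma edge_iso {e f e' f' : Edg G} {k : ℕ} (h : esum G e.1 f.1 = 4 * (k + 1))
    (h' : esum G e'.1 f'.1 = 4 * (k + 1)) : ∃ g : G ≃g G,
      SameEdge (g e.1.1, g e.1.2) e'.1 ∧ SameEdge (g f.1.1, g f.1.2) f'.1 := by
  rcases edge_pair hG e f with ⟨-, h2⟩ | ⟨k1, a, b, hab, he, hf, h1⟩
  · omega
  rcases edge_pair hG e' f' with ⟨-, h2⟩ | ⟨k2, a', b', hab', he', hf', h1'⟩
  · omega
  obtain ⟨g, ga, gb⟩ := exists_iso hG hdeg (show G.dist a b = G.dist a' b' by omega)
  have hne : a ≠ b := by rintro rfl; simp at hab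
  have key : ∀ {p : V × V} {u v : V}, SameEdge p (u, v) → SameEdge (g p.1, g p.2) (g u, g v) := by
    intro p u v hp
    rcases hp with rfl | rfl
    · exact Or.inl rfl
    · exact Or.inr rfl
  refine ⟨g, ?_, ?_⟩
  · refine (key he).trans ?_
    rw [iso_tow hG g hne, ga, gb]
    exact he'.symm
  · refine (key hf).trans ?_
    rw [iso_tow hG g hne.symm, ga, gb]
    exact hf'.symm

/-- Two edges can be exchanged. -/
lemma edge_swap (e f : Edg G) : ∃ g : G ≃g G,
    SameEdge (g e.1.1, g e.1.2) f.1 ∧ SameEdge (g f.1.1, g f.1.2) e.1 := by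
  rcases edge_pair hG e f with ⟨h, -⟩ | ⟨k, a, b, -, -, -, h1⟩
  · exact ⟨Iso.refl, h, h.symm⟩
  · exact edge_iso hG hdeg h1 (by rw [esum_comm]; exact h1)

omit hG hdeg in
lemma sum_biUnion_le' {ι α : Type*} [DecidableEq α] (T : Finset ι) (F : ι → Finset α) (w : α → ℝ)
    (hw : ∀ x, 0 ≤ w x) : ∑ x ∈ T.biUnion F, w x ≤ ∑ i ∈ T, ∑ x ∈ F i, w x := by
  classical
  induction T using Finset.induction_on with
  | empty => simp
  | @insert i T hi ih =>
    rw [Finset.biUnion_insert, Finset.sum_insert hi]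
    refine le_trans ?_ (add_le_add le_rfl ih)
    rw [← Finset.sum_union_inter (s₁ := F i)]
    exact le_add_of_nonneg_right (Finset.sum_nonneg fun x _ => hw x)

open Classical in
/-- The edges at edge distance `k + 1`. -/
noncomputable def eSph (k : ℕ) (e : Edg G) : Finset (Edg G) :=
  ((bll G e.1.1 (k + 3) ×ˢ bll G e.1.1 (k + 3)).subtype fun f => G.Adj f.1 f.2).filter
    fun f => esum G e.1 f.1 = 4 * (k + 1)

omit hdeg in
lemma mem_eSph {k : ℕ} {e f : Edg G} : f ∈ eSph k e ↔ esum G e.1 f.1 = 4 * (k + 1) := by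
  classical
  simp only [eSph, Finset.mem_filter, Finset.mem_subtype, Finset.mem_product]
  refine ⟨fun h => h.2, fun h => ⟨?_, h⟩⟩
  obtain ⟨⟨p, q⟩, hpq⟩ := e
  obtain ⟨⟨x, y⟩, hxy⟩ := f
  simp only [esum] at h hpq hxy ⊢
  rw [mem_bll hG.connected, mem_bll hG.connected]
  have c1 := hG.dist_eq_dist_add_one_of_adj p hxy
  have c2 := hG.dist_eq_dist_add_one_of_adj q hxy
  have c3 := hG.dist_eq_dist_add_one_of_adj x hpq
  have c4 := hG.dist_eq_dist_add_one_of_adj y hpq
  simp only [dist_comm (u := x), dist_comm (u := y)] at c3 c4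
  omega

omit hdeg in
lemma iso_esum (g : G ≃g G) (e f : V × V) :
    esum G (g e.1, g e.2) (g f.1, g f.2) = esum G e f := by
  simp [esum, iso_dist hG.connected]

omit hdeg in
lemma iso_same (g : G ≃g G) {e f : V × V} (h : SameEdge e f) :
    SameEdge (g e.1, g e.2) (g f.1, g f.2) := by
  rcases h with rfl | rfl
  · exact Or.inl rfl
  · exact Or.inr rfl

/-- The weight of a sphere of edges seen from a vertex. -/
lemma eSph_weight {θ : ℝ} (hd : 2 ≤ d) (hθ0 : 0 < θ) (hθ1 : θ ≤ 1)
    (hθd : ((d : ℝ) - 1) * θ ^ 2 ≤ 1) (s : V) (k : ℕ) (e : Edg G) :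
    θ ^ (k + 1) * ∑ f ∈ eSph k e, θ ^ min (G.dist s f.1.1) (G.dist s f.1.2) ≤
      4 * d * ((k : ℝ) + 3) * θ ^ min (G.dist s e.1.1) (G.dist s e.1.2) := by
  classical
  obtain ⟨⟨p, q⟩, hpq⟩ := e
  have hc := hG.connected
  set w : V × V → ℝ := fun f => θ ^ min (G.dist s f.1) (G.dist s f.2) with hwdef
  have hw0 : ∀ f, 0 ≤ w f := fun f => pow_nonneg hθ0.le _
  set R : V → Finset (V × V) := fun a => (sph G a k).biUnion fun x =>
    (G.neighborFinset x).image (fun y => (x, y)) ∪ (G.neighborFinset x).image (fun y => (y, x))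
  set U : Finset (V × V) := R p ∪ R q
  have hR : ∀ a, ∀ f : V × V, G.Adj f.1 f.2 → (G.dist a f.1 = k ∨ G.dist a f.2 = k) → f ∈ R a := by
    rintro a ⟨x, y⟩ hxy h
    simp only [R, Finset.mem_biUnion, Finset.mem_union, Finset.mem_image, mem_sph hc,
      mem_neighborFinset, Prod.mk.injEq]
    rcases h with h | h
    · exact ⟨x, h, Or.inl ⟨y, hxy, rfl, rfl⟩⟩
    · exact ⟨y, h, Or.inr ⟨x, hxy.symm, rfl, rfl⟩⟩
  have hsub : ∀ f ∈ eSph k (⟨(p, q), hpq⟩ : Edg G), (f : V × V) ∈ U := by
    intro f hf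
    rw [mem_eSph hG] at hf
    rcases edge_pair hG ⟨(p, q), hpq⟩ f with ⟨-, h2⟩ | ⟨k', a, b, hab, he, hfb, h4⟩
    · omega
    obtain rfl : k' = k := by omega
    have hne : a ≠ b := by rintro rfl; simp at hab
    obtain ⟨h1, h2⟩ := tow_spec hG hne
    obtain ⟨h3, h5⟩ := tow_spec hG hne.symm
    have hmid : G.dist (tow G a b) (tow G b a) = k' := by
      rw [SimpleGraph.dist_comm (u := b), SimpleGraph.dist_comm (u := tow G b a)] at h5
      have hb' : tow G b a ∈ geo G a b := by
        rw [mem_geo hG, dist_eq_one_iff_adj.mpr h3.symm]; omega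
      rcases ((geo_step hG hne).2 _).mp hb' with hh | hh
      · rw [hh, SimpleGraph.dist_self] at h5; omega
      · rw [mem_geo hG, dist_eq_one_iff_adj.mpr h3.symm] at hh; omega
    have hp : tow G a b = p ∨ tow G a b = q := by
      rcases he with e | e <;> rw [Prod.ext_iff] at e
      · exact Or.inr e.2.symm
      · exact Or.inl e.1.symm
    have hf' : G.dist (tow G a b) f.1.1 = k' ∨ G.dist (tow G a b) f.1.2 = k' := by
      rcases hfb with e | e <;> rw [Prod.ext_iff] at e
      · exact Or.inr (e.2 ▸ hmid)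
      · exact Or.inl (e.1 ▸ hmid)
    simp only [U, Finset.mem_union]
    rcases hp with hp | hp
    · exact Or.inl (hR p _ f.2 (hp ▸ hf'))
    · exact Or.inr (hR q _ f.2 (hp ▸ hf'))
  have hwb : ∀ f : V × V, G.Adj f.1 f.2 →
      θ * w f ≤ θ ^ G.dist f.1 s ∧ θ * w f ≤ θ ^ G.dist f.2 s := fun f hf => by
    have h := hG.dist_eq_dist_add_one_of_adj s hf
    simp only [w]
    rw [← pow_succ', SimpleGraph.dist_comm (u := f.1), SimpleGraph.dist_comm (u := f.2)]
    constructor <;> refine pow_le_pow_of_le_one hθ0.le hθ1 ?_ <;> omega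
  have hRa : ∀ a, θ ^ (k + 1) * ∑ f ∈ R a, w f ≤ 2 * d * (((k : ℝ) + 3) * θ ^ G.dist a s) := by
    intro a
    have h1 : ∑ f ∈ R a, w f ≤ ∑ x ∈ sph G a k, ∑ f ∈ (G.neighborFinset x).image (fun y => (x, y)) ∪
        (G.neighborFinset x).image (fun y => (y, x)), w f :=
      sum_biUnion_le' _ _ _ hw0
    have h2 : ∀ x, θ * ∑ f ∈ (G.neighborFinset x).image (fun y => (x, y)) ∪
        (G.neighborFinset x).image (fun y => (y, x)), w f ≤ 2 * d * θ ^ G.dist x s := by
      intro x
      rw [Finset.mul_sum]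
      refine (Finset.sum_le_card_nsmul _ _ (θ ^ G.dist x s) fun f hf => ?_).trans ?_
      · simp only [Finset.mem_union, Finset.mem_image, mem_neighborFinset] at hf
        rcases hf with ⟨y, hy, rfl⟩ | ⟨y, hy, rfl⟩
        · exact (hwb (x, y) hy).1
        · exact (hwb (y, x) hy.symm).2
      · rw [nsmul_eq_mul]
        refine mul_le_mul_of_nonneg_right ?_ (pow_nonneg hθ0.le _)
        refine (Nat.cast_le.mpr ((Finset.card_union_le _ _).trans
          (add_le_add Finset.card_image_le Finset.card_image_le))).trans_eq ?_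
        rw [card_neighborFinset_eq_degree, hdeg]; push_cast; ring
    calc θ ^ (k + 1) * ∑ f ∈ R a, w f
        ≤ θ ^ k * ∑ x ∈ sph G a k, θ * ∑ f ∈ (G.neighborFinset x).image (fun y => (x, y)) ∪
            (G.neighborFinset x).image (fun y => (y, x)), w f := by
          rw [pow_succ, mul_assoc, ← Finset.mul_sum]
          exact mul_le_mul_of_nonneg_left (mul_le_mul_of_nonneg_left h1 hθ0.le) (by positivity)
      _ ≤ θ ^ k * ∑ x ∈ sph G a k, 2 * (d : ℝ) * θ ^ G.dist x s :=
          mul_le_mul_of_nonneg_left (Finset.sum_le_sum fun x _ => h2 x) (by positivity)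
      _ = 2 * d * (θ ^ k * ∑ x ∈ sph G a k, θ ^ G.dist x s) := by rw [← Finset.mul_sum]; ring
      _ ≤ _ := mul_le_mul_of_nonneg_left (sum_sph_shift hG hdeg hd hθ0.le hθ1 hθd a s k)
          (by positivity)
  have hmin : ∀ a ∈ ({p, q} : Set V), θ ^ G.dist a s ≤ θ ^ min (G.dist s p) (G.dist s q) := by
    rintro a (rfl | rfl) <;> refine pow_le_pow_of_le_one hθ0.le hθ1 ?_ <;>
      rw [SimpleGraph.dist_comm (u := a) (v := s)]
    exacts [min_le_left _ _, min_le_right _ _]
  calc θ ^ (k + 1) * ∑ f ∈ eSph k (⟨(p, q), hpq⟩ : Edg G), θ ^ min (G.dist s f.1.1) (G.dist s f.1.2)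
      ≤ θ ^ (k + 1) * (∑ f ∈ R p, w f + ∑ f ∈ R q, w f) := by
        refine mul_le_mul_of_nonneg_left ?_ (by positivity)
        rw [← Finset.sum_union_inter]
        refine le_trans (le_trans (le_of_eq ?_) (Finset.sum_le_sum_of_subset_of_nonneg
          (s := (eSph k (⟨(p, q), hpq⟩ : Edg G)).map (Function.Embedding.subtype _)) (f := w) ?_
            fun f _ _ => hw0 f)) (le_add_of_nonneg_right (Finset.sum_nonneg fun f _ => hw0 f))
        · rw [Finset.sum_map]; rfl
        · intro f hf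
          rw [Finset.mem_map] at hf
          obtain ⟨f', hf', rfl⟩ := hf
          exact hsub f' hf'
    _ ≤ _ := by
        rw [mul_add]
        have a1 := (hRa p).trans (mul_le_mul_of_nonneg_left (mul_le_mul_of_nonneg_left
          (hmin p (by simp)) (by positivity)) (by positivity))
        have a2 := (hRa q).trans (mul_le_mul_of_nonneg_left (mul_le_mul_of_nonneg_left
          (hmin q (by simp)) (by positivity)) (by positivity))
        linarith

/-- A sphere of edges is large. -/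
lemma card_eSph {θ : ℝ} (P : Par G d θ) (hcrit : ((d : ℝ) - 1) * θ ^ 2 = 1) (k : ℕ) (e : Edg G) :
    1 ≤ ((eSph k e).card : ℝ) * θ ^ (2 * (k + 1)) := by
  classical
  obtain ⟨⟨p, q⟩, hpq⟩ := e
  have hb := P.sum_brn hpq (k + 1)
  have ha := P.sum_brn hpq k
  rw [hcrit] at ha hb
  simp only [one_pow, Finset.sum_const, Finset.card_range, nsmul_eq_mul, mul_one] at ha hb
  have hsub : brn G k p q ⊆ brn G (k + 1) p q := fun x hx => by
    rw [mem_brn hG _ hpq] at hx ⊢
    exact ⟨hx.1, by omega⟩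
  have hd := Finset.sum_sdiff (f := fun x => θ ^ (2 * G.dist q x)) hsub
  rw [ha, hb] at hd
  push_cast at hd
  have hone : ∑ x ∈ brn G (k + 1) p q \ brn G k p q, θ ^ (2 * G.dist q x) = 1 := by linarith
  set Dl := brn G (k + 1) p q \ brn G k p q
  have hmem : ∀ x ∈ Dl, Far G p q x ∧ G.dist q x = k + 1 := fun x hx => by
    simp only [Dl, Finset.mem_sdiff, mem_brn hG _ hpq] at hx
    refine ⟨hx.1.1, le_antisymm hx.1.2 ?_⟩
    by_contra hlt
    exact hx.2 ⟨hx.1.1, by omega⟩
  rw [← hone, Finset.sum_congr rfl (g := fun _ => θ ^ (2 * (k + 1))) fun x hx => by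
    rw [(hmem x hx).2], Finset.sum_const, nsmul_eq_mul]
  refine mul_le_mul_of_nonneg_right (Nat.cast_le.mpr ?_) (pow_nonneg P.nonneg _)
  refine Finset.card_le_card_of_injOn
    (fun x => if h : x ≠ q then (⟨(x, tow G x q), tow_adj hG h⟩ : Edg G) else ⟨(p, q), hpq⟩) ?_ ?_
  · intro x hx
    obtain ⟨hf, hd⟩ := hmem x hx
    have hne : x ≠ q := by rintro rfl; simp at hd
    simp only [Finset.mem_coe, dif_pos hne]
    rw [mem_eSph hG]
    obtain ⟨-, h2⟩ := tow_spec hG hne
    rw [SimpleGraph.dist_comm (u := x), SimpleGraph.dist_comm (u := tow G x q)] at h2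
    have h3 := far_dist hG hpq hf
    rw [SimpleGraph.dist_comm (u := x) (v := p), SimpleGraph.dist_comm (u := x) (v := q)] at h3
    have h4 : G.dist p (tow G x q) = k + 1 := by
      have t1 := hG.connected.dist_triangle (u := p) (v := q) (w := tow G x q)
      rw [dist_eq_one_iff_adj.mpr hpq] at t1
      have t2 := hG.connected.dist_triangle (u := p) (v := tow G x q) (w := x)
      rw [dist_eq_one_iff_adj.mpr (tow_adj hG hne).symm] at t2
      omega
    simp only [esum]
    omega
  · intro x hx y hy hxy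
    obtain ⟨-, hdx⟩ := hmem x hx
    obtain ⟨-, hdy⟩ := hmem y hy
    have hnx : x ≠ q := by rintro rfl; simp at hdx
    have hny : y ≠ q := by rintro rfl; simp at hdy
    simp only [dif_pos hnx, dif_pos hny, Subtype.mk.injEq, Prod.mk.injEq] at hxy
    exact hxy.1

/-- An invariant positive kernel on edges decays like `(k + 3) θ ^ k`. -/
theorem edge_decay {θ : ℝ} (P : Par G d θ) (hcrit : ((d : ℝ) - 1) * θ ^ 2 = 1)
    (c : Edg G → Edg G → ℝ)
    (hinv : ∀ (g : G ≃g G) (e f e' f' : Edg G), SameEdge (g e.1.1, g e.1.2) e'.1 →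
      SameEdge (g f.1.1, g f.1.2) f'.1 → c e f = c e' f')
    (hsymm : ∀ e f, c e f = c f e)
    (hcs : ∀ M M', qform c M M' ^ 2 ≤ qform c M M * qform c M' M')
    (hdiag : ∀ e, 0 ≤ c e e) {N : ℕ} (hsupp : ∀ e f, N < esum G e.1 f.1 → c e f = 0)
    {e f : Edg G} {k : ℕ} (hk : esum G e.1 f.1 = 4 * (k + 1)) :
    |c e f| ≤ 4 * d * ((k : ℝ) + 3) * θ ^ (k + 1) * c e e := by
  classical
  have hθ : 0 < θ := by
    rcases P.nonneg.eq_or_lt with h | h
    · rw [← h] at hcrit; simp at hcrit
    · exact h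
  have hθ1 : θ ≤ 1 := P.lt_one.le
  have hswap : ∀ x z, ∑ y ∈ eSph k x, c y z = ∑ y ∈ eSph k z, c x y := by
    intro x z
    obtain ⟨g, gx, gz⟩ := edge_swap hG hdeg x z
    let gm : Edg G → Edg G := fun y => ⟨(g y.1.1, g y.1.2), g.map_adj_iff.mpr y.2⟩
    let gi : Edg G → Edg G := fun y => ⟨(g.symm y.1.1, g.symm y.1.2), g.symm.map_adj_iff.mpr y.2⟩
    have hmove : ∀ y, esum G z.1 (gm y).1 = esum G x.1 y.1 := fun y => by
      rw [esum_congr gx.symm (Or.inl rfl : SameEdge (gm y).1 (gm y).1), iso_esum hG]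
    refine Finset.sum_nbij' gm gi ?_ ?_ ?_ ?_ ?_
    · intro y hy
      rw [mem_eSph hG] at hy ⊢
      rw [hmove, hy]
    · intro y hy
      rw [mem_eSph hG] at hy ⊢
      rw [← hmove, ← hy]
      exact congrArg _ (by simp [gm, gi])
    · intro y _; simp [gm, gi]
    · intro y _; simp [gm, gi]
    · intro y _
      rw [hsymm x, ← hinv g y z (gm y) x (Or.inl rfl) gz]
  set s := e.1.1
  set w : Edg G → ℝ := fun y => θ ^ min (G.dist s y.1.1) (G.dist s y.1.2)
  have hself : ∀ y, c y y = c e e := fun y => by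
    obtain ⟨g, gy, -⟩ := edge_swap hG hdeg y e
    exact hinv g y y e e gy gy
  have habs : ∀ y, |c e y| ≤ c e e := fun y => by
    have h := hcs {e} {y}
    simp only [qform, Multiset.map_singleton, Multiset.sum_singleton] at h
    rw [hself y] at h
    refine abs_le_of_sq_le_sq ?_ (hdiag e)
    linarith
  have key := power_bound (c := c) (S := eSph k) e w
    (B := 4 * d * ((k : ℝ) + 3) / θ ^ (k + 1)) (D := c e e / θ ^ N) hswap hcs
    (fun x => pow_nonneg hθ.le _) (by simp [w, s]) (by positivity) (fun x => ?_) (hdiag e)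
    (fun y => ?_)
  · have hconst : ∀ y ∈ eSph k e, c e y = c e f := fun y hy => by
      rw [mem_eSph hG] at hy
      obtain ⟨g, g1, g2⟩ := edge_iso hG hdeg hy hk
      exact hinv g e y e f g1 g2
    rw [Finset.sum_congr rfl hconst, Finset.sum_const, nsmul_eq_mul, abs_mul,
      abs_of_nonneg (Nat.cast_nonneg _), div_mul_eq_mul_div, le_div_iff₀ (pow_pos hθ _)] at key
    have hcard := card_eSph hG hdeg P hcrit k e
    calc |c e f| = 1 * |c e f| := (one_mul _).symm
      _ ≤ ((eSph k e).card : ℝ) * θ ^ (2 * (k + 1)) * |c e f| :=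
          mul_le_mul_of_nonneg_right hcard (abs_nonneg _)
      _ = ((eSph k e).card : ℝ) * |c e f| * θ ^ (k + 1) * θ ^ (k + 1) := by rw [two_mul, pow_add]; ring
      _ ≤ 4 * d * ((k : ℝ) + 3) * c e e * θ ^ (k + 1) :=
          mul_le_mul_of_nonneg_right key (pow_nonneg hθ.le _)
      _ = _ := by ring
  · have := eSph_weight hG hdeg (show 2 ≤ d by have := P.three; omega) hθ hθ1 P.crit s k x
    rw [div_mul_eq_mul_div, le_div_iff₀ (pow_pos hθ _), mul_comm]
    exact this
  · by_cases hN : N < esum G e.1 y.1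
    · rw [hsupp e y hN, abs_zero]
      exact mul_nonneg (div_nonneg (hdiag e) (pow_nonneg hθ.le _)) (pow_nonneg hθ.le _)
    · rw [div_mul_eq_mul_div, le_div_iff₀ (pow_pos hθ _)]
      refine mul_le_mul (habs y) ?_ (pow_nonneg hθ.le _) (hdiag e)
      refine pow_le_pow_of_le_one hθ.le hθ1 ?_
      simp only [esum] at hN
      simp only [s]
      omega

end Vale.Agent.P161.Crit
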