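import Vale.Agent.P161.Crit.Swap
import Vale.Agent.P161.Crit.Corr

/-!
# Sums of an edge quantity along a geodesic
-/

namespace Vale.Agent.P161.Crit

open MeasureTheory unitInterval Function SimpleGraph Vale.Agent.P161

variable {V : Type*} {G : SimpleGraph V} {θ θ' : ℝ}

/-- The logarithmic damping of an edge, in both directions. -/
noncomputable def gS (G : SimpleGraph V) (θ : ℝ) (B : Finset V) (f : V → ℝ) (e : V × V) : ℝ :=
  glog θ (cav G θ B f e.1 e.2) + glog θ (cav G θ B f e.2 e.1)

lemma measurable_gS (B : Finset V) (e : V × V) :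
    Measurable fun f : V → ℝ => gS G θ B f e := by
  unfold gS glog rho cav
  have h1 : ∀ (A : Finset V) (v : V), Measurable fun f : V → ℝ => mu G θ A f v := measurable_mu
  have h2 : Measurable fun b : ℝ => -Real.log (max ((1 - b ^ 2) / (1 - θ ^ 2 * b ^ 2)) (1 / 2)) :=
    (Real.measurable_log.comp ((((measurable_id.pow_const 2).const_sub 1).div
      (((measurable_id.pow_const 2).const_mul _).const_sub 1)).max measurable_const)).neg
  exact (h2.comp (h1 _ _)).add (h2.comp (h1 _ _))

variable [G.LocallyFinite] [DecidableEq V]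

/-- The volume attached to an edge. -/
noncomputable def eBall (G : SimpleGraph V) [G.LocallyFinite] [DecidableEq V] (L : ℕ) (e : V × V) :
    Finset V := bll G e.1 L ∪ bll G e.2 L

/-- The difference of the dampings of one edge in the two systems centred on it. -/
noncomputable def Zq (G : SimpleGraph V) [G.LocallyFinite] [DecidableEq V] (θ θ' : ℝ) (L K k : ℕ)
    (r : ℝ) (e : V × V) (q : (V × ℕ → I) × (V × ℕ → I)) : ℝ :=
  gS G θ (eBall G L e) (fout G θ (eBall G L e) K k r q) e -
    gS G θ' (eBall G L e) (fout G θ' (eBall G L e) K k r q) e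

lemma Zq_same {e f : V × V} (h : SameEdge e f) (L K k : ℕ) (r : ℝ)
    (q : (V × ℕ → I) × (V × ℕ → I)) : Zq G θ θ' L K k r e q = Zq G θ θ' L K k r f q := by
  rcases h with rfl | rfl
  · rfl
  · simp only [Zq, eBall, gS]
    rw [Finset.union_comm (bll G f.2 L)]
    ring

lemma measurable_Zq (L K k : ℕ) (r : ℝ) (e : V × V) : Measurable (Zq G θ θ' L K k r e) :=
  ((measurable_gS _ e).comp ((measurable_fout G θ _ K k).comp measurable_prodMk_left)).sub
    ((measurable_gS _ e).comp ((measurable_fout G θ' _ K k).comp measurable_prodMk_left))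

lemma eBall_sub (hG : G.IsTree) {L : ℕ} {e : V × V} (h : G.Adj e.1 e.2) :
    bll G e.1 L ⊆ eBall G L e ∧ eBall G L e ⊆ bll G e.1 (L + 1) := by
  refine ⟨Finset.subset_union_left, Finset.union_subset (bll_mono hG.connected _ (by omega)) ?_⟩
  intro z hz
  rw [mem_bll hG.connected] at hz ⊢
  have t : G.dist e.1 z ≤ G.dist e.1 e.2 + G.dist e.2 z := hG.connected.dist_triangle
  rw [dist_eq_one_iff_adj.mpr h] at t
  omega

variable [Countable V] {d : ℕ} {θc : ℝ}

omit [Countable V] in
lemma Zq_shift (hG : G.IsTree) (g : G ≃g G) (L K k : ℕ) (r : ℝ) (e : V × V)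
    (q : (V × ℕ → I) × (V × ℕ → I)) :
    Zq G θ θ' L K k r (g e.1, g e.2) (shiftL g.toEquiv q.1, shiftL g.toEquiv q.2) =
      Zq G θ θ' L K k r e q := by
  obtain ⟨ρ, u⟩ := q
  have hb : eBall G L (g e.1, g e.2) = (eBall G L e).image g := by
    simp only [eBall, bll_image hG.connected g, Finset.image_union]
  simp only [Zq, gS, hb, fout_shift, cav_image g hG.connected, RelIso.symm_apply_apply]

namespace Par

variable (P : Par G d θ) (P' : Par G d θ')
include P P'

omit [Countable V] in
lemma abs_Zq_le (L K k : ℕ) (r : ℝ) {e : V × V} (he : G.Adj e.1 e.2)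
    (q : (V × ℕ → I) × (V × ℕ → I)) : |Zq G θ θ' L K k r e q| ≤ 10 := by
  have hc := P.tree.connected
  have h1 : e.1 ∈ eBall G L e := Finset.mem_union_left _ (self_mem_bll hc _ _)
  have h2 : e.2 ∈ eBall G L e := Finset.mem_union_right _ (self_mem_bll hc _ _)
  have key : ∀ {φ : ℝ} (Q : Par G d φ),
      0 ≤ gS G φ (eBall G L e) (fout G φ (eBall G L e) K k r q) e ∧
        gS G φ (eBall G L e) (fout G φ (eBall G L e) K k r q) e ≤ 10 := by
    intro φ Q
    have hf := isFld_fout G φ (eBall G L e) K k r q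
    have b1 := (abs_cav_lt Q.tree Q.nonneg Q.lt_one hf h2 he).le
    have b2 := (abs_cav_lt Q.tree Q.nonneg Q.lt_one hf h1 he.symm).le
    obtain ⟨a1, a2⟩ := glog_range Q.mem_Icc b1
    obtain ⟨a3, a4⟩ := glog_range Q.mem_Icc b2
    have s1 : cav G φ (eBall G L e) (fout G φ (eBall G L e) K k r q) e.1 e.2 ^ 2 ≤ 1 := by
      rw [← sq_abs]; exact pow_le_one₀ (abs_nonneg _) b1
    have s2 : cav G φ (eBall G L e) (fout G φ (eBall G L e) K k r q) e.2 e.1 ^ 2 ≤ 1 := by
      rw [← sq_abs]; exact pow_le_one₀ (abs_nonneg _) b2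
    exact ⟨add_nonneg a1 a3, by unfold gS; linarith⟩
  obtain ⟨k1, k2⟩ := key P
  obtain ⟨k3, k4⟩ := key P'
  exact abs_le.mpr ⟨by unfold Zq; linarith, by unfold Zq; linarith⟩

omit [Countable V] in
/-- The mean of the edge quantity is the same at every edge. -/
lemma mean_Zq (L K k : ℕ) (r : ℝ) (e f : Edg G) :
    ∫ q, Zq G θ θ' L K k r e.1 q ∂omg V = ∫ q, Zq G θ θ' L K k r f.1 q ∂omg V := by
  obtain ⟨g, ge, -⟩ := edge_swap P.tree P.deg e f
  rw [← integral_shift g (measurable_Zq L K k r f.1)]
  refine integral_congr_ae (.of_forall fun q => ?_)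
  simp only
  rw [← Zq_same ge, Zq_shift P.tree]

omit [Countable V] in
/-- The mean square of the edge quantity is the same at every edge. -/
lemma mean_Zq_sq (L K k : ℕ) (r : ℝ) (e f : Edg G) :
    ∫ q, Zq G θ θ' L K k r e.1 q ^ 2 ∂omg V = ∫ q, Zq G θ θ' L K k r f.1 q ^ 2 ∂omg V := by
  obtain ⟨g, ge, -⟩ := edge_swap P.tree P.deg e f
  rw [← integral_shift g ((measurable_Zq L K k r f.1).pow_const 2)]
  refine integral_congr_ae (.of_forall fun q => ?_)
  simp only
  rw [← Zq_same ge, Zq_shift P.tree]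

omit P' in
omit [Countable V] in
/-- Distances along a geodesic. -/
lemma geo_dist {o u a b : V} (ha : a ∈ geo G o u) (hb : b ∈ geo G o u)
    (h : G.dist o a ≤ G.dist o b) : G.dist o a + G.dist a b = G.dist o b := by
  classical
  have hmaps : Set.MapsTo (G.dist o) (geo G o b : Set V) (Finset.range (G.dist o b + 1) : Set ℕ) :=
    fun x hx => by
      rw [Finset.mem_coe, mem_geo P.tree] at hx
      simp only [Finset.coe_range, Set.mem_Iio]; omega
  have hinj : Set.InjOn (G.dist o) (geo G o b : Set V) := fun x hx y hy hxy =>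
    geo_inj P.tree (Finset.mem_coe.mp hx) (Finset.mem_coe.mp hy) hxy
  have himg : (geo G o b).image (G.dist o) = Finset.range (G.dist o b + 1) := by
    refine Finset.eq_of_subset_of_card_le (fun x hx => ?_) ?_
    · obtain ⟨y, hy, rfl⟩ := Finset.mem_image.mp hx
      exact hmaps hy
    · rw [Finset.card_image_of_injOn hinj, card_geo P.tree, Finset.card_range]
  have hmem : G.dist o a ∈ (geo G o b).image (G.dist o) := by
    rw [himg, Finset.mem_range]; omega
  obtain ⟨x, hx, hxd⟩ := Finset.mem_image.mp hmem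
  obtain rfl := geo_inj P.tree ha (geo_left_subset P.tree hb hx) hxd.symm
  exact (mem_geo P.tree).mp hx

/-- The centred edge quantity. -/
noncomputable def _root_.Vale.Agent.P161.Crit.Zc (G : SimpleGraph V) [G.LocallyFinite]
    [DecidableEq V] (θ θ' : ℝ) (L K k : ℕ) (r : ℝ) (e : V × V)
    (q : (V × ℕ → I) × (V × ℕ → I)) : ℝ :=
  Zq G θ θ' L K k r e q - ∫ q', Zq G θ θ' L K k r e q' ∂omg V

/-- The variance of a sum along a geodesic is linear in its length. -/
theorem path_second_moment (Pc : Par G d θc) (hcrit : ((d : ℝ) - 1) * θc ^ 2 = 1) (L K k : ℕ)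
    (r : ℝ) (o u : V) (e₀ : Edg G) :
    ∫ q, (∑ c ∈ (geo G o u).erase o, Zq G θ θ' L K k r (tow G c o, c) q) ^ 2 ∂omg V ≤
      384 * d * (G.dist o u : ℝ) * (∫ q, Zq G θ θ' L K k r e₀.1 q ^ 2 ∂omg V) +
        (G.dist o u : ℝ) ^ 2 * (∫ q, Zq G θ θ' L K k r e₀.1 q ∂omg V) ^ 2 := by
  classical
  have hG := P.tree
  set μ := ∫ q, Zq G θ θ' L K k r e₀.1 q ∂omg V with hμ
  set I' := (geo G o u).erase o
  have hadj : ∀ c ∈ I', G.Adj (tow G c o) c := fun c hc =>
    (tow_adj hG (Finset.ne_of_mem_erase hc)).symm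
  set Z : Edg G → (V × ℕ → I) × (V × ℕ → I) → ℝ := fun e q => Zc G θ θ' L K k r e.1 q with hZdef
  have hμe : ∀ e : Edg G, ∫ q, Zq G θ θ' L K k r e.1 q ∂omg V = μ := fun e =>
    P.mean_Zq P' L K k r e e₀
  have hμ10 : |μ| ≤ 10 := by
    refine abs_integral_le_integral_abs.trans ((integral_mono_of_nonneg
      (.of_forall fun q => abs_nonneg _) (integrable_const (10 : ℝ))
      (.of_forall fun q => P.abs_Zq_le P' L K k r e₀.2 q)).trans (by simp))
  have hZm : ∀ e, Measurable (Z e) := fun e => (measurable_Zq L K k r e.1).sub measurable_const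
  have hZb : ∀ e q, |Z e q| ≤ 20 := fun e q => by
    simp only [Z, Zc, hμe]
    have := P.abs_Zq_le P' L K k r e.2 q
    exact (abs_sub _ _).trans (by linarith)
  set C : Edg G → Edg G → ℝ := fun e f => ∫ q, Z e q * Z f q ∂omg V with hC
  have hZi : ∀ e f, Integrable (fun q => Z e q * Z f q) (omg V) := fun e f =>
    integrable_bdd ((hZm e).mul (hZm f)) 400 fun q => by
      simp only [Pi.mul_apply, abs_mul]
      nlinarith [hZb e q, hZb f q, abs_nonneg (Z e q), abs_nonneg (Z f q)]
  set S : Multiset (Edg G) → (V × ℕ → I) × (V × ℕ → I) → ℝ :=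
    fun M q => (M.map fun e => Z e q).sum
  have hSm : ∀ M, Measurable (S M) ∧ ∃ B, ∀ q, |S M q| ≤ B := by
    intro M
    induction M using Multiset.induction_on with
    | empty => exact ⟨by simp [S], 0, fun q => by simp [S]⟩
    | cons e M ih =>
      obtain ⟨h1, B, hB⟩ := ih
      refine ⟨by simpa [S] using (hZm e).fun_add h1, 20 + B, fun q => ?_⟩
      simp only [S, Multiset.map_cons, Multiset.sum_cons]
      exact (abs_add_le _ _).trans (add_le_add (hZb e q) (hB q))
  have hSi : ∀ M M', Integrable (fun q => S M q * S M' q) (omg V) := fun M M' => by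
    obtain ⟨h1, B, hB⟩ := hSm M
    obtain ⟨h2, B', hB'⟩ := hSm M'
    exact integrable_bdd (h1.mul h2) (B * B') fun q => by
      simp only [Pi.mul_apply, abs_mul]
      exact mul_le_mul (hB q) (hB' q) (abs_nonneg _) ((abs_nonneg _).trans (hB q))
  have hform : ∀ M M', qform C M M' = ∫ q, S M q * S M' q ∂omg V := by
    have hrow : ∀ e M', (M'.map fun f => C e f).sum = ∫ q, Z e q * S M' q ∂omg V := by
      intro e M'
      induction M' using Multiset.induction_on with
      | empty => simp [S]
      | cons f M' ih =>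
        simp only [Multiset.map_cons, Multiset.sum_cons, ih, C, S, mul_add]
        rw [integral_add (hZi e f)]
        have := hSi {e} M'
        simpa [S] using this
    intro M M'
    induction M using Multiset.induction_on with
    | empty => simp [qform, S]
    | cons e M ih =>
      unfold qform at ih ⊢
      simp only [Multiset.map_cons, Multiset.sum_cons]
      rw [ih, hrow]
      simp only [S, Multiset.map_cons, Multiset.sum_cons, add_mul]
      rw [integral_add _ (hSi M M')]
      have := hSi {e} M'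
      simpa [S] using this
  have hcs : ∀ M M', qform C M M' ^ 2 ≤ qform C M M * qform C M' M' := by
    intro M M'
    rw [hform, hform, hform]
    have key : ∀ t : ℝ, 0 ≤ (∫ q, S M q * S M q ∂omg V) * (t * t) +
        2 * (∫ q, S M q * S M' q ∂omg V) * t + ∫ q, S M' q * S M' q ∂omg V := by
      intro t
      have h0 : 0 ≤ ∫ q, (t * S M q + S M' q) ^ 2 ∂omg V := integral_nonneg fun q => sq_nonneg _
      have e : (fun q => (t * S M q + S M' q) ^ 2) = fun q =>
          (t * t * (S M q * S M q) + 2 * t * (S M q * S M' q)) + S M' q * S M' q := by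
        funext q; ring
      rw [e, integral_add (((hSi M M).const_mul _).fun_add ((hSi M M').const_mul _)) (hSi M' M'),
        integral_add ((hSi M M).const_mul _) ((hSi M M').const_mul _), integral_const_mul,
        integral_const_mul] at h0
      linarith
    have := discrim_le_zero key
    unfold discrim at this
    linarith
  have hinv : ∀ (g : G ≃g G) (e f e' f' : Edg G), SameEdge (g e.1.1, g e.1.2) e'.1 →
      SameEdge (g f.1.1, g f.1.2) f'.1 → C e f = C e' f' := by
    intro g e f e' f' he hf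
    simp only [C]
    rw [← integral_shift g (F := fun q => Z e' q * Z f' q) ((hZm e').mul (hZm f'))]
    refine integral_congr_ae (.of_forall fun q => ?_)
    simp only [Z, Zc, hμe]
    rw [← Zq_same he, ← Zq_same hf, Zq_shift hG, Zq_shift hG]
  have hsupp : ∀ e f : Edg G, 4 * (2 * L + 3) + 4 < esum G e.1 f.1 → C e f = 0 := by
    intro e f hlt
    have hc := hG.connected
    have hd : 2 * L + 2 < G.dist e.1.1 f.1.1 := by
      by_contra hle
      push Not at hle
      have a1 := hG.dist_eq_dist_add_one_of_adj e.1.1 f.2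
      have a2 := hG.dist_eq_dist_add_one_of_adj f.1.1 e.2
      have a3 := hG.dist_eq_dist_add_one_of_adj e.1.2 f.2
      simp only [esum] at hlt
      rw [SimpleGraph.dist_comm (u := f.1.1), SimpleGraph.dist_comm (u := f.1.1)] at a2
      omega
    have hdisj : Disjoint (eBall G L e.1 ×ˢ Finset.range K) (eBall G L f.1 ×ˢ Finset.range K) := by
      rw [Finset.disjoint_left]
      intro z hz hz'
      have h1 := (mem_bll hc).mp ((eBall_sub hG e.2).2 (Finset.mem_product.mp hz).1)
      have h2 := (mem_bll hc).mp ((eBall_sub hG f.2).2 (Finset.mem_product.mp hz').1)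
      have t : G.dist e.1.1 f.1.1 ≤ G.dist e.1.1 z.1 + G.dist z.1 f.1.1 := hc.dist_triangle
      rw [SimpleGraph.dist_comm (u := z.1) (v := f.1.1)] at t
      omega
    have hdep : ∀ (x : Edg G) (q q' : (V × ℕ → I) × (V × ℕ → I)),
        (∀ i ∈ eBall G L x.1 ×ˢ Finset.range K, q.1 i = q'.1 i ∧ q.2 i = q'.2 i) →
          Z x q = Z x q' := by
      intro x q q' h
      simp only [Z, Zc, Zq]
      congr 1
      have hd' : ∀ φ, ∀ v ∈ eBall G L x.1, fout G φ (eBall G L x.1) K k r q v =
          fout G φ (eBall G L x.1) K k r q' v := fun φ => fout_depends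
        (fun i h1 h2 => (h i (Finset.mem_product.mpr ⟨h1, Finset.mem_range.mpr h2⟩)).1)
        (fun i h1 h2 => (h i (Finset.mem_product.mpr ⟨h1, Finset.mem_range.mpr h2⟩)).2)
      simp only [gS, cav]
      rw [mu_congr (fun v hv => hd' θ v (mem_of_mem_half hv)),
        mu_congr (fun v hv => hd' θ v (mem_of_mem_half hv)),
        mu_congr (fun v hv => hd' θ' v (mem_of_mem_half hv)),
        mu_congr (fun v hv => hd' θ' v (mem_of_mem_half hv))]
    have hz : ∀ x, ∫ q, Z x q ∂omg V = 0 := fun x => by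
      simp only [Z, Zc, hμe]
      rw [integral_sub (integrable_bdd (measurable_Zq L K k r x.1) 10
        (P.abs_Zq_le P' L K k r x.2)) (integrable_const _), hμe]
      simp
    simp only [C]
    rw [integral_mul_omg hdisj (hZm e) (hZm f) (hZb e) (hZb f) (hdep e) (hdep f), hz, zero_mul]
  have hsymm : ∀ e f, C e f = C f e := fun e f =>
    integral_congr_ae (.of_forall fun q => mul_comm _ _)
  have hdiag : ∀ e, 0 ≤ C e e := fun e => integral_nonneg fun q => mul_self_nonneg _
  have hc0 : ∀ e, C e e ≤ ∫ q, Zq G θ θ' L K k r e₀.1 q ^ 2 ∂omg V := by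
    intro e
    rw [← P.mean_Zq_sq P' L K k r e e₀]
    have hi1 : Integrable (fun q => Zq G θ θ' L K k r e.1 q) (omg V) :=
      integrable_bdd (measurable_Zq L K k r e.1) 10 (P.abs_Zq_le P' L K k r e.2)
    have hi2 : Integrable (fun q => Zq G θ θ' L K k r e.1 q ^ 2) (omg V) :=
      integrable_bdd ((measurable_Zq L K k r e.1).pow_const 2) 100 fun q => by
        rw [abs_pow]; nlinarith [P.abs_Zq_le P' L K k r e.2 q, abs_nonneg (Zq G θ θ' L K k r e.1 q)]
    simp only [C, Z, Zc, hμe]
    rw [integral_congr_ae (g := fun q => (Zq G θ θ' L K k r e.1 q ^ 2 -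
        2 * μ * Zq G θ θ' L K k r e.1 q) + μ ^ 2) (.of_forall fun q => by ring),
      integral_add (f := fun q => Zq G θ θ' L K k r e.1 q ^ 2 - 2 * μ * Zq G θ θ' L K k r e.1 q)
        (hi2.sub (hi1.const_mul _)) (integrable_const _),
      integral_sub hi2 (hi1.const_mul _), integral_const_mul, hμe]
    simp only [integral_const, probReal_univ, one_smul]
    nlinarith [sq_nonneg μ]
  set c₀ := ∫ q, Zq G θ θ' L K k r e₀.1 q ^ 2 ∂omg V
  have hc00 : 0 ≤ c₀ := integral_nonneg fun q => sq_nonneg _
  let ed : (c : V) → c ∈ I' → Edg G := fun c hc => ⟨(tow G c o, c), hadj c hc⟩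
  set M : Multiset (Edg G) := I'.attach.val.map fun c => ed c.1 c.2 with hM
  have hsumM : ∀ q, S M q = ∑ c ∈ I', Zc G θ θ' L K k r (tow G c o, c) q := fun q => by
    simp only [S, M, Multiset.map_map]
    exact Finset.sum_attach I' fun c => Zc G θ θ' L K k r (tow G c o, c) q
  have hn : (I'.card : ℝ) = G.dist o u := by
    simp [I', Finset.card_erase_of_mem (left_mem_geo hG o u), card_geo hG]
  set ψ : ℕ → ℝ := fun m => 12 * d * ((m : ℝ) + 1) * θc ^ m
  have hθc0 : 0 ≤ θc := Pc.nonneg
  have hd1 : (1 : ℝ) ≤ d := by have := P.three; exact_mod_cast (show 1 ≤ d by omega)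
  have hψsum : ∀ N, ∑ m ∈ Finset.range N, ψ m ≤ 192 * d := by
    intro N
    simp only [ψ, mul_assoc, ← Finset.mul_sum]
    have := sum_succ_mul_pow_le hθc0 Pc.lt_one N
    have h16 : 1 / (1 - θc) ^ 2 ≤ 16 := by
      rw [div_le_iff₀ (pow_pos (by linarith [Pc.lt_one]) 2)]
      nlinarith [Pc.mem_Icc.2, Pc.lt_one]
    calc 12 * ((d : ℝ) * ∑ m ∈ Finset.range N, ((m : ℝ) + 1) * θc ^ m) ≤ 12 * ((d : ℝ) * 16) :=
          mul_le_mul_of_nonneg_left (mul_le_mul_of_nonneg_left (this.trans h16) (Nat.cast_nonneg _))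
            (by norm_num)
      _ = _ := by ring
  have hpair : ∀ c (hc : c ∈ I') c' (hc' : c' ∈ I'), G.dist o c ≤ G.dist o c' →
      |C (ed c hc) (ed c' hc')| ≤ ψ (G.dist o c' - G.dist o c) * c₀ := by
    intro c hc c' hc' hle
    obtain ⟨hne, hcg⟩ := Finset.mem_erase.mp hc
    obtain ⟨hne', hcg'⟩ := Finset.mem_erase.mp hc'
    rcases hle.eq_or_lt with he | hlt
    · obtain rfl := geo_inj hG hcg hcg' he
      rw [Nat.sub_self, abs_of_nonneg (hdiag _)]
      refine (hc0 _).trans (le_mul_of_one_le_left hc00 ?_)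
      simp only [ψ, Nat.cast_zero, zero_add, mul_one, pow_zero]
      linarith
    have htg : ∀ {x : V}, x ≠ o → x ∈ geo G o u →
        tow G x o ∈ geo G o u ∧ G.dist o (tow G x o) + 1 = G.dist o x := fun {x} hx hxg => by
      refine ⟨geo_left_subset hG hxg (by rw [geo_comm hG]; exact tow_mem_geo hG hx), ?_⟩
      have := (tow_spec hG hx).2
      rw [SimpleGraph.dist_comm (u := x), SimpleGraph.dist_comm (u := tow G x o)] at this
      omega
    obtain ⟨t1, t2⟩ := htg hne hcg
    obtain ⟨t1', t2'⟩ := htg hne' hcg'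
    have d1 := P.geo_dist hcg hcg' hle
    have d2 := P.geo_dist t1 hcg' (by omega)
    have d3 := P.geo_dist t1 t1' (by omega)
    have d4 := P.geo_dist hcg t1' (by omega)
    obtain ⟨j, hj⟩ : ∃ j, G.dist o c' - G.dist o c = j + 1 :=
      ⟨G.dist o c' - G.dist o c - 1, by omega⟩
    have hes : esum G (ed c hc).1 (ed c' hc').1 = 4 * (j + 1) := by
      simp only [ed, esum]; omega
    refine (edge_decay hG Pc.deg Pc hcrit C hinv hsymm hcs hdiag hsupp hes).trans ?_
    refine mul_le_mul ?_ (hc0 _) (hdiag _) (by simp only [ψ]; positivity)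
    rw [hj]
    simp only [ψ]
    refine mul_le_mul_of_nonneg_right ?_ (pow_nonneg hθc0 _)
    push_cast
    nlinarith [Nat.cast_nonneg (α := ℝ) j]
  have hrow : ∀ c (hc : c ∈ I'), ∑ x ∈ I'.attach, |C (ed c hc) (ed x.1 x.2)| ≤ 384 * d * c₀ := by
    intro c hc
    have hle : ∀ x : I', |C (ed c hc) (ed x.1 x.2)| ≤
        (if G.dist o c ≤ G.dist o x.1 then ψ (G.dist o x.1 - G.dist o c) else
          ψ (G.dist o c - G.dist o x.1)) * c₀ := fun x => by
      split_ifs with h
      · exact hpair c hc x.1 x.2 h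
      · rw [hsymm]; exact hpair x.1 x.2 c hc (by omega)
    refine (Finset.sum_le_sum fun x _ => hle x).trans ?_
    rw [← Finset.sum_mul]
    refine mul_le_mul_of_nonneg_right ?_ hc00
    rw [Finset.sum_attach I' fun x => if G.dist o c ≤ G.dist o x then ψ (G.dist o x - G.dist o c)
      else ψ (G.dist o c - G.dist o x), Finset.sum_ite]
    have hψ0 : ∀ m, 0 ≤ ψ m := fun m => by simp only [ψ]; positivity
    have hinj : ∀ x ∈ I', ∀ y ∈ I', G.dist o x = G.dist o y → x = y := fun x hx y hy hxy =>
      geo_inj hG (Finset.mem_erase.mp hx).2 (Finset.mem_erase.mp hy).2 hxy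
    have hbnd : ∀ x ∈ I', G.dist o x ≤ G.dist o u := fun x hx => by
      have := (mem_geo hG).mp (Finset.mem_erase.mp hx).2; omega
    have side : ∀ (T : Finset V) (m : V → ℕ), T ⊆ I' → Set.InjOn m T →
        (∀ x ∈ T, m x ≤ G.dist o u + G.dist o c) → ∑ x ∈ T, ψ (m x) ≤ 192 * d := by
      intro T m _ hi hb
      rw [← Finset.sum_image (f := ψ) hi]
      refine (Finset.sum_le_sum_of_subset_of_nonneg (t := Finset.range (G.dist o u + G.dist o c + 1))
        (fun y hy => ?_) fun m _ _ => hψ0 m).trans (hψsum _)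
      obtain ⟨x, hx, rfl⟩ := Finset.mem_image.mp hy
      exact Finset.mem_range.mpr (Nat.lt_succ_of_le (hb x hx))
    have s1 := side (I'.filter fun x => G.dist o c ≤ G.dist o x) (fun x => G.dist o x - G.dist o c)
      (Finset.filter_subset _ _) (fun x hx y hy h => by
        simp only [Finset.coe_filter, Set.mem_setOf_eq] at hx hy
        exact hinj x hx.1 y hy.1 (by simp only at h; omega))
      (fun x hx => by have := hbnd x (Finset.mem_filter.mp hx).1; omega)
    have s2 := side (I'.filter fun x => ¬ G.dist o c ≤ G.dist o x) (fun x => G.dist o c - G.dist o x)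
      (Finset.filter_subset _ _) (fun x hx y hy h => by
        simp only [Finset.coe_filter, Set.mem_setOf_eq] at hx hy
        exact hinj x hx.1 y hy.1 (by simp only at h; omega))
      (fun x hx => by omega)
    linarith
  have hvar : qform C M M ≤ 384 * d * (G.dist o u : ℝ) * c₀ := by
    unfold qform
    simp only [M, Multiset.map_map, Function.comp_def]
    change ∑ x ∈ I'.attach, ∑ y ∈ I'.attach, C (ed x.1 x.2) (ed y.1 y.2) ≤ _
    refine (Finset.sum_le_card_nsmul _ _ (384 * d * c₀) fun x _ =>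
      (Finset.sum_le_sum fun y _ => le_abs_self _).trans (hrow x.1 x.2)).trans_eq ?_
    rw [Finset.card_attach, nsmul_eq_mul, hn]; ring
  rw [hform] at hvar
  set n : ℝ := (G.dist o u : ℝ)
  have e1 : ∀ q, ∑ c ∈ I', Zq G θ θ' L K k r (tow G c o, c) q = S M q + n * μ := fun q => by
    rw [hsumM]
    simp only [Zc]
    have hm' : ∑ c ∈ I', ∫ q', Zq G θ θ' L K k r (tow G c o, c) q' ∂omg V = ∑ _c ∈ I', μ :=
      Finset.sum_congr rfl fun c hc => hμe (ed c hc)
    rw [Finset.sum_sub_distrib, hm', Finset.sum_const, nsmul_eq_mul, hn]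
    ring
  simp only [e1]
  have hS0 : ∫ q, S M q ∂omg V = 0 := by
    simp only [hsumM]
    rw [integral_finsetSum _ fun c hc => (integrable_bdd (hZm (ed c hc)) 20 (hZb (ed c hc)))]
    refine Finset.sum_eq_zero fun c hc => ?_
    simp only [Zc]
    rw [integral_sub (integrable_bdd (measurable_Zq L K k r _) 10
      (P.abs_Zq_le P' L K k r (hadj c hc))) (integrable_const _)]
    simp
  obtain ⟨hm, B, hB⟩ := hSm M
  have hi1 : Integrable (S M) (omg V) := integrable_bdd hm B hB
  rw [integral_congr_ae (g := fun q => (S M q * S M q + 2 * (n * μ) * S M q) + (n * μ) ^ 2)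
      (.of_forall fun q => by ring),
    integral_add ((hSi M M).fun_add (hi1.const_mul _)) (integrable_const _),
    integral_add (hSi M M) (hi1.const_mul _), integral_const_mul, hS0]
  simp only [integral_const, probReal_univ, one_smul, mul_zero, add_zero, mul_pow]
  linarith

end Par

end Vale.Agent.P161.Crit
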