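import Vale.Agent.P161.Crit.Trunc
import Vale.Agent.P161.Crit.Edge

/-!
# The mean damping of an edge depends continuously on the interaction
-/

namespace Vale.Agent.P161.Crit

open MeasureTheory unitInterval Function SimpleGraph Vale.Agent.P161 Filter Topology

variable {V : Type*} {G : SimpleGraph V} {θ θ' : ℝ}

section Joint

variable {X : Type*} [TopologicalSpace X]

lemma continuous_Ev {A : Finset V} {t : X → ℝ} (ht : Continuous t) {F : X → (V → Bool) → ℝ}
    (hF : ∀ η, Continuous fun x => F x η) : Continuous fun x => Ev G (t x) A (F x) := by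
  unfold Ev prior
  refine continuous_finsetSum _ fun s _ => (continuous_const.mul
    (continuous_finsetProd _ fun e _ => ?_)).mul (hF _)
  induction e using Sym2.ind with
  | _ a b =>
    simp only [edgeWeight_mk]
    exact (continuous_const.add ((ht.mul continuous_const).mul continuous_const)).div_const _

lemma continuous_mu_joint {A : Finset V} {t : X → ℝ} (ht : Continuous t) (ht1 : ∀ x, |t x| < 1)
    {h : X → V → ℝ} (hh : ∀ v, Continuous fun x => h x v) (hf : ∀ x, IsFld (h x)) (v : V) :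
    Continuous fun x => mu G (t x) A (h x) v := by
  unfold mu Zf
  refine (continuous_Ev ht fun η => ?_).div (continuous_Ev ht fun η => ?_) fun x =>
    (Zf_one_pos (ht1 x) (hf x) A).ne'
  · exact (continuous_finsetProd _ fun w _ =>
      continuous_const.add ((hh w).mul continuous_const)).mul continuous_const
  · exact (continuous_finsetProd _ fun w _ =>
      continuous_const.add ((hh w).mul continuous_const)).mul continuous_const

lemma continuous_glog_joint {t : X → ℝ} (ht : Continuous t) (ht1 : ∀ x, t x ∈ Set.Icc (0 : ℝ) (3 / 4))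
    {b : X → ℝ} (hb : Continuous b) (hb1 : ∀ x, |b x| ≤ 1) :
    Continuous fun x => glog (t x) (b x) := by
  unfold glog rho
  refine (Continuous.log (((continuous_const.sub (hb.pow 2)).div
    (continuous_const.sub ((ht.pow 2).mul (hb.pow 2))) fun x => ?_).max continuous_const)
    fun x => ne_of_gt (lt_max_of_lt_right (by norm_num))).neg
  have h2 : b x ^ 2 ≤ 1 := by rw [← sq_abs]; exact pow_le_one₀ (abs_nonneg _) (hb1 x)
  obtain ⟨a, c⟩ := ht1 x
  have h3 : t x ^ 2 ≤ 9 / 16 := by nlinarith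
  simp only [Pi.sub_apply, Pi.mul_apply, Pi.pow_apply, ne_eq]
  nlinarith [mul_le_mul h3 h2 (sq_nonneg _) (by norm_num)]

variable [DecidableEq V] [G.LocallyFinite]

lemma continuous_gS (hG : G.IsTree) {B : Finset V} {e : V × V} (hadj : G.Adj e.1 e.2)
    (h1 : e.1 ∈ B) (h2 : e.2 ∈ B) {t : X → ℝ} (ht : Continuous t)
    (ht1 : ∀ x, t x ∈ Set.Icc (0 : ℝ) (3 / 4))
    {h : X → V → ℝ} (hh : ∀ v, Continuous fun x => h x v) (hf : ∀ x, IsFld (h x)) :
    Continuous fun x => gS G (t x) B (h x) e := by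
  have habs : ∀ x, |t x| < 1 := fun x => by
    rw [abs_of_nonneg (ht1 x).1]; linarith [(ht1 x).2]
  have key : ∀ a b : V, G.Adj a b → b ∈ B →
      Continuous fun x => glog (t x) (cav G (t x) B (h x) a b) := fun a b hab hb =>
    continuous_glog_joint ht ht1 (continuous_mu_joint ht habs hh hf b) fun x =>
      (abs_cav_lt hG (ht1 x).1 (by linarith [(ht1 x).2]) (hf x) hb hab).le
  exact (key _ _ hadj h2).add (key _ _ hadj.symm h1)

end Joint

/-- A number in `[0, c]`. -/
noncomputable def clp (c x : ℝ) : ℝ := max 0 (min x c)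

lemma clp_mem {c : ℝ} (hc : 0 ≤ c) (x : ℝ) : clp c x ∈ Set.Icc (0 : ℝ) c :=
  ⟨le_max_left _ _, max_le hc (min_le_right _ _)⟩

lemma clp_eq {c x : ℝ} (hx : x ∈ Set.Icc (0 : ℝ) c) : clp c x = x := by
  rw [clp, min_eq_left hx.2, max_eq_right hx.1]

lemma continuous_clp (c : ℝ) : Continuous (clp c) := by unfold clp; fun_prop

variable [Countable V] [DecidableEq V] [G.LocallyFinite] {d : ℕ} {θc : ℝ}

namespace Par

variable (P : Par G d θ)
include P

lemma isB_gS {B : Finset V} {e : V × V} (hadj : G.Adj e.1 e.2) (h1 : e.1 ∈ B) (h2 : e.2 ∈ B) :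
    IsB B fun f => gS G θ B f e := by
  refine ⟨⟨fun f f' hf => ?_, measurable_gS B e, ?_⟩, 10, fun f hf => ?_⟩
  · simp only [gS, cav]
    rw [mu_congr (fun v hv => hf v (mem_of_mem_half hv)),
      mu_congr (fun v hv => hf v (mem_of_mem_half hv))]
  · rw [continuousOn_iff_continuous_restrict]
    exact continuous_gS P.tree hadj h1 h2 continuous_const (fun _ => P.mem_Icc)
      (fun v => (continuous_apply v).comp continuous_subtype_val) fun x => x.2
  · have b1 := (abs_cav_lt P.tree P.nonneg P.lt_one hf h2 hadj).le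
    have b2 := (abs_cav_lt P.tree P.nonneg P.lt_one hf h1 hadj.symm).le
    obtain ⟨a1, a2⟩ := glog_range P.mem_Icc b1
    obtain ⟨a3, a4⟩ := glog_range P.mem_Icc b2
    have s1 : cav G θ B f e.1 e.2 ^ 2 ≤ 1 := by
      rw [← sq_abs]; exact pow_le_one₀ (abs_nonneg _) b1
    have s2 : cav G θ B f e.2 e.1 ^ 2 ≤ 1 := by
      rw [← sq_abs]; exact pow_le_one₀ (abs_nonneg _) b2
    unfold gS
    rw [abs_of_nonneg (add_nonneg a1 a3)]
    linarith

omit [Countable V] in
/-- The damping of an edge moves by at most the magnetisations of its ends. -/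
lemma gS_swap {A A' : Finset V} (hA : Convex' G A) (hA' : Convex' G A') {h h' : V → ℝ}
    (hh : IsFld h) (hh' : IsFld h') {e : V × V} (hadj : G.Adj e.1 e.2) (hx : e.1 ∈ A)
    (hy : e.2 ∈ A) (hx' : e.1 ∈ A') (hy' : e.2 ∈ A') :
    |gS G θ A h e - gS G θ A' h' e| ≤
      336000 * (|mu G θ A h e.1 - mu G θ A' h' e.1| + |mu G θ A h e.2 - mu G θ A' h' e.2|) := by
  have b1 := (abs_cav_lt P.tree P.nonneg P.lt_one hh hy hadj).le
  have b2 := (abs_cav_lt P.tree P.nonneg P.lt_one hh hx hadj.symm).le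
  have b1' := (abs_cav_lt P.tree P.nonneg P.lt_one hh' hy' hadj).le
  have b2' := (abs_cav_lt P.tree P.nonneg P.lt_one hh' hx' hadj.symm).le
  have g1 := glog_sub P.mem_Icc P.mem_Icc b1 b1'
  have g2 := glog_sub P.mem_Icc P.mem_Icc b2 b2'
  simp only [sub_self, abs_zero, mul_zero, add_zero] at g1 g2
  have c1 := P.cav_swap hA hA' hh hh' hx hy hx' hy' hadj
  have c2 := P.cav_swap hA hA' hh hh' hy hx hy' hx' hadj.symm
  have e1 := mul_le_mul (show |cav G θ A h e.1 e.2| + |cav G θ A' h' e.1 e.2| ≤ 2 by linarith) c1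
    (abs_nonneg _) zero_le_two
  have e2 := mul_le_mul (show |cav G θ A h e.2 e.1| + |cav G θ A' h' e.2 e.1| ≤ 2 by linarith) c2
    (abs_nonneg _) zero_le_two
  unfold gS
  rw [show ∀ a b a' b' : ℝ, a + b - (a' + b') = (a - a') + (b - b') from fun a b a' b' => by ring]
  refine (abs_add_le _ _).trans ?_
  linarith

/-- The mean damping in a large volume is that in a fixed one. -/
lemma gS_trunc (e : Edg G) {K : ℕ} (hK : 0 < K) {n L : ℕ} (hnL : n ≤ L) {k : ℕ} {r : ℝ}
    (hτ : 0 < tau k r) {t : ℝ} (ht : 0 < t)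
    (hsmall : (K : ℝ) / 4 * ((1 - eta k r) ^ n / eta k r) ≤ t ^ 2) :
    |St G θ (eBall G L e.1) K k r (fun f => gS G θ (eBall G L e.1) f e.1) -
      St G θ (eBall G n e.1) K k r (fun f => gS G θ (eBall G n e.1) f e.1)| ≤ 1344000 * t := by
  have hc := P.tree.connected
  set BL := eBall G L e.1
  set Bn := eBall G n e.1
  have hBL : Convex' G BL :=
    P.convex_mid e.1.1 (eBall_sub P.tree e.2).1 (eBall_sub P.tree e.2).2
  have hBn : Convex' G Bn :=
    P.convex_mid e.1.1 (eBall_sub P.tree e.2).1 (eBall_sub P.tree e.2).2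
  have hsub : Bn ⊆ BL := Finset.union_subset_union (bll_mono hc _ hnL) (bll_mono hc _ hnL)
  have h1 : e.1.1 ∈ Bn := Finset.mem_union_left _ (self_mem_bll hc _ _)
  have h2 : e.1.2 ∈ Bn := Finset.mem_union_right _ (self_mem_bll hc _ _)
  have hne : BL.Nonempty := ⟨_, hsub h1⟩
  have habs := P.abs_lt_one
  have hgL := P.isB_gS e.2 (hsub h1) (hsub h2)
  have hgn := P.isB_gS e.2 h1 h2
  rw [← St_consist P.tree habs (K := K) (k := k) (r := r) hBL hBn ⟨_, h1⟩ hsub hgn]
  set Sq : V → (V → ℝ) → ℝ := fun v f => (mu G θ BL f v - mu G θ Bn f v) ^ 2 with hSq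
  have hSqB : ∀ v, IsB BL (Sq v) := fun v => by
    have := ((IsB.mu' (G := G) P.nonneg P.lt_one BL v).add ((IsB.const BL (-1)).mul
      ((IsB.mu' (G := G) P.nonneg P.lt_one Bn v).mono hsub))).comp_real
      (φ := fun x => x ^ 2) (by fun_prop)
    convert this using 3 with f
    ring
  have hSqv : ∀ v, bll G v n ⊆ Bn → St G θ BL K k r (Sq v) ≤ 4 * t ^ 2 := by
    intro v hv
    have hv0 : v ∈ Bn := hv (self_mem_bll hc v n)
    set F : (V → ℝ) → ℝ := fun f => mu G θ (bll G v n) f v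
    have hF : IsB (bll G v n) F := IsB.mu' P.nonneg P.lt_one _ v
    set D : Finset V → (V → ℝ) → ℝ := fun A f => (mu G θ A f v - F f) ^ 2 with hD
    have hDB : ∀ A, bll G v n ⊆ A → IsB A (D A) := fun A hA => by
      have := ((IsB.mu' (G := G) P.nonneg P.lt_one A v).add ((IsB.const A (-1)).mul
        (hF.mono hA))).comp_real (φ := fun x => x ^ 2) (by fun_prop)
      convert this using 3 with f
      ring
    have t1 := P.trunc hBL hK hτ (hv.trans hsub)
    have t2 := P.trunc hBn hK hτ hv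
    rw [← St_consist P.tree habs (K := K) (k := k) (r := r) hBL hBn ⟨_, h1⟩ hsub (hDB Bn hv)] at t2
    refine (St_mono P.tree habs hBL hne (hSqB v) ((IsB.const BL 2).mul
      ((hDB BL (hv.trans hsub)).add ((hDB Bn hv).mono hsub))) fun f _ => ?_).trans ?_
    · simp only [Sq, D]
      nlinarith [sq_nonneg (mu G θ BL f v + mu G θ Bn f v - 2 * F f)]
    · rw [St_const_mul, St_add P.tree habs hBL hne (hDB BL (hv.trans hsub))
        ((hDB Bn hv).mono hsub)]
      linarith
  set U : (V → ℝ) → ℝ := fun f =>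
    336000 * ((t + Sq e.1.1 f / (4 * t)) + (t + Sq e.1.2 f / (4 * t))) with hU
  have hUB : IsB BL U := by
    have := (IsB.const BL 336000).mul (((IsB.const BL t).add ((IsB.const BL (1 / (4 * t))).mul
      (hSqB e.1.1))).add ((IsB.const BL t).add ((IsB.const BL (1 / (4 * t))).mul (hSqB e.1.2))))
    convert this using 2 with f
    simp only [U]; ring
  have hpt : ∀ f, IsFld f → |gS G θ BL f e.1 - gS G θ Bn f e.1| ≤ U f := fun f hf => by
    refine (P.gS_swap hBL hBn hf hf e.2 (hsub h1) (hsub h2) h1 h2).trans ?_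
    have habsq : ∀ x : ℝ, |x| ≤ t + x ^ 2 / (4 * t) := fun x => by
      rw [← sub_le_iff_le_add', le_div_iff₀ (by positivity), ← sq_abs x]
      nlinarith [sq_nonneg (|x| - 2 * t)]
    exact mul_le_mul_of_nonneg_left (add_le_add (habsq _) (habsq _)) (by norm_num)
  have hU2 : St G θ BL K k r U ≤ 1344000 * t := by
    have e1 : St G θ BL K k r U = 336000 * ((t + 1 / (4 * t) * St G θ BL K k r (Sq e.1.1)) +
        (t + 1 / (4 * t) * St G θ BL K k r (Sq e.1.2))) := by
      rw [St_congr (Ψ := fun f => 336000 * ((t + 1 / (4 * t) * Sq e.1.1 f) +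
          (t + 1 / (4 * t) * Sq e.1.2 f))) fun f _ => by simp only [U]; ring,
        St_const_mul, St_add P.tree habs hBL hne
          ((IsB.const BL t).add ((IsB.const BL _).mul (hSqB _)))
          ((IsB.const BL t).add ((IsB.const BL _).mul (hSqB _))),
        St_add P.tree habs hBL hne (IsB.const BL t) ((IsB.const BL _).mul (hSqB _)),
        St_add P.tree habs hBL hne (IsB.const BL t) ((IsB.const BL _).mul (hSqB _)),
        St_const P.tree habs hBL hne, St_const_mul, St_const_mul]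
    rw [e1]
    have s1 := mul_le_mul_of_nonneg_left (hSqv e.1.1 Finset.subset_union_left)
      (show (0 : ℝ) ≤ 1 / (4 * t) by positivity)
    have s2 := mul_le_mul_of_nonneg_left (hSqv e.1.2 Finset.subset_union_right)
      (show (0 : ℝ) ≤ 1 / (4 * t) by positivity)
    have e4 : 1 / (4 * t) * (4 * t ^ 2) = t := by field_simp
    rw [e4] at s1 s2
    linarith
  rw [abs_le]
  have l1 := St_mono P.tree habs (K := K) (k := k) (r := r) hBL hne hgL
    ((hgn.mono hsub).add hUB) fun f hf => by linarith [(abs_le.mp (hpt f hf)).2]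
  have l2 := St_mono P.tree habs (K := K) (k := k) (r := r) hBL hne (hgn.mono hsub)
    (hgL.add hUB) fun f hf => by linarith [(abs_le.mp (hpt f hf)).1]
  rw [St_add P.tree habs hBL hne (hgn.mono hsub) hUB] at l1
  rw [St_add P.tree habs hBL hne hgL hUB] at l2
  exact ⟨by linarith, by linarith⟩

/-- In a fixed volume the mean damping is continuous in the interaction, uniformly in time. -/
lemma gS_continuity (e : Edg G) (K n : ℕ) {ε : ℝ} (hε : 0 < ε) :
    ∃ δ > 0, ∀ φ : ℝ, φ ∈ Set.Icc (0 : ℝ) (3 / 4) → |φ - θ| < δ → ∀ (k : ℕ) (r : ℝ),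
      |St G φ (eBall G n e.1) K k r (fun f => gS G φ (eBall G n e.1) f e.1) -
        St G θ (eBall G n e.1) K k r (fun f => gS G θ (eBall G n e.1) f e.1)| ≤ ε := by
  set B := eBall G n e.1
  have h1 : e.1.1 ∈ B := Finset.mem_union_left _ (self_mem_bll P.tree.connected _ _)
  have h2 : e.1.2 ∈ B := Finset.mem_union_right _ (self_mem_bll P.tree.connected _ _)
  set cl : (V × ℕ → ℝ) → V × ℕ → ℝ := fun e' i => clp (1 / 4) (e' i)
  have hcl : ∀ e', IsStr (cl e') := fun e' i => clp_mem (by norm_num) _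
  set F : ℝ × ((V × ℕ → ℝ) × (V × ℕ → I)) → ℝ := fun p =>
    gS G (clp (3 / 4) p.1) B (fld K (cl p.2.1) p.2.2) e.1 *
      den G (clp (3 / 4) p.1) B K (cl p.2.1) p.2.2
  have hlk : ∀ (v : V) (s : ℝ), Continuous fun p : ℝ × ((V × ℕ → ℝ) × (V × ℕ → I)) =>
      lkv K (cl p.2.1) p.2.2 v s := fun v s => by
    unfold lkv
    refine continuous_finsetProd _ fun j _ => continuous_const.add ((Continuous.mul ?_
      continuous_const).mul (continuous_zed.comp ?_))
    · exact (continuous_clp _).comp ((continuous_apply _).comp (continuous_fst.comp continuous_snd))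
    · exact (continuous_apply _).comp (continuous_snd.comp continuous_snd)
  have hfld : ∀ v, Continuous fun p : ℝ × ((V × ℕ → ℝ) × (V × ℕ → I)) =>
      fld K (cl p.2.1) p.2.2 v := fun v =>
    ((hlk v 1).sub (hlk v (-1))).div ((hlk v 1).add (hlk v (-1))) fun p => by
      have a := lkv_pos (K := K) (hcl p.2.1) p.2.2 v (s := 1) (by simp)
      have b := lkv_pos (K := K) (hcl p.2.1) p.2.2 v (s := -1) (by simp)
      exact ne_of_gt (by linarith)
  have ht : Continuous fun p : ℝ × ((V × ℕ → ℝ) × (V × ℕ → I)) => clp (3 / 4) p.1 :=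
    (continuous_clp _).comp continuous_fst
  have hFc : Continuous F := by
    refine (continuous_gS P.tree e.2 h1 h2 ht (fun p => clp_mem (by norm_num) _) hfld
      (fun p => isFld_fld (hcl _) _)).mul ?_
    unfold den
    refine continuous_Ev ht fun η => ?_
    unfold lkA
    exact continuous_finsetProd _ fun v _ => hlk v _
  set S : Set ((V × ℕ → ℝ) × (V × ℕ → I)) :=
    (Set.univ.pi fun _ : V × ℕ => Set.Icc (0 : ℝ) (1 / 4)) ×ˢ Set.univ
  have hS : IsCompact S := (isCompact_univ_pi fun _ => isCompact_Icc).prod isCompact_univ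
  have hev : ∀ᶠ φ in 𝓝 θ, ∀ x ∈ S, dist (F (φ, x)) (F (θ, x)) < ε := by
    refine hS.eventually_forall_of_forall_eventually fun x _ => ?_
    have hc : Continuous fun z : ℝ × ((V × ℕ → ℝ) × (V × ℕ → I)) =>
        dist (F (z.1, z.2)) (F (θ, z.2)) :=
      (hFc.comp (continuous_fst.prodMk continuous_snd)).dist
        (hFc.comp (continuous_const.prodMk continuous_snd))
    refine hc.continuousAt.eventually_lt continuousAt_const ?_
    simpa using hε
  obtain ⟨δ, hδ, hδ'⟩ := Metric.eventually_nhds_iff.mp hev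
  refine ⟨δ, hδ, fun φ hφ hφθ k r => ?_⟩
  have hclamp : ∀ ρ : V × ℕ → I, cl (estT ρ k r) = estT ρ k r := fun ρ => funext fun i =>
    clp_eq (isStr_estT ρ k r i)
  have hg : ∀ (ψ : ℝ), ψ ∈ Set.Icc (0 : ℝ) (3 / 4) → ∀ ρ : V × ℕ → I, ∀ y,
      F (ψ, (estT ρ k r, y)) = gS G ψ B (fld K (estT ρ k r) y) e.1 * den G ψ B K (estT ρ k r) y :=
    fun ψ hψ ρ y => by simp only [F, clp_eq hψ, hclamp]
  have hFi : ∀ (ψ : ℝ) (ρ : V × ℕ → I),
      Integrable (fun y => F (ψ, (estT ρ k r, y))) (iidLabels (V × ℕ)) := fun ψ ρ =>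
    integrable_of_continuous (hFc.comp (continuous_const.prodMk (continuous_const.prodMk continuous_id)))
  have hJ : ∀ ψ : ℝ, ψ ∈ Set.Icc (0 : ℝ) (3 / 4) →
      Integrable (fun ρ => ∫ y, F (ψ, (estT ρ k r, y)) ∂iidLabels (V × ℕ)) (iidLabels (V × ℕ)) ∧
      St G ψ B K k r (fun f => gS G ψ B f e.1) =
        ∫ ρ, ∫ y, F (ψ, (estT ρ k r, y)) ∂iidLabels (V × ℕ) ∂iidLabels (V × ℕ) := by
    intro ψ hψ
    refine ⟨?_, integral_congr_ae (.of_forall fun ρ =>
      integral_congr_ae (.of_forall fun y => (hg ψ hψ ρ y).symm))⟩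
    obtain ⟨C, hC⟩ := ((isCompact_singleton (x := ψ)).prod hS).exists_bound_of_continuousOn
      hFc.continuousOn
    have hm : Measurable fun p : (V × ℕ → I) × (V × ℕ → I) => F (ψ, (estT p.1 k r, p.2)) :=
      hFc.measurable.comp (measurable_const.prodMk
        (((measurable_estT (V := V) k (r := fun _ : V × ℕ → I => r) measurable_const
          measurable_id).comp measurable_fst).prodMk measurable_snd))
    refine integrable_bdd hm.stronglyMeasurable.integral_prod_right'.measurable C fun ρ => ?_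
    rw [← Real.norm_eq_abs]
    refine (norm_integral_le_of_norm_le_const (C := C) (.of_forall fun y => ?_)).trans
      (le_of_eq (by rw [probReal_univ, mul_one]))
    exact hC _ ⟨rfl, fun i _ => isStr_estT ρ k r i, Set.mem_univ _⟩
  obtain ⟨i1, e1⟩ := hJ φ hφ
  obtain ⟨i2, e2⟩ := hJ θ P.mem_Icc
  rw [e1, e2, ← integral_sub i1 i2]
  rw [← Real.norm_eq_abs]
  refine (norm_integral_le_of_norm_le_const (C := ε) (.of_forall fun ρ => ?_)).trans
    (le_of_eq (by rw [probReal_univ, mul_one]))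
  rw [← integral_sub (hFi φ ρ) (hFi θ ρ)]
  refine (norm_integral_le_of_norm_le_const (C := ε) (.of_forall fun y => ?_)).trans
    (le_of_eq (by rw [probReal_univ, mul_one]))
  have := hδ' (by rwa [Real.dist_eq]) (estT ρ k r, y)
    ⟨fun i _ => isStr_estT ρ k r i, Set.mem_univ _⟩
  rw [Real.dist_eq] at this
  exact this.le

end Par

/-- The mean of the edge quantity vanishes as the interactions approach a common value. -/
theorem mean_Zq_small (Pc : Par G d θc) (K : ℕ) (hK : 0 < K) {t₀ ε : ℝ} (ht₀ : 0 < t₀)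
    (hε : 0 < ε) :
    ∃ δ > 0, ∀ θ θ' : ℝ, Par G d θ → Par G d θ' → |θ - θc| < δ → |θ' - θc| < δ →
      ∃ L₀, ∀ L, L₀ ≤ L → ∀ (k : ℕ) (r : ℝ), t₀ ≤ r → r ≤ 1 / 2 → ∀ e : Edg G,
        |∫ q, Zq G θ θ' L K k r e.1 q ∂omg V| ≤ ε := by
  obtain ⟨o⟩ := Pc.tree.connected.nonempty
  obtain ⟨z, hz⟩ : (G.neighborFinset o).Nonempty := by
    rw [← Finset.card_pos, card_neighborFinset_eq_degree, Pc.deg]; have := Pc.three; omega
  set e₀ : Edg G := ⟨(o, z), (G.mem_neighborFinset o z).mp hz⟩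
  set ηs := Real.sqrt t₀ ^ 3 / 6800000 with hηs
  have hηs0 : 0 < ηs := by have := Real.sqrt_pos.mpr ht₀; positivity
  set t := ε / (4 * 1344000) with ht
  have ht' : 0 < t := by positivity
  have hηs1 : ηs ≤ 1 / 2 → True := fun _ => trivial
  by_cases hbad : 1 / 2 < t₀
  · exact ⟨1, one_pos, fun θ θ' _ _ _ _ => ⟨0, fun L _ k r h1 h2 => by linarith⟩⟩
  have hη1 : ηs < 1 := by
    have : Real.sqrt t₀ ≤ 1 := Real.sqrt_le_one.mpr (by linarith)
    have := pow_le_one₀ (n := 3) (Real.sqrt_nonneg t₀) this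
    rw [hηs]; linarith
  obtain ⟨n, hn⟩ : ∃ n, (K : ℝ) / 4 * ((1 - ηs) ^ n / ηs) ≤ t ^ 2 := by
    have := (((tendsto_pow_atTop_nhds_zero_of_lt_one (show 0 ≤ 1 - ηs by linarith)
      (show 1 - ηs < 1 by linarith)).div_const ηs).const_mul ((K : ℝ) / 4))
    rw [zero_div, mul_zero] at this
    exact (this.eventually_le_const (by positivity)).exists
  obtain ⟨δ, hδ, hcont⟩ := Pc.gS_continuity e₀ K n (ε := ε / 4) (by positivity)
  refine ⟨δ, hδ, fun θ θ' P P' hθ hθ' => ⟨n, fun L hL k r hr hr1 e => ?_⟩⟩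
  rw [P.mean_Zq P' L K k r e e₀]
  have hr0 : 0 < r := lt_of_lt_of_le ht₀ hr
  have hτ := tau_pos (k := k) hr0 hr1
  have hη : ηs ≤ eta k r := by
    refine le_trans ?_ (eta_lower (k := k) hr0.le hr1)
    rw [hηs]
    refine div_le_div_of_nonneg_right (pow_le_pow_left₀ (Real.sqrt_nonneg _)
      (Real.sqrt_le_sqrt ?_) 3) (by norm_num)
    split_ifs <;> linarith
  have hsmall : ∀ {φ : ℝ} (Q : Par G d φ), (K : ℝ) / 4 * ((1 - eta k r) ^ n / eta k r) ≤ t ^ 2 := by
    intro φ Q
    obtain ⟨hp, hp1⟩ := Q.eta_pos (k := k) (r := r) hτ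
    refine le_trans (mul_le_mul_of_nonneg_left ?_ (by positivity)) hn
    exact div_le_div₀ (pow_nonneg (by linarith) _)
      (pow_le_pow_left₀ (by linarith) (by linarith) _) hηs0 hη
  have T1 := P.gS_trunc e₀ hK hL hτ ht' (hsmall P)
  have T2 := P'.gS_trunc e₀ hK hL hτ ht' (hsmall P')
  have C1 := hcont θ P.mem_Icc hθ k r
  have C2 := hcont θ' P'.mem_Icc hθ' k r
  have hc := Pc.tree.connected
  set BL := eBall G L e₀.1
  have hBL : Convex' G BL :=
    P.convex_mid e₀.1.1 (eBall_sub P.tree e₀.2).1 (eBall_sub P.tree e₀.2).2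
  have h1 : e₀.1.1 ∈ BL := Finset.mem_union_left _ (self_mem_bll hc _ _)
  have h2 : e₀.1.2 ∈ BL := Finset.mem_union_right _ (self_mem_bll hc _ _)
  have g1 := P.isB_gS e₀.2 h1 h2
  have g2 := P'.isB_gS e₀.2 h1 h2
  obtain ⟨C, hC⟩ := g1.bdd
  obtain ⟨C', hC'⟩ := g2.bdd
  have hval : ∫ q, Zq G θ θ' L K k r e₀.1 q ∂omg V =
      St G θ BL K k r (fun f => gS G θ BL f e₀.1) - St G θ' BL K k r (fun f => gS G θ' BL f e₀.1) := by
    rw [← Pe_fst P.tree P.abs_lt_one P.nonneg P.lt_one (θ' := θ') (A' := BL) hBL ⟨_, h1⟩ g1,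
      ← Pe_fst P'.tree P'.abs_lt_one P'.nonneg P'.lt_one (θ' := θ) (A' := BL) hBL ⟨_, h1⟩ g2]
    exact integral_sub ((IsPTest.fst (A' := BL) g1.test hC).integrable G θ θ' BL BL K k r)
      ((IsPTest.fst (A' := BL) g2.test hC').integrable G θ' θ BL BL K k r)
  rw [hval]
  have hsum : 1344000 * t = ε / 4 := by rw [ht]; ring
  rw [hsum] at T1 T2
  obtain ⟨a1, a2⟩ := abs_le.mp T1
  obtain ⟨a3, a4⟩ := abs_le.mp T2
  obtain ⟨a5, a6⟩ := abs_le.mp C1
  obtain ⟨a7, a8⟩ := abs_le.mp C2
  exact abs_le.mpr ⟨by linarith, by linarith⟩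

end Vale.Agent.P161.Crit
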