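import Vale.Agent.P161.Crit.Early
import Vale.Agent.P161.Crit.Arith

/-!
# Nearby parameters give nearby samplers, up to the threshold
-/

namespace Vale.Agent.P161.Crit

open MeasureTheory unitInterval Function SimpleGraph Vale.Agent.P161

variable {V : Type*} {G : SimpleGraph V} {θ θ' θc : ℝ}
variable [Countable V] [DecidableEq V] [G.LocallyFinite] {d : ℕ}

/-- The summed covariance discrepancies in the ball. -/
noncomputable def src (G : SimpleGraph V) [G.LocallyFinite] [DecidableEq V] (θ θ' : ℝ) (o : V)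
    (L K k : ℕ) (r : ℝ) : ℝ :=
  Pe G θ θ' (bll G o L) (bll G o L) K k r (fun a b =>
    ∑ w ∈ bll G o L, (pw1 G θ θ' (bll G o L) (bll G o L) o w a b +
      pw2 G θ θ' (bll G o L) (bll G o L) o w a b))

omit [Countable V] [DecidableEq V] [G.LocallyFinite] in
lemma eta_mem {k : ℕ} {r : ℝ} (hτ : 0 < tau k r) : 0 < eta k r ∧ eta k r ≤ 1 := by
  unfold eta
  refine ⟨div_pos (Real.sqrt_pos.mpr hτ) (by norm_num), ?_⟩
  rw [div_le_one (by norm_num)]
  exact (Real.sqrt_le_one.mpr (tau_le_one k r)).trans (by norm_num)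

omit [Countable V] [DecidableEq V] in
lemma Lt_sq_le {n k : ℕ} {r t : ℝ} (hr : 0 < r) (hr1 : r ≤ 1 / 2) (ht : 0 < t) (ht1 : t ≤ 1 / 2)
    (htr : k = 0 → t ≤ r) :
    r ^ 2 * Lt n k r ^ 2 ≤ 8 * (n : ℝ) ^ 2 + (10 : ℝ) ^ 18 / max r t := by
  set s := (if k = 0 then r else (1 : ℝ) / 2) with hs
  have hs0 : 0 < s := by rw [hs]; split_ifs <;> linarith
  have hrs : r ≤ s := by rw [hs]; split_ifs <;> linarith
  have hms : max r t ≤ s := by
    rw [hs]; split_ifs with h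
    · exact max_le le_rfl (htr h)
    · exact max_le hr1 ht1
  set u := Real.sqrt s with hu
  have hu0 : 0 < u := Real.sqrt_pos.mpr hs0
  have hL := Lt_le (n := n) (k := k) hr hr1
  rw [← hs, ← hu] at hL
  have hL0 : 0 ≤ Lt n k r := by
    have := (eta_mem (tau_pos (k := k) hr hr1)).1
    unfold Lt; positivity
  have h1 : Lt n k r ^ 2 ≤ 2 * (4 * (n : ℝ)) ^ 2 + 2 * (170000000 / u ^ 3) ^ 2 :=
    (pow_le_pow_left₀ hL0 hL 2).trans ((add_sq_le).trans (le_of_eq (by ring)))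
  refine (mul_le_mul_of_nonneg_left h1 (sq_nonneg r)).trans ?_
  have h2 : r ^ 2 ≤ 1 / 4 := by nlinarith
  have e : (u ^ 3) ^ 2 = s ^ 3 := by rw [← pow_mul, show 3 * 2 = 2 * 3 by rfl, pow_mul, Real.sq_sqrt hs0.le]
  have h3 : r ^ 2 * (2 * (170000000 / u ^ 3) ^ 2) ≤ (10 : ℝ) ^ 18 / max r t := by
    rw [div_pow, e]
    calc r ^ 2 * (2 * ((170000000 : ℝ) ^ 2 / s ^ 3))
        ≤ s ^ 2 * (2 * ((170000000 : ℝ) ^ 2 / s ^ 3)) :=
          mul_le_mul_of_nonneg_right (pow_le_pow_left₀ hr.le hrs 2) (by positivity)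
      _ = 2 * (170000000 : ℝ) ^ 2 / s := by field_simp
      _ ≤ (10 : ℝ) ^ 18 / max r t := by
          refine div_le_div₀ (by positivity) (by norm_num) (lt_max_of_lt_left hr) hms
  have h4 := mul_le_mul_of_nonneg_right h2 (show 0 ≤ 2 * (4 * (n : ℝ)) ^ 2 by positivity)
  linarith

omit [Countable V] [DecidableEq V] in
lemma tail_le {k R : ℕ} {r η₀ : ℝ} (hr : 0 < r) (hr1 : r ≤ 1 / 2) (hη₀ : 0 < η₀)
    (h : η₀ ≤ eta k r) :
    (1 - eta k r) ^ (R + 1) / eta k r ≤ Real.exp (-(η₀ * ((R : ℝ) + 1))) / η₀ := by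
  obtain ⟨h0, h1⟩ := eta_mem (tau_pos (k := k) hr hr1)
  refine div_le_div₀ (Real.exp_pos _).le ?_ hη₀ h
  refine (pow_le_pow_left₀ (by linarith) (b := Real.exp (-η₀)) ?_ _).trans_eq ?_
  · linarith [Real.add_one_le_exp (-η₀)]
  · rw [← Real.exp_nat_mul]; push_cast; ring_nf

namespace Par

variable (P : Par G d θ) (P' : Par G d θ')
include P P'

/-- The growth of the discrepancy within one round. -/
lemma fd_growth (o : V) (L : ℕ) {K k : ℕ} (hk : k < K) {s₀ s : ℝ} (hs₀ : 0 ≤ s₀) (hs : s₀ ≤ s)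
    (hs1 : s ≤ 1 / 2) :
    fd G θ θ' (bll G o L) (bll G o L) K k s o ≤ fd G θ θ' (bll G o L) (bll G o L) K k s₀ o +
      4 * ∫ r in s₀..s, r ^ 2 * src G θ θ' o L K k r := by
  set B := bll G o L
  have h1 : IsPTest B B fun a b => ∑ w ∈ B, pw1 G θ θ' B B o w a b := IsPTest.sum _ fun w _ =>
    isPTest_pw1 P.nonneg P.lt_one P'.nonneg P'.lt_one B B o w
  have h2 : IsPTest B B fun a b => ∑ w ∈ B, pw2 G θ θ' B B o w a b := IsPTest.sum _ fun w _ =>
    isPTest_pw2 P.nonneg P.lt_one P'.nonneg P'.lt_one B B o w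
  have h12 : IsPTest B B fun a b => ∑ w ∈ B, (pw1 G θ θ' B B o w a b + pw2 G θ θ' B B o w a b) :=
    IsPTest.sum _ fun w _ => (isPTest_pw1 P.nonneg P.lt_one P'.nonneg P'.lt_one B B o w).add
      (isPTest_pw2 P.nonneg P.lt_one P'.nonneg P'.lt_one B B o w)
  have hint : ∀ (m : ℕ) (Ψ : (V → ℝ) → (V → ℝ) → ℝ), IsPTest B B Ψ →
      IntervalIntegrable (fun r => r ^ m * Pe G θ θ' B B K k r Ψ) volume s₀ s := fun m Ψ hΨ => by
    obtain ⟨C, hC⟩ := hΨ.bdd
    refine IntervalIntegrable.continuousOn_mul ?_ (continuous_pow m).continuousOn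
    refine (intervalIntegrable_const (c := C)).mono_fun' (measurable_Pe hΨ).aestronglyMeasurable
      (.of_forall fun r => ?_)
    refine (norm_integral_le_of_norm_le_const (C := C) (.of_forall fun q => ?_)).trans
      (le_of_eq (by rw [probReal_univ, mul_one]))
    rw [Real.norm_eq_abs]
    exact hC _ _ (isFld_fout _ _ _ _ _ _ _) (isFld_fout _ _ _ _ _ _ _)
  have g := pair_growth (G := G) (θ := θ) (θ' := θ') P.nonneg P.lt_one P'.nonneg P'.lt_one B B hk o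
    hs₀ hs hs1
  rw [Finset.union_self] at g
  have b1 : ∫ r in s₀..s, r ^ 2 * Pe G θ θ' B B K k r (fun a b => ∑ w ∈ B, pw1 G θ θ' B B o w a b) ≤
      ∫ r in s₀..s, r ^ 2 * src G θ θ' o L K k r :=
    intervalIntegral.integral_mono_on hs (hint 2 _ h1) (hint 2 _ h12) fun r _ => by
      refine mul_le_mul_of_nonneg_left (Pe_mono h1 h12 fun a b _ _ => ?_) (sq_nonneg r)
      exact Finset.sum_le_sum fun w _ => le_add_of_nonneg_right (pw2_nonneg _ _ _ _ _ _)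
  have b2 : ∫ r in s₀..s, r ^ 4 * Pe G θ θ' B B K k r (fun a b => ∑ w ∈ B, pw2 G θ θ' B B o w a b) ≤
      ∫ r in s₀..s, r ^ 2 * src G θ θ' o L K k r :=
    intervalIntegral.integral_mono_on hs (hint 4 _ h2) (hint 2 _ h12) fun r hr => by
      refine mul_le_mul ?_ (Pe_mono h2 h12 fun a b _ _ => Finset.sum_le_sum fun w _ =>
        le_add_of_nonneg_left (pw1_nonneg _ _ _ _ _ _)) ?_ (sq_nonneg r)
      · exact pow_le_pow_of_le_one (hs₀.trans hr.1) (by linarith [hr.2]) (by norm_num)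
      · exact Pe_nonneg fun a b _ _ => Finset.sum_nonneg fun w _ => pw2_nonneg _ _ _ _ _ _
  refine g.trans ?_
  unfold fd dm
  linarith

/-- Gronwall's inequality for the discrepancy. -/
lemma fd_gronwall (o : V) (L : ℕ) {K k : ℕ} (hk : k < K) {s₀ b β : ℝ} (hs₀ : 0 ≤ s₀) (hb : s₀ ≤ b)
    (hb1 : b ≤ 1 / 2) (hβ : 0 ≤ β) {c : ℝ → ℝ} (hc : Continuous c)
    (hc0 : ∀ r ∈ Set.Icc s₀ b, 0 ≤ c r)
    (hsrc : ∀ r ∈ Set.Icc s₀ b, 0 < r →
      r ^ 2 * src G θ θ' o L K k r ≤ c r * fd G θ θ' (bll G o L) (bll G o L) K k r o + β) :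
    fd G θ θ' (bll G o L) (bll G o L) K k b o ≤
      (fd G θ θ' (bll G o L) (bll G o L) K k s₀ o + 2 * β) * Real.exp (∫ r in s₀..b, 4 * c r) := by
  set B := bll G o L
  set f := fun r => fd G θ θ' B B K k r o
  have P0 : 0 ≤ θ' ∧ θ' < 1 := ⟨P'.nonneg, P'.lt_one⟩
  have hfm : Measurable f := P.measurable_fd P0 B B K k o
  have hfB : ∀ r, |f r| ≤ 4 := fun r => by
    rw [abs_of_nonneg (fd_nonneg B B K k r o)]; exact P.fd_le_four P0 B B K k r o
  refine gronwall hb (continuous_const.mul hc) (fun r hr => mul_nonneg (by norm_num) (hc0 r hr))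
    hfm hfB fun s hs => ?_
  have hfi : IntervalIntegrable f volume s₀ s := (intervalIntegrable_const (c := (4 : ℝ))).mono_fun'
    hfm.aestronglyMeasurable (.of_forall fun r => hfB r)
  have hcf : IntervalIntegrable (fun r => c r * f r) volume s₀ s :=
    hfi.continuousOn_mul hc.continuousOn
  refine (P.fd_growth P' o L hk hs₀ hs.1 (hs.2.trans hb1)).trans ?_
  have hmono : ∫ r in s₀..s, r ^ 2 * src G θ θ' o L K k r ≤ ∫ r in s₀..s, (c r * f r + β) := by
    have hm : IsPTest B B fun a b => ∑ w ∈ B, (pw1 G θ θ' B B o w a b + pw2 G θ θ' B B o w a b) :=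
      IsPTest.sum _ fun w _ => (isPTest_pw1 P.nonneg P.lt_one P'.nonneg P'.lt_one B B o w).add
        (isPTest_pw2 P.nonneg P.lt_one P'.nonneg P'.lt_one B B o w)
    obtain ⟨C, hC⟩ := hm.bdd
    refine intervalIntegral.integral_mono_on hs.1 ?_ (hcf.add intervalIntegrable_const) fun r hr => ?_
    · refine IntervalIntegrable.continuousOn_mul ?_ (continuous_pow 2).continuousOn
      refine (intervalIntegrable_const (c := C)).mono_fun' (measurable_Pe hm).aestronglyMeasurable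
        (.of_forall fun r => ?_)
      refine (norm_integral_le_of_norm_le_const (C := C) (.of_forall fun q => ?_)).trans
        (le_of_eq (by rw [probReal_univ, mul_one]))
      rw [Real.norm_eq_abs]
      exact hC _ _ (isFld_fout _ _ _ _ _ _ _) (isFld_fout _ _ _ _ _ _ _)
    · rcases (hs₀.trans hr.1).eq_or_lt with e | hpos
      · rw [← e, zero_pow two_ne_zero, zero_mul]
        exact add_nonneg (mul_nonneg (hc0 _ ⟨by linarith [hr.1], by linarith [hs.1, hs.2]⟩)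
          (fd_nonneg B B K k _ o)) hβ
      · exact hsrc r ⟨hr.1, hr.2.trans hs.2⟩ hpos
  rw [intervalIntegral.integral_add hcf intervalIntegrable_const,
    intervalIntegral.integral_const, smul_eq_mul] at hmono
  simp only [Pi.mul_apply]
  have hint : ∫ r in s₀..s, 4 * c r * f r = 4 * ∫ r in s₀..s, c r * f r := by
    rw [← intervalIntegral.integral_const_mul]; congr 1; ext r; ring
  rw [hint]
  have : (s - s₀) * β ≤ 1 / 2 * β := mul_le_mul_of_nonneg_right (by linarith [hs.2]) hβ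
  linarith

/-- The discrepancy at small times, from the second moments. -/
lemma fd_le_moment {C : ℝ}
    (hC : ∀ φ : ℝ, Par G d φ → ∀ (o : V) (m K : ℕ), 0 < K → ∀ s : ℝ, 0 ≤ s → s ≤ 1 / 2 →
      St G φ (bll G o (m + 1)) K 0 s (fun f => mu G φ (bll G o (m + 1)) f o ^ (2 * 1)) ≤
        C * Real.sqrt s ^ (3 * 1))
    (o : V) (m : ℕ) {K : ℕ} (hK : 0 < K) {s : ℝ} (hs : 0 ≤ s) (hs1 : s ≤ 1 / 2) :
    fd G θ θ' (bll G o (m + 1)) (bll G o (m + 1)) K 0 s o ≤ 4 * C * Real.sqrt s ^ 3 := by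
  set B := bll G o (m + 1)
  have hB : Convex' G B := convex_bll P.tree o _
  have hne : B.Nonempty := ⟨o, self_mem_bll P.tree.connected o _⟩
  have hbB : ∀ {φ : ℝ}, Par G d φ → IsB B fun f => mu G φ B f o ^ (2 * 1) := fun Q =>
    (IsB.mu' Q.nonneg Q.lt_one B o).comp_real (φ := fun x => x ^ (2 * 1)) (by fun_prop)
  obtain ⟨b1, hb1⟩ := (hbB P).bdd
  obtain ⟨b2, hb2⟩ := (hbB P').bdd
  have t1 : IsPTest B B fun a _ => mu G θ B a o ^ (2 * 1) := IsPTest.fst (hbB P).test hb1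
  have t2 : IsPTest B B fun _ b => mu G θ' B b o ^ (2 * 1) := IsPTest.snd (hbB P').test hb2
  have e1 : Pe G θ θ' B B K 0 s (fun a _ => mu G θ B a o ^ (2 * 1)) ≤ C * Real.sqrt s ^ (3 * 1) :=
    (Pe_fst P.tree P.abs_lt_one P.nonneg P.lt_one hB hne (hbB P)).trans_le
      (hC θ P o m K hK s hs hs1)
  have e2 : Pe G θ θ' B B K 0 s (fun _ b => mu G θ' B b o ^ (2 * 1)) ≤
      C * Real.sqrt s ^ (3 * 1) := by
    rw [Pe_swap]
    exact (Pe_fst P'.tree P'.abs_lt_one P'.nonneg P'.lt_one hB hne (hbB P')).trans_le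
      (hC θ' P' o m K hK s hs hs1)
  refine (Pe_mono (P.isPTest_dm ⟨P'.nonneg, P'.lt_one⟩ B B o)
    ((IsPTest.const B B 2).mul (t1.add t2)) fun a b _ _ => ?_).trans ?_
  · unfold dm
    norm_num
    nlinarith [sq_nonneg (mu G θ B a o + mu G θ' B b o)]
  · rw [Pe_const_mul, Pe_add t1 t2]
    norm_num at e1 e2 ⊢
    linarith

end Par

omit [Countable V] [DecidableEq V] [G.LocallyFinite] in
lemma integral_inv_sqrt_le {a t : ℝ} (ha : 0 < a) (hat : a ≤ t) :
    ∫ r in a..t, 1 / Real.sqrt (max r a) ≤ 2 * Real.sqrt t := by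
  rw [intervalIntegral.integral_congr (g := fun r => 1 / Real.sqrt r) fun r hr => by
      rw [Set.uIcc_of_le hat] at hr; simp [max_eq_left hr.1],
    intervalIntegral.integral_eq_sub_of_hasDerivAt (f := fun r => 2 * Real.sqrt r) fun r hr => by
      rw [Set.uIcc_of_le hat] at hr
      exact ((Real.hasDerivAt_sqrt (by linarith [hr.1])).const_mul 2).congr_deriv (by ring)]
  · linarith [Real.sqrt_nonneg a]
  · refine ContinuousOn.intervalIntegrable fun r hr => ?_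
    rw [Set.uIcc_of_le hat] at hr
    exact (continuousAt_const.div Real.continuous_sqrt.continuousAt
      (Real.sqrt_ne_zero'.mpr (by linarith [hr.1]))).continuousWithinAt

omit [Countable V] [DecidableEq V] [G.LocallyFinite] in
lemma integral_inv_max_le {t b : ℝ} (ht : 0 < t) (htb : t ≤ b) (hb : b ≤ 1 / 2) :
    ∫ r in t..b, 1 / max r t ≤ Real.log (1 / t) := by
  rw [intervalIntegral.integral_congr (g := fun r => r⁻¹) fun r hr => by
      rw [Set.uIcc_of_le htb] at hr; simp [max_eq_left hr.1],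
    integral_inv_of_pos ht (by linarith)]
  exact Real.log_le_log (div_pos (by linarith) ht)
    (div_le_div_of_nonneg_right (by linarith) ht.le)

/-- The coefficient of the discrepancy away from the start. -/
noncomputable def coefW (c₀ : ℝ) : ℝ := 2 * 10 ^ 16 / c₀ ^ 2

/-- The exponential rate of one round, per squared level. -/
noncomputable def rate (c₀ : ℝ) : ℝ := 16 * coefW c₀ * (1 + (10 : ℝ) ^ 18)

lemma coefW_nonneg (c₀ : ℝ) : 0 ≤ coefW c₀ := by unfold coefW; positivity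

lemma rate_nonneg (c₀ : ℝ) : 0 ≤ rate c₀ := by
  have := coefW_nonneg c₀
  unfold rate
  positivity

/-- The error of the bound away from the start. -/
noncomputable def betaLate (d : ℕ) (c₀ t : ℝ) (M R : ℕ) (D ε : ℝ) : ℝ :=
  coefW c₀ * (4 * Real.exp (-(2 * ((d : ℝ) - 1) ^ M)) * (8 * (M : ℝ) ^ 2 + (10 : ℝ) ^ 18 / t) +
      ε + 2 * ((R : ℝ) + 1) ^ 3 * D) +
    16000 * (Real.exp (-(Real.sqrt t ^ 3 / 6800000 * ((R : ℝ) + 1))) / (Real.sqrt t ^ 3 / 6800000))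

/-- The error of the bound near the start. -/
noncomputable def betaEarly (d j : ℕ) (c₀ ℓ η₀ C D w ε : ℝ) : ℝ :=
  coefB d j * C / ℓ ^ (4 * j) + 16000 * 6800000 * Real.exp (-(ℓ / 6800000)) +
    coefS d j c₀ (3 * ℓ / Real.sqrt η₀ ^ 3) (Real.sqrt η₀) * (D + w + ε)

omit [Countable V] [DecidableEq V] [G.LocallyFinite] in
lemma betaLate_nonneg (d : ℕ) (c₀ : ℝ) {t : ℝ} (ht : 0 < t) (M R : ℕ) {D ε : ℝ} (hD : 0 ≤ D)
    (hε : 0 ≤ ε) : 0 ≤ betaLate d c₀ t M R D ε := by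
  have := coefW_nonneg c₀
  unfold betaLate; positivity

omit [Countable V] [DecidableEq V] [G.LocallyFinite] in
lemma betaEarly_nonneg (d j : ℕ) (c₀ : ℝ) {ℓ η₀ C D w ε : ℝ} (hℓ : 0 < ℓ) (hC : 0 ≤ C) (hD : 0 ≤ D)
    (hw : 0 ≤ w) (hε : 0 ≤ ε) : 0 ≤ betaEarly d j c₀ ℓ η₀ C D w ε := by
  have := coefB_nonneg d j
  have := coefS_nonneg d j (c₀ := c₀) (Q := 3 * ℓ / Real.sqrt η₀ ^ 3) (u := Real.sqrt η₀)
    (by positivity) (Real.sqrt_nonneg _)
  unfold betaEarly; positivity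

namespace Par

variable (P : Par G d θ) (P' : Par G d θ')
include P P'

/-- The bound away from the start, in the form needed for Gronwall's inequality. -/
lemma late_src {c₀ : ℝ} {o : V} {L K k M R : ℕ} {r t t' ε : ℝ} (hr : 0 < r) (hr1 : r ≤ 1 / 2)
    (ht : 0 < t) (htt : t ≤ t') (ht1 : t' ≤ 1 / 2) (htr : k = 0 → t' ≤ r) (hε : 0 ≤ ε)
    (h : src G θ θ' o L K k r ≤
      10 ^ 16 / c₀ ^ 2 * (2 * (Lt M k r ^ 2 * (fd G θ θ' (bll G o L) (bll G o L) K k r o +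
          4 * Real.exp (-(2 * ((d : ℝ) - 1) ^ M))) + ε) +
        4 * ((R : ℝ) + 1) ^ 3 * (θ - θ') ^ 2) +
      16000 * ((1 - eta k r) ^ (R + 1) / eta k r)) :
    r ^ 2 * src G θ θ' o L K k r ≤
      coefW c₀ * (8 * (M : ℝ) ^ 2 + (10 : ℝ) ^ 18 / max r t') *
          fd G θ θ' (bll G o L) (bll G o L) K k r o +
        betaLate d c₀ t M R ((θ - θ') ^ 2) ε := by
  set f := fd G θ θ' (bll G o L) (bll G o L) K k r o
  have hf : 0 ≤ f := fd_nonneg _ _ _ _ _ _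
  set x := Real.exp (-(2 * ((d : ℝ) - 1) ^ M))
  set T := (1 - eta k r) ^ (R + 1) / eta k r
  have hT0 : 0 ≤ T := div_nonneg (pow_nonneg (by linarith [(eta_mem (tau_pos (k := k) hr hr1)).2]) _)
    (eta_mem (tau_pos (k := k) hr hr1)).1.le
  have hW := coefW_nonneg c₀
  have hr2 : r ^ 2 ≤ 1 := pow_le_one₀ hr.le (by linarith)
  have hL := Lt_sq_le (n := M) hr hr1 (ht.trans_le htt) ht1 htr
  have hb : (8 * (M : ℝ) ^ 2 + (10 : ℝ) ^ 18 / max r t') ≤ 8 * (M : ℝ) ^ 2 + (10 : ℝ) ^ 18 / t := by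
    refine add_le_add le_rfl (div_le_div_of_nonneg_left (by norm_num) ht ?_)
    exact htt.trans (le_max_right r t')
  have hT : T ≤ Real.exp (-(Real.sqrt t ^ 3 / 6800000 * ((R : ℝ) + 1))) /
      (Real.sqrt t ^ 3 / 6800000) := by
    refine tail_le hr hr1 (by positivity) (le_trans ?_ (eta_lower hr.le hr1))
    refine div_le_div_of_nonneg_right (pow_le_pow_left₀ (Real.sqrt_nonneg _) (Real.sqrt_le_sqrt ?_) _)
      (by norm_num)
    split_ifs with hk
    · exact htt.trans (htr hk)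
    · exact htt.trans ht1
  refine (mul_le_mul_of_nonneg_left h (sq_nonneg r)).trans ?_
  have a1 := mul_le_mul_of_nonneg_left hL (mul_nonneg hW (add_nonneg hf (show 0 ≤ 4 * x by positivity)))
  have a2 := mul_le_mul_of_nonneg_left hb (mul_nonneg hW (show 0 ≤ 4 * x by positivity))
  have a3 := mul_le_mul_of_nonneg_left hr2 (mul_nonneg hW
    (show 0 ≤ ε + 2 * ((R : ℝ) + 1) ^ 3 * (θ - θ') ^ 2 by positivity))
  have a4 := mul_le_mul hr2 hT hT0 zero_le_one
  have e : (10 : ℝ) ^ 16 / c₀ ^ 2 = coefW c₀ / 2 := by unfold coefW; ring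
  rw [e]
  unfold betaLate
  linarith

/-- One round of growth. -/
lemma round_le {c₀ : ℝ} {o : V} {L K k M R : ℕ} {t ε : ℝ} (hk : k < K) (hk0 : k ≠ 0) (hM : 1 ≤ M)
    (ht : 0 < t) (ht1 : t ≤ 1 / 2) (hε : 0 ≤ ε)
    (h : ∀ r : ℝ, 0 < r → r ≤ 1 / 2 → src G θ θ' o L K k r ≤
      10 ^ 16 / c₀ ^ 2 * (2 * (Lt M k r ^ 2 * (fd G θ θ' (bll G o L) (bll G o L) K k r o +
          4 * Real.exp (-(2 * ((d : ℝ) - 1) ^ M))) + ε) +
        4 * ((R : ℝ) + 1) ^ 3 * (θ - θ') ^ 2) +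
      16000 * ((1 - eta k r) ^ (R + 1) / eta k r))
    {s : ℝ} (hs : s ∈ Set.Icc (0 : ℝ) (1 / 2)) :
    fd G θ θ' (bll G o L) (bll G o L) K k s o ≤
      (fd G θ θ' (bll G o L) (bll G o L) K k 0 o + 2 * betaLate d c₀ t M R ((θ - θ') ^ 2) ε) *
        Real.exp (rate c₀ * (M : ℝ) ^ 2) := by
  have hW := coefW_nonneg c₀
  refine (P.fd_gronwall P' o L hk le_rfl hs.1 hs.2 (betaLate_nonneg d c₀ ht M R (sq_nonneg (θ - θ')) hε)
    (c := fun _ => coefW c₀ * (8 * (M : ℝ) ^ 2 + 2 * (10 : ℝ) ^ 18)) continuous_const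
    (fun r _ => by positivity) fun r hr hr0 => ?_).trans ?_
  · have hr1 := hr.2.trans hs.2
    have := P.late_src P' (t' := 1 / 2) hr0 hr1 ht ht1 le_rfl (fun e => absurd e hk0) hε (h r hr0 hr1)
    rw [max_eq_right hr1] at this
    convert this using 3
    ring
  · refine mul_le_mul_of_nonneg_left (Real.exp_le_exp.mpr ?_) (add_nonneg (fd_nonneg _ _ _ _ _ _)
      (mul_nonneg zero_le_two (betaLate_nonneg d c₀ ht M R (sq_nonneg (θ - θ')) hε)))
    rw [intervalIntegral.integral_const, smul_eq_mul, sub_zero]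
    have hM1 : (1 : ℝ) ≤ (M : ℝ) ^ 2 := one_le_pow₀ (by exact_mod_cast hM)
    have := mul_le_mul_of_nonneg_right hs.2
      (show 0 ≤ 4 * (coefW c₀ * (8 * (M : ℝ) ^ 2 + 2 * (10 : ℝ) ^ 18)) by positivity)
    have := mul_le_mul_of_nonneg_left hM1 hW
    unfold rate
    linarith

/-- The first round. -/
lemma first_round {c₀ : ℝ} {o : V} {m K j M R : ℕ} {η₀ ε w C₁ C : ℝ} (hK : 0 < K) (hM : 1 ≤ M)
    (hη : 0 < η₀) (hηt : η₀ ≤ (Real.exp ((M : ℝ) ^ 2) ^ 4)⁻¹) (hε : 0 ≤ ε) (hw : 0 ≤ w)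
    (hC1 : ∀ φ : ℝ, Par G d φ → ∀ (o : V) (m K : ℕ), 0 < K → ∀ s : ℝ, 0 ≤ s → s ≤ 1 / 2 →
      St G φ (bll G o (m + 1)) K 0 s (fun f => mu G φ (bll G o (m + 1)) f o ^ (2 * 1)) ≤
        C₁ * Real.sqrt s ^ (3 * 1))
    (hC₁ : 0 ≤ C₁) (hC : 0 ≤ C)
    (hlate : ∀ r : ℝ, 0 < r → r ≤ 1 / 2 → src G θ θ' o (m + 1) K 0 r ≤
      10 ^ 16 / c₀ ^ 2 * (2 * (Lt M 0 r ^ 2 * (fd G θ θ' (bll G o (m + 1)) (bll G o (m + 1)) K 0 r o +
          4 * Real.exp (-(2 * ((d : ℝ) - 1) ^ M))) + ε) +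
        4 * ((R : ℝ) + 1) ^ 3 * (θ - θ') ^ 2) +
      16000 * ((1 - eta 0 r) ^ (R + 1) / eta 0 r))
    (hearly : ∀ r : ℝ, η₀ ≤ r → r ≤ 1 / 2 →
      ∀ R' : ℕ, R' ≤ ⌈Real.exp ((M : ℝ) ^ 2) / Real.sqrt η₀ ^ 3⌉₊ →
      src G θ θ' o (m + 1) K 0 r ≤
        4 * ((R' : ℝ) + 1) *
          (8 * (R' : ℝ) ^ 2 * (θ - θ') ^ 2 / c₀ ^ 2 +
            600 * (fd G θ θ' (bll G o (m + 1)) (bll G o (m + 1)) K 0 r o + 8 * ε) +
            8 * (768 * d * R' * (10 ^ 15 *
              (8 * Real.sqrt r * (fd G θ θ' (bll G o (m + 1)) (bll G o (m + 1)) K 0 r o + 8 * ε) +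
                32 / Real.sqrt r ^ j * (C * Real.sqrt r ^ (3 * (j + 1)) + 2 * ((j : ℝ) + 1) * ε) +
                5 * (θ - θ') ^ 2)) + 2 * (R' : ℝ) ^ 2 * w + 6 * 10 ^ 7 * (R' : ℝ) ^ 2 * ε) +
            16 * 50000 ^ (j + 1) * ((R' : ℝ) + 1) *
              (C * Real.sqrt r ^ (3 * (j + 1)) + 2 * ((j : ℝ) + 1) * ε)) +
          16000 * ((1 - eta 0 r) ^ (R' + 1) / eta 0 r))
    {s : ℝ} (hs : s ∈ Set.Icc (0 : ℝ) (1 / 2)) :
    fd G θ θ' (bll G o (m + 1)) (bll G o (m + 1)) K 0 s o ≤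
      ((4 * C₁ * Real.sqrt η₀ ^ 3 +
            2 * betaEarly d j c₀ (Real.exp ((M : ℝ) ^ 2)) η₀ C ((θ - θ') ^ 2) w ε) *
          Real.exp (8 * coefA d) +
        2 * betaLate d c₀ (Real.exp ((M : ℝ) ^ 2) ^ 4)⁻¹ M R ((θ - θ') ^ 2) ε) *
        Real.exp (rate c₀ * (M : ℝ) ^ 2) := by
  set B := bll G o (m + 1)
  set ℓ := Real.exp ((M : ℝ) ^ 2) with hℓdef
  set t := (ℓ ^ 4)⁻¹ with htdef
  have hℓ0 : 0 < ℓ := Real.exp_pos _
  have hM1 : (1 : ℝ) ≤ (M : ℝ) ^ 2 := one_le_pow₀ (by exact_mod_cast hM)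
  have hℓ2 : 2 ≤ ℓ := by linarith [Real.add_one_le_exp ((M : ℝ) ^ 2)]
  have ht : 0 < t := by positivity
  have ht1 : t ≤ 1 / 2 := by
    rw [htdef, one_div]
    exact inv_anti₀ two_pos (hℓ2.trans (le_self_pow₀ (by linarith) (by norm_num)))
  have hst : Real.sqrt t = (ℓ ^ 2)⁻¹ := by
    rw [htdef, Real.sqrt_inv, show ℓ ^ 4 = (ℓ ^ 2) ^ 2 by ring, Real.sqrt_sq (by positivity)]
  set β₁ := betaEarly d j c₀ ℓ η₀ C ((θ - θ') ^ 2) w ε
  set β₂ := betaLate d c₀ t M R ((θ - θ') ^ 2) ε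
  have hβ1 : 0 ≤ β₁ := betaEarly_nonneg d j c₀ hℓ0 hC (sq_nonneg (θ - θ')) hw hε
  have hβ2 : 0 ≤ β₂ := betaLate_nonneg d c₀ ht M R (sq_nonneg (θ - θ')) hε
  set E₀ := Real.exp (8 * coefA d)
  set E := Real.exp (rate c₀ * (M : ℝ) ^ 2)
  have hE0 : 1 ≤ E₀ := Real.one_le_exp (by linarith [coefA_nonneg d])
  have hE : 1 ≤ E := Real.one_le_exp (mul_nonneg (rate_nonneg c₀) (sq_nonneg _))
  set X₀ := 4 * C₁ * Real.sqrt η₀ ^ 3 with hX₀
  set X₁ := (X₀ + 2 * β₁) * E₀ with hX₁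
  have hX0 : 0 ≤ X₀ := by positivity
  have hX01 : X₀ ≤ X₁ := by
    rw [hX₁]; exact le_trans (by linarith) (le_mul_of_one_le_right (by linarith) hE0)
  have hX12 : X₁ ≤ (X₁ + 2 * β₂) * E :=
    le_trans (by linarith) (le_mul_of_one_le_right (by linarith) hE)
  have start : ∀ x, 0 ≤ x → x ≤ η₀ → fd G θ θ' B B K 0 x o ≤ X₀ := fun x hx hx1 =>
    (P.fd_le_moment P' hC1 o m hK hx (by linarith)).trans (mul_le_mul_of_nonneg_left
      (pow_le_pow_left₀ (Real.sqrt_nonneg _) (Real.sqrt_le_sqrt hx1) _) (by positivity))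
  have early : ∀ b, η₀ ≤ b → b ≤ t → fd G θ θ' B B K 0 b o ≤ X₁ := by
    intro b hb hbt
    refine (P.fd_gronwall P' o (m + 1) hK hη.le hb (hbt.trans ht1) hβ1
      (c := fun r => coefA d * ℓ ^ 2 * (1 / Real.sqrt (max r η₀)))
      (continuous_const.mul (continuous_const.div (by fun_prop) fun r =>
        Real.sqrt_ne_zero'.mpr (lt_max_of_lt_right hη)))
      (fun r _ => mul_nonneg (mul_nonneg (coefA_nonneg d) (sq_nonneg _)) (by positivity))
      fun r hr hr0 => ?_).trans ?_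
    · have hr1 : r ≤ 1 / 2 := hr.2.trans (hbt.trans ht1)
      rw [max_eq_left hr.1]
      set f := fd G θ θ' B B K 0 r o
      set u := Real.sqrt r with hu
      have hu0 : 0 < u := Real.sqrt_pos.mpr hr0
      have hu1 : u ≤ 1 := Real.sqrt_le_one.mpr (by linarith)
      have hur : u ^ 2 = r := Real.sq_sqrt hr0.le
      have hη0 : Real.sqrt η₀ ≤ u := Real.sqrt_le_sqrt hr.1
      have hη1 : 0 < Real.sqrt η₀ := Real.sqrt_pos.mpr hη
      have hq : ℓ / u ^ 3 ≤ ℓ / Real.sqrt η₀ ^ 3 :=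
        div_le_div_of_nonneg_left hℓ0.le (by positivity) (pow_le_pow_left₀ hη1.le hη0 3)
      set R' := ⌈ℓ / u ^ 3⌉₊ with hR'
      have h1 : (1 : ℝ) ≤ ℓ / u ^ 3 := by
        rw [le_div_iff₀ (by positivity)]; linarith [pow_le_one₀ (n := 3) hu0.le hu1]
      have hR1 : (R' : ℝ) + 1 ≤ 3 * ℓ / u ^ 3 := by
        have := Nat.ceil_lt_add_one (show 0 ≤ ℓ / u ^ 3 by positivity)
        rw [← hR'] at this
        rw [show 3 * ℓ / u ^ 3 = 3 * (ℓ / u ^ 3) by ring]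
        linarith
      have hsrc := hearly r hr.1 hr1 R' (Nat.ceil_le_ceil hq)
      rw [← hu] at hsrc
      have hr4 : r ^ 2 = u ^ 4 := by rw [← hur]; ring
      have hA := early_arith (d := d) (j := j) (c₀ := c₀) (ℓ := ℓ) (R := (R' : ℝ)) (u := u) (f := f)
        (ε := ε) (w := w) (D := (θ - θ') ^ 2) (C := C) (u₀ := Real.sqrt η₀)
        (Qm := 3 * ℓ / Real.sqrt η₀ ^ 3) (le_trans (by norm_num) P.three) (by linarith)
        (Nat.cast_nonneg _) hu0 hu1 hR1 (fd_nonneg _ _ _ _ _ _) hε hw (sq_nonneg _) hC hη1 hη0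
        (by rw [show ∀ y : ℝ, 3 * ℓ / y = 3 * (ℓ / y) from fun y => by ring,
          show 3 * ℓ / Real.sqrt η₀ ^ 3 = 3 * (ℓ / Real.sqrt η₀ ^ 3) by ring]
            linarith)
      have hT : u ^ 4 * (16000 * ((1 - eta 0 r) ^ (R' + 1) / eta 0 r)) ≤
          16000 * 6800000 * Real.exp (-(ℓ / 6800000)) := by
        have he := eta_lower (k := 0) hr0.le hr1
        rw [if_pos rfl, ← hu] at he
        have ht' := tail_le (R := R') hr0 hr1 (η₀ := u ^ 3 / 6800000) (by positivity) he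
        have hx : ℓ / 6800000 ≤ u ^ 3 / 6800000 * ((R' : ℝ) + 1) := by
          have h := Nat.le_ceil (ℓ / u ^ 3)
          rw [← hR', div_le_iff₀ (by positivity)] at h
          have : 0 ≤ u ^ 3 := by positivity
          linarith
        calc _ ≤ u ^ 4 * (16000 * (Real.exp (-(ℓ / 6800000)) / (u ^ 3 / 6800000))) := by
              refine mul_le_mul_of_nonneg_left (mul_le_mul_of_nonneg_left (ht'.trans ?_)
                (by norm_num)) (by positivity)
              exact div_le_div_of_nonneg_right (Real.exp_le_exp.mpr (neg_le_neg hx)) (by positivity)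
          _ = 16000 * 6800000 * Real.exp (-(ℓ / 6800000)) * u := by field_simp
          _ ≤ _ := mul_le_of_le_one_right (by positivity) hu1
      have hB : coefB d j * C * ℓ ^ 2 * u ^ (2 * j + 1) ≤ coefB d j * C / ℓ ^ (4 * j) := by
        have h2 : u ^ (2 * j + 1) ≤ ((ℓ ^ 2)⁻¹) ^ (2 * j + 1) := by
          refine pow_le_pow_left₀ hu0.le ?_ _
          rw [← hst]
          exact Real.sqrt_le_sqrt (hr.2.trans hbt)
        refine (mul_le_mul_of_nonneg_left h2 (mul_nonneg (mul_nonneg (coefB_nonneg d j) hC)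
          (sq_nonneg _))).trans_eq ?_
        rw [inv_pow, ← pow_mul, show 2 * (2 * j + 1) = 4 * j + 2 by ring, pow_add]
        field_simp
      rw [hr4]
      refine (mul_le_mul_of_nonneg_left hsrc (by positivity)).trans ?_
      rw [mul_add]
      refine (add_le_add hA hT).trans ?_
      rw [mul_one_div]
      simp only [β₁, betaEarly]
      linarith
    · refine mul_le_mul ?_ (Real.exp_le_exp.mpr ?_) (Real.exp_pos _).le (by positivity)
      · linarith [start η₀ hη.le le_rfl]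
      · rw [intervalIntegral.integral_const_mul, intervalIntegral.integral_const_mul]
        have h := (integral_inv_sqrt_le hη hb).trans
          (mul_le_mul_of_nonneg_left (Real.sqrt_le_sqrt hbt) zero_le_two)
        have h2 := mul_le_mul_of_nonneg_left h
          (show 0 ≤ 4 * (coefA d * ℓ ^ 2) by have := coefA_nonneg d; positivity)
        have e : coefA d * ℓ ^ 2 * Real.sqrt t = coefA d := by rw [hst]; field_simp
        linarith
  rcases le_total s η₀ with h | h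
  · exact (start s hs.1 h).trans (hX01.trans hX12)
  rcases le_total s t with h' | h'
  · exact (early s h h').trans hX12
  refine (P.fd_gronwall P' o (m + 1) hK ht.le h' hs.2 hβ2
    (c := fun r => coefW c₀ * (8 * (M : ℝ) ^ 2 + (10 : ℝ) ^ 18 * (1 / max r t)))
    (continuous_const.mul (continuous_const.add (continuous_const.mul
      (continuous_const.div (by fun_prop) fun r => (lt_max_of_lt_right ht).ne'))))
    (fun r _ => mul_nonneg (coefW_nonneg c₀) (by positivity)) fun r hr hr0 => ?_).trans ?_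
  · have hr1 := hr.2.trans hs.2
    have := P.late_src P' hr0 hr1 ht le_rfl ht1 (fun _ => hr.1) hε (hlate r hr0 hr1)
    rw [mul_one_div]
    exact this
  · refine mul_le_mul ?_ (Real.exp_le_exp.mpr ?_) (Real.exp_pos _).le (by positivity)
    · linarith [early t hηt le_rfl]
    · have hc1 : Continuous fun r : ℝ => 1 / max r t :=
        continuous_const.div (by fun_prop) fun r => (lt_max_of_lt_right ht).ne'
      rw [intervalIntegral.integral_const_mul, intervalIntegral.integral_const_mul,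
        intervalIntegral.integral_add intervalIntegrable_const
          ((hc1.intervalIntegrable _ _).const_mul _),
        intervalIntegral.integral_const, intervalIntegral.integral_const_mul, smul_eq_mul]
      have hlog : ∫ r in t..s, 1 / max r t ≤ 4 * (M : ℝ) ^ 2 := by
        refine (integral_inv_max_le ht h' hs.2).trans_eq ?_
        rw [htdef, one_div, inv_inv, Real.log_pow, hℓdef, Real.log_exp]
        norm_num
      have hW := coefW_nonneg c₀
      have a1 := mul_le_mul_of_nonneg_left hlog (show 0 ≤ 4 * coefW c₀ * (10 : ℝ) ^ 18 by positivity)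
      have a2 := mul_le_mul_of_nonneg_right (show s - t ≤ 1 / 2 by linarith [hs.2])
        (show 0 ≤ 4 * coefW c₀ * (8 * (M : ℝ) ^ 2) by positivity)
      unfold rate
      linarith

end Par

/-- Up to the threshold, nearby parameters give nearby samplers. -/
theorem critical (Pc : Par G d θc) (hcrit : ((d : ℝ) - 1) * θc ^ 2 = 1) (K : ℕ) {ε : ℝ}
    (hε : 0 < ε) :
    ∃ δ > 0, ∀ θ θ' : ℝ, Par G d θ → Par G d θ' → ((d : ℝ) - 1) * θ ^ 2 < 1 →
      ((d : ℝ) - 1) * θ' ^ 2 < 1 → |θ - θc| < δ → |θ' - θc| < δ →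
      ∃ L₀, ∀ L, L₀ ≤ L → ∀ o : V, ∀ k < K, ∀ r ∈ Set.Icc (0 : ℝ) (1 / 2),
        fd G θ θ' (bll G o L) (bll G o L) K k r o ≤ ε := by
  rcases Nat.eq_zero_or_pos K with rfl | hK
  · exact ⟨1, one_pos, fun θ θ' _ _ _ _ _ _ => ⟨0, fun L _ o k hk => absurd hk (Nat.not_lt_zero _)⟩⟩
  have hθc : 0 < θc := by
    rcases Pc.nonneg.eq_or_lt with h | h
    · rw [← h] at hcrit; norm_num at hcrit
    · exact h
  set c₀ := θc / 2 with hc₀
  have hc0 : 0 < c₀ := by positivity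
  set Λ := rate c₀ * ((K : ℝ) + 1) with hΛ
  have hr0 := rate_nonneg c₀
  have hW := coefW_nonneg c₀
  set j := ⌈Λ⌉₊ + 1
  have hj : Λ + 1 ≤ 4 * j := by
    have := Nat.le_ceil Λ
    have hΛ0 : 0 ≤ Λ := mul_nonneg hr0 (by positivity)
    push_cast [j]
    linarith
  obtain ⟨C₁, hC₁, hb1⟩ := moment_bound (V := V) (G := G) d 1
  obtain ⟨C, hC, hbj⟩ := moment_bound (V := V) (G := G) d (j + 1)
  set E₀ := Real.exp (8 * coefA d) with hE₀
  have hE0 : 0 < E₀ := Real.exp_pos _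
  set e := ε / 6 with he
  have he0 : 0 < e := by positivity
  set Kr := (K : ℝ) + 1
  obtain ⟨M, hM, hMa, hMb, hMc⟩ := choose_level (B := 2 * E₀ * (coefB d j * C))
    (C₁ := 2 * E₀ * (16000 * 6800000))
    (C₂ := 2 * Kr * (coefW c₀ * (4 * (8 + (10 : ℝ) ^ 18)))) (j := j) hj he0
  set ℓ := Real.exp ((M : ℝ) ^ 2) with hℓ
  have hℓ0 : 0 < ℓ := Real.exp_pos _
  set t := (ℓ ^ 4)⁻¹ with ht
  have ht0 : 0 < t := by positivity
  have hM1 : (1 : ℝ) ≤ (M : ℝ) ^ 2 := one_le_pow₀ (by exact_mod_cast hM)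
  have hℓ2 : 2 ≤ ℓ := by linarith [Real.add_one_le_exp ((M : ℝ) ^ 2)]
  have ht12 : t ≤ 1 / 2 := by
    rw [ht, one_div]
    exact inv_anti₀ two_pos (hℓ2.trans (le_self_pow₀ (by linarith) (by norm_num)))
  set E' := Real.exp (Λ * (M : ℝ) ^ 2) with hE'
  have hE'0 : 0 < E' := Real.exp_pos _
  set η₀ := min t (e / (E' * (4 * C₁) * E₀ + 1)) with hη₀
  have hη : 0 < η₀ := lt_min ht0 (by positivity)
  have ha : E' * (4 * C₁ * Real.sqrt η₀ ^ 3) * E₀ ≤ e := by
    have h1 : Real.sqrt η₀ ^ 3 ≤ η₀ := by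
      rw [pow_succ, Real.sq_sqrt hη.le]
      exact mul_le_of_le_one_right hη.le (Real.sqrt_le_one.mpr ((min_le_left _ _).trans (by linarith)))
    have h3 : η₀ * (E' * (4 * C₁) * E₀ + 1) ≤ e :=
      (le_div_iff₀ (by positivity)).mp (min_le_right _ _)
    have h4 := mul_le_mul_of_nonneg_left h1 (show 0 ≤ E' * (4 * C₁) * E₀ by positivity)
    linarith
  set ηs := Real.sqrt t ^ 3 / 6800000 with hηs
  have hηs0 : 0 < ηs := by have := Real.sqrt_pos.mpr ht0; positivity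
  obtain ⟨R, hR⟩ : ∃ R : ℕ,
      2 * Kr * E' * (16000 * (Real.exp (-(ηs * ((R : ℝ) + 1))) / ηs)) ≤ e := by
    have h1 : Filter.Tendsto (fun R : ℕ => -(ηs * ((R : ℝ) + 1))) Filter.atTop Filter.atBot :=
      Filter.tendsto_neg_atTop_atBot.comp
        ((Filter.tendsto_atTop_add_const_right _ 1 tendsto_natCast_atTop_atTop).const_mul_atTop hηs0)
    have h2 := ((((Real.tendsto_exp_atBot.comp h1).div_const ηs).const_mul (16000 : ℝ)).const_mul
      (2 * Kr * E'))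
    simp only [zero_div, mul_zero] at h2
    exact (h2.eventually_le_const he0).exists
  set S := coefS d j c₀ (3 * ℓ / Real.sqrt η₀ ^ 3) (Real.sqrt η₀)
  have hS : 0 ≤ S := coefS_nonneg d j (by positivity) (Real.sqrt_nonneg _)
  set W := coefW c₀ * (1 + 2 * ((R : ℝ) + 1) ^ 3)
  have hW' : 0 ≤ W := by positivity
  set Tot := 2 * E₀ * E' * S * 2 + 2 * Kr * E' * W + 1
  have hTot : 0 < Tot := by positivity
  set ν := e / (2 * Tot) with hν
  have hν0 : 0 < ν := by positivity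
  obtain ⟨δ₁, hδ₁, hmean⟩ :=
    mean_Zq_small Pc K hK hη (ε := Real.sqrt ν) (Real.sqrt_pos.mpr hν0)
  refine ⟨min δ₁ (min c₀ (Real.sqrt ν / 2)), lt_min hδ₁ (lt_min hc0 (by positivity)),
    fun θ θ' P P' hlt hlt' hθ hθ' => ?_⟩
  obtain ⟨h11, h12⟩ := lt_min_iff.mp hθ
  obtain ⟨h21, h22⟩ := lt_min_iff.mp hθ'
  obtain ⟨h13, h14⟩ := lt_min_iff.mp h12
  obtain ⟨h23, h24⟩ := lt_min_iff.mp h22
  have hlo : c₀ ≤ θ := by linarith [(abs_lt.mp h13).1]
  have hlo' : c₀ ≤ θ' := by linarith [(abs_lt.mp h23).1]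
  have hD : (θ - θ') ^ 2 ≤ ν := by
    rw [← Real.sq_sqrt hν0.le, ← sq_abs (θ - θ')]
    refine pow_le_pow_left₀ (abs_nonneg _) ?_ 2
    linarith [abs_sub_le θ θc θ', abs_sub_comm θ' θc]
  obtain ⟨L₁, hL₁⟩ := hmean θ θ' P P' h11 h21
  obtain ⟨L₂, hL₂⟩ := P.late_integrand P' hc0 hlo hlo' hlt hlt' K R (ε := ν) hν0
  obtain ⟨L₃, hL₃⟩ := P.early_integrand P' Pc hcrit hc0 hlo hlo' hlt hlt' K
    ⌈ℓ / Real.sqrt η₀ ^ 3⌉₊ j (ε := ν) hν0
  refine ⟨L₁ + L₂ + L₃ + 1, fun L hL o k hk r hr => ?_⟩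
  obtain ⟨m, rfl⟩ : ∃ m, L = m + 1 := ⟨L - 1, by omega⟩
  have hlate : ∀ k < K, ∀ r : ℝ, 0 < r → r ≤ 1 / 2 → src G θ θ' o (m + 1) K k r ≤
      10 ^ 16 / c₀ ^ 2 * (2 * (Lt M k r ^ 2 * (fd G θ θ' (bll G o (m + 1)) (bll G o (m + 1)) K k r o +
          4 * Real.exp (-(2 * ((d : ℝ) - 1) ^ M))) + ν) +
        4 * ((R : ℝ) + 1) ^ 3 * (θ - θ') ^ 2) +
      16000 * ((1 - eta k r) ^ (R + 1) / eta k r) :=
    fun k hk r h1 h2 => hL₂ (m + 1) (by omega) o k hk r h1 h2 M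
  set β₂ := betaLate d c₀ t M R ((θ - θ') ^ 2) ν
  have hβ2 : 0 ≤ β₂ := betaLate_nonneg d c₀ ht0 M R (sq_nonneg (θ - θ')) hν0.le
  set E := Real.exp (rate c₀ * (M : ℝ) ^ 2) with hE
  have hE1 : 1 ≤ E := Real.one_le_exp (by positivity)
  set β₁ := betaEarly d j c₀ ℓ η₀ C ((θ - θ') ^ 2) ν ν
  have hβ1 : 0 ≤ β₁ := betaEarly_nonneg d j c₀ hℓ0 hC (sq_nonneg (θ - θ')) hν0.le hν0.le
  set X := ((4 * C₁ * Real.sqrt η₀ ^ 3 + 2 * β₁) * E₀ + 2 * β₂) * E
  have hfirst : ∀ s ∈ Set.Icc (0 : ℝ) (1 / 2),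
      fd G θ θ' (bll G o (m + 1)) (bll G o (m + 1)) K 0 s o ≤ X := fun s hs =>
    P.first_round P' hK hM hη (min_le_left _ _) hν0.le hν0.le hb1 hC₁ hC
      (fun r h1 h2 => hlate 0 hK r h1 h2) (fun r h1 h2 R' hR' =>
        hL₃ (m + 1) (by omega) o hK r (hη.trans_le h1) h2 R' hR' (Real.sqrt ν) C
          (fun e => hL₁ (m + 1) (by omega) 0 r h1 h2 e)
          (fun φ Q v m' => hbj φ Q v m' K hK r (hη.trans_le h1).le h2) |>.trans_eq
            (by rw [Real.sq_sqrt hν0.le])) hs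
  have hrounds : ∀ k, k < K → ∀ s ∈ Set.Icc (0 : ℝ) (1 / 2),
      fd G θ θ' (bll G o (m + 1)) (bll G o (m + 1)) K k s o ≤ (X + 2 * k * β₂) * E ^ k := by
    intro k
    induction k with
    | zero => intro _ s hs; simpa using hfirst s hs
    | succ k ih =>
      intro hk s hs
      refine (P.round_le P' hk (by omega) hM ht0 ht12 hν0.le
        (fun r h1 h2 => hlate (k + 1) hk r h1 h2) hs).trans ?_
      have e1 : fd G θ θ' (bll G o (m + 1)) (bll G o (m + 1)) K (k + 1) 0 o =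
          fd G θ θ' (bll G o (m + 1)) (bll G o (m + 1)) K k (1 / 2) o := Pe_succ (G := G) _
      rw [e1]
      have h1 := ih (by omega) (1 / 2) ⟨by norm_num, le_rfl⟩
      have h2 : 2 * β₂ ≤ 2 * β₂ * E ^ k := le_mul_of_one_le_right (by positivity) (one_le_pow₀ hE1)
      calc _ ≤ ((X + 2 * k * β₂) * E ^ k + 2 * β₂ * E ^ k) * E :=
            mul_le_mul_of_nonneg_right (add_le_add h1 h2) (zero_le_one.trans hE1)
        _ = _ := by rw [pow_succ]; push_cast; ring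
  have hX : 0 ≤ X := by positivity
  have hk' : (k : ℝ) ≤ K := Nat.cast_le.mpr hk.le
  have hfin : fd G θ θ' (bll G o (m + 1)) (bll G o (m + 1)) K k r o ≤ E' *
      (E₀ * (4 * C₁ * Real.sqrt η₀ ^ 3) + 2 * E₀ * β₁ + 2 * Kr * β₂) := by
    refine (hrounds k hk r hr).trans ?_
    have hEE : E' = E * E ^ K := by
      rw [hE', hE, ← Real.exp_nat_mul, ← Real.exp_add]; congr 1; rw [hΛ]; ring
    calc (X + 2 * k * β₂) * E ^ k ≤ (X + 2 * K * β₂) * E ^ K := by
          refine mul_le_mul ?_ (pow_le_pow_right₀ hE1 hk.le) (by positivity) (by positivity)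
          have := mul_le_mul_of_nonneg_right hk' hβ2
          linarith
      _ ≤ (X + 2 * K * β₂ * E) * E ^ K := by
          refine mul_le_mul_of_nonneg_right (add_le_add le_rfl ?_) (by positivity)
          exact le_mul_of_one_le_right (by positivity) hE1
      _ = _ := by rw [hEE]; simp only [X, Kr]; ring
  refine hfin.trans ?_
  have hεe : ε = 6 * e := by rw [he]; ring
  rw [hεe]
  set x := Real.exp (-(2 * ((d : ℝ) - 1) ^ M))
  have hx : x ≤ Real.exp (-(2 * (2 : ℝ) ^ M)) := Real.exp_le_exp.mpr (neg_le_neg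
    (mul_le_mul_of_nonneg_left (pow_le_pow_left₀ zero_le_two P.two_le M) zero_le_two))
  have h8 : 8 * (M : ℝ) ^ 2 + (10 : ℝ) ^ 18 / t ≤ (8 + (10 : ℝ) ^ 18) * Real.exp (4 * (M : ℝ) ^ 2) := by
    have e4 : Real.exp (4 * (M : ℝ) ^ 2) = ℓ ^ 4 := by
      rw [hℓ, ← Real.exp_nat_mul]; norm_num
    have h := Real.add_one_le_exp (4 * (M : ℝ) ^ 2)
    rw [ht, div_inv_eq_mul, ← e4]
    linarith [sq_nonneg (M : ℝ)]
  have hy := mul_le_mul hx h8 (by positivity) (Real.exp_pos _).le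
  have h3 : 2 * Kr * E' * (coefW c₀ * (4 * x * (8 * (M : ℝ) ^ 2 + (10 : ℝ) ^ 18 / t))) ≤ e := by
    refine le_trans ?_ hMc
    have := mul_le_mul_of_nonneg_left hy
      (show 0 ≤ 2 * Kr * E' * (coefW c₀ * 4) by positivity)
    linarith
  have h1 : 2 * E₀ * E' * (coefB d j * C / ℓ ^ (4 * j)) ≤ e := by
    refine le_of_eq_of_le ?_ hMa
    ring
  have h2 : 2 * E₀ * E' * (16000 * 6800000 * Real.exp (-(ℓ / 6800000))) ≤ e := by
    refine le_of_eq_of_le ?_ hMb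
    ring
  have h5 : 2 * E₀ * E' * (S * ((θ - θ') ^ 2 + ν + ν)) +
      2 * Kr * E' * (W * ν) ≤ e := by
    have hd := mul_le_mul_of_nonneg_left hD (show 0 ≤ 2 * E₀ * E' * S by positivity)
    have h6 : Tot * ν = e / 2 := by rw [hν]; field_simp
    have h7 : 0 ≤ 2 * Kr * E' * W * ν := by positivity
    linarith
  have hWD : coefW c₀ * (ν + 2 * ((R : ℝ) + 1) ^ 3 * (θ - θ') ^ 2) ≤ W * ν := by
    have := mul_le_mul_of_nonneg_left hD
      (show 0 ≤ coefW c₀ * (2 * ((R : ℝ) + 1) ^ 3) by positivity)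
    linarith
  have hb2 : β₂ ≤ coefW c₀ * (4 * x * (8 * (M : ℝ) ^ 2 + (10 : ℝ) ^ 18 / t)) + W * ν +
      16000 * (Real.exp (-(ηs * ((R : ℝ) + 1))) / ηs) := by
    simp only [β₂, betaLate, ← hηs]
    linarith
  have hb1' : β₁ = coefB d j * C / ℓ ^ (4 * j) + 16000 * 6800000 * Real.exp (-(ℓ / 6800000)) +
      S * ((θ - θ') ^ 2 + ν + ν) := rfl
  rw [hb1']
  have hb3 := mul_le_mul_of_nonneg_left hb2 (show 0 ≤ E' * (2 * Kr) by positivity)
  linarith

end Vale.Agent.P161.Crit
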