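import Vale.Agent.P161.Crit.Path

/-!
# The growth near the start
-/

namespace Vale.Agent.P161.Crit

open MeasureTheory unitInterval Function SimpleGraph Vale.Agent.P161

variable {V : Type*} {G : SimpleGraph V} {θ θ' : ℝ}
variable [Countable V] [DecidableEq V] [G.LocallyFinite] {d : ℕ} {θc : ℝ}

/-- Splitting a product of a moment and a discrepancy. -/
lemma mul_le_split {x D M : ℝ} (hx : 0 ≤ x) (hD : 0 ≤ D) (hD4 : D ≤ 4) (hM : 0 < M) (j : ℕ) :
    x * D ≤ M * D + 4 / M ^ j * x ^ (j + 1) := by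
  rcases le_total x M with h | h
  · refine (mul_le_mul_of_nonneg_right h hD).trans (le_add_of_nonneg_right ?_)
    positivity
  · refine (mul_le_mul_of_nonneg_left hD4 hx).trans (le_add_of_nonneg_of_le (by positivity) ?_)
    rw [div_mul_eq_mul_div, le_div_iff₀ (pow_pos hM _), pow_succ]
    calc x * 4 * M ^ j = 4 * x * M ^ j := by ring
      _ ≤ 4 * x * x ^ j := mul_le_mul_of_nonneg_left (pow_le_pow_left₀ hM.le h _) (by positivity)
      _ = _ := by ring

lemma abs_pow_diff {a b : ℝ} (ha : |a| ≤ 1) (hb : |b| ≤ 1) (n : ℕ) :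
    |a ^ n - b ^ n| ≤ n * |a - b| := by
  induction n with
  | zero => simp
  | succ n ih =>
    rw [show a ^ (n + 1) - b ^ (n + 1) = (a - b) * a ^ n + b * (a ^ n - b ^ n) by ring]
    refine (abs_add_le _ _).trans ?_
    rw [abs_mul, abs_mul, abs_pow]
    have h1 := mul_le_mul_of_nonneg_left (pow_le_one₀ (n := n) (abs_nonneg a) ha) (abs_nonneg (a - b))
    have h2 := mul_le_mul hb ih (abs_nonneg _) zero_le_one
    push_cast
    linarith

lemma sq_le_mul_abs {a b c : ℝ} (h1 : |a| ≤ b) (h2 : |a| ≤ c) : a ^ 2 ≤ b * c := by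
  rw [← sq_abs, sq]
  exact mul_le_mul h1 h2 (abs_nonneg _) ((abs_nonneg _).trans h1)

lemma abs_sq_diff {x y x' y' : ℝ} (hx : |x| ≤ 1) (hy : |y| ≤ 1) (hx' : |x'| ≤ 1) (hy' : |y'| ≤ 1) :
    |(x - y) ^ 2 - (x' - y') ^ 2| ≤ 4 * (|x - x'| + |y - y'|) := by
  rw [sq_sub_sq, abs_mul]
  refine mul_le_mul ?_ ?_ (abs_nonneg _) (by norm_num)
  · obtain ⟨a, b⟩ := abs_le.mp hx
    obtain ⟨a', b'⟩ := abs_le.mp hy
    obtain ⟨c, e⟩ := abs_le.mp hx'
    obtain ⟨c', e'⟩ := abs_le.mp hy'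
    exact abs_le.mpr ⟨by linarith, by linarith⟩
  · rw [show x - y - (x' - y') = (x - x') - (y - y') by ring]
    exact abs_sub _ _

lemma integrable_Mdiff (h0 : 0 ≤ θ) (h1 : θ < 1) (B B' : Finset V) (K k : ℕ) (r : ℝ) (v : V) :
    Integrable (fun q => |Mq G θ B K k r v q - Mq G θ B' K k r v q|) (omg V) :=
  integrable_bdd ((measurable_Mq B K k r v).sub (measurable_Mq B' K k r v)).abs 2 fun q => by
    have a := abs_le.mp (abs_Mq_le (G := G) h0 h1 B K k r v q)
    have b := abs_le.mp (abs_Mq_le (G := G) h0 h1 B' K k r v q)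
    rw [abs_abs]
    exact abs_le.mpr ⟨by linarith, by linarith⟩

lemma integrable_Mpow (h0 : 0 ≤ θ) (h1 : θ < 1) (B : Finset V) (K k : ℕ) (r : ℝ) (v : V) (n : ℕ) :
    Integrable (fun q => Mq G θ B K k r v q ^ n) (omg V) :=
  integrable_bdd ((measurable_Mq B K k r v).pow_const n) 1 fun q => by
    rw [abs_pow]; exact pow_le_one₀ (abs_nonneg _) (abs_Mq_le h0 h1 B K k r v q)

lemma integrable_Msq (h0 : 0 ≤ θ) (h1 : θ < 1) (h0' : 0 ≤ θ') (h1' : θ' < 1) (B : Finset V)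
    (K k : ℕ) (r : ℝ) (v : V) :
    Integrable (fun q => (Mq G θ B K k r v q - Mq G θ' B K k r v q) ^ 2) (omg V) :=
  integrable_bdd (((measurable_Mq B K k r v).sub (measurable_Mq B K k r v)).pow_const 2) 4 fun q => by
    have a := abs_le.mp (abs_Mq_le (G := G) h0 h1 B K k r v q)
    have b := abs_le.mp (abs_Mq_le (G := G) h0' h1' B K k r v q)
    rw [abs_pow]
    refine (pow_le_pow_left₀ (abs_nonneg _) (abs_le.mpr ⟨by linarith, by linarith⟩) 2).trans
      (le_of_eq (show (2:ℝ) ^ 2 = 4 by norm_num))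

namespace Par

variable (P : Par G d θ)
include P

/-- The damping of an edge is bounded. -/
lemma gS_range {K : ℕ} {r : ℝ} (e : Edg G) {A : Finset V} (h1 : e.1.1 ∈ A) (h2 : e.1.2 ∈ A)
    (q : (V × ℕ → I) × (V × ℕ → I)) :
    0 ≤ gS G θ A (fout G θ A K 0 r q) e.1 ∧ gS G θ A (fout G θ A K 0 r q) e.1 ≤ 10 := by
  have hf := isFld_fout G θ A K 0 r q
  have b1 := (abs_cav_lt P.tree P.nonneg P.lt_one hf h2 e.2).le
  have b2 := (abs_cav_lt P.tree P.nonneg P.lt_one hf h1 e.2.symm).le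
  obtain ⟨a1, a2⟩ := glog_range P.mem_Icc b1
  obtain ⟨a3, a4⟩ := glog_range P.mem_Icc b2
  have s1 : cav G θ A (fout G θ A K 0 r q) e.1.1 e.1.2 ^ 2 ≤ 1 := by
    rw [← sq_abs]; exact pow_le_one₀ (abs_nonneg _) b1
  have s2 : cav G θ A (fout G θ A K 0 r q) e.1.2 e.1.1 ^ 2 ≤ 1 := by
    rw [← sq_abs]; exact pow_le_one₀ (abs_nonneg _) b2
  exact ⟨add_nonneg a1 a3, by unfold gS; linarith⟩

/-- A moment at a vertex, in any volume that agrees with the centred one in mean. -/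
lemma moment_move (B : Finset V) {v : V} {m K : ℕ} (hK : 0 < K) {r : ℝ} {p : ℕ} {C ε : ℝ}
    (hb : St G θ (bll G v (m + 1)) K 0 r (fun f => mu G θ (bll G v (m + 1)) f v ^ (2 * p)) ≤ C)
    (hclose : ∫ q, |Mq G θ B K 0 r v q - Mq G θ (bll G v (m + 1)) K 0 r v q| ∂omg V ≤ ε) :
    ∫ q, Mq G θ B K 0 r v q ^ (2 * p) ∂omg V ≤ C + 2 * p * ε := by
  set Bv := bll G v (m + 1)
  have h0 := P.nonneg
  have h1 := P.lt_one
  have hB : Convex' G Bv := convex_bll P.tree v _
  have he : ∫ q, Mq G θ Bv K 0 r v q ^ (2 * p) ∂omg V ≤ C := by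
    rw [← Pe_fst P.tree P.abs_lt_one h0 h1 (θ' := θ) (A' := Bv) hB
      ⟨v, self_mem_bll P.tree.connected v _⟩
      ((IsB.mu' h0 h1 Bv v).comp_real (φ := fun x => x ^ (2 * p)) (by fun_prop))] at hb
    exact hb
  calc ∫ q, Mq G θ B K 0 r v q ^ (2 * p) ∂omg V
      ≤ ∫ q, (Mq G θ Bv K 0 r v q ^ (2 * p) +
          ((2 * p : ℕ) : ℝ) * |Mq G θ B K 0 r v q - Mq G θ Bv K 0 r v q|) ∂omg V := by
        refine integral_mono (integrable_Mpow h0 h1 B K 0 r v _)
          ((integrable_Mpow h0 h1 Bv K 0 r v _).add ((integrable_Mdiff h0 h1 B Bv K 0 r v).const_mul _))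
          fun q => ?_
        have := abs_pow_diff (abs_Mq_le (G := G) h0 h1 B K 0 r v q)
          (abs_Mq_le (G := G) h0 h1 Bv K 0 r v q) (2 * p)
        simp only [Pi.add_apply]
        linarith [le_abs_self (Mq G θ B K 0 r v q ^ (2 * p) - Mq G θ Bv K 0 r v q ^ (2 * p))]
    _ = (∫ q, Mq G θ Bv K 0 r v q ^ (2 * p) ∂omg V) +
          ((2 * p : ℕ) : ℝ) * ∫ q, |Mq G θ B K 0 r v q - Mq G θ Bv K 0 r v q| ∂omg V := by
        rw [integral_add (integrable_Mpow h0 h1 Bv K 0 r v _)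
          ((integrable_Mdiff h0 h1 B Bv K 0 r v).const_mul _), integral_const_mul]
    _ ≤ _ := by
        push_cast
        exact add_le_add he (mul_le_mul_of_nonneg_left hclose (by positivity))

variable (P' : Par G d θ')
include P'

/-- A discrepancy at a vertex, in any volume that agrees with the centred one in mean. -/
lemma fd_move (B : Finset V) (o v : V) (L K k : ℕ) (r : ℝ) {ε : ℝ}
    (hclose : ∫ q, |Mq G θ B K k r v q - Mq G θ (bll G v L) K k r v q| ∂omg V ≤ ε)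
    (hclose' : ∫ q, |Mq G θ' B K k r v q - Mq G θ' (bll G v L) K k r v q| ∂omg V ≤ ε) :
    ∫ q, (Mq G θ B K k r v q - Mq G θ' B K k r v q) ^ 2 ∂omg V ≤
      fd G θ θ' (bll G o L) (bll G o L) K k r o + 8 * ε := by
  have i1 := integrable_Mdiff (G := G) P.nonneg P.lt_one B (bll G v L) K k r v
  have i2 := integrable_Mdiff (G := G) P'.nonneg P'.lt_one B (bll G v L) K k r v
  have i3 := integrable_Msq (G := G) P.nonneg P.lt_one P'.nonneg P'.lt_one (bll G v L) K k r v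
  rw [fd_centre P.tree P.deg L K k r o v, fd_eq]
  refine (integral_mono (integrable_Msq P.nonneg P.lt_one P'.nonneg P'.lt_one B K k r v)
    (i3.add ((i1.add i2).const_mul 4)) fun q => ?_).trans ?_
  · have := abs_sq_diff (abs_Mq_le (G := G) P.nonneg P.lt_one B K k r v q)
      (abs_Mq_le (G := G) P'.nonneg P'.lt_one B K k r v q)
      (abs_Mq_le (G := G) P.nonneg P.lt_one (bll G v L) K k r v q)
      (abs_Mq_le (G := G) P'.nonneg P'.lt_one (bll G v L) K k r v q)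
    simp only [Pi.add_apply]
    linarith [le_abs_self ((Mq G θ B K k r v q - Mq G θ' B K k r v q) ^ 2 -
      (Mq G θ (bll G v L) K k r v q - Mq G θ' (bll G v L) K k r v q) ^ 2)]
  · rw [integral_add' i3 ((i1.add i2).const_mul 4), integral_const_mul, integral_add' i1 i2]
    linarith

/-- The second moment of the edge quantity. -/
lemma EZ_sq {L m K : ℕ} (hL : L = m + 1) (hK : 0 < K) {r : ℝ} (hr : 0 < r) (j : ℕ) {C ε : ℝ}
    (hC : ∀ {φ : ℝ}, Par G d φ → ∀ v : V,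
      St G φ (bll G v (m + 1)) K 0 r (fun f => mu G φ (bll G v (m + 1)) f v ^ (2 * (j + 1))) ≤
        C * Real.sqrt r ^ (3 * (j + 1)))
    (o : V) (e : Edg G)
    (hclose : ∀ v, (v = e.1.1 ∨ v = e.1.2) →
      ∫ q, |Mq G θ (eBall G L e.1) K 0 r v q - Mq G θ (bll G v L) K 0 r v q| ∂omg V ≤ ε ∧
      ∫ q, |Mq G θ' (eBall G L e.1) K 0 r v q - Mq G θ' (bll G v L) K 0 r v q| ∂omg V ≤ ε) :
    ∫ q, Zq G θ θ' L K 0 r e.1 q ^ 2 ∂omg V ≤ 10 ^ 15 *
      (8 * Real.sqrt r * (fd G θ θ' (bll G o L) (bll G o L) K 0 r o + 8 * ε) +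
        32 / Real.sqrt r ^ j * (C * Real.sqrt r ^ (3 * (j + 1)) + 2 * ((j : ℝ) + 1) * ε) +
        5 * (θ - θ') ^ 2) := by
  subst hL
  set B := eBall G (m + 1) e.1
  have hc := P.tree.connected
  have hB : Convex' G B :=
    P.convex_mid e.1.1 (eBall_sub P.tree e.2).1 (eBall_sub P.tree e.2).2
  have h1 : e.1.1 ∈ B := Finset.mem_union_left _ (self_mem_bll hc _ _)
  have h2 : e.1.2 ∈ B := Finset.mem_union_right _ (self_mem_bll hc _ _)
  set M := Real.sqrt r
  have hM : 0 < M := Real.sqrt_pos.mpr hr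
  set x := fun v q => Mq G θ B K 0 r v q ^ 2
  set x' := fun v q => Mq G θ' B K 0 r v q ^ 2
  set D := fun v q => (Mq G θ B K 0 r v q - Mq G θ' B K 0 r v q) ^ 2
  have hD4 : ∀ v q, 0 ≤ D v q ∧ D v q ≤ 4 := fun v q => ⟨sq_nonneg _,
    P.dm_le_four ⟨P'.nonneg, P'.lt_one⟩ B B v (isFld_fout _ _ _ _ _ _ _) (isFld_fout _ _ _ _ _ _ _)⟩
  set U := fun q => 10 ^ 15 * ((4 * M * D e.1.1 q + 4 * M * D e.1.2 q) +
    8 / M ^ j * (x e.1.1 q ^ (j + 1) + x e.1.2 q ^ (j + 1) + x' e.1.1 q ^ (j + 1) + x' e.1.2 q ^ (j + 1)) +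
    5 * (θ - θ') ^ 2)
  have hpt : ∀ q, Zq G θ θ' (m + 1) K 0 r e.1 q ^ 2 ≤ U q := by
    intro q
    refine (gS_sub_sq P P' hB (isFld_fout _ _ _ _ _ _ _) (isFld_fout _ _ _ _ _ _ _) e.2 h1 h2).trans ?_
    have hs : ∀ z v, 0 ≤ z → z * D v q ≤ M * D v q + 4 / M ^ j * z ^ (j + 1) := fun z v hz =>
      mul_le_split hz (hD4 v q).1 (hD4 v q).2 hM j
    have n1 : 0 ≤ x e.1.1 q := sq_nonneg _
    have n2 : 0 ≤ x e.1.2 q := sq_nonneg _
    have n3 : 0 ≤ x' e.1.1 q := sq_nonneg _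
    have n4 : 0 ≤ x' e.1.2 q := sq_nonneg _
    have := hs _ e.1.1 n1; have := hs _ e.1.1 n2; have := hs _ e.1.1 n3; have := hs _ e.1.1 n4
    have := hs _ e.1.2 n1; have := hs _ e.1.2 n2; have := hs _ e.1.2 n3; have := hs _ e.1.2 n4
    refine mul_le_mul_of_nonneg_left (add_le_add ?_ le_rfl) (by norm_num)
    show (x e.1.1 q + x e.1.2 q + x' e.1.1 q + x' e.1.2 q) * (D e.1.1 q + D e.1.2 q) ≤ _
    have e8 : 8 / M ^ j = 2 * (4 / M ^ j) := by ring
    rw [e8]
    linarith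
  have iD : ∀ v, Integrable (D v) (omg V) := fun v =>
    integrable_Msq P.nonneg P.lt_one P'.nonneg P'.lt_one B K 0 r v
  have ex : ∀ v, (fun q => x v q ^ (j + 1)) = fun q => Mq G θ B K 0 r v q ^ (2 * (j + 1)) := fun v =>
    funext fun q => (pow_mul _ _ _).symm
  have ex' : ∀ v, (fun q => x' v q ^ (j + 1)) = fun q => Mq G θ' B K 0 r v q ^ (2 * (j + 1)) :=
    fun v => funext fun q => (pow_mul _ _ _).symm
  have ix : ∀ v, Integrable (fun q => x v q ^ (j + 1)) (omg V) := fun v => by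
    rw [ex]; exact integrable_Mpow P.nonneg P.lt_one B K 0 r v _
  have ix' : ∀ v, Integrable (fun q => x' v q ^ (j + 1)) (omg V) := fun v => by
    rw [ex']; exact integrable_Mpow P'.nonneg P'.lt_one B K 0 r v _
  have iU : Integrable U (omg V) :=
    (((((iD _).const_mul _).add ((iD _).const_mul _)).add
      (((((ix _).add (ix _)).add (ix' _)).add (ix' _)).const_mul _)).add (integrable_const _)).const_mul _
  have iZ : Integrable (fun q => Zq G θ θ' (m + 1) K 0 r e.1 q ^ 2) (omg V) :=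
    integrable_bdd ((measurable_Zq _ K 0 r e.1).pow_const 2) 100 fun q => by
      rw [abs_pow]
      exact (pow_le_pow_left₀ (abs_nonneg _) (P.abs_Zq_le P' _ K 0 r e.2 q) 2).trans_eq (by norm_num)
  refine (integral_mono iZ iU hpt).trans ?_
  simp only [U]
  rw [integral_const_mul, integral_add ((((iD _).const_mul _).fun_add ((iD _).const_mul _)).fun_add
      (((((ix _).fun_add (ix _)).fun_add (ix' _)).fun_add (ix' _)).const_mul _)) (integrable_const _),
    integral_add (((iD _).const_mul _).fun_add ((iD _).const_mul _))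
      (((((ix _).fun_add (ix _)).fun_add (ix' _)).fun_add (ix' _)).const_mul _),
    integral_add ((iD _).const_mul _) ((iD _).const_mul _), integral_const_mul, integral_const_mul,
    integral_const_mul,
    integral_add (((ix _).fun_add (ix _)).fun_add (ix' _)) (ix' _),
    integral_add ((ix _).fun_add (ix _)) (ix' _), integral_add (ix _) (ix _)]
  simp only [integral_const, probReal_univ, one_smul]
  refine mul_le_mul_of_nonneg_left (add_le_add ?_ le_rfl) (by norm_num)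
  have d1 := P.fd_move P' B o e.1.1 (m + 1) K 0 r (hclose _ (Or.inl rfl)).1 (hclose _ (Or.inl rfl)).2
  have d2 := P.fd_move P' B o e.1.2 (m + 1) K 0 r (hclose _ (Or.inr rfl)).1 (hclose _ (Or.inr rfl)).2
  have m1 := P.moment_move B hK (hC P e.1.1) (hclose _ (Or.inl rfl)).1
  have m2 := P.moment_move B hK (hC P e.1.2) (hclose _ (Or.inr rfl)).1
  have m3 := P'.moment_move B hK (hC P' e.1.1) (hclose _ (Or.inl rfl)).2
  have m4 := P'.moment_move B hK (hC P' e.1.2) (hclose _ (Or.inr rfl)).2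
  push_cast at m1 m2 m3 m4
  simp only [ex, ex', D]
  have a1 := mul_le_mul_of_nonneg_left d1 (show 0 ≤ 4 * M by positivity)
  have a2 := mul_le_mul_of_nonneg_left d2 (show 0 ≤ 4 * M by positivity)
  have a3 := mul_le_mul_of_nonneg_left (add_le_add (add_le_add (add_le_add m1 m2) m3) m4)
    (show 0 ≤ 8 / M ^ j by positivity)
  refine (add_le_add (add_le_add a1 a2) a3).trans_eq ?_
  ring

/-- Moving the damping difference of an edge to the ball of the edge. -/
lemma gS_move {L K : ℕ} {r : ℝ} {B : Finset V} (hB : Convex' G B) (e : Edg G) (h1 : e.1.1 ∈ B)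
    (h2 : e.1.2 ∈ B) (q : (V × ℕ → I) × (V × ℕ → I)) :
    (gS G θ B (fout G θ B K 0 r q) e.1 - gS G θ' B (fout G θ' B K 0 r q) e.1 -
        Zq G θ θ' L K 0 r e.1 q) ^ 2 ≤ 20 * 336000 *
      ((|Mq G θ B K 0 r e.1.1 q - Mq G θ (eBall G L e.1) K 0 r e.1.1 q| +
          |Mq G θ B K 0 r e.1.2 q - Mq G θ (eBall G L e.1) K 0 r e.1.2 q|) +
        (|Mq G θ' B K 0 r e.1.1 q - Mq G θ' (eBall G L e.1) K 0 r e.1.1 q| +
          |Mq G θ' B K 0 r e.1.2 q - Mq G θ' (eBall G L e.1) K 0 r e.1.2 q|)) := by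
  have hG := P.tree
  have hBe : Convex' G (eBall G L e.1) :=
    P.convex_mid e.1.1 (eBall_sub hG e.2).1 (eBall_sub hG e.2).2
  have m1 : e.1.1 ∈ eBall G L e.1 := Finset.mem_union_left _ (self_mem_bll hG.connected _ _)
  have m2 : e.1.2 ∈ eBall G L e.1 := Finset.mem_union_right _ (self_mem_bll hG.connected _ _)
  have k1 := P.gS_swap hB hBe (isFld_fout G θ B K 0 r q) (isFld_fout G θ (eBall G L e.1) K 0 r q)
    (e := e.1) e.2 h1 h2 m1 m2
  have k2 := P'.gS_swap hB hBe (isFld_fout G θ' B K 0 r q)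
    (isFld_fout G θ' (eBall G L e.1) K 0 r q) (e := e.1) e.2 h1 h2 m1 m2
  obtain ⟨u1, v1⟩ := P.gS_range (K := K) (r := r) e h1 h2 q
  obtain ⟨u2, v2⟩ := P'.gS_range (K := K) (r := r) e h1 h2 q
  obtain ⟨u3, v3⟩ := P.gS_range (K := K) (r := r) e m1 m2 q
  obtain ⟨u4, v4⟩ := P'.gS_range (K := K) (r := r) e m1 m2 q
  simp only [Zq]
  rw [mul_assoc (20 : ℝ)]
  refine sq_le_mul_abs (abs_le.mpr ⟨by linarith, by linarith⟩) ?_
  rw [show ∀ a b a' b' : ℝ, a - b - (a' - b') = (a - a') - (b - b') from fun a b a' b' => by ring,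
    mul_add]
  exact (abs_sub _ _).trans (add_le_add k1 k2)

/-- The squared sum of damping differences along a geodesic. -/
lemma path_swap (Pc : Par G d θc) (hcrit : ((d : ℝ) - 1) * θc ^ 2 = 1) {L K R : ℕ} {r : ℝ}
    {ω Z ε : ℝ} {o w : V} {B : Finset V} (hB : Convex' G B) (hw : G.dist o w ≤ R)
    (hgeo : geo G o w ⊆ B) (hε : 0 ≤ ε)
    (hclose : ∀ v ∈ geo G o w, ∀ e : Edg G, (v = e.1.1 ∨ v = e.1.2) →
      ∫ q, |Mq G θ B K 0 r v q - Mq G θ (eBall G L e.1) K 0 r v q| ∂omg V ≤ ε ∧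
      ∫ q, |Mq G θ' B K 0 r v q - Mq G θ' (eBall G L e.1) K 0 r v q| ∂omg V ≤ ε)
    (hZ : ∀ e : Edg G, ∫ q, Zq G θ θ' L K 0 r e.1 q ^ 2 ∂omg V ≤ Z)
    (hω : ∀ e : Edg G, |∫ q, Zq G θ θ' L K 0 r e.1 q ∂omg V| ≤ ω) :
    ∫ q, (∑ c ∈ (geo G o w).erase o, (gS G θ B (fout G θ B K 0 r q) (tow G c o, c) -
        gS G θ' B (fout G θ' B K 0 r q) (tow G c o, c))) ^ 2 ∂omg V ≤
      768 * d * R * Z + 2 * (R : ℝ) ^ 2 * ω ^ 2 + 6 * 10 ^ 7 * (R : ℝ) ^ 2 * ε := by
  have hG := P.tree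
  have hc := hG.connected
  set I' := (geo G o w).erase o
  set n := G.dist o w
  have hcard : (I'.card : ℝ) = n := by
    simp [I', n, Finset.card_erase_of_mem (left_mem_geo hG o w), card_geo hG]
  have hnR : (n : ℝ) ≤ R := Nat.cast_le.mpr hw
  have hedge : ∀ c ∈ I', G.Adj (tow G c o) c ∧ c ∈ geo G o w ∧ tow G c o ∈ geo G o w := by
    intro c hc'
    obtain ⟨hne, hcg⟩ := Finset.mem_erase.mp hc'
    exact ⟨(tow_adj hG hne).symm, hcg,
      geo_left_subset hG hcg (by rw [geo_comm hG]; exact tow_mem_geo hG hne)⟩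
  set So := fun c q => gS G θ B (fout G θ B K 0 r q) (tow G c o, c) -
    gS G θ' B (fout G θ' B K 0 r q) (tow G c o, c)
  set Sz := fun c q => Zq G θ θ' L K 0 r (tow G c o, c) q
  set E := fun c q =>
    (|Mq G θ B K 0 r (tow G c o) q - Mq G θ (eBall G L (tow G c o, c)) K 0 r (tow G c o) q| +
      |Mq G θ B K 0 r c q - Mq G θ (eBall G L (tow G c o, c)) K 0 r c q|) +
    (|Mq G θ' B K 0 r (tow G c o) q - Mq G θ' (eBall G L (tow G c o, c)) K 0 r (tow G c o) q| +
      |Mq G θ' B K 0 r c q - Mq G θ' (eBall G L (tow G c o, c)) K 0 r c q|)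
  have hpt : ∀ c ∈ I', ∀ q, (So c q - Sz c q) ^ 2 ≤ 20 * 336000 * E c q := fun c hc' q => by
    obtain ⟨hadj, hcg, htg⟩ := hedge c hc'
    exact P.gS_move P' hB ⟨(tow G c o, c), hadj⟩ (hgeo htg) (hgeo hcg) q
  have hpt2 : ∀ q, (∑ c ∈ I', So c q) ^ 2 ≤
      2 * (∑ c ∈ I', Sz c q) ^ 2 + 2 * ((n : ℝ) * ∑ c ∈ I', 20 * 336000 * E c q) := by
    intro q
    have h1 : (∑ c ∈ I', (So c q - Sz c q)) ^ 2 ≤ (n : ℝ) * ∑ c ∈ I', 20 * 336000 * E c q := by
      rw [← hcard]
      exact sq_sum_le_card_mul_sum_sq.trans (mul_le_mul_of_nonneg_left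
        (Finset.sum_le_sum fun c hc' => hpt c hc' q) (Nat.cast_nonneg _))
    rw [show ∑ c ∈ I', So c q = ∑ c ∈ I', Sz c q + ∑ c ∈ I', (So c q - Sz c q) by
      rw [← Finset.sum_add_distrib]; exact Finset.sum_congr rfl fun c _ => by ring]
    exact (add_sq_le).trans (by linarith)
  have iE : ∀ c, Integrable (E c) (omg V) := fun c =>
    ((integrable_Mdiff P.nonneg P.lt_one _ _ K 0 r _).add (integrable_Mdiff P.nonneg P.lt_one _ _ K 0 r _)).add
      ((integrable_Mdiff P'.nonneg P'.lt_one _ _ K 0 r _).add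
        (integrable_Mdiff P'.nonneg P'.lt_one _ _ K 0 r _))
  have iSz : Integrable (fun q => (∑ c ∈ I', Sz c q) ^ 2) (omg V) := by
    refine integrable_bdd ((Finset.measurable_sum _ fun c _ => measurable_Zq L K 0 r _).pow_const 2)
      ((10 * n) ^ 2) fun q => ?_
    rw [abs_pow]
    refine pow_le_pow_left₀ (abs_nonneg _) ((Finset.abs_sum_le_sum_abs _ _).trans ?_) 2
    refine (Finset.sum_le_card_nsmul _ _ 10 fun c hc' =>
      P.abs_Zq_le P' L K 0 r (hedge c hc').1 q).trans_eq ?_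
    rw [nsmul_eq_mul, hcard]; ring
  refine (integral_mono_of_nonneg (.of_forall fun q => sq_nonneg _)
    ((iSz.const_mul 2).fun_add (((integrable_finsetSum _ fun c _ => (iE c).const_mul _).const_mul
      (n : ℝ)).const_mul 2)) (.of_forall hpt2)).trans ?_
  rw [integral_add (iSz.const_mul 2) (((integrable_finsetSum _ fun c _ => (iE c).const_mul _).const_mul
      (n : ℝ)).const_mul 2), integral_const_mul, integral_const_mul, integral_const_mul,
    integral_finsetSum _ fun c _ => (iE c).const_mul _]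
  have hEb : ∀ c ∈ I', ∫ q, 20 * 336000 * E c q ∂omg V ≤ 20 * 336000 * (4 * ε) := by
    intro c hc'
    obtain ⟨hadj, hcg, htg⟩ := hedge c hc'
    rw [integral_const_mul]
    refine mul_le_mul_of_nonneg_left ?_ (by norm_num)
    simp only [E]
    rw [integral_add ((integrable_Mdiff P.nonneg P.lt_one _ _ K 0 r _).fun_add
        (integrable_Mdiff P.nonneg P.lt_one _ _ K 0 r _))
      ((integrable_Mdiff P'.nonneg P'.lt_one _ _ K 0 r _).fun_add
        (integrable_Mdiff P'.nonneg P'.lt_one _ _ K 0 r _)),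
      integral_add (integrable_Mdiff P.nonneg P.lt_one _ _ K 0 r _)
        (integrable_Mdiff P.nonneg P.lt_one _ _ K 0 r _),
      integral_add (integrable_Mdiff P'.nonneg P'.lt_one _ _ K 0 r _)
        (integrable_Mdiff P'.nonneg P'.lt_one _ _ K 0 r _)]
    have a := hclose _ htg ⟨(tow G c o, c), hadj⟩ (Or.inl rfl)
    have b := hclose _ hcg ⟨(tow G c o, c), hadj⟩ (Or.inr rfl)
    linarith [a.1, a.2, b.1, b.2]
  obtain ⟨z, hz⟩ : (G.neighborFinset o).Nonempty := by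
    rw [← Finset.card_pos, card_neighborFinset_eq_degree, P.deg]; have := P.three; omega
  set e₀ : Edg G := ⟨(o, z), (G.mem_neighborFinset o z).mp hz⟩
  have hω2 : (∫ q, Zq G θ θ' L K 0 r e₀.1 q ∂omg V) ^ 2 ≤ ω ^ 2 := by
    rw [← sq_abs]
    exact pow_le_pow_left₀ (abs_nonneg _) (hω e₀) 2
  have hmain : ∫ q, (∑ c ∈ I', Sz c q) ^ 2 ∂omg V ≤ 384 * d * n * Z + (n : ℝ) ^ 2 * ω ^ 2 :=
    (P.path_second_moment P' Pc hcrit L K 0 r o w e₀).trans (add_le_add
      (mul_le_mul_of_nonneg_left (hZ e₀) (by positivity))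
      (mul_le_mul_of_nonneg_left hω2 (sq_nonneg _)))
  have hZ0 : 0 ≤ Z := (integral_nonneg fun q => sq_nonneg _).trans (hZ e₀)
  have hω0 : 0 ≤ ω ^ 2 := sq_nonneg _
  have hs : ∑ c ∈ I', ∫ q, 20 * 336000 * E c q ∂omg V ≤ (n : ℝ) * (20 * 336000 * (4 * ε)) :=
    (Finset.sum_le_card_nsmul _ _ _ hEb).trans_eq (by rw [nsmul_eq_mul, hcard])
  have h1 : 384 * (d : ℝ) * n * Z ≤ 384 * d * R * Z :=
    mul_le_mul_of_nonneg_right (mul_le_mul_of_nonneg_left hnR (by positivity)) hZ0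
  have h2 : (n : ℝ) ^ 2 * ω ^ 2 ≤ (R : ℝ) ^ 2 * ω ^ 2 :=
    mul_le_mul_of_nonneg_right (pow_le_pow_left₀ (Nat.cast_nonneg _) hnR 2) hω0
  have h3 : (n : ℝ) * ((n : ℝ) * (20 * 336000 * (4 * ε))) ≤ (R : ℝ) ^ 2 * (20 * 336000 * (4 * ε)) := by
    rw [← mul_assoc, ← sq]
    exact mul_le_mul_of_nonneg_right (pow_le_pow_left₀ (Nat.cast_nonneg _) hnR 2) (by positivity)
  have h4 := mul_le_mul_of_nonneg_left hs (Nat.cast_nonneg (α := ℝ) n)
  have h5 : 0 ≤ (R : ℝ) ^ 2 * ε := by positivity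
  linarith [hmain]

/-- The integrand of the growth near the start. -/
theorem early_integrand (Pc : Par G d θc) (hcrit : ((d : ℝ) - 1) * θc ^ 2 = 1) {c₀ : ℝ}
    (hc0 : 0 < c₀) (hlo : c₀ ≤ θ) (hlo' : c₀ ≤ θ') (hlt : ((d : ℝ) - 1) * θ ^ 2 < 1)
    (hlt' : ((d : ℝ) - 1) * θ' ^ 2 < 1) (K R j : ℕ) {ε : ℝ} (hε : 0 < ε) :
    ∃ L₀, ∀ L, L₀ ≤ L → ∀ o : V, 0 < K → ∀ r : ℝ, 0 < r → r ≤ 1 / 2 → ∀ R', R' ≤ R →
      ∀ ω C : ℝ, (∀ e : Edg G, |∫ q, Zq G θ θ' L K 0 r e.1 q ∂omg V| ≤ ω) →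
      (∀ φ : ℝ, Par G d φ → ∀ (v : V) (m : ℕ),
        St G φ (bll G v (m + 1)) K 0 r (fun f => mu G φ (bll G v (m + 1)) f v ^ (2 * (j + 1))) ≤
          C * Real.sqrt r ^ (3 * (j + 1))) →
      Pe G θ θ' (bll G o L) (bll G o L) K 0 r (fun a b =>
          ∑ w ∈ bll G o L, (pw1 G θ θ' (bll G o L) (bll G o L) o w a b +
            pw2 G θ θ' (bll G o L) (bll G o L) o w a b)) ≤
        4 * ((R' : ℝ) + 1) *
          (8 * (R' : ℝ) ^ 2 * (θ - θ') ^ 2 / c₀ ^ 2 +
            600 * (fd G θ θ' (bll G o L) (bll G o L) K 0 r o + 8 * ε) +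
            8 * (768 * d * R' * (10 ^ 15 *
              (8 * Real.sqrt r * (fd G θ θ' (bll G o L) (bll G o L) K 0 r o + 8 * ε) +
                32 / Real.sqrt r ^ j * (C * Real.sqrt r ^ (3 * (j + 1)) + 2 * ((j : ℝ) + 1) * ε) +
                5 * (θ - θ') ^ 2)) + 2 * (R' : ℝ) ^ 2 * ω ^ 2 + 6 * 10 ^ 7 * (R' : ℝ) ^ 2 * ε) +
            16 * 50000 ^ (j + 1) * ((R' : ℝ) + 1) *
              (C * Real.sqrt r ^ (3 * (j + 1)) + 2 * ((j : ℝ) + 1) * ε)) +
          16000 * ((1 - eta 0 r) ^ (R' + 1) / eta 0 r) := by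
  obtain ⟨N, hN⟩ := P.stability_abs (hc0.trans_le hlo) hlt K (ε := ε) hε
  obtain ⟨N', hN'⟩ := P'.stability_abs (hc0.trans_le hlo') hlt' K (ε := ε) hε
  refine ⟨N + N' + R + 2, fun L hL o hK r hr hr1 R' hR' ω C hω hC => ?_⟩
  obtain ⟨m, hm⟩ : ∃ m, L = m + 1 := ⟨L - 1, by omega⟩
  have hc := P.tree.connected
  set B := bll G o L
  have hB : Convex' G B := convex_bll P.tree o L
  have ho : o ∈ B := self_mem_bll hc o L
  have hrI : r ∈ Set.Icc (0 : ℝ) (1 / 2) := ⟨hr.le, hr1⟩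
  have Q : 0 ≤ θ ∧ θ < 1 := ⟨P.nonneg, P.lt_one⟩
  have Q' : 0 ≤ θ' ∧ θ' < 1 := ⟨P'.nonneg, P'.lt_one⟩
  have hτ := tau_pos (k := 0) hr hr1
  have hin : ∀ v, G.dist o v ≤ R → bll G v (N + N') ⊆ B := fun v hv y hy => by
    rw [mem_bll hc] at hy ⊢
    have : G.dist o y ≤ G.dist o v + G.dist v y := hc.dist_triangle
    omega
  have hball : ∀ v : V, bll G v (N + N') ⊆ bll G v L := fun v => bll_mono hc v (by omega)
  have heb : ∀ (e : Edg G) (v : V), (v = e.1.1 ∨ v = e.1.2) →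
      bll G v (N + N') ⊆ eBall G L e.1 := fun e v hv => by
    rcases hv with rfl | rfl
    · exact (hball _).trans Finset.subset_union_left
    · exact (hball _).trans Finset.subset_union_right
  have hebc : ∀ e : Edg G, Convex' G (eBall G L e.1) := fun e =>
    P.convex_mid e.1.1 (eBall_sub P.tree e.2).1 (eBall_sub P.tree e.2).2
  have close : ∀ (v : V) (A A' : Finset V), Convex' G A → Convex' G A' →
      bll G v (N + N') ⊆ A → bll G v (N + N') ⊆ A' →
      ∫ q, |Mq G θ A K 0 r v q - Mq G θ A' K 0 r v q| ∂omg V ≤ ε ∧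
        ∫ q, |Mq G θ' A K 0 r v q - Mq G θ' A' K 0 r v q| ∂omg V ≤ ε := fun v A A' hA hA' h1 h2 =>
    ⟨hN v A A' hA hA' ((bll_mono hc v (by omega)).trans h1) ((bll_mono hc v (by omega)).trans h2)
      0 hK r hrI,
    hN' v A A' hA hA' ((bll_mono hc v (by omega)).trans h1) ((bll_mono hc v (by omega)).trans h2)
      0 hK r hrI⟩
  set Z := 10 ^ 15 * (8 * Real.sqrt r * (fd G θ θ' B B K 0 r o + 8 * ε) +
    32 / Real.sqrt r ^ j * (C * Real.sqrt r ^ (3 * (j + 1)) + 2 * ((j : ℝ) + 1) * ε) +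
    5 * (θ - θ') ^ 2) with hZdef
  have hZ : ∀ e : Edg G, ∫ q, Zq G θ θ' L K 0 r e.1 q ^ 2 ∂omg V ≤ Z := fun e =>
    P.EZ_sq P' hm hK hr j (fun {φ} Qφ v => hC φ Qφ v m) o e fun v hv =>
      close v _ _ (hebc e) (convex_bll P.tree v L) (heb e v hv) (hball v)
  set MB := C * Real.sqrt r ^ (3 * (j + 1)) + 2 * ((j : ℝ) + 1) * ε with hMBdef
  set X : V → (V → ℝ) → (V → ℝ) → ℝ := fun w a b =>
    8 * (R' : ℝ) ^ 2 * (θ - θ') ^ 2 / c₀ ^ 2 + 300 * (dm G θ θ' B B o a b + dm G θ θ' B B w a b) +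
      8 * (∑ c ∈ (geo G o w).erase o,
        (gS G θ B a (tow G c o, c) - gS G θ' B b (tow G c o, c))) ^ 2 +
      8 * ∑ c ∈ geo G o w, ((50000 * mu G θ B a c ^ 2) ^ (j + 1) +
        (50000 * mu G θ' B b c ^ 2) ^ (j + 1)) with hXdef
  set T : V → ℝ := fun w => θ ^ (2 * G.dist o w) + θ' ^ (2 * G.dist o w)
  have hT0 : ∀ w, 0 ≤ T w := fun w => add_nonneg (pow_nonneg P.nonneg _) (pow_nonneg P'.nonneg _)
  set F : (V → ℝ) → (V → ℝ) → ℝ := fun a b =>
    ∑ w ∈ B.filter (fun w => ¬ G.dist o w ≤ R'), θ ^ (2 * G.dist o w) * Wt G θ B a o w +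
      ∑ w ∈ B.filter (fun w => ¬ G.dist o w ≤ R'), θ' ^ (2 * G.dist o w) * Wt G θ' B b o w
  have hW2 : ∀ w, IsPTest B B fun _ b => Wt G θ' B b o w := fun w =>
    IsPTest.snd (isTest_Wt P'.abs_lt_one B o w) (C := 1) fun f _ => by
      rw [abs_of_nonneg (Wt_nonneg θ' B f o w)]; exact Wt_le_one _ _ _ _ _
  have hF1 : IsPTest B B fun a _ =>
      ∑ w ∈ B.filter (fun w => ¬ G.dist o w ≤ R'), θ ^ (2 * G.dist o w) * Wt G θ B a o w :=
    IsPTest.sum _ fun w _ => (IsPTest.const B B _).mul (P.isPTest_Wt B o w)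
  have hF2 : IsPTest B B fun _ b =>
      ∑ w ∈ B.filter (fun w => ¬ G.dist o w ≤ R'), θ' ^ (2 * G.dist o w) * Wt G θ' B b o w :=
    IsPTest.sum _ fun w _ => (IsPTest.const B B _).mul (hW2 w)
  have hmu : ∀ c, IsPTest B B (fun a _ => mu G θ B a c) ∧ IsPTest B B fun _ b => mu G θ' B b c :=
    fun c => ⟨IsPTest.fst (isTest_mu P.abs_lt_one B c) fun f hf => abs_mu_le Q.1 Q.2 B hf c,
      IsPTest.snd (isTest_mu P'.abs_lt_one B c) fun f hf => abs_mu_le Q'.1 Q'.2 B hf c⟩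
  have hgeoB : ∀ w, G.dist o w ≤ R' → geo G o w ⊆ B := fun w hw c hc' => by
    rw [mem_geo P.tree] at hc'; rw [mem_bll hc]; omega
  have hgS : ∀ w, G.dist o w ≤ R' → IsPTest B B fun a b => ∑ c ∈ (geo G o w).erase o,
      (gS G θ B a (tow G c o, c) - gS G θ' B b (tow G c o, c)) := by
    intro w hw
    refine IsPTest.sum _ fun c hc' => ?_
    obtain ⟨h1, h2, h3, -⟩ := path_edge P.tree hB ho
      (hgeoB w hw (right_mem_geo P.tree o w)) hc'
    have g1 := P.isB_gS (B := B) (e := (tow G c o, c)) h3 h2 h1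
    have g2 := P'.isB_gS (B := B) (e := (tow G c o, c)) h3 h2 h1
    obtain ⟨C1, hC1⟩ := g1.bdd
    obtain ⟨C2, hC2⟩ := g2.bdd
    exact (IsPTest.fst g1.test hC1).sub (IsPTest.snd g2.test hC2)
  have hXt : ∀ w, G.dist o w ≤ R' → IsPTest B B (X w) := by
    intro w hw
    exact (((IsPTest.const B B _).add ((IsPTest.const B B 300).mul
      ((P.isPTest_dm Q' B B o).add (P.isPTest_dm Q' B B w)))).add
      ((IsPTest.const B B 8).mul (hgS w hw).sq)).add ((IsPTest.const B B 8).mul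
        (IsPTest.sum _ fun c _ => (((IsPTest.const B B 50000).mul (hmu c).1.sq).comp_real
          (φ := fun x => x ^ (j + 1)) (by fun_prop)).add (((IsPTest.const B B 50000).mul
            (hmu c).2.sq).comp_real (φ := fun x => x ^ (j + 1)) (by fun_prop))))
  have hball' : B.filter (fun w => G.dist o w ≤ R') = bll G o R' := by
    ext w
    simp only [B, Finset.mem_filter, mem_bll hc]
    omega
  have hTX : IsPTest B B fun a b => ∑ w ∈ bll G o R', T w * X w a b :=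
    IsPTest.sum _ fun w hw => (IsPTest.const B B _).mul (hXt w ((mem_bll hc).mp hw))
  have hpw : IsPTest B B fun a b =>
      ∑ w ∈ B, (pw1 G θ θ' B B o w a b + pw2 G θ θ' B B o w a b) := IsPTest.sum _ fun w _ =>
    (isPTest_pw1 P.nonneg P.lt_one P'.nonneg P'.lt_one B B o w).add
      (isPTest_pw2 P.nonneg P.lt_one P'.nonneg P'.lt_one B B o w)
  refine (Pe_mono hpw (hTX.add ((IsPTest.const B B 1000).mul (hF1.add hF2)))
    fun a b ha hb => ?_).trans ?_
  · rw [← Finset.sum_filter_add_sum_filter_not B fun w => G.dist o w ≤ R', hball']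
    refine add_le_add (Finset.sum_le_sum fun w hw => ?_) ?_
    · rw [mem_bll hc] at hw
      refine (early_cov P P' hc0 hlo hlo' hB ha hb ho (hgeoB w hw (right_mem_geo P.tree o w))
        (j + 1)).trans (mul_le_mul_of_nonneg_left ?_ (hT0 w))
      simp only [X]
      have : (G.dist o w : ℝ) ^ 2 ≤ (R' : ℝ) ^ 2 :=
        pow_le_pow_left₀ (Nat.cast_nonneg _) (Nat.cast_le.mpr hw) 2
      gcongr
    · rw [← Finset.sum_add_distrib, Finset.mul_sum]
      exact Finset.sum_le_sum fun w hw =>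
        (P.pw_bound P' hc0 hlo hlo' hB ho (Finset.mem_filter.mp hw).1 ha hb).2
  rw [Pe_add hTX ((IsPTest.const B B 1000).mul (hF1.add hF2)), Pe_const_mul, Pe_add hF1 hF2,
    Pe_sum _ fun w hw => (IsPTest.const B B _).mul (hXt w ((mem_bll hc).mp hw))]
  refine add_le_add ?_ ?_
  · set Bd := 8 * (R' : ℝ) ^ 2 * (θ - θ') ^ 2 / c₀ ^ 2 + 600 * (fd G θ θ' B B K 0 r o + 8 * ε) +
      8 * (768 * d * R' * Z + 2 * (R' : ℝ) ^ 2 * ω ^ 2 + 6 * 10 ^ 7 * (R' : ℝ) ^ 2 * ε) +
      16 * 50000 ^ (j + 1) * ((R' : ℝ) + 1) * MB with hBd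
    have hterm : ∀ w ∈ bll G o R', Pe G θ θ' B B K 0 r (fun a b => T w * X w a b) ≤ T w * Bd := by
      intro w hw
      rw [mem_bll hc] at hw
      rw [Pe_const_mul]
      refine mul_le_mul_of_nonneg_left ?_ (hT0 w)
      simp only [X]
      rw [Pe_add (((IsPTest.const B B _).add ((IsPTest.const B B 300).mul
          ((P.isPTest_dm Q' B B o).add (P.isPTest_dm Q' B B w)))).add
          ((IsPTest.const B B 8).mul (hgS w hw).sq))
        ((IsPTest.const B B 8).mul (IsPTest.sum _ fun c _ =>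
          (((IsPTest.const B B 50000).mul (hmu c).1.sq).comp_real
            (φ := fun x => x ^ (j + 1)) (by fun_prop)).add (((IsPTest.const B B 50000).mul
              (hmu c).2.sq).comp_real (φ := fun x => x ^ (j + 1)) (by fun_prop)))),
        Pe_add ((IsPTest.const B B _).add ((IsPTest.const B B 300).mul
          ((P.isPTest_dm Q' B B o).add (P.isPTest_dm Q' B B w))))
          ((IsPTest.const B B 8).mul (hgS w hw).sq),
        Pe_add (IsPTest.const B B _) ((IsPTest.const B B 300).mul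
          ((P.isPTest_dm Q' B B o).add (P.isPTest_dm Q' B B w))),
        Pe_const_mul, Pe_const_mul, Pe_const_mul,
        Pe_add (P.isPTest_dm Q' B B o) (P.isPTest_dm Q' B B w)]
      refine add_le_add (add_le_add (add_le_add (by simp [Pe]) ?_) ?_) ?_
      · have h1 := P.fd_move P' B o w L K 0 r
          (close w _ _ hB (convex_bll P.tree w L) (hin w (hw.trans hR')) (hball w)).1
          (close w _ _ hB (convex_bll P.tree w L) (hin w (hw.trans hR')) (hball w)).2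
        rw [show (600 : ℝ) = 300 * 2 by norm_num, mul_assoc, two_mul]
        refine mul_le_mul_of_nonneg_left (add_le_add ?_ h1) (by norm_num)
        exact le_add_of_nonneg_right (by positivity)
      · refine mul_le_mul_of_nonneg_left ?_ (by norm_num)
        exact P.path_swap P' Pc hcrit hB hw (hgeoB w hw) hε.le (fun v hv e he => by
          have hd : G.dist o v ≤ R := by
            rw [mem_geo P.tree] at hv; omega
          exact close v _ _ hB (hebc e) (hin v hd) (heb e v he)) hZ hω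
      · rw [show (16 : ℝ) * 50000 ^ (j + 1) * ((R' : ℝ) + 1) * MB =
          8 * (((R' : ℝ) + 1) * (2 * 50000 ^ (j + 1) * MB)) by ring]
        refine mul_le_mul_of_nonneg_left ?_ (by norm_num)
        rw [Pe_sum _ fun c _ => (((IsPTest.const B B 50000).mul (hmu c).1.sq).comp_real
            (φ := fun x => x ^ (j + 1)) (by fun_prop)).add (((IsPTest.const B B 50000).mul
              (hmu c).2.sq).comp_real (φ := fun x => x ^ (j + 1)) (by fun_prop))]
        have hone : ∀ c ∈ geo G o w, Pe G θ θ' B B K 0 r (fun a b =>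
            (50000 * mu G θ B a c ^ 2) ^ (j + 1) + (50000 * mu G θ' B b c ^ 2) ^ (j + 1)) ≤
              2 * 50000 ^ (j + 1) * MB := by
          intro c hc'
          have hdc : G.dist o c ≤ R := by rw [mem_geo P.tree] at hc'; omega
          have cl := close c _ _ hB (convex_bll P.tree c L) (hin c hdc) (hball c)
          rw [hm] at cl
          have a1 := P.moment_move B hK (hC θ P c m) cl.1
          have a2 := P'.moment_move B hK (hC θ' P' c m) cl.2
          push_cast at a1 a2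
          have e : ∀ q, (50000 * mu G θ B (fout G θ B K 0 r q) c ^ 2) ^ (j + 1) +
              (50000 * mu G θ' B (fout G θ' B K 0 r q) c ^ 2) ^ (j + 1) =
              50000 ^ (j + 1) * (Mq G θ B K 0 r c q ^ (2 * (j + 1)) +
                Mq G θ' B K 0 r c q ^ (2 * (j + 1))) := fun q => by
            simp only [Mq, mul_pow, ← pow_mul]; ring
          show ∫ q, _ ∂omg V ≤ _
          simp only [e]
          rw [integral_const_mul, integral_add (integrable_Mpow Q.1 Q.2 B K 0 r c _)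
            (integrable_Mpow Q'.1 Q'.2 B K 0 r c _),
            show 2 * 50000 ^ (j + 1) * MB = 50000 ^ (j + 1) * (MB + MB) by ring]
          exact mul_le_mul_of_nonneg_left (add_le_add a1 a2) (by positivity)
        refine (Finset.sum_le_card_nsmul _ _ _ hone).trans ?_
        rw [nsmul_eq_mul, card_geo P.tree]
        refine mul_le_mul_of_nonneg_right (by exact_mod_cast Nat.add_le_add_right hw 1) ?_
        have : 0 ≤ Pe G θ θ' B B K 0 r (fun a b =>
            (50000 * mu G θ B a o ^ 2) ^ (j + 1) + (50000 * mu G θ' B b o ^ 2) ^ (j + 1)) :=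
          Pe_nonneg fun a b _ _ => by positivity
        exact this.trans (hone o (left_mem_geo P.tree o w))
    refine (Finset.sum_le_sum hterm).trans ?_
    rw [← Finset.sum_mul]
    have hnn : 0 ≤ Bd := by
      have h0 := fd_nonneg (G := G) (θ := θ) (θ' := θ') B B K 0 r o
      have hz0 : 0 ≤ Z := by
        obtain ⟨z, hz⟩ : (G.neighborFinset o).Nonempty := by
          rw [← Finset.card_pos, card_neighborFinset_eq_degree, P.deg]; have := P.three; omega
        exact (integral_nonneg fun q => sq_nonneg _).trans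
          (hZ ⟨(o, z), (G.mem_neighborFinset o z).mp hz⟩)
      have hmb : 0 ≤ MB := by
        have cl := close o _ _ hB (convex_bll P.tree o L) (hin o (by simp)) (hball o)
        rw [hm] at cl
        have a1 := P.moment_move B hK (hC θ P o m) cl.1
        push_cast at a1
        refine le_trans ?_ a1
        exact integral_nonneg fun q => by rw [pow_mul]; positivity
      positivity
    refine mul_le_mul_of_nonneg_right ?_ hnn
    simp only [T, Finset.sum_add_distrib]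
    linarith [P.mass_le o R', P'.mass_le o R']
  · have f1 := P.far_bound Q' o L R' (k := 0) (K := K) (r := r) hK hτ
    have f2 := P'.far_bound Q o L R' (k := 0) (K := K) (r := r) hK hτ
    have hF2e : Pe G θ θ' B B K 0 r (fun _ b => ∑ w ∈ B.filter (fun w => ¬ G.dist o w ≤ R'),
        θ' ^ (2 * G.dist o w) * Wt G θ' B b o w) = Pe G θ' θ B B K 0 r (fun a _ =>
        ∑ w ∈ B.filter (fun w => ¬ G.dist o w ≤ R'), θ' ^ (2 * G.dist o w) * Wt G θ' B a o w) :=
      Pe_swap _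
    rw [hF2e]
    linarith

end Par

end Vale.Agent.P161.Crit
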