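import Mathlib

/-!
# An integral inequality
-/

namespace Vale.Agent.P161.Crit

open MeasureTheory

/-- Gronwall's inequality for a measurable bounded function. -/
theorem gronwall {f c : ℝ → ℝ} {a b A B : ℝ} (hab : a ≤ b) (hc : Continuous c)
    (hc0 : ∀ r ∈ Set.Icc a b, 0 ≤ c r) (hfm : Measurable f) (hfB : ∀ r, |f r| ≤ B)
    (hf : ∀ s ∈ Set.Icc a b, f s ≤ A + ∫ r in a..s, c r * f r) :
    f b ≤ A * Real.exp (∫ r in a..b, c r) := by
  have hfi : ∀ x y, IntervalIntegrable f volume x y := fun x y =>
    (intervalIntegrable_const (c := B)).mono_fun' hfm.aestronglyMeasurable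
      (.of_forall fun r => hfB r)
  have hcf : ∀ x y, IntervalIntegrable (fun r => c r * f r) volume x y := fun x y =>
    (hfi x y).continuousOn_mul hc.continuousOn
  set F : ℝ → ℝ := fun s => A + ∫ r in a..s, c r * f r with hF
  have hFc : Continuous F :=
    continuous_const.add (intervalIntegral.continuous_primitive hcf a)
  set H : ℝ → ℝ := fun s => A + ∫ r in a..s, c r * F r with hH
  have hHd : ∀ s, HasDerivAt H (c s * F s) s := fun s =>
    ((hc.mul hFc).integral_hasStrictDerivAt a s).hasDerivAt.const_add A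
  have hEd : ∀ s, HasDerivAt (fun s => Real.exp (-∫ r in a..s, c r))
      (Real.exp (-∫ r in a..s, c r) * -c s) s := fun s =>
    ((hc.integral_hasStrictDerivAt a s).hasDerivAt.neg).exp
  have hFH : ∀ s ∈ Set.Icc a b, F s ≤ H s := by
    intro s hs
    refine add_le_add le_rfl (intervalIntegral.integral_mono_on hs.1 (hcf a s)
      ((hc.mul hFc).intervalIntegrable a s) fun r hr => ?_)
    exact mul_le_mul_of_nonneg_left (hf r ⟨hr.1, hr.2.trans hs.2⟩) (hc0 r ⟨hr.1, hr.2.trans hs.2⟩)
  set g : ℝ → ℝ := fun s => H s * Real.exp (-∫ r in a..s, c r) with hg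
  have hgd : ∀ s, HasDerivAt g (c s * F s * Real.exp (-∫ r in a..s, c r) +
      H s * (Real.exp (-∫ r in a..s, c r) * -c s)) s := fun s => (hHd s).mul (hEd s)
  have hanti : AntitoneOn g (Set.Icc a b) :=
    antitoneOn_of_hasDerivWithinAt_nonpos (convex_Icc a b)
      (fun x _ => (hgd x).continuousAt.continuousWithinAt)
      (fun x _ => (hgd x).hasDerivWithinAt) fun x hx => by
        rw [interior_Icc] at hx
        have hx' : x ∈ Set.Icc a b := Set.Ioo_subset_Icc_self hx
        have := mul_le_mul_of_nonneg_left (hFH x hx') (mul_nonneg (hc0 x hx')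
          (Real.exp_pos (-∫ r in a..x, c r)).le)
        linarith
  have h := hanti (Set.left_mem_Icc.mpr hab) (Set.right_mem_Icc.mpr hab) hab
  simp only [g, H, intervalIntegral.integral_same, add_zero, neg_zero, Real.exp_zero, mul_one] at h
  have hb := hFH b (Set.right_mem_Icc.mpr hab)
  refine ((hf b (Set.right_mem_Icc.mpr hab)).trans hb).trans ?_
  rw [Real.exp_neg, ← div_eq_mul_inv, div_le_iff₀ (Real.exp_pos _)] at h
  exact h

end Vale.Agent.P161.Crit
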