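import Vale.Agent.P161.Crit.Decay

/-!
# Exponential moments of weighted branch sizes
-/

namespace Vale.Agent.P161.Crit

open MeasureTheory unitInterval Function SimpleGraph Vale.Agent.P161

variable {V : Type*} {G : SimpleGraph V} [G.LocallyFinite] {d : ℕ} {θ : ℝ}

/-- The threshold for the weighted sums at level `n`. -/
noncomputable def Lt (n k : ℕ) (r : ℝ) : ℝ := 2 * (1 + 2 * n + 12 / eta k r)

/-- The exponential rate at level `n`. -/
noncomputable def At (d n k : ℕ) (r : ℝ) : ℝ := eta k r / 6 * ((d : ℝ) - 1) ^ n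

lemma sub_le_scaled_exp {a L x : ℝ} (hL : 0 < L) (haL : 2 ≤ a * L) (hx : L ≤ x) :
    x ^ 2 ≤ L ^ 2 * Real.exp (a * (x - L)) := by
  have h1 : x / L ≤ Real.exp ((x - L) / L) := by
    refine le_trans (le_of_eq ?_) (Real.add_one_le_exp _)
    field_simp; ring
  have h2 : (x - L) / L ≤ a * (x - L) / 2 := by
    rw [div_le_iff₀ hL]
    nlinarith
  have h3 := h1.trans (Real.exp_le_exp.mpr h2)
  have h4 := pow_le_pow_left₀ (div_nonneg (hL.le.trans hx) hL.le) h3 2
  rw [← Real.exp_nat_mul, show ((2 : ℕ) : ℝ) * (a * (x - L) / 2) = a * (x - L) by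
    push_cast; ring, div_pow, div_le_iff₀ (by positivity)] at h4
  linarith

/-- A weighted size is below the threshold except on an exponentially rare event. -/
lemma sq_le_thr {a L x f : ℝ} (hL : 0 < L) (haL : 2 ≤ a * L) (hx : 0 ≤ x) (hf0 : 0 ≤ f)
    (hf : f ≤ 4) : f * x ^ 2 ≤ L ^ 2 * f + 4 * L ^ 2 * Real.exp (a * (x - L)) := by
  have he : 0 ≤ 4 * L ^ 2 * Real.exp (a * (x - L)) := by positivity
  rcases le_total x L with h | h
  · nlinarith [mul_le_mul_of_nonneg_left (pow_le_pow_left₀ hx h 2) hf0]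
  · nlinarith [sub_le_scaled_exp hL haL h, sq_nonneg x,
      mul_le_mul_of_nonneg_right hf (sq_nonneg x), mul_nonneg hf0 (sq_nonneg L)]

lemma le_thr {a L x f : ℝ} (hL : 0 < L) (haL : 2 ≤ a * L) (hx : 0 ≤ x) (hf0 : 0 ≤ f)
    (hf : f ≤ 4) : f * x ≤ L * f + 4 * L * Real.exp (a * (x - L)) := by
  have he : 0 ≤ 4 * L * Real.exp (a * (x - L)) := by positivity
  rcases le_total x L with h | h
  · nlinarith [mul_le_mul_of_nonneg_left h hf0]
  · have h2 := sub_le_scaled_exp hL haL h
    have h3 : x ≤ L * Real.exp (a * (x - L)) := by nlinarith [Real.exp_pos (a * (x - L))]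
    nlinarith [mul_le_mul_of_nonneg_right hf hx]

namespace Par

variable (P : Par G d θ)
include P

lemma Lt_pos {n k : ℕ} {r : ℝ} (hτ : 0 < tau k r) : 0 < Lt n k r := by
  have := (P.eta_pos (k := k) (r := r) hτ).1
  unfold Lt
  positivity

lemma two_le_At_mul_Lt {n k : ℕ} {r : ℝ} (hτ : 0 < tau k r) : 2 ≤ At d n k r * Lt n k r := by
  have hη := (P.eta_pos (k := k) (r := r) hτ).1
  have hq : 1 ≤ ((d : ℝ) - 1) ^ n := one_le_pow₀ (by linarith [P.two_le])
  have h1 : eta k r / 6 * Lt n k r ≥ 2 := by
    unfold Lt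
    have : eta k r / 6 * (2 * (12 / eta k r)) = 4 := by field_simp; ring
    nlinarith [mul_nonneg hη.le (show (0:ℝ) ≤ 1 + 2 * n by positivity)]
  unfold At
  nlinarith [mul_nonneg (le_of_lt hη) (P.Lt_pos (n := n) hτ).le]

variable [Countable V] [DecidableEq V] {A : Finset V} {K k : ℕ} {r : ℝ}

lemma isB_exp_PP (c : ℝ) (m : ℕ) {p w : V} (h : G.Adj p w) :
    IsB (half G A p w) fun f => Real.exp (c * PP G θ A m p w f) :=
  (isB_PP P.tree P.nonneg P.lt_one m h).comp_real (φ := fun x => Real.exp (c * x)) (by fun_prop)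

omit [Countable V] in
lemma PP_le (A : Finset V) : ∀ (m : ℕ) {p w : V}, G.Adj p w → ∀ f : V → ℝ,
    PP G θ A m p w f ≤ m + 1 := by
  intro m
  induction m with
  | zero => intro p w _ f; simp [PP]
  | succ m ih =>
    intro p w hpw f
    simp only [PP]
    have h1 : ∑ z ∈ kids G p w, Xf G θ A p w z f * PP G θ A m w z f ≤
        ((d : ℝ) - 1) * ((m : ℝ) + 1) := by
      rw [← P.cast_kids hpw, ← nsmul_eq_mul]
      refine Finset.sum_le_card_nsmul _ _ _ fun z hz => ?_
      exact (mul_le_of_le_one_left (zero_le_one.trans (one_le_PP A m w z f))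
        (Xf_le_one A p w z f)).trans (ih (mem_kids.mp hz).2 f)
    have h2 := mul_le_mul_of_nonneg_left h1 (sq_nonneg θ)
    have h3 : θ ^ 2 * (((d : ℝ) - 1) * ((m : ℝ) + 1)) ≤ (m : ℝ) + 1 := by
      rw [← mul_assoc]
      exact mul_le_of_le_one_left (by positivity) (by rw [mul_comm]; exact P.crit)
    push_cast
    linarith

/-- A branch of bounded size at the lowest level. -/
theorem exp_PP_base (hA : Convex' G A) (hK : 0 < K) (hτ : 0 < tau k r) {a : ℝ} (ha0 : 0 ≤ a)
    (ha : a ≤ eta k r / 6) : ∀ (m : ℕ) {p w : V}, G.Adj p w → brn G m p w ⊆ A →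
      St G θ A K k r (fun f => Real.exp (a * PP G θ A m p w f)) ≤
        Real.exp (6 * a / eta k r) := by
  obtain ⟨hη, hη1⟩ := P.eta_pos (k := k) (r := r) hτ
  set x := 6 * a / eta k r with hx
  have hx0 : 0 ≤ x := by positivity
  have hx1 : x ≤ 1 := by rw [hx, div_le_one hη]; linarith
  intro m
  induction m with
  | zero =>
    intro p w hpw hsub
    simp only [PP, mul_one]
    rw [St_const P.tree P.abs_lt_one hA ⟨w, hsub (by simp [brn])⟩]
    refine Real.exp_le_exp.mpr ?_
    rw [hx, le_div_iff₀ hη]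
    nlinarith
  | succ m ih =>
    intro p w hpw hsub
    have hw : w ∈ A := hsub ((mem_brn P.tree _ hpw w).mpr ⟨far_self hpw, by simp⟩)
    have hne : A.Nonempty := ⟨w, hw⟩
    have hPB : ∀ c m' {p' w' : V}, G.Adj p' w' →
        IsB A fun f => Real.exp (c * PP G θ A m' p' w' f) := fun c m' {p' w'} h =>
      (P.isB_exp_PP c m' h).mono fun y hy => mem_of_mem_half hy
    rcases le_or_gt (m + 1) (Rad k r) with hm | hm
    · refine (St_mono P.tree P.abs_lt_one hA hne (hPB a (m + 1) hpw)
        (IsB.const A (Real.exp x)) fun f _ => Real.exp_le_exp.mpr ?_).trans_eq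
        (St_const P.tree P.abs_lt_one hA hne _)
      refine (mul_le_mul_of_nonneg_left (P.PP_le A (m + 1) hpw f) ha0).trans ?_
      have hs : 0 < Real.sqrt (tau k r) := Real.sqrt_pos.mpr hτ
      have h1 : ((m + 1 : ℕ) : ℝ) ≤ 1 / Real.sqrt (tau k r) + 1 := by
        refine (Nat.cast_le.mpr hm).trans ?_
        unfold Rad
        push_cast
        linarith [Nat.floor_le (show 0 ≤ 1 / Real.sqrt (tau k r) by positivity)]
      have h2 : 1 / Real.sqrt (tau k r) + 2 ≤ 6 / eta k r := by
        unfold eta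
        rw [div_div_eq_mul_div]
        have h3 : 1 ≤ 1 / Real.sqrt (tau k r) := by
          rw [le_div_iff₀ hs, one_mul]; exact Real.sqrt_le_one.mpr (tau_le_one k r)
        have : 6 * 400000 / Real.sqrt (tau k r) = 2400000 * (1 / Real.sqrt (tau k r)) := by ring
        linarith
      rw [hx, show 6 * a / eta k r = a * (6 / eta k r) by ring]
      exact mul_le_mul_of_nonneg_left (by linarith) ha0
    · set q : ℝ := (d : ℝ) - 1 with hq
      have hq0 : 0 < q := by linarith [P.two_le]
      set h := q * θ ^ 2 with hh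
      have hh0 : 0 ≤ h := by positivity
      have hh1 : h ≤ 1 := P.crit
      have hsubz : ∀ z ∈ kids G p w, brn G m w z ⊆ A := fun z hz y hy => hsub (by
        simp only [brn, Finset.mem_insert, Finset.mem_biUnion]; exact Or.inr ⟨z, hz, hy⟩)
      set g : V → (V → ℝ) → ℝ := fun z f =>
        1 + h * (Xf G θ A p w z f * Real.exp (a * PP G θ A m w z f) +
          -1 * Xf G θ A p w z f) with hg
      have hXA : ∀ z, IsB A fun f => Xf G θ A p w z f := fun z =>
        (isB_Xf P.tree P.nonneg P.lt_one p w z).mono fun y hy => (mem_side.mp hy).1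
      have hgB : ∀ z ∈ kids G p w, IsB A (g z) := fun z hz =>
        (IsB.const A 1).add ((IsB.const A h).mul (((hXA z).mul (hPB a m (mem_kids.mp hz).2)).add
          ((IsB.const A (-1)).mul (hXA z))))
      have hpt : ∀ f, IsFld f → Real.exp (a * PP G θ A (m + 1) p w f) ≤
          ∑ z ∈ kids G p w, Real.exp a * q⁻¹ * g z f := by
        intro f _
        rw [← Finset.mul_sum, mul_assoc]
        simp only [PP]
        rw [mul_add, mul_one, Real.exp_add]
        refine mul_le_mul_of_nonneg_left ?_ (Real.exp_pos a).le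
        have hw1 : ∑ _z ∈ kids G p w, q⁻¹ = 1 := by
          rw [Finset.sum_const, nsmul_eq_mul, P.cast_kids hpw, ← hq, mul_inv_cancel₀ hq0.ne']
        have hj := convexOn_exp.map_sum_le (t := kids G p w) (w := fun _ => q⁻¹)
          (p := fun z => h * Xf G θ A p w z f * (a * PP G θ A m w z f))
          (fun _ _ => by positivity) hw1 fun _ _ => Set.mem_univ _
        simp only [smul_eq_mul] at hj
        rw [Finset.mul_sum (kids G p w) (fun z => g z f) q⁻¹]
        refine le_trans (le_of_eq ?_) (hj.trans (Finset.sum_le_sum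
          (g := fun z => q⁻¹ * g z f) fun z _ =>
          mul_le_mul_of_nonneg_left ?_ (by positivity)))
        · congr 1
          simp only [Finset.mul_sum]
          refine Finset.sum_congr rfl fun z _ => ?_
          rw [hh]; field_simp
        · have hs0 : 0 ≤ h * Xf G θ A p w z f := mul_nonneg hh0 (Xf_pos _ _ _ _ _).le
          have hs1 : h * Xf G θ A p w z f ≤ 1 :=
            mul_le_one₀ hh1 (Xf_pos _ _ _ _ _).le (Xf_le_one _ _ _ _ _)
          have := convexOn_exp.2 (Set.mem_univ (a * PP G θ A m w z f)) (Set.mem_univ (0 : ℝ))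
            hs0 (sub_nonneg.mpr hs1) (by ring)
          simp only [smul_eq_mul, mul_zero, add_zero, Real.exp_zero, mul_one] at this
          simp only [g]
          linarith
      refine (St_mono P.tree P.abs_lt_one hA hne (hPB a (m + 1) hpw)
        (IsB.sum _ fun z hz => (IsB.const A (Real.exp a * q⁻¹)).mul (hgB z hz)) hpt).trans ?_
      rw [St_sum P.tree P.abs_lt_one hA hne _
        fun z hz => (IsB.const A (Real.exp a * q⁻¹)).mul (hgB z hz)]
      set B := Real.exp x with hB
      have hB1 : 1 + x ≤ B := by linarith [Real.add_one_le_exp x]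
      have hterm : ∀ z ∈ kids G p w, St G θ A K k r (fun f => Real.exp a * q⁻¹ * g z f) ≤
          Real.exp a * q⁻¹ * (1 + (1 - eta k r) * (B - 1)) := by
        intro z hz
        obtain ⟨hzp, hwz⟩ := mem_kids.mp hz
        rw [St_const_mul]
        refine mul_le_mul_of_nonneg_left ?_ (by positivity)
        have hzA : z ∈ A := hsubz z hz ((mem_brn P.tree _ hwz z).mpr ⟨far_self hwz, by simp⟩)
        have hind : St G θ A K k r
            (fun f => Xf G θ A p w z f * Real.exp (a * PP G θ A m w z f)) =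
            St G θ A K k r (Xf G θ A p w z) *
              St G θ A K k r (fun f => Real.exp (a * PP G θ A m w z f)) :=
          St_indep P.tree P.abs_lt_one hA hw hzA hwz
            ((isB_Xf P.tree P.nonneg P.lt_one p w z).mono (side_subset_half P.tree hwz))
            (P.isB_exp_PP a m hwz) fun f _ => Xf_neg P.tree hw f
        simp only [g]
        rw [St_add P.tree P.abs_lt_one hA hne (IsB.const A 1)
          ((IsB.const A h).mul (((hXA z).mul (hPB a m hwz)).add
            ((IsB.const A (-1)).mul (hXA z)))), St_const P.tree P.abs_lt_one hA hne, St_const_mul,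
          St_add P.tree P.abs_lt_one hA hne ((hXA z).mul (hPB a m hwz))
            ((IsB.const A (-1)).mul (hXA z)), St_const_mul, hind]
        have hk := P.kappa hA hpw hz hK hτ (fun y hy => hsub ((mem_brn P.tree _ hpw y).mpr
          ⟨((mem_brn P.tree _ hpw y).mp hy).1, le_trans ((mem_brn P.tree _ hpw y).mp hy).2
            (by omega)⟩))
        rw [← hq, ← hh] at hk
        have hEz := ih hwz (hsubz z hz)
        have hX0 : 0 ≤ St G θ A K k r (Xf G θ A p w z) := by
          have := St_mono P.tree P.abs_lt_one (K := K) (k := k) (r := r) hA hne (IsB.const A 0)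
            (hXA z) fun f _ => (Xf_pos (G := G) (θ := θ) A p w z f).le
          rwa [St_const P.tree P.abs_lt_one hA hne] at this
        have := mul_le_mul_of_nonneg_left (sub_le_sub_right hEz 1) (mul_nonneg hh0 hX0)
        have := mul_le_mul_of_nonneg_right hk (show 0 ≤ B - 1 by linarith)
        linarith
      refine (Finset.sum_le_card_nsmul _ _ _ hterm).trans ?_
      rw [nsmul_eq_mul, P.cast_kids hpw, ← hq, ← mul_assoc, ← mul_assoc, mul_comm q (Real.exp a),
        mul_assoc (Real.exp a), mul_inv_cancel₀ hq0.ne', mul_one]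
      have ha1 : a ≤ 1 / 6 := by linarith
      have hea : Real.exp a ≤ 1 + 2 * a := by
        have := Real.add_one_le_exp (-a)
        rw [Real.exp_neg] at this
        have hpos := Real.exp_pos a
        have h2 := mul_le_mul_of_nonneg_left this hpos.le
        rw [mul_inv_cancel₀ hpos.ne'] at h2
        nlinarith
      have hB0 : 0 ≤ 1 + (1 - eta k r) * (B - 1) := by nlinarith
      refine (mul_le_mul_of_nonneg_right hea hB0).trans ?_
      have hxe : x * eta k r = 6 * a := by rw [hx]; field_simp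
      have hbr : 0 ≤ eta k r - 2 * a + 2 * a * eta k r := by nlinarith
      nlinarith [mul_le_mul_of_nonneg_right hB1 hbr, mul_nonneg ha0 hη.le,
        mul_le_mul_of_nonneg_left hx1 ha0, mul_nonneg (mul_nonneg ha0 hx0) hη.le]

/-- Branches at different children are independent. -/
theorem St_prod_kids (hA : Convex' G A) (c : ℝ) (m : ℕ) {p : V} (hp : p ∈ A) :
    ∀ T : Finset V, (∀ z ∈ T, G.Adj p z ∧ brn G m p z ⊆ A) →
      St G θ A K k r (fun f => ∏ z ∈ T, Real.exp (c * PP G θ A m p z f)) =
        ∏ z ∈ T, St G θ A K k r (fun f => Real.exp (c * PP G θ A m p z f)) := by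
  intro T
  induction T using Finset.induction_on with
  | empty => intro _; simp [St_const P.tree P.abs_lt_one hA ⟨p, hp⟩]
  | @insert z T hzT ih =>
    intro h
    obtain ⟨hpz, hsub⟩ := h z (Finset.mem_insert_self z T)
    have hzA : z ∈ A := hsub ((mem_brn P.tree _ hpz z).mpr ⟨far_self hpz, by simp⟩)
    simp only [Finset.prod_insert hzT]
    rw [← ih fun y hy => h y (Finset.mem_insert_of_mem hy)]
    refine St_indep P.tree P.abs_lt_one hA hzA hp hpz.symm (P.isB_exp_PP c m hpz) ?_
      fun f _ => by simp only [PP_neg P.tree m hsub f]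
    refine Finset.induction_on' T (by simpa using IsB.const _ (1 : ℝ)) fun {a s} ha _ has ihs => ?_
    simp only [Finset.prod_insert has]
    refine IsB.mul ((P.isB_exp_PP c m (h a (Finset.mem_insert_of_mem ha)).1).mono fun y hy => ?_) ihs
    obtain ⟨hyA, hyf⟩ := mem_half.mp hy
    refine mem_half.mpr ⟨hyA, (far_swap P.tree hpz).mpr fun hfz => hzT ?_⟩
    have e1 := tow_of_far P.tree (h a (Finset.mem_insert_of_mem ha)).1 hyf
    have e2 := tow_of_far P.tree hpz hfz
    rw [← e2, e1]
    exact ha

/-- Exponential moments at level `n`. -/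
theorem exp_PP (hA : Convex' G A) (hK : 0 < K) (hτ : 0 < tau k r) : ∀ (n : ℕ) {a : ℝ}, 0 ≤ a →
    a ≤ At d n k r → ∀ (m : ℕ) {p w : V}, G.Adj p w → brn G m p w ⊆ A →
      St G θ A K k r (fun f => Real.exp (a * PP G θ A m p w f)) ≤
        Real.exp (a * (n + 6 / eta k r)) := by
  obtain ⟨hη, hη1⟩ := P.eta_pos (k := k) (r := r) hτ
  intro n
  induction n with
  | zero =>
    intro a ha0 ha m p w hpw hsub
    refine (P.exp_PP_base hA hK hτ ha0 (by simpa [At] using ha) m hpw hsub).trans_eq ?_
    congr 1; push_cast; ring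
  | succ n ih =>
    intro a ha0 ha m p w hpw hsub
    have hw : w ∈ A := hsub ((mem_brn P.tree _ hpw w).mpr ⟨far_self hpw, by simp⟩)
    have hne : A.Nonempty := ⟨w, hw⟩
    have h6 : 6 ≤ 6 / eta k r := by rw [le_div_iff₀ hη]; linarith
    rcases m with _ | m
    · simp only [PP, mul_one]
      rw [St_const P.tree P.abs_lt_one hA hne]
      refine Real.exp_le_exp.mpr (le_mul_of_one_le_right ha0 ?_)
      push_cast
      linarith [show (0:ℝ) ≤ n from Nat.cast_nonneg n]
    · have hsubz : ∀ z ∈ kids G p w, G.Adj w z ∧ brn G m w z ⊆ A := fun z hz =>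
        ⟨(mem_kids.mp hz).2, fun y hy => hsub (by
          simp only [brn, Finset.mem_insert, Finset.mem_biUnion]; exact Or.inr ⟨z, hz, hy⟩)⟩
      have ha' : a * θ ^ 2 ≤ At d n k r := by
        have h0 : 0 ≤ At d n k r := by unfold At; have := P.two_le; positivity
        calc a * θ ^ 2 ≤ At d (n + 1) k r * θ ^ 2 := mul_le_mul_of_nonneg_right ha (sq_nonneg θ)
          _ = At d n k r * (((d : ℝ) - 1) * θ ^ 2) := by unfold At; ring
          _ ≤ _ := mul_le_of_le_one_right h0 P.crit
      have hpt : ∀ f, IsFld f → Real.exp (a * PP G θ A (m + 1) p w f) ≤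
          Real.exp a * ∏ z ∈ kids G p w, Real.exp (a * θ ^ 2 * PP G θ A m w z f) := by
        intro f _
        rw [← Real.exp_sum, ← Real.exp_add]
        refine Real.exp_le_exp.mpr ?_
        simp only [PP]
        rw [mul_add, mul_one, ← mul_assoc, ← Finset.mul_sum]
        refine add_le_add le_rfl (mul_le_mul_of_nonneg_left (Finset.sum_le_sum fun z _ => ?_)
          (by positivity))
        exact mul_le_of_le_one_left (zero_le_one.trans (one_le_PP A m w z f)) (Xf_le_one A p w z f)
      have hB1 : ∀ z ∈ kids G p w, IsB A fun f => Real.exp (a * θ ^ 2 * PP G θ A m w z f) :=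
        fun z hz => (P.isB_exp_PP _ m (hsubz z hz).1).mono fun y hy => mem_of_mem_half hy
      have hB2 : IsB A fun f => ∏ z ∈ kids G p w, Real.exp (a * θ ^ 2 * PP G θ A m w z f) := by
        refine Finset.induction_on' (kids G p w) (by simpa using IsB.const A (1 : ℝ))
          fun {x s} hx _ has ihs => ?_
        simp only [Finset.prod_insert has]
        exact (hB1 x hx).mul ihs
      refine (St_mono P.tree P.abs_lt_one hA hne ((P.isB_exp_PP a (m + 1) hpw).mono fun y hy =>
        mem_of_mem_half hy) ((IsB.const A (Real.exp a)).mul hB2) hpt).trans ?_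
      rw [St_const_mul, P.St_prod_kids hA _ m hw _ hsubz]
      have hnn : ∀ z ∈ kids G p w,
          0 ≤ St G θ A K k r (fun f => Real.exp (a * θ ^ 2 * PP G θ A m w z f)) := fun z hz => by
        have := St_mono P.tree P.abs_lt_one (K := K) (k := k) (r := r) hA hne (IsB.const A 0)
          (hB1 z hz) fun f _ => (Real.exp_pos _).le
        rwa [St_const P.tree P.abs_lt_one hA hne] at this
      refine (mul_le_mul_of_nonneg_left (Finset.prod_le_prod hnn fun z hz =>
        ih (by positivity) ha' m (hsubz z hz).1 (hsubz z hz).2) (Real.exp_pos a).le).trans ?_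
      rw [Finset.prod_const, ← Real.exp_nat_mul, P.cast_kids hpw, ← Real.exp_add]
      refine Real.exp_le_exp.mpr ?_
      have h0 : 0 ≤ a * ((n : ℝ) + 6 / eta k r) := by positivity
      have := mul_le_mul_of_nonneg_right P.crit h0
      push_cast
      linarith

/-- The weighted size of a ball rarely exceeds the threshold. -/
theorem exp_PB (hK : 0 < K) (hτ : 0 < tau k r) (o : V) (m n : ℕ) :
    St G θ (bll G o (m + 1)) K k r
      (fun f => Real.exp (At d n k r * (PB G θ (bll G o (m + 1)) m o f - Lt n k r))) ≤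
      Real.exp (-(2 * ((d : ℝ) - 1) ^ n)) := by
  obtain ⟨hη, hη1⟩ := P.eta_pos (k := k) (r := r) hτ
  set A := bll G o (m + 1)
  have hA : Convex' G A := convex_bll P.tree o _
  have ho : o ∈ A := self_mem_bll P.tree.connected o _
  set a := At d n k r with ha
  have ha0 : 0 ≤ a := by rw [ha, At]; have := P.two_le; positivity
  have hsub : ∀ z ∈ G.neighborFinset o, G.Adj o z ∧ brn G m o z ⊆ A := fun z hz => by
    have hoz := (G.mem_neighborFinset o z).mp hz
    refine ⟨hoz, fun y hy => (mem_bll P.tree.connected).mpr ?_⟩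
    obtain ⟨h1, h2⟩ := (mem_brn P.tree m hoz y).mp hy
    have := (geo_cons P.tree hoz h1).2.2.1
    omega
  have e : ∀ f, Real.exp (a * (PB G θ A m o f - Lt n k r)) =
      Real.exp (a * (1 - Lt n k r)) *
        ∏ z ∈ G.neighborFinset o, Real.exp (a * θ ^ 2 * PP G θ A m o z f) := fun f => by
    rw [← Real.exp_sum, ← Real.exp_add, ← Finset.mul_sum]
    unfold PB
    congr 1; ring
  rw [St_congr fun f _ => e f, St_const_mul, P.St_prod_kids hA _ m ho _ hsub]
  have ha' : a * θ ^ 2 ≤ At d n k r :=
    mul_le_of_le_one_right ha0 (by linarith [P.sq_le_half])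
  have hnn : ∀ z ∈ G.neighborFinset o,
      0 ≤ St G θ A K k r (fun f => Real.exp (a * θ ^ 2 * PP G θ A m o z f)) := fun z hz => by
    have := St_mono P.tree P.abs_lt_one (K := K) (k := k) (r := r) hA ⟨o, ho⟩ (IsB.const A 0)
      ((P.isB_exp_PP (A := A) (a * θ ^ 2) m (hsub z hz).1).mono fun y hy => mem_of_mem_half hy)
      fun f _ => (Real.exp_pos _).le
    rwa [St_const P.tree P.abs_lt_one hA ⟨o, ho⟩] at this
  refine (mul_le_mul_of_nonneg_left (Finset.prod_le_prod hnn fun z hz =>
    P.exp_PP hA hK hτ n (by positivity) ha' m (hsub z hz).1 (hsub z hz).2)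
    (Real.exp_pos _).le).trans ?_
  rw [Finset.prod_const, card_neighborFinset_eq_degree, P.deg, ← Real.exp_nat_mul, ← Real.exp_add]
  refine Real.exp_le_exp.mpr ?_
  have hd2 : (d : ℝ) * θ ^ 2 ≤ 2 := by nlinarith [P.crit, P.sq_le_half]
  have h6 : 0 ≤ a * ((n : ℝ) + 6 / eta k r) := by positivity
  have := mul_le_mul_of_nonneg_right hd2 h6
  have hdef : a * (1 + 2 * (n : ℝ) + 12 / eta k r) ≥ 2 * ((d : ℝ) - 1) ^ n := by
    have : a * (12 / eta k r) = 2 * ((d : ℝ) - 1) ^ n := by rw [ha, At]; field_simp; ring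
    nlinarith
  unfold Lt
  ring_nf at this hdef ⊢
  linarith

omit [Countable V] [DecidableEq V] in
lemma isB_prod_Xf (A : Finset V) (o u : V) (S : Finset V) :
    IsB A fun f => ∏ i ∈ S, Xf G θ A (tow G i o) i (tow G i u) f := by
  classical
  refine Finset.induction_on' S (by simpa using IsB.const A (1 : ℝ)) fun {x s} _ _ has ihs => ?_
  simp only [Finset.prod_insert has]
  exact ((isB_Xf P.tree P.nonneg P.lt_one _ _ _).mono fun y hy => (mem_side.mp hy).1).mul ihs

/-- The expected dampings along a geodesic, counted over a sphere. -/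
theorem sphere_weight (hA : Convex' G A) (hK : 0 < K) (hτ : 0 < tau k r) {o u : V}
    (hsub : bll G o (G.dist o u - 1) ⊆ A) (hu : u ∈ A) :
    (((d : ℝ) - 1) * θ ^ 2) ^ G.dist o u * St G θ A K k r
        (fun f => ∏ i ∈ inner' G o u, Xf G θ A (tow G i o) i (tow G i u) f) ≤
      4 * (1 - eta k r) ^ G.dist o u := by
  classical
  obtain ⟨hη, hη1⟩ := P.eta_pos (k := k) (r := r) hτ
  have hs0 : 0 < Real.sqrt (tau k r) := Real.sqrt_pos.mpr hτ
  have hηs : eta k r = Real.sqrt (tau k r) / 400000 := rfl
  have ho : o ∈ A := hsub (self_mem_bll P.tree.connected o _)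
  set n := G.dist o u with hn
  set R := Rad k r with hR
  set h := ((d : ℝ) - 1) * θ ^ 2
  have hh0 : 0 ≤ h := mul_nonneg (by linarith [P.two_le]) (sq_nonneg θ)
  set S := (inner' G o u).filter fun i => G.dist o i + R ≤ n - 1 with hS
  set E := St G θ A K k r
    (fun f => ∏ i ∈ inner' G o u, Xf G θ A (tow G i o) i (tow G i u) f) with hE
  have hXA : ∀ i, IsB A fun f => Xf G θ A (tow G i o) i (tow G i u) f := fun i =>
    (isB_Xf P.tree P.nonneg P.lt_one _ _ _).mono fun y hy => (mem_side.mp hy).1
  have hWB : IsB A fun f => ∏ i ∈ inner' G o u, Xf G θ A (tow G i o) i (tow G i u) f :=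
    P.isB_prod_Xf A o u _
  have hle : E ≤ ∏ i ∈ S, St G θ A K k r (Xf G θ A (tow G i o) i (tow G i u)) := by
    rw [← P.St_prod_path hA ho hu K k r S (Finset.filter_subset _ _)]
    refine St_mono P.tree P.abs_lt_one (B' := A) hA ⟨o, ho⟩ hWB ?_ fun f hf => ?_
    · refine Finset.induction_on' S (by simpa using IsB.const A (1 : ℝ)) fun {x s} _ _ has ihs => ?_
      simp only [Finset.prod_insert has]
      exact (hXA x).mul ihs
    · exact Finset.prod_le_prod_of_subset_of_le_one (Finset.filter_subset _ _)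
        (fun i _ => (Xf_pos _ _ _ _ _).le) fun i _ _ => Xf_le_one _ _ _ _ _
  have hE0 : 0 ≤ E := by
    have := St_mono P.tree P.abs_lt_one (K := K) (k := k) (r := r) hA ⟨o, ho⟩ (IsB.const A 0)
      hWB fun f _ => Finset.prod_nonneg fun i _ => (Xf_pos _ _ _ _ _).le
    rwa [St_const P.tree P.abs_lt_one hA ⟨o, ho⟩] at this
  have hcard : n ≤ S.card + (R + 1) ∧ S.card ≤ n := by
    have hinj : Set.InjOn (G.dist o) (geo G o u : Set V) := fun a ha b hb e =>
      geo_inj P.tree ha hb e
    have him : (geo G o u).image (G.dist o) = Finset.range (n + 1) := by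
      refine Finset.eq_of_subset_of_card_le (fun x hx => ?_) ?_
      · obtain ⟨y, hy, rfl⟩ := Finset.mem_image.mp hx
        rw [mem_geo P.tree] at hy
        exact Finset.mem_range.mpr (by omega)
      · rw [Finset.card_range, Finset.card_image_of_injOn hinj, card_geo P.tree]
    refine ⟨?_, ?_⟩
    · have hsubimg : Finset.Icc 1 (n - (R + 1)) ⊆ S.image (G.dist o) := by
        intro j hj
        rw [Finset.mem_Icc] at hj
        have hj2 : j ∈ (geo G o u).image (G.dist o) := by
          rw [him, Finset.mem_range]; omega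
        obtain ⟨y, hy, rfl⟩ := Finset.mem_image.mp hj2
        refine Finset.mem_image.mpr ⟨y, Finset.mem_filter.mpr
          ⟨(mem_inner P.tree).mpr ⟨hy, ?_, ?_⟩, by omega⟩, rfl⟩
        · rintro rfl; simp at hj
        · rintro rfl; omega
      have := (Finset.card_le_card hsubimg).trans Finset.card_image_le
      rw [Nat.card_Icc] at this
      omega
    · refine le_trans (Finset.card_le_card (t := (geo G o u).erase o) fun i hi => ?_) ?_
      · obtain ⟨h1, h2, -⟩ := (mem_inner P.tree).mp (Finset.mem_filter.mp hi).1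
        exact Finset.mem_erase.mpr ⟨h2, h1⟩
      · rw [Finset.card_erase_of_mem (left_mem_geo P.tree o u), card_geo P.tree]
        simp [n]
  have hfac : h ^ S.card * E ≤ (1 - eta k r) ^ S.card := by
    refine (mul_le_mul_of_nonneg_left hle (pow_nonneg hh0 _)).trans ?_
    rw [← Finset.prod_const, ← Finset.prod_mul_distrib, ← Finset.prod_const]
    refine Finset.prod_le_prod (fun i _ => mul_nonneg hh0 ?_) fun i hi => ?_
    · have := St_mono P.tree P.abs_lt_one (K := K) (k := k) (r := r) hA ⟨o, ho⟩ (IsB.const A 0)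
        (hXA i) fun f _ => (Xf_pos (G := G) (θ := θ) A (tow G i o) i (tow G i u) f).le
      rwa [St_const P.tree P.abs_lt_one hA ⟨o, ho⟩] at this
    · obtain ⟨hii, hdist⟩ := Finset.mem_filter.mp hi
      obtain ⟨gi, i1, i2⟩ := (mem_inner P.tree).mp hii
      obtain ⟨ha, hda⟩ := tow_spec P.tree i1
      refine P.kappa hA ha.symm (mem_kids.mpr ⟨?_, tow_adj P.tree i2⟩) hK hτ fun y hy => ?_
      · intro e
        obtain ⟨-, h2⟩ := tow_spec P.tree i2
        rw [mem_geo P.tree] at gi
        rw [e] at h2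
        have t : G.dist o u ≤ G.dist o (tow G i o) + G.dist (tow G i o) u :=
          P.tree.connected.dist_triangle
        rw [dist_comm (u := i) (v := o), dist_comm (u := tow G i o) (v := o)] at hda
        omega
      · obtain ⟨-, hy2⟩ := (mem_brn P.tree _ ha.symm y).mp hy
        refine hsub ((mem_bll P.tree.connected).mpr ?_)
        have t : G.dist o y ≤ G.dist o i + G.dist i y := P.tree.connected.dist_triangle
        omega
  have hc0 : 0 ≤ 1 - eta k r := by linarith
  have h2 : h ^ n * E ≤ (1 - eta k r) ^ S.card := by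
    refine le_trans ?_ hfac
    exact mul_le_mul_of_nonneg_right
      (pow_le_pow_of_le_one hh0 P.crit hcard.2) hE0
  refine h2.trans ?_
  have h4 : 1 ≤ 4 * (1 - eta k r) ^ (R + 1) := by
    have hb := one_add_mul_le_pow (show (-2 : ℝ) ≤ -eta k r by linarith) (R + 1)
    rw [← sub_eq_add_neg] at hb
    have hRs : ((R + 1 : ℕ) : ℝ) * eta k r ≤ 1 / 2 := by
      have h1 : ((R + 1 : ℕ) : ℝ) ≤ 1 / Real.sqrt (tau k r) + 2 := by
        rw [hR, Rad]
        push_cast
        linarith [Nat.floor_le (show 0 ≤ 1 / Real.sqrt (tau k r) by positivity)]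
      refine (mul_le_mul_of_nonneg_right h1 hη.le).trans ?_
      rw [hηs]
      have : (1 / Real.sqrt (tau k r) + 2) * (Real.sqrt (tau k r) / 400000) =
          (1 + 2 * Real.sqrt (tau k r)) / 400000 := by field_simp
      rw [this, div_le_iff₀ (by norm_num)]
      linarith [Real.sqrt_le_one.mpr (tau_le_one k r)]
    linarith
  have h3 := mul_le_mul_of_nonneg_left
    (pow_le_pow_of_le_one hc0 (by linarith) hcard.1) (show (0 : ℝ) ≤ 4 by norm_num)
  calc (1 - eta k r) ^ S.card = (1 - eta k r) ^ S.card * 1 := (mul_one _).symm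
    _ ≤ (1 - eta k r) ^ S.card * (4 * (1 - eta k r) ^ (R + 1)) :=
        mul_le_mul_of_nonneg_left h4 (pow_nonneg hc0 _)
    _ = 4 * (1 - eta k r) ^ (S.card + (R + 1)) := by rw [pow_add]; ring
    _ ≤ _ := h3

/-- The expected weight along a geodesic. -/
theorem sphere_Wt (hA : Convex' G A) (hK : 0 < K) (hτ : 0 < tau k r) {o u : V}
    (hsub : bll G o (G.dist o u - 1) ⊆ A) (hu : u ∈ A) :
    (((d : ℝ) - 1) * θ ^ 2) ^ G.dist o u * St G θ A K k r (fun f => Wt G θ A f o u) ≤
      4 * (1 - eta k r) ^ G.dist o u := by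
  have ho : o ∈ A := hsub (self_mem_bll P.tree.connected o _)
  refine le_trans (mul_le_mul_of_nonneg_left ?_
    (pow_nonneg (mul_nonneg (by linarith [P.two_le]) (sq_nonneg θ)) _))
    (P.sphere_weight hA hK hτ hsub hu)
  refine St_mono P.tree P.abs_lt_one hA ⟨o, ho⟩ (B := A) ?_ (P.isB_prod_Xf A o u _)
    fun f hf => Wt_le_prod_Xf P.tree P.nonneg P.lt_one hf hA ho hu
  exact ⟨isTest_Wt P.abs_lt_one A o u, 1, fun f _ => by
    rw [abs_of_nonneg (show 0 ≤ Wt G θ A f o u from (Real.exp_pos _).le)]
    exact Wt_le_one _ _ _ _ _⟩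

end Par

end Vale.Agent.P161.Crit
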