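import Vale.Agent.P161.Crit.Pointwise
import Vale.Agent.P161.Crit.Sums

/-!
# Growth of squared differences and of moments
-/

namespace Vale.Agent.P161.Crit

open MeasureTheory unitInterval Function SimpleGraph Vale.Agent.P161

variable {V : Type*} {G : SimpleGraph V} {θ θ' : ℝ}

open Classical in
/-- The first error term of the squared difference at `w`. -/
noncomputable def pw1 (G : SimpleGraph V) (θ θ' : ℝ) (A A' : Finset V) (v w : V)
    (a b : V → ℝ) : ℝ :=
  if w ∈ A then if w ∈ A' then 4 * (Cv G θ A a v w - Cv G θ' A' b v w) ^ 2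
    else 2 * Cv G θ A a v w ^ 2
  else 2 * Cv G θ' A' b v w ^ 2

open Classical in
/-- The second error term of the squared difference at `w`. -/
noncomputable def pw2 (G : SimpleGraph V) (θ θ' : ℝ) (A A' : Finset V) (v w : V)
    (a b : V → ℝ) : ℝ :=
  if w ∈ A ∧ w ∈ A' then 200 * (Cv G θ' A' b v w ^ 2 * (mu G θ A a w - mu G θ' A' b w) ^ 2) else 0

lemma pw1_nonneg (A A' : Finset V) (v w : V) (a b : V → ℝ) : 0 ≤ pw1 G θ θ' A A' v w a b := by
  unfold pw1; split_ifs <;> positivity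

lemma pw2_nonneg (A A' : Finset V) (v w : V) (a b : V → ℝ) : 0 ≤ pw2 G θ θ' A A' v w a b := by
  unfold pw2; split_ifs <;> positivity

lemma binom_remainder (p : ℕ) (x y : ℝ) :
    (x + y) ^ (2 * (p + 1)) ≤ x ^ (2 * (p + 1)) + ((2 * (p + 1) : ℕ) : ℝ) * x ^ (2 * p + 1) * y +
      4 ^ (p + 1) * (y ^ 2 * x ^ (2 * p) + y ^ (2 * (p + 1))) := by
  set n := 2 * (p + 1) with hn
  have hn2 : n = 2 * p + 2 := by omega
  rw [add_comm x y, add_pow, show n + 1 = (2 * p + 1) + 1 + 1 by omega, Finset.sum_range_succ',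
    Finset.sum_range_succ']
  simp only [pow_zero, one_mul, Nat.sub_zero, Nat.choose_zero_right, Nat.cast_one, mul_one,
    Nat.zero_add, pow_one, Nat.choose_one_right]
  have hb : ∀ i ∈ Finset.range (2 * p + 1), y ^ (i + 1 + 1) * x ^ (n - (i + 1 + 1)) *
      (n.choose (i + 1 + 1) : ℝ) ≤ (n.choose (i + 1 + 1) : ℝ) * (y ^ 2 * x ^ (2 * p) + y ^ n) := by
    intro i hi
    rw [Finset.mem_range] at hi
    rw [mul_comm _ (n.choose (i + 1 + 1) : ℝ)]
    refine mul_le_mul_of_nonneg_left ?_ (Nat.cast_nonneg _)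
    refine le_trans (le_abs_self _) ?_
    rw [abs_mul, abs_pow, abs_pow]
    have e1 : y ^ 2 * x ^ (2 * p) = |y| ^ 2 * |x| ^ (2 * p) := by
      rw [pow_mul, pow_mul, sq_abs, sq_abs]
    have e2 : y ^ n = |y| ^ n := by rw [hn, pow_mul, pow_mul, sq_abs]
    rw [e1, e2, hn2]
    have hx := abs_nonneg x
    have hy := abs_nonneg y
    rcases le_total |y| |x| with h | h
    · refine le_add_of_le_of_nonneg ?_ (by positivity)
      calc |y| ^ (i + 1 + 1) * |x| ^ (2 * p + 2 - (i + 1 + 1))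
          = |y| ^ 2 * (|y| ^ i * |x| ^ (2 * p - i)) := by
            rw [show 2 * p + 2 - (i + 1 + 1) = 2 * p - i by omega, pow_add, pow_add]; ring
        _ ≤ |y| ^ 2 * (|x| ^ i * |x| ^ (2 * p - i)) := mul_le_mul_of_nonneg_left
            (mul_le_mul_of_nonneg_right (pow_le_pow_left₀ hy h i) (by positivity)) (by positivity)
        _ = _ := by rw [← pow_add, show i + (2 * p - i) = 2 * p by omega]
    · refine le_add_of_nonneg_of_le (by positivity) ?_
      calc |y| ^ (i + 1 + 1) * |x| ^ (2 * p + 2 - (i + 1 + 1))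
          ≤ |y| ^ (i + 1 + 1) * |y| ^ (2 * p + 2 - (i + 1 + 1)) :=
            mul_le_mul_of_nonneg_left (pow_le_pow_left₀ hx h _) (by positivity)
        _ = _ := by rw [← pow_add, show i + 1 + 1 + (2 * p + 2 - (i + 1 + 1)) = 2 * p + 2 by omega]
  have hsum := Finset.sum_le_sum hb
  rw [← Finset.sum_mul] at hsum
  have hc : ∑ i ∈ Finset.range (2 * p + 1), (n.choose (i + 1 + 1) : ℝ) ≤ 4 ^ (p + 1) := by
    have h := Nat.sum_range_choose n
    rw [show n + 1 = (2 * p + 1) + 1 + 1 by omega, Finset.sum_range_succ', Finset.sum_range_succ']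
      at h
    have h' : ∑ i ∈ Finset.range (2 * p + 1), n.choose (i + 1 + 1) ≤ 2 ^ n := by omega
    have : ((∑ i ∈ Finset.range (2 * p + 1), n.choose (i + 1 + 1) : ℕ) : ℝ) ≤ ((2 ^ n : ℕ) : ℝ) := by
      exact_mod_cast h'
    push_cast at this
    refine this.trans_eq ?_
    rw [hn, pow_mul]; norm_num
  have h0 : 0 ≤ y ^ 2 * x ^ (2 * p) + y ^ n := by
    have a : 0 ≤ x ^ (2 * p) := by rw [pow_mul]; positivity
    have b : 0 ≤ y ^ n := by rw [hn, pow_mul]; positivity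
    positivity
  have := mul_le_mul_of_nonneg_right hc h0
  rw [show n - 1 = 2 * p + 1 by omega]
  linarith

variable [Countable V] [DecidableEq V]

lemma isB_Cv_sq (hθ0 : 0 ≤ θ) (hθ1 : θ < 1) (A : Finset V) (v w : V) :
    IsB A fun f => Cv G θ A f v w ^ 2 := by
  have habs : |θ| < 1 := by rwa [abs_of_nonneg hθ0]
  refine ⟨(isTest_Cv habs A v w).comp_real (φ := fun x => x ^ 2) (by fun_prop), 4, fun f hf => ?_⟩
  have hp := Zf_one_pos (G := G) habs hf A
  have h1 : |Zf G θ A f (fun η => spin (η v) * spin (η w)) / Zf G θ A f (fun _ => 1)| ≤ 1 := by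
    rw [abs_div, abs_of_pos hp, div_le_one hp]
    refine (abs_Ev_le habs _).trans (Ev_mono habs fun η => ?_)
    rw [abs_mul, abs_mul, abs_spin, abs_spin, mul_one, mul_one, mul_one,
      abs_of_pos (prod_factor_pos hf A η)]
  have h2 : |Cv G θ A f v w| ≤ 2 := by
    unfold Cv
    refine (abs_sub _ _).trans ?_
    have := abs_mul_le_one (abs_mu_le (G := G) hθ0 hθ1 A hf v) (abs_mu_le (G := G) hθ0 hθ1 A hf w)
    linarith
  rw [abs_of_nonneg (sq_nonneg _), ← sq_abs]
  nlinarith [abs_nonneg (Cv G θ A f v w)]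

variable (hθ0 : 0 ≤ θ) (hθ1 : θ < 1)
include hθ0 hθ1

lemma isPTest_mu_sub_sq (hθ0' : 0 ≤ θ') (hθ1' : θ' < 1) (A A' : Finset V) (v : V) :
    IsPTest A A' fun a b => (mu G θ A a v - mu G θ' A' b v) ^ 2 :=
  ((IsPTest.fst (A' := A') (isTest_mu (by rwa [abs_of_nonneg hθ0]) A v) fun f hf =>
      abs_mu_le (G := G) hθ0 hθ1 A hf v).sub
    (IsPTest.snd (A := A) (isTest_mu (by rwa [abs_of_nonneg hθ0']) A' v) fun f hf =>
      abs_mu_le (G := G) hθ0' hθ1' A' hf v)).sq

lemma isPTest_pw1 (hθ0' : 0 ≤ θ') (hθ1' : θ' < 1) (A A' : Finset V) (v w : V) :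
    IsPTest A A' (pw1 G θ θ' A A' v w) := by
  have ha : |θ| < 1 := by rwa [abs_of_nonneg hθ0]
  have ha' : |θ'| < 1 := by rwa [abs_of_nonneg hθ0']
  have hb : ∀ {φ : ℝ}, 0 ≤ φ → φ < 1 → ∀ (B : Finset V) (f : V → ℝ), IsFld f →
      |Cv G φ B f v w| ≤ 2 := fun {φ} h0 h1 B f hf => by
    obtain ⟨C, -⟩ := (isB_Cv_sq (G := G) h0 h1 B v w).bdd
    have habs : |φ| < 1 := by rwa [abs_of_nonneg h0]
    have hp := Zf_one_pos (G := G) habs hf B
    unfold Cv
    refine (abs_sub _ _).trans ?_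
    have := abs_mul_le_one (abs_mu_le (G := G) h0 h1 B hf v) (abs_mu_le (G := G) h0 h1 B hf w)
    have h2 : |Zf G φ B f (fun η => spin (η v) * spin (η w)) / Zf G φ B f (fun _ => 1)| ≤ 1 := by
      rw [abs_div, abs_of_pos hp, div_le_one hp]
      refine (abs_Ev_le habs _).trans (Ev_mono habs fun η => ?_)
      rw [abs_mul, abs_mul, abs_spin, abs_spin, mul_one, mul_one, mul_one,
        abs_of_pos (prod_factor_pos hf B η)]
    linarith
  have t1 : IsPTest A A' fun a _ => Cv G θ A a v w :=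
    IsPTest.fst (isTest_Cv ha A v w) fun f hf => hb hθ0 hθ1 A f hf
  have t2 : IsPTest A A' fun _ b => Cv G θ' A' b v w :=
    IsPTest.snd (isTest_Cv ha' A' v w) fun f hf => hb hθ0' hθ1' A' f hf
  by_cases h : w ∈ A
  · by_cases h' : w ∈ A'
    · have e : pw1 G θ θ' A A' v w = fun a b => 4 * (Cv G θ A a v w - Cv G θ' A' b v w) ^ 2 := by
        funext a b; simp [pw1, h, h']
      rw [e]; exact (IsPTest.const A A' 4).mul (t1.sub t2).sq
    · have e : pw1 G θ θ' A A' v w = fun a _ => 2 * Cv G θ A a v w ^ 2 := by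
        funext a b; simp [pw1, h, h']
      rw [e]; exact (IsPTest.const A A' 2).mul t1.sq
  · have e : pw1 G θ θ' A A' v w = fun _ b => 2 * Cv G θ' A' b v w ^ 2 := by
      funext a b; simp [pw1, h]
    rw [e]; exact (IsPTest.const A A' 2).mul t2.sq

lemma isPTest_pw2 (hθ0' : 0 ≤ θ') (hθ1' : θ' < 1) (A A' : Finset V) (v w : V) :
    IsPTest A A' (pw2 G θ θ' A A' v w) := by
  obtain ⟨C, hC⟩ := (isB_Cv_sq (G := G) hθ0' hθ1' A' v w).bdd
  by_cases h : w ∈ A ∧ w ∈ A'
  · have e : pw2 G θ θ' A A' v w = fun a b =>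
        200 * (Cv G θ' A' b v w ^ 2 * (mu G θ A a w - mu G θ' A' b w) ^ 2) := by
      funext a b; simp [pw2, h]
    rw [e]
    exact (IsPTest.const A A' 200).mul ((IsPTest.snd
      (isB_Cv_sq (G := G) hθ0' hθ1' A' v w).test hC).mul
      (isPTest_mu_sub_sq hθ0 hθ1 hθ0' hθ1' A A' w))
  · have e : pw2 G θ θ' A A' v w = fun _ _ => 0 := by
      funext a b; simp only [pw2]; rw [if_neg h]
    rw [e]; exact IsPTest.const A A' 0

/-- Growth of the squared difference of two magnetisations during one round. -/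
theorem pair_growth (hθ0' : 0 ≤ θ') (hθ1' : θ' < 1) (A A' : Finset V) {K k : ℕ} (hk : k < K)
    (v : V) {s₀ s : ℝ} (hs₀ : 0 ≤ s₀) (hs : s₀ ≤ s) (hs1 : s ≤ 1 / 2) :
    Pe G θ θ' A A' K k s (fun a b => (mu G θ A a v - mu G θ' A' b v) ^ 2) ≤
      Pe G θ θ' A A' K k s₀ (fun a b => (mu G θ A a v - mu G θ' A' b v) ^ 2) +
      2 * ((∫ r in s₀..s, r ^ 2 * Pe G θ θ' A A' K k r
          (fun a b => ∑ w ∈ A ∪ A', pw1 G θ θ' A A' v w a b)) +
        ∫ r in s₀..s, r ^ 4 * Pe G θ θ' A A' K k r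
          (fun a b => ∑ w ∈ A ∪ A', pw2 G θ θ' A A' v w a b)) := by
  refine grow_avg hθ0 hθ1 hθ0' hθ1' A A' hk v (φ := fun x y => (x - y) ^ 2) (by fun_prop)
    (fun w _ => isPTest_pw1 hθ0 hθ1 hθ0' hθ1' A A' v w)
    (fun w _ => isPTest_pw2 hθ0 hθ1 hθ0' hθ1' A A' v w)
    (fun w a b _ _ => pw1_nonneg A A' v w a b) (fun w a b _ _ => pw2_nonneg A A' v w a b)
    hs₀ hs hs1 fun ρ j y y' hj _ _ => ?_
  have hjK : j.2 < K := hj ▸ hk
  set J := fun t : I => jm G θ A K ρ y v j t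
  set J' := fun t : I => jm G θ' A' K ρ y' v j t
  set m := mag G θ A K (estT ρ j.2 (ρ j)) y v
  set m' := mag G θ' A' K (estT ρ j.2 (ρ j)) y' v
  set a := est ρ j
  set B := jb G θ θ' A A' v j.1 a (fld K (estT ρ j.2 (ρ j)) y) (fld K (estT ρ j.2 (ρ j)) y')
  have hJc : Continuous J := continuous_jm hθ0 hθ1 A K ρ y v j
  have hJc' : Continuous J' := continuous_jm hθ0' hθ1' A' K ρ y' v j
  have hi : ∀ {g : I → ℝ}, Continuous g → Integrable g (volume : Measure I) := fun {g} hg =>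
    hg.integrable_of_hasCompactSupport (.of_compactSpace g)
  have hle : ∀ t, (m + J t - (m' + J' t)) ^ 2 ≤ (m - m') ^ 2 + 2 * (m - m') * (J t - J' t) + B :=
    fun t => by
      have : (J t - J' t) ^ 2 ≤ B := jm_sub_sq_le hθ0 hθ1 hθ0' hθ1' A A' ρ y y' v hjK t
      linarith [show (m + J t - (m' + J' t)) ^ 2 = (m - m') ^ 2 + 2 * (m - m') * (J t - J' t) +
        (J t - J' t) ^ 2 by ring]
  refine (integral_mono (hi (by fun_prop)) (hi (by fun_prop)) hle).trans (le_of_eq ?_)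
  rw [integral_add (hi (by fun_prop)) (integrable_const B), integral_add (integrable_const _)
    (hi (by fun_prop)), integral_const_mul, integral_sub (hi hJc) (hi hJc'),
    integral_jm hθ0 hθ1, integral_jm hθ0' hθ1']
  simp only [integral_const, probReal_univ, one_smul, sub_zero, mul_zero, add_zero, B, jb, pw1, pw2]
  by_cases h1 : j.1 ∈ A
  · by_cases h2 : j.1 ∈ A'
    · simp only [if_pos h1, if_pos h2, if_pos (And.intro h1 h2)]
      ring
    · simp only [if_pos h1, if_neg h2, if_neg (fun h : _ ∧ _ => h2 h.2)]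
      ring
  · simp only [if_neg h1, if_neg (fun h : _ ∧ _ => h1 h.1)]
    ring

/-- Growth of an even moment of one magnetisation during the first round. -/
theorem moment_growth (hG : G.IsTree) {A : Finset V} (hA : Convex' G A) (hne : A.Nonempty)
    {K : ℕ} (hK : 0 < K) (v : V) (p : ℕ) {s : ℝ} (hs : 0 ≤ s) (hs1 : s ≤ 1 / 2) :
    St G θ A K 0 s (fun f => mu G θ A f v ^ (2 * (p + 1))) ≤
      St G θ A K 0 0 (fun f => mu G θ A f v ^ (2 * (p + 1))) +
      2 * ∫ r in (0 : ℝ)..s, r ^ 2 * St G θ A K 0 r (fun f => ∑ w ∈ A, 2 * 64 ^ (p + 1) *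
        (Cv G θ A f v w ^ 2 * (mu G θ A f v ^ (2 * p) + s ^ (2 * p)))) := by
  have habs : |θ| < 1 := by rwa [abs_of_nonneg hθ0]
  set Φ : V → (V → ℝ) → ℝ := fun w f => 2 * 64 ^ (p + 1) *
    (Cv G θ A f v w ^ 2 * (mu G θ A f v ^ (2 * p) + s ^ (2 * p))) with hΦ
  have hs2 : 0 ≤ s ^ (2 * p) := pow_nonneg hs _
  have hΦB : ∀ w, IsB A (Φ w) := fun w =>
    (IsB.const A (2 * 64 ^ (p + 1))).mul ((isB_Cv_sq hθ0 hθ1 A v w).mul
      (((IsB.mu' hθ0 hθ1 A v).comp_real (φ := fun x => x ^ (2 * p)) (by fun_prop)).add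
        (IsB.const A (s ^ (2 * p)))))
  have hΦ0 : ∀ w f, 0 ≤ Φ w f := fun w f => by
    have : 0 ≤ mu G θ A f v ^ (2 * p) := by rw [pow_mul]; positivity
    simp only [Φ]; positivity
  have hP₁ : ∀ w ∈ A ∪ A, IsPTest A A fun a _ => Φ w a := fun w _ => by
    obtain ⟨C, hC⟩ := (hΦB w).bdd
    exact IsPTest.fst (hΦB w).test hC
  have hg := grow_avg (G := G) hθ0 hθ1 hθ0 hθ1 A A hK v (φ := fun x _ => x ^ (2 * (p + 1)))
    (by fun_prop) hP₁ (fun w _ => IsPTest.const A A 0) (fun w a _ _ _ => hΦ0 w a)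
    (fun _ _ _ _ _ => le_rfl) le_rfl hs hs1 fun ρ j y y' hj hjA hjs => ?_
  · rw [Finset.union_self] at hg
    have hmB : IsB A fun f => mu G θ A f v ^ (2 * (p + 1)) :=
      (IsB.mu' hθ0 hθ1 A v).comp_real (φ := fun x => x ^ (2 * (p + 1))) (by fun_prop)
    have hsB : IsB A fun f => ∑ w ∈ A, Φ w f := IsB.sum _ fun w _ => hΦB w
    rw [Pe_fst hG habs hθ0 hθ1 hA hne hmB, Pe_fst hG habs hθ0 hθ1 hA hne hmB] at hg
    refine hg.trans (le_of_eq ?_)
    congr 1
    congr 1
    rw [add_eq_left.mpr]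
    · exact intervalIntegral.integral_congr fun r _ => by
        rw [Pe_fst hG habs hθ0 hθ1 hA hne hsB]
    · simp [Pe]
  · rw [Finset.union_self] at hjA
    set J := fun t : I => jm G θ A K ρ y v j t
    set m := mag G θ A K (estT ρ j.2 (ρ j)) y v
    set C := cov' G θ A K (estT ρ j.2 (ρ j)) y v j.1
    set a := est ρ j
    obtain ⟨a0, a1, -⟩ := est1_mem (t := ρ j) (ρ j).2.1
    have hJc : Continuous J := continuous_jm hθ0 hθ1 A K ρ y v j
    have hi : ∀ {g : I → ℝ}, Continuous g → Integrable g (volume : Measure I) := fun {g} hg =>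
      hg.integrable_of_hasCompactSupport (.of_compactSpace g)
    have hJ : ∀ t, J t ^ 2 ≤ 2 * a ^ 2 * C ^ 2 ∧ |J t| ≤ 4 * s := fun t => by
      have h := abs_jm_le (G := G) hθ0 hθ1 A K ρ y v j t
      refine ⟨?_, ?_⟩
      · have h2 := pow_le_pow_left₀ (abs_nonneg _) h 2
        rw [sq_abs, mul_pow, mul_pow, sq_abs] at h2
        simp only [J]
        nlinarith [mul_nonneg (sq_nonneg (est ρ j)) (sq_nonneg C)]
      · have hC2 : |C| ≤ 2 := by
          have hf := isFld_fld (K := K) (isStr_estT ρ j.2 (ρ j)) y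
          have hp := Zf_one_pos (G := G) habs hf A
          simp only [C, cov', Cv]
          refine (abs_sub _ _).trans ?_
          have := abs_mul_le_one (abs_mu_le (G := G) hθ0 hθ1 A hf v)
            (abs_mu_le (G := G) hθ0 hθ1 A hf j.1)
          have h2 : |Zf G θ A (fld K (estT ρ j.2 (ρ j)) y) (fun η => spin (η v) * spin (η j.1)) /
              Zf G θ A (fld K (estT ρ j.2 (ρ j)) y) (fun _ => 1)| ≤ 1 := by
            rw [abs_div, abs_of_pos hp, div_le_one hp]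
            refine (abs_Ev_le habs _).trans (Ev_mono habs fun η => ?_)
            rw [abs_mul, abs_mul, abs_spin, abs_spin, mul_one, mul_one, mul_one,
              abs_of_pos (prod_factor_pos hf A η)]
          linarith
        refine h.trans ?_
        calc 4 / 3 * est ρ j * |C| ≤ 4 / 3 * s * 2 := by
              refine mul_le_mul (mul_le_mul_of_nonneg_left (a1.trans hjs.le) (by norm_num)) hC2
                (abs_nonneg _) (by positivity)
          _ ≤ 4 * s := by linarith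
    have hle : ∀ t, (m + J t) ^ (2 * (p + 1)) ≤ m ^ (2 * (p + 1)) +
        ((2 * (p + 1) : ℕ) : ℝ) * m ^ (2 * p + 1) * J t +
        a ^ 2 * Φ j.1 (fld K (estT ρ j.2 (ρ j)) y) := fun t => by
      refine (binom_remainder p m (J t)).trans (add_le_add le_rfl ?_)
      obtain ⟨h1, h2⟩ := hJ t
      have hm0 : 0 ≤ m ^ (2 * p) := by rw [pow_mul]; positivity
      have hJp : J t ^ (2 * (p + 1)) ≤ 2 * a ^ 2 * C ^ 2 * (16 ^ p * s ^ (2 * p)) := by
        rw [show 2 * (p + 1) = 2 + 2 * p by ring, pow_add]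
        refine mul_le_mul h1 ?_ (by rw [pow_mul]; positivity) (by positivity)
        have := pow_le_pow_left₀ (abs_nonneg _) h2 (2 * p)
        rw [mul_pow, pow_mul (4 : ℝ), pow_mul |J t|, sq_abs, ← pow_mul] at this
        norm_num at this
        exact this
      have h3 := mul_le_mul_of_nonneg_right h1 hm0
      simp only [Φ]
      have h16 : 1 ≤ (16 : ℝ) ^ p := one_le_pow₀ (by norm_num)
      have hsum : J t ^ 2 * m ^ (2 * p) + J t ^ (2 * (p + 1)) ≤
          2 * a ^ 2 * C ^ 2 * (m ^ (2 * p) + 16 ^ p * s ^ (2 * p)) := by linarith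
      have h4 : 4 ^ (p + 1) * (J t ^ 2 * m ^ (2 * p) + J t ^ (2 * (p + 1))) ≤
          (4 : ℝ) ^ (p + 1) * (16 ^ p * (2 * a ^ 2 * C ^ 2 * (m ^ (2 * p) + s ^ (2 * p)))) := by
        refine mul_le_mul_of_nonneg_left (hsum.trans ?_) (by positivity)
        have : 0 ≤ 2 * a ^ 2 * C ^ 2 * m ^ (2 * p) := by positivity
        nlinarith
      refine h4.trans ?_
      have hA0 : 0 ≤ a ^ 2 * C ^ 2 * (m ^ (2 * p) + s ^ (2 * p)) := by positivity
      have hX : (4 : ℝ) ^ (p + 1) * (16 ^ p * (2 * a ^ 2 * C ^ 2 * (m ^ (2 * p) + s ^ (2 * p)))) =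
          2 * ((4 : ℝ) ^ (p + 1) * 16 ^ p) * (a ^ 2 * C ^ 2 * (m ^ (2 * p) + s ^ (2 * p))) := by ring
      rw [hX]
      have h64 : (4 : ℝ) ^ (p + 1) * 16 ^ p ≤ 64 ^ (p + 1) := by
        rw [show (64 : ℝ) = 4 * 16 by norm_num, mul_pow, pow_succ (16 : ℝ)]
        nlinarith [show (0 : ℝ) ≤ 4 ^ (p + 1) * 16 ^ p by positivity]
      nlinarith
    refine (integral_mono (hi (by fun_prop)) (hi (by fun_prop)) hle).trans (le_of_eq ?_)
    rw [integral_add (hi (by fun_prop)) (integrable_const _), integral_add (integrable_const _)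
      (hi (by fun_prop)), integral_const_mul, integral_jm hθ0 hθ1]
    simp only [integral_const, probReal_univ, one_smul, mul_zero, add_zero, Φ, a]

end Vale.Agent.P161.Crit
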