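import Vale.Agent.P161.Crit.Prelim

/-!
# Invariance under automorphisms
-/

namespace Vale.Agent.P161.Crit

open MeasureTheory unitInterval Function SimpleGraph Vale.Agent.P161

variable {V : Type*} {G : SimpleGraph V} {θ θ' : ℝ}

/-- The labels moved by a permutation of the vertices. -/
def shiftL (g : V ≃ V) (ρ : V × ℕ → I) : V × ℕ → I := fun i => ρ (g.symm i.1, i.2)

lemma measurable_shiftL (g : V ≃ V) : Measurable (shiftL g) :=
  measurable_pi_lambda _ fun _ => measurable_pi_apply _

lemma map_shiftL (g : V ≃ V) : (iidLabels (V × ℕ)).map (shiftL g) = iidLabels (V × ℕ) := by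
  classical
  refine Measure.eq_infinitePi _ fun s t ht => ?_
  rw [Measure.map_apply (measurable_shiftL g) (.pi s.countable_toSet fun _ _ => ht _)]
  set e : V × ℕ ≃ V × ℕ := g.symm.prodCongr (Equiv.refl ℕ)
  have hpre : shiftL g ⁻¹' (s : Set (V × ℕ)).pi t =
      ((s.image e : Finset (V × ℕ)) : Set (V × ℕ)).pi fun i => t (e.symm i) := by
    ext ρ
    simp only [Set.mem_preimage, Set.mem_pi, Finset.mem_coe, Finset.mem_image]
    constructor
    · rintro h _ ⟨i, hi, rfl⟩
      simpa [shiftL, e, Prod.map] using h i hi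
    · intro h i hi
      have := h (e i) ⟨i, hi, rfl⟩
      simpa [shiftL, e, Prod.map] using this
  rw [hpre, iidLabels, Measure.infinitePi_pi _ (fun i _ => ht _), Finset.prod_image e.injective.injOn]
  simp

section Iso

variable [DecidableEq V] (g : G ≃g G)

omit [DecidableEq V] in
lemma estT_shift (ρ : V × ℕ → I) (k : ℕ) (r : ℝ) (i : V × ℕ) :
    estT (shiftL g.toEquiv ρ) k r i = estT ρ k r (g.symm i.1, i.2) := by
  simp only [estT, Bef, est, shiftL]; rfl

lemma out_shift (A : Finset V) (K : ℕ) (ρ u : V × ℕ → I) :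
    out G θ (A.image g) K (shiftL g.toEquiv ρ) (shiftL g.toEquiv u) =
      fun j => out G θ A K ρ u (g.symm j.1, j.2) := funext fun j => out_image g A K ρ u j

lemma fout_shift (A : Finset V) (K k : ℕ) (r : ℝ) (ρ u : V × ℕ → I) :
    fout G θ (A.image g) K k r (shiftL g.toEquiv ρ, shiftL g.toEquiv u) =
      fun v => fout G θ A K k r (ρ, u) (g.symm v) := by
  funext v
  simp only [fout_mk, out_shift, fld, lkv, estT_shift]

/-- Coupled expectations commute with automorphisms. -/
theorem Pe_image (A A' : Finset V) (K k : ℕ) (r : ℝ) (Ψ : (V → ℝ) → (V → ℝ) → ℝ)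
    (hm : Measurable fun p : (V → ℝ) × (V → ℝ) => Ψ p.1 p.2) :
    Pe G θ θ' (A.image g) (A'.image g) K k r Ψ =
      Pe G θ θ' A A' K k r fun a b => Ψ (fun v => a (g.symm v)) fun v => b (g.symm v) := by
  have hf : Measurable fun q => Ψ (fout G θ (A.image g) K k r q) (fout G θ' (A'.image g) K k r q) :=
    hm.comp (((measurable_fout G θ _ K k).comp measurable_prodMk_left).prodMk
      ((measurable_fout G θ' _ K k).comp measurable_prodMk_left))
  have hmap : (omg V).map (Prod.map (shiftL g.toEquiv) (shiftL g.toEquiv)) = omg V := by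
    rw [← Measure.map_prod_map _ _ (measurable_shiftL _) (measurable_shiftL _), map_shiftL]
  unfold Pe
  conv_lhs => rw [← hmap]
  rw [integral_map ((measurable_shiftL _).prodMap (measurable_shiftL _)).aemeasurable
    hf.aestronglyMeasurable]
  refine integral_congr_ae (.of_forall fun q => ?_)
  obtain ⟨ρ, u⟩ := q
  simp only [Prod.map_apply, fout_shift]

lemma half_image (A : Finset V) (x y : V) (hG : G.Connected) :
    half G (A.image g) (g x) (g y) = (half G A x y).image g := by
  ext z
  simp only [mem_half, Finset.mem_image, Far]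
  constructor
  · rintro ⟨⟨a, ha, rfl⟩, hz⟩
    rw [iso_dist hG, iso_dist hG] at hz
    exact ⟨a, ⟨ha, hz⟩, rfl⟩
  · rintro ⟨a, ⟨ha, hz⟩, rfl⟩
    exact ⟨⟨a, ha, rfl⟩, by rwa [iso_dist hG, iso_dist hG]⟩

lemma cav_image (hG : G.Connected) (A : Finset V) (h : V → ℝ) (x y : V) :
    cav G θ (A.image g) h (g x) (g y) = cav G θ A (fun w => h (g w)) x y := by
  unfold cav
  rw [half_image g A x y hG, mu_image]

lemma Wt_image [G.LocallyFinite] (hG : G.IsTree) (A : Finset V) (h : V → ℝ) (x y : V) :
    Wt G θ (A.image g) h (g x) (g y) = Wt G θ A (fun w => h (g w)) x y := by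
  unfold Wt
  have he : inner' G (g x) (g y) = (inner' G x y).image g := by
    unfold inner'
    rw [geo_image hG g]
    ext z
    simp only [Finset.mem_erase, Finset.mem_image, ne_eq]
    constructor
    · rintro ⟨h1, h2, a, ha, rfl⟩
      exact ⟨a, ⟨fun h => h1 (h ▸ rfl), fun h => h2 (h ▸ rfl), ha⟩, rfl⟩
    · rintro ⟨a, ⟨h1, h2, ha⟩, rfl⟩
      exact ⟨fun h => h1 (g.injective h), fun h => h2 (g.injective h), a, ha, rfl⟩
  rw [he, Finset.sum_image g.injective.injOn]
  congr 2
  refine Finset.sum_congr rfl fun i hi => ?_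
  obtain ⟨-, h1, h2⟩ := (mem_inner hG).mp hi
  unfold om
  rw [← iso_tow hG g h1, ← iso_tow hG g h2, cav_image g hG.connected, cav_image g hG.connected,
    mu_image]

lemma dm_image (A A' : Finset V) (v : V) (a b : V → ℝ) :
    dm G θ θ' (A.image g) (A'.image g) (g v) a b =
      dm G θ θ' A A' v (fun w => a (g w)) fun w => b (g w) := by
  simp only [dm, mu_image]

end Iso

variable [Countable V] [DecidableEq V] [G.LocallyFinite] {d : ℕ}

/-- The coupled discrepancy of centred systems does not depend on the centre. -/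
theorem fd_centre (hG : G.IsTree) (hdeg : ∀ v, G.degree v = d)
    (L K k : ℕ) (r : ℝ) (o o' : V) :
    fd G θ θ' (bll G o L) (bll G o L) K k r o = fd G θ θ' (bll G o' L) (bll G o' L) K k r o' := by
  obtain ⟨g, hg, -⟩ := exists_iso hG hdeg (o := o) (u := o) (o' := o') (u' := o') (by simp)
  have hm : Measurable fun p : (V → ℝ) × (V → ℝ) =>
      dm G θ θ' ((bll G o L).image g) ((bll G o L).image g) (g o) p.1 p.2 :=
    (((measurable_mu _ _).comp measurable_fst).sub ((measurable_mu _ _).comp measurable_snd)).pow_const 2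
  have h := Pe_image (θ := θ) (θ' := θ') g (bll G o L) (bll G o L) K k r _ hm
  simp only [dm_image, RelIso.symm_apply_apply] at h
  rw [← bll_image hG.connected g, hg] at h
  exact h.symm

end Vale.Agent.P161.Crit
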