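import Vale.Agent.P161.Crit.Swap

/-!
# The growth away from the start
-/

namespace Vale.Agent.P161.Crit

open MeasureTheory unitInterval Function SimpleGraph Vale.Agent.P161

variable {V : Type*} {G : SimpleGraph V} [G.LocallyFinite] {d : ℕ} {θ θ' : ℝ}

lemma fd_comm (A A' : Finset V) (K k : ℕ) (r : ℝ) (v : V) :
    fd G θ θ' A A' K k r v = fd G θ' θ A' A K k r v :=
  integral_congr_ae (.of_forall fun q => by simp only [dm]; ring)

/-- The weighted discrepancy of a ball. -/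
noncomputable def nearW (G : SimpleGraph V) [G.LocallyFinite] (θ θ' : ℝ) (B : Finset V) (o : V)
    (R : ℕ) (a b : V → ℝ) : ℝ :=
  ∑ w ∈ bll G o R, θ ^ (2 * G.dist o w) * Wt G θ B a o w * ∑ c ∈ geo G o w, dm G θ θ' B B c a b

/-- The weighted size of the ball of radius `R` around `c`. -/
noncomputable def wball (G : SimpleGraph V) [G.LocallyFinite] (θ : ℝ) (B : Finset V) (c : V)
    (R : ℕ) (a : V → ℝ) : ℝ :=
  ∑ u ∈ bll G c R, θ ^ (2 * G.dist c u) * Wt G θ B a c u

lemma wball_nonneg (h0 : 0 ≤ θ) (B : Finset V) (c : V) (R : ℕ) (a : V → ℝ) :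
    0 ≤ wball G θ B c R a :=
  Finset.sum_nonneg fun u _ => mul_nonneg (pow_nonneg h0 _) (Wt_nonneg θ B a c u)

/-- One transported term. -/
noncomputable def tpt (G : SimpleGraph V) [G.LocallyFinite] (θ θ' : ℝ) (B : Finset V) (o c : V)
    (R : ℕ) (a b : V → ℝ) : ℝ :=
  Wt G θ B a o c * dm G θ θ' B B c a b * wball G θ B c R a

variable [DecidableEq V]

lemma nearW_le_tpt (hG : G.IsTree) (h0 : 0 ≤ θ) (h1 : θ < 1) {B : Finset V} {o : V} {R : ℕ}
    {a : V → ℝ} (ha : IsFld a)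
    (b : V → ℝ) :
    nearW G θ θ' B o R a b ≤
      ∑ c ∈ bll G o R, θ ^ (2 * G.dist o c) * tpt G θ θ' B o c R a b := by
  classical
  have hc := hG.connected
  unfold nearW
  simp only [Finset.mul_sum]
  rw [Finset.sum_comm' (t' := bll G o R)
    (s' := fun c => (bll G o R).filter fun w => c ∈ geo G o w) (h := fun w c => by
      simp only [Finset.mem_filter, mem_bll hc]
      constructor
      · rintro ⟨hw, hcg⟩
        refine ⟨⟨hw, hcg⟩, ?_⟩
        rw [mem_geo hG] at hcg; omega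
      · rintro ⟨h, -⟩; exact h)]
  refine Finset.sum_le_sum fun c hc' => ?_
  have hD := dm_nonneg (G := G) (θ := θ) (θ' := θ') B B c a b
  unfold tpt wball
  rw [Finset.mul_sum, Finset.mul_sum]
  refine (Finset.sum_le_sum fun w hw => ?_).trans (Finset.sum_le_sum_of_subset_of_nonneg ?_
    fun u _ _ => mul_nonneg (pow_nonneg h0 _) (mul_nonneg (mul_nonneg (Wt_nonneg θ B a o c) hD)
      (mul_nonneg (pow_nonneg h0 _) (Wt_nonneg θ B a c u))))
  · obtain ⟨-, hg⟩ := Finset.mem_filter.mp hw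
    have hW := Wt_split hG (θ := θ) (h := a) h0 h1 ha (A := B) hg
    rw [Wt_comm hG θ B a c o] at hW
    have hd := (mem_geo hG).mp hg
    rw [← hd, Nat.mul_add, pow_add]
    calc θ ^ (2 * G.dist o c) * θ ^ (2 * G.dist c w) * Wt G θ B a o w * dm G θ θ' B B c a b
        ≤ θ ^ (2 * G.dist o c) * θ ^ (2 * G.dist c w) *
            (Wt G θ B a o c * Wt G θ B a c w) * dm G θ θ' B B c a b :=
          mul_le_mul_of_nonneg_right (mul_le_mul_of_nonneg_left hW
            (mul_nonneg (pow_nonneg h0 _) (pow_nonneg h0 _))) hD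
      _ = _ := by ring
  · intro w hw
    obtain ⟨hwb, hg⟩ := Finset.mem_filter.mp hw
    rw [mem_bll hc] at hwb ⊢
    rw [mem_geo hG] at hg
    omega

lemma wball_image (hG : G.IsTree) (g : G ≃g G) (B : Finset V) (c : V) (R : ℕ) (a : V → ℝ) :
    wball G θ (B.image g) (g c) R a = wball G θ B c R fun w => a (g w) := by
  unfold wball
  rw [bll_image hG.connected g, Finset.sum_image g.injective.injOn]
  exact Finset.sum_congr rfl fun u _ => by rw [iso_dist hG.connected, Wt_image g hG]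

lemma tpt_image (hG : G.IsTree) (g : G ≃g G) (B : Finset V) (o c : V) (R : ℕ) (a b : V → ℝ) :
    tpt G θ θ' (B.image g) (g o) (g c) R a b =
      tpt G θ θ' B o c R (fun w => a (g w)) fun w => b (g w) := by
  simp only [tpt, Wt_image g hG, dm_image, wball_image hG]

variable [Countable V]

namespace Par

variable (P : Par G d θ) (P' : Par G d θ')
include P

omit [Countable V] in
lemma wball_le (B : Finset V) (c : V) (R : ℕ) (a : V → ℝ) :
    wball G θ B c R a ≤ 2 * ((R : ℝ) + 1) := by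
  refine (Finset.sum_le_sum (g := fun u => θ ^ (2 * G.dist c u) * (fun _ : ℕ => (1 : ℝ)) (G.dist c u))
    fun u _ => mul_le_mul_of_nonneg_left (Wt_le_one θ B a c u) (pow_nonneg P.nonneg _)).trans ?_
  refine (P.sum_bll_mass (f := fun _ => (1 : ℝ)) (fun _ => zero_le_one) c R).trans ?_
  refine (Finset.sum_le_card_nsmul _ _ (2 : ℝ) fun k _ => ?_).trans_eq (by simp; ring)
  rw [mul_one]
  linarith [pow_le_one₀ (n := k) P.h_nonneg P.crit]

omit [Countable V] [DecidableEq V] in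
lemma mass_le (c : V) (R : ℕ) : ∑ u ∈ bll G c R, θ ^ (2 * G.dist c u) ≤ 2 * ((R : ℝ) + 1) := by
  refine (le_of_eq (Finset.sum_congr rfl fun u _ => (mul_one _).symm)).trans
    ((P.sum_bll_mass (f := fun _ => (1 : ℝ)) (fun _ => zero_le_one) c R).trans ?_)
  refine (Finset.sum_le_card_nsmul _ _ (2 : ℝ) fun k _ => ?_).trans_eq (by simp; ring)
  rw [mul_one]
  linarith [pow_le_one₀ (n := k) P.h_nonneg P.crit]

lemma isPTest_Wt (B : Finset V) (x y : V) : IsPTest B B fun a _ => Wt G θ B a x y :=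
  IsPTest.fst (isTest_Wt P.abs_lt_one B x y) (C := 1) fun f _ => by
    rw [abs_of_nonneg (Wt_nonneg θ B f x y)]; exact Wt_le_one _ _ _ _ _

lemma isPTest_wball (B : Finset V) (c : V) (R : ℕ) :
    IsPTest B B fun a _ => wball G θ B c R a :=
  IsPTest.sum _ fun u _ => (IsPTest.const B B _).mul (P.isPTest_Wt B c u)

include P'

lemma isPTest_tpt (B : Finset V) (o c : V) (R : ℕ) :
    IsPTest B B (tpt G θ θ' B o c R) :=
  ((P.isPTest_Wt B o c).mul (P.isPTest_dm ⟨P'.nonneg, P'.lt_one⟩ B B c)).mul (P.isPTest_wball B c R)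

/-- Moving the centre of one transported term. -/
lemma tpt_swap (hθ : 0 < θ) (hθ' : 0 < θ') (hlt : ((d : ℝ) - 1) * θ ^ 2 < 1)
    (hlt' : ((d : ℝ) - 1) * θ' ^ 2 < 1) (K R : ℕ) {ε : ℝ} (hε : 0 < ε) :
    ∃ L₀, ∀ L, L₀ ≤ L → ∀ (o c : V), G.dist o c ≤ R → ∀ k < K, ∀ r ∈ Set.Icc (0 : ℝ) (1 / 2),
      Pe G θ θ' (bll G o L) (bll G o L) K k r (tpt G θ θ' (bll G o L) o c R) ≤
        Pe G θ θ' (bll G o L) (bll G o L) K k r (tpt G θ θ' (bll G o L) c o R) + ε := by
  set Cst : ℝ := 5000 * ((R : ℝ) + 1) ^ 3 with hCst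
  obtain ⟨N, hN⟩ := P.stability_abs hθ hlt K (ε := ε / Cst) (by positivity)
  obtain ⟨N', hN'⟩ := P'.stability_abs hθ' hlt' K (ε := ε / Cst) (by positivity)
  refine ⟨N + N' + 3 * R, fun L hL o c hoc k hk r hr => ?_⟩
  have hc := P.tree.connected
  set A := bll G o L
  set A' := bll G c L
  have hA : Convex' G A := convex_bll P.tree o L
  have hA' : Convex' G A' := convex_bll P.tree c L
  obtain ⟨g, g1, g2⟩ := exists_iso P.tree P.deg (o := c) (u := o) (o' := o) (u' := c)
    (by rw [SimpleGraph.dist_comm])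
  have himg : A'.image g = A := by rw [← bll_image hc g, g1]
  have hswap : Pe G θ θ' A A K k r (tpt G θ θ' A c o R) =
      Pe G θ θ' A' A' K k r (tpt G θ θ' A' o c R) := by
    have h := Pe_image (θ := θ) (θ' := θ') g A' A' K k r (tpt G θ θ' A c o R)
      (P.isPTest_tpt P' A c o R).meas
    rw [himg] at h
    rw [h]
    refine Pe_congr fun a b _ _ => ?_
    conv_lhs => rw [← himg, ← g2, ← (show g c = o from g1)]
    rw [tpt_image P.tree]
    simp [g2, g1]
  rw [hswap]
  set M : Finset V → ℝ → V → (V × ℕ → I) × (V × ℕ → I) → ℝ := fun B φ v q => Mq G φ B K k r v q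
  set near := bll G o (2 * R)
  have hmem : ∀ v ∈ near, bll G v (N + N') ⊆ A ∧ bll G v (N + N') ⊆ A' := by
    intro v hv
    rw [mem_bll hc] at hv
    constructor <;> intro y hy <;> rw [mem_bll hc] at hy ⊢
    · have : G.dist o y ≤ G.dist o v + G.dist v y := hc.dist_triangle
      omega
    · have t1 : G.dist c y ≤ G.dist c v + G.dist v y := hc.dist_triangle
      have t2 : G.dist c v ≤ G.dist c o + G.dist o v := hc.dist_triangle
      rw [SimpleGraph.dist_comm (u := c) (v := o)] at t2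
      omega
  have hin : ∀ v ∈ near, v ∈ A ∧ v ∈ A' := fun v hv =>
    ⟨(hmem v hv).1 (self_mem_bll hc v _), (hmem v hv).2 (self_mem_bll hc v _)⟩
  set δ := fun v q => |M A θ v q - M A' θ v q|
  set δ' := fun v q => |M A θ' v q - M A' θ' v q|
  have hgeo1 : geo G o c ⊆ near := fun x hx => by
    rw [mem_geo P.tree] at hx; rw [mem_bll hc]; omega
  have hgeo2 : ∀ u ∈ bll G c R, geo G c u ⊆ near := fun u hu x hx => by
    rw [mem_geo P.tree] at hx; rw [mem_bll hc] at hu ⊢
    have t : G.dist o x ≤ G.dist o c + G.dist c x := hc.dist_triangle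
    omega
  set Err : (V × ℕ → I) × (V × ℕ → I) → ℝ := fun q =>
    8 * ((R : ℝ) + 1) * (300 * ((R : ℝ) + 1) * ∑ x ∈ geo G o c, δ x q) +
      8 * ((R : ℝ) + 1) * (δ c q + δ' c q) +
      4 * ∑ u ∈ bll G c R, θ ^ (2 * G.dist c u) * (300 * ((R : ℝ) + 1) * ∑ x ∈ geo G c u, δ x q)
  have hmd : ∀ {φ : ℝ}, 0 ≤ φ → φ < 1 → ∀ v, Integrable (fun q => |M A φ v q - M A' φ v q|) (omg V) :=
    fun {φ} h0 h1 v => integrable_bdd ((measurable_Mq A K k r v).sub (measurable_Mq A' K k r v)).abs 2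
      fun q => by
        have a := abs_le.mp (abs_Mq_le (G := G) h0 h1 A K k r v q)
        have b := abs_le.mp (abs_Mq_le (G := G) h0 h1 A' K k r v q)
        simp only [Pi.sub_apply, abs_abs]
        exact abs_le.mpr ⟨by linarith, by linarith⟩
  have iδ : ∀ v, Integrable (δ v) (omg V) := hmd P.nonneg P.lt_one
  have iδ' : ∀ v, Integrable (δ' v) (omg V) := hmd P'.nonneg P'.lt_one
  have iErr : Integrable Err (omg V) :=
    (((integrable_finsetSum _ fun x _ => iδ x).const_mul _).const_mul _ |>.add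
      (((iδ c).add (iδ' c)).const_mul _)).add
      ((integrable_finsetSum _ fun u _ =>
        ((integrable_finsetSum _ fun x _ => iδ x).const_mul _).const_mul _).const_mul _)
  have hpt : ∀ q, tpt G θ θ' A o c R (fout G θ A K k r q) (fout G θ' A K k r q) ≤
      tpt G θ θ' A' o c R (fout G θ A' K k r q) (fout G θ' A' K k r q) + Err q := by
    intro q
    have hf := isFld_fout G θ A K k r q
    have hg := isFld_fout G θ A' K k r q
    set a := fout G θ A K k r q
    set a' := fout G θ A' K k r q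
    set b := fout G θ' A K k r q
    set b' := fout G θ' A' K k r q
    have hW1 := P.Wt_swap hA hA' hf hg (hin o (self_mem_bll hc o _)).1
      (hin c (hgeo1 (right_mem_geo P.tree o c))).1 (hin o (self_mem_bll hc o _)).2
      (hin c (hgeo1 (right_mem_geo P.tree o c))).2
    have hR1 : ((G.dist o c : ℝ) + 1) ≤ (R : ℝ) + 1 := by exact_mod_cast Nat.add_le_add_right hoc 1
    have hW1' : |Wt G θ A a o c - Wt G θ A' a' o c| ≤
        300 * ((R : ℝ) + 1) * ∑ x ∈ geo G o c, δ x q :=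
      hW1.trans (mul_le_mul_of_nonneg_right (mul_le_mul_of_nonneg_left hR1 (by norm_num))
        (Finset.sum_nonneg fun x _ => abs_nonneg _))
    have hS : |wball G θ A c R a - wball G θ A' c R a'| ≤
        ∑ u ∈ bll G c R, θ ^ (2 * G.dist c u) * (300 * ((R : ℝ) + 1) * ∑ x ∈ geo G c u, δ x q) := by
      unfold wball
      rw [← Finset.sum_sub_distrib]
      refine (Finset.abs_sum_le_sum_abs _ _).trans (Finset.sum_le_sum fun u hu => ?_)
      rw [← mul_sub, abs_mul, abs_of_nonneg (pow_nonneg P.nonneg _)]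
      refine mul_le_mul_of_nonneg_left ?_ (pow_nonneg P.nonneg _)
      have hcn := hgeo2 u hu (left_mem_geo P.tree c u)
      have hun := hgeo2 u hu (right_mem_geo P.tree c u)
      refine (P.Wt_swap hA hA' hf hg (hin c hcn).1 (hin u hun).1 (hin c hcn).2 (hin u hun).2).trans ?_
      refine mul_le_mul_of_nonneg_right (mul_le_mul_of_nonneg_left ?_ (by norm_num))
        (Finset.sum_nonneg fun x _ => abs_nonneg _)
      exact_mod_cast Nat.add_le_add_right ((mem_bll hc).mp hu) 1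
    have hbd : ∀ {φ : ℝ}, 0 ≤ φ → φ < 1 → ∀ (B : Finset V) {f : V → ℝ}, IsFld f → ∀ v,
        |mu G φ B f v| ≤ 1 := fun {φ} h0 h1 B {f} hf v => abs_mu_le h0 h1 B hf v
    have hD : |dm G θ θ' A A c a b - dm G θ θ' A' A' c a' b'| ≤ 4 * (δ c q + δ' c q) := by
      unfold dm
      rw [sq_sub_sq, abs_mul]
      refine mul_le_mul ?_ ?_ (abs_nonneg _) (by norm_num)
      · have := abs_le.mp (hbd P.nonneg P.lt_one A hf c)
        have := abs_le.mp (hbd P.nonneg P.lt_one A' hg c)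
        have := abs_le.mp (hbd P'.nonneg P'.lt_one A (isFld_fout G θ' A K k r q) c)
        have := abs_le.mp (hbd P'.nonneg P'.lt_one A' (isFld_fout G θ' A' K k r q) c)
        exact abs_le.mpr ⟨by linarith, by linarith⟩
      · refine le_trans (le_of_eq ?_) (abs_sub _ _)
        simp only [M, Mq, δ, δ', a, a', b, b']
        congr 1
        ring
    have hD4 := P.dm_le_four (θ' := θ') ⟨P'.nonneg, P'.lt_one⟩ A' A' c (a := a') (b := b') hg
      (isFld_fout G θ' A' K k r q)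
    have hD4' := P.dm_le_four (θ' := θ') ⟨P'.nonneg, P'.lt_one⟩ A A c (a := a) (b := b) hf
      (isFld_fout G θ' A K k r q)
    have hS1 := P.wball_le A c R a
    have hS0 := wball_nonneg (G := G) P.nonneg A c R a
    set W := Wt G θ A a o c
    set W' := Wt G θ A' a' o c
    set D := dm G θ θ' A A c a b
    set D' := dm G θ θ' A' A' c a' b'
    set S := wball G θ A c R a
    set S' := wball G θ A' c R a'
    have hW0 : 0 ≤ W' := Wt_nonneg θ A' a' o c
    have hW'1 : W' ≤ 1 := Wt_le_one θ A' a' o c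
    have e1 : (W - W') * (D * S) ≤
        300 * ((R : ℝ) + 1) * (∑ x ∈ geo G o c, δ x q) * (4 * (2 * ((R : ℝ) + 1))) :=
      mul_le_mul ((le_abs_self _).trans hW1') (mul_le_mul hD4' hS1 hS0 (by norm_num))
        (mul_nonneg (dm_nonneg _ _ _ _ _) hS0)
        (mul_nonneg (by positivity) (Finset.sum_nonneg fun x _ => abs_nonneg _))
    have e2 : W' * ((D - D') * S) ≤ 1 * (4 * (δ c q + δ' c q) * (2 * ((R : ℝ) + 1))) := by
      refine (mul_le_mul_of_nonneg_left (mul_le_mul_of_nonneg_right ((le_abs_self _).trans hD) hS0)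
        hW0).trans ?_
      refine mul_le_mul hW'1 (mul_le_mul_of_nonneg_left hS1 ?_) ?_ zero_le_one
      · exact (abs_nonneg _).trans hD
      · exact mul_nonneg ((abs_nonneg _).trans hD) hS0
    have e3 : W' * D' * (S - S') ≤ 1 * 4 * ∑ u ∈ bll G c R, θ ^ (2 * G.dist c u) *
        (300 * ((R : ℝ) + 1) * ∑ x ∈ geo G c u, δ x q) := by
      refine (mul_le_mul_of_nonneg_left ((le_abs_self _).trans hS)
        (mul_nonneg hW0 (dm_nonneg _ _ _ _ _))).trans (mul_le_mul_of_nonneg_right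
          (mul_le_mul hW'1 hD4 (dm_nonneg _ _ _ _ _) zero_le_one) ((abs_nonneg _).trans hS))
    simp only [tpt, Err]
    linarith [show W * D * S = W' * D' * S' + (W - W') * (D * S) + W' * ((D - D') * S) +
      W' * D' * (S - S') by ring]
  have hI : ∀ B, Integrable (fun q => tpt G θ θ' B o c R (fout G θ B K k r q) (fout G θ' B K k r q))
      (omg V) := fun B => (P.isPTest_tpt P' B o c R).integrable G θ θ' B B K k r
  refine (integral_mono (hI A) ((hI A').add iErr) hpt).trans ?_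
  rw [integral_add' (hI A') iErr]
  refine add_le_add le_rfl ?_
  have hδ : ∀ v ∈ near, ∫ q, δ v q ∂omg V ≤ ε / Cst := fun v hv =>
    hN v A A' hA hA' ((bll_mono hc v (by omega)).trans (hmem v hv).1)
      ((bll_mono hc v (by omega)).trans (hmem v hv).2) k hk r hr
  have hδ' : ∀ v ∈ near, ∫ q, δ' v q ∂omg V ≤ ε / Cst := fun v hv =>
    hN' v A A' hA hA' ((bll_mono hc v (by omega)).trans (hmem v hv).1)
      ((bll_mono hc v (by omega)).trans (hmem v hv).2) k hk r hr
  have hgs : ∀ x y, geo G x y ⊆ near → G.dist x y ≤ R →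
      ∑ z ∈ geo G x y, ∫ q, δ z q ∂omg V ≤ ((R : ℝ) + 1) * (ε / Cst) := fun x y hsub hxy => by
    refine (Finset.sum_le_card_nsmul _ _ _ fun z hz => hδ z (hsub hz)).trans ?_
    rw [nsmul_eq_mul, card_geo P.tree]
    refine mul_le_mul_of_nonneg_right ?_ (by positivity)
    exact_mod_cast Nat.add_le_add_right hxy 1
  have hcn : c ∈ near := hgeo1 (right_mem_geo P.tree o c)
  have hmass : ∑ u ∈ bll G c R, θ ^ (2 * G.dist c u) ≤ 2 * ((R : ℝ) + 1) := P.mass_le c R
  simp only [Err]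
  rw [integral_add ((((integrable_finsetSum _ fun x _ => iδ x).const_mul _).const_mul _).fun_add
      (((iδ c).fun_add (iδ' c)).const_mul _))
      ((integrable_finsetSum _ fun u _ =>
        ((integrable_finsetSum _ fun x _ => iδ x).const_mul _).const_mul _).const_mul _),
    integral_add (((integrable_finsetSum _ fun x _ => iδ x).const_mul _).const_mul _)
      (((iδ c).fun_add (iδ' c)).const_mul _),
    integral_const_mul, integral_const_mul, integral_const_mul, integral_const_mul,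
    integral_add (iδ c) (iδ' c),
    integral_finsetSum _ fun x _ => iδ x,
    integral_finsetSum _ fun u _ => ((integrable_finsetSum _ fun x _ => iδ x).const_mul _).const_mul _]
  have b1 := hgs o c hgeo1 hoc
  have b2 : ∑ u ∈ bll G c R, ∫ q, θ ^ (2 * G.dist c u) *
      (300 * ((R : ℝ) + 1) * ∑ x ∈ geo G c u, δ x q) ∂omg V ≤
      2 * ((R : ℝ) + 1) * (300 * ((R : ℝ) + 1) * (((R : ℝ) + 1) * (ε / Cst))) := by
    refine (Finset.sum_le_sum (g := fun u => θ ^ (2 * G.dist c u) *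
      (300 * ((R : ℝ) + 1) * (((R : ℝ) + 1) * (ε / Cst)))) fun u hu => ?_).trans ?_
    · rw [integral_const_mul, integral_const_mul, integral_finsetSum _ fun x _ => iδ x]
      refine mul_le_mul_of_nonneg_left (mul_le_mul_of_nonneg_left
        (hgs c u (hgeo2 u hu) ((mem_bll hc).mp hu)) (by positivity)) (pow_nonneg P.nonneg _)
    · rw [← Finset.sum_mul]
      exact mul_le_mul_of_nonneg_right hmass (by positivity)
  have b3 := add_le_add (hδ c hcn) (hδ' c hcn)
  have hR0 : (1 : ℝ) ≤ (R : ℝ) + 1 := le_add_of_nonneg_left (Nat.cast_nonneg R)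
  set X := (R : ℝ) + 1
  set e := ε / Cst
  have he : 0 ≤ e := by positivity
  have hXe : e * (X * 16) ≤ e * (X ^ 3 * 16) := by
    refine mul_le_mul_of_nonneg_left (mul_le_mul_of_nonneg_right ?_ (by norm_num)) he
    exact le_self_pow₀ hR0 (by norm_num)
  have hX3 : 8 * X * (300 * X * (X * e)) + 8 * X * (e + e) + 4 * (2 * X * (300 * X * (X * e))) ≤
      Cst * e := by rw [hCst]; nlinarith
  calc _ ≤ 8 * X * (300 * X * (X * e)) + 8 * X * (e + e) + 4 * (2 * X * (300 * X * (X * e))) := by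
        refine add_le_add (add_le_add ?_ ?_) ?_
        · exact mul_le_mul_of_nonneg_left (mul_le_mul_of_nonneg_left b1 (by positivity)) (by positivity)
        · exact mul_le_mul_of_nonneg_left b3 (by positivity)
        · exact mul_le_mul_of_nonneg_left b2 (by norm_num)
    _ ≤ Cst * e := hX3
    _ = ε := mul_div_cancel₀ _ (ne_of_gt (by positivity))

/-- The weighted discrepancy of a ball is that of its centre times a squared weighted size. -/
theorem near_bound (hθ : 0 < θ) (hθ' : 0 < θ') (hlt : ((d : ℝ) - 1) * θ ^ 2 < 1)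
    (hlt' : ((d : ℝ) - 1) * θ' ^ 2 < 1) (K R : ℕ) {ε : ℝ} (hε : 0 < ε) :
    ∃ L₀, ∀ L, L₀ ≤ L → ∀ o : V, ∀ k < K, ∀ r : ℝ, 0 < r → r ≤ 1 / 2 → ∀ n : ℕ,
      Pe G θ θ' (bll G o L) (bll G o L) K k r (nearW G θ θ' (bll G o L) o R) ≤
        Lt n k r ^ 2 * (fd G θ θ' (bll G o L) (bll G o L) K k r o +
          4 * Real.exp (-(2 * ((d : ℝ) - 1) ^ n))) + ε := by
  set S0 : ℝ := 2 * ((R : ℝ) + 1) with hS0
  obtain ⟨L₀, hL₀⟩ := P.tpt_swap P' hθ hθ' hlt hlt' K R (ε := ε / S0) (by positivity)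
  refine ⟨L₀ + R + 1, fun L hL o k hk r hr hr1 n => ?_⟩
  obtain ⟨m, rfl⟩ : ∃ m, L = m + 1 := ⟨L - 1, by omega⟩
  have hc := P.tree.connected
  set B := bll G o (m + 1)
  have hB : Convex' G B := convex_bll P.tree o _
  have ho : o ∈ B := self_mem_bll hc o _
  have hτ := tau_pos (k := k) hr hr1
  have hrI : r ∈ Set.Icc (0 : ℝ) (1 / 2) := ⟨hr.le, hr1⟩
  have P0 : 0 ≤ θ' ∧ θ' < 1 := ⟨P'.nonneg, P'.lt_one⟩
  have hdm := P.isPTest_dm P0 B B o
  have hT : ∀ c, IsPTest B B fun a b => θ ^ (2 * G.dist o c) * tpt G θ θ' B o c R a b := fun c =>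
    (IsPTest.const B B _).mul (P.isPTest_tpt P' B o c R)
  have hTs : ∀ c, IsPTest B B fun a b => θ ^ (2 * G.dist o c) * tpt G θ θ' B c o R a b := fun c =>
    (IsPTest.const B B _).mul (P.isPTest_tpt P' B c o R)
  have hN : IsPTest B B (nearW G θ θ' B o R) := IsPTest.sum _ fun w _ =>
    ((IsPTest.const B B _).mul (P.isPTest_Wt B o w)).mul
      (IsPTest.sum _ fun c _ => P.isPTest_dm P0 B B c)
  refine (Pe_mono hN (IsPTest.sum (bll G o R) fun c _ => hT c) fun a b ha _ =>
    nearW_le_tpt P.tree P.nonneg P.lt_one ha b).trans ?_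
  rw [Pe_sum _ fun c _ => hT c]
  have hmass : ∑ c ∈ bll G o R, θ ^ (2 * G.dist o c) ≤ S0 := P.mass_le o R
  have hstep : ∀ c ∈ bll G o R, Pe G θ θ' B B K k r
      (fun a b => θ ^ (2 * G.dist o c) * tpt G θ θ' B o c R a b) ≤
      Pe G θ θ' B B K k r (fun a b => θ ^ (2 * G.dist o c) * tpt G θ θ' B c o R a b) +
        θ ^ (2 * G.dist o c) * (ε / S0) := fun c hc' => by
    rw [Pe_const_mul, Pe_const_mul, ← mul_add]
    exact mul_le_mul_of_nonneg_left (hL₀ (m + 1) (by omega) o c ((mem_bll hc).mp hc') k hk r hrI)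
      (pow_nonneg P.nonneg _)
  refine (Finset.sum_le_sum hstep).trans ?_
  rw [Finset.sum_add_distrib, ← Finset.sum_mul]
  refine add_le_add ?_ ((mul_le_mul_of_nonneg_right hmass (by positivity)).trans_eq
    (mul_div_cancel₀ _ (ne_of_gt (by positivity))))
  rw [← Pe_sum _ fun c _ => hTs c]
  set Lr := Lt n k r
  set ar := At d n k r
  have hLr : 0 < Lr := P.Lt_pos hτ
  have hE : IsB B fun f => Real.exp (ar * (PB G θ B m o f - Lr)) :=
    (isB_PB P.tree P.nonneg P.lt_one B m o).comp_real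
      (φ := fun x => Real.exp (ar * (x - Lr))) (by fun_prop)
  obtain ⟨C, hC⟩ := hE.bdd
  have hEp : IsPTest B B fun a _ => Real.exp (ar * (PB G θ B m o a - Lr)) := IsPTest.fst hE.test hC
  refine (Pe_mono (IsPTest.sum _ fun c _ => hTs c)
    (((IsPTest.const B B (Lr ^ 2)).mul hdm).add ((IsPTest.const B B (4 * Lr ^ 2)).mul hEp))
    fun a b ha hb => ?_).trans ?_
  · have hD0 := dm_nonneg (G := G) (θ := θ) (θ' := θ') B B o a b
    have e : ∑ c ∈ bll G o R, θ ^ (2 * G.dist o c) * tpt G θ θ' B c o R a b =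
        dm G θ θ' B B o a b * wball G θ B o R a ^ 2 := by
      rw [sq, ← mul_assoc]
      conv_rhs => rw [mul_comm (dm G θ θ' B B o a b) (wball G θ B o R a)]
      rw [wball, Finset.sum_mul, Finset.sum_mul]
      refine Finset.sum_congr rfl fun c _ => ?_
      rw [tpt, Wt_comm P.tree θ B a c o, wball]
      ring
    rw [e]
    refine le_trans ?_ (sq_le_thr (a := ar) hLr (P.two_le_At_mul_Lt hτ)
      (zero_le_one.trans (one_le_PB B m o a)) hD0 (P.dm_le_four P0 B B o ha hb))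
    refine mul_le_mul_of_nonneg_left (pow_le_pow_left₀ (wball_nonneg P.nonneg B o R a) ?_ 2) hD0
    exact sum_Wt_le_PB P.tree P.nonneg P.lt_one ha o (by omega)
  · rw [Pe_add (B := B) (B' := B) ((IsPTest.const B B (Lr ^ 2)).mul hdm)
      ((IsPTest.const B B (4 * Lr ^ 2)).mul hEp), Pe_const_mul, Pe_const_mul,
      Pe_fst P.tree P.abs_lt_one P.nonneg P.lt_one hB ⟨o, ho⟩ hE, mul_add]
    refine add_le_add le_rfl ?_
    refine (mul_le_mul_of_nonneg_left (P.exp_PB (by omega) hτ o m n) (by positivity)).trans_eq ?_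
    ring

omit P' in
/-- The weight outside a ball. -/
theorem far_bound (P0 : 0 ≤ θ' ∧ θ' < 1) (o : V) (L R : ℕ) {K k : ℕ} (hK : 0 < K) {r : ℝ}
    (hτ : 0 < tau k r) :
    Pe G θ θ' (bll G o L) (bll G o L) K k r (fun a _ =>
        ∑ w ∈ (bll G o L).filter (fun w => ¬ G.dist o w ≤ R),
          θ ^ (2 * G.dist o w) * Wt G θ (bll G o L) a o w) ≤
      8 * ((1 - eta k r) ^ (R + 1) / eta k r) := by
  have hc := P.tree.connected
  set B := bll G o L
  have hB : Convex' G B := convex_bll P.tree o L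
  have ho : o ∈ B := self_mem_bll hc o L
  obtain ⟨hη, hη1⟩ := P.eta_pos (k := k) (r := r) hτ
  have hWB : ∀ w, IsB B fun f => Wt G θ B f o w := fun w =>
    ⟨isTest_Wt P.abs_lt_one B o w, 1, fun f _ => by
      rw [abs_of_nonneg (Wt_nonneg θ B f o w)]; exact Wt_le_one _ _ _ _ _⟩
  rw [Pe_fst P.tree P.abs_lt_one P.nonneg P.lt_one hB ⟨o, ho⟩
    (IsB.sum _ fun w _ => (IsB.const B _).mul (hWB w)),
    St_sum P.tree P.abs_lt_one hB ⟨o, ho⟩ _ fun w _ => (IsB.const B _).mul (hWB w)]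
  simp only [St_const_mul]
  set T := St G θ B K k r
  have hfib : ∀ w ∈ B.filter (fun w => ¬ G.dist o w ≤ R), G.dist o w ∈ Finset.Ico (R + 1) (L + 1) := by
    intro w hw
    obtain ⟨h1, h2⟩ := Finset.mem_filter.mp hw
    rw [mem_bll hc] at h1
    exact Finset.mem_Ico.mpr ⟨by omega, by omega⟩
  rw [← Finset.sum_fiberwise_of_maps_to hfib]
  refine (Finset.sum_le_sum (g := fun n => 8 * (1 - eta k r) ^ n) fun n hn => ?_).trans ?_
  · set F := (B.filter (fun w => ¬ G.dist o w ≤ R)).filter fun w => G.dist o w = n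
    rcases F.eq_empty_or_nonempty with he | ⟨w₀, hw₀⟩
    · rw [he, Finset.sum_empty]
      exact mul_nonneg (by norm_num) (pow_nonneg (by linarith) _)
    have hterm : ∀ w ∈ F, θ ^ (2 * G.dist o w) * T (fun f => Wt G θ B f o w) ≤
        4 * (1 - eta k r) ^ n / ((d : ℝ) - 1) ^ n := by
      intro w hw
      obtain ⟨hw1, hwn⟩ := Finset.mem_filter.mp hw
      have hwB := (Finset.mem_filter.mp hw1).1
      have hWS := P.sphere_Wt hB hK hτ (o := o) (u := w)
        (bll_mono hc o (by rw [mem_bll hc] at hwB; omega)) hwB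
      rw [hwn, mul_pow, ← pow_mul, mul_assoc, ← le_div_iff₀'
        (pow_pos (by linarith [P.two_le]) _)] at hWS
      rw [hwn]
      exact hWS
    refine (Finset.sum_le_card_nsmul _ _ _ hterm).trans ?_
    rw [nsmul_eq_mul]
    have hcard : (F.card : ℝ) ≤ 2 * ((d : ℝ) - 1) ^ n := by
      have h1 : F ⊆ sph G o n := fun w hw => (mem_sph hc).mpr (Finset.mem_filter.mp hw).2
      refine (Nat.cast_le.mpr (Finset.card_le_card h1)).trans ?_
      rcases n with _ | n
      · simp [sph]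
      rw [card_sph P.tree P.deg]
      have hd := P.three
      push_cast [Nat.cast_sub (show 1 ≤ d by omega)]
      rw [pow_succ' ((d : ℝ) - 1), ← mul_assoc]
      exact mul_le_mul_of_nonneg_right (by linarith [P.two_le])
        (pow_nonneg (by linarith [P.two_le]) _)
    have hq : 0 < ((d : ℝ) - 1) ^ n := pow_pos (by linarith [P.two_le]) _
    refine (mul_le_mul_of_nonneg_right hcard (div_nonneg
      (mul_nonneg (by norm_num) (pow_nonneg (by linarith) _)) hq.le)).trans_eq ?_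
    field_simp
    ring
  · rw [← Finset.mul_sum]
    refine mul_le_mul_of_nonneg_left ?_ (by norm_num)
    have := geom_sum_Ico_le_of_lt_one (m := R + 1) (n := L + 1) (show 0 ≤ 1 - eta k r by linarith)
      (show 1 - eta k r < 1 by linarith)
    rwa [sub_sub_cancel] at this

/-- The error terms of the growth at one vertex. -/
lemma pw_bound {c₀ : ℝ} (hc0 : 0 < c₀) (hlo : c₀ ≤ θ) (hlo' : c₀ ≤ θ') {B : Finset V}
    (hB : Convex' G B) {o w : V} (ho : o ∈ B) (hw : w ∈ B) {a b : V → ℝ} (ha : IsFld a)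
    (hb : IsFld b) :
    pw1 G θ θ' B B o w a b + pw2 G θ θ' B B o w a b ≤
        10 ^ 16 / c₀ ^ 2 * (θ ^ (2 * G.dist o w) * Wt G θ B a o w +
          θ' ^ (2 * G.dist o w) * Wt G θ' B b o w) *
          (∑ c ∈ geo G o w, dm G θ θ' B B c a b + ((G.dist o w : ℝ) + 1) ^ 2 * (θ - θ') ^ 2) ∧
      pw1 G θ θ' B B o w a b + pw2 G θ θ' B B o w a b ≤
        1000 * (θ ^ (2 * G.dist o w) * Wt G θ B a o w +
          θ' ^ (2 * G.dist o w) * Wt G θ' B b o w) := by
  have hc1 : c₀ ≤ 1 := hlo.trans P.lt_one.le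
  simp only [pw1, pw2, if_pos hw, if_pos (And.intro hw hw)]
  have h1 := cov_diff P.tree P.mem_Icc P'.mem_Icc hB hB ha hb hc0 hc1 hlo hlo' ho hw ho hw
  have h2 := cov_mag P.tree (θ := θ) P'.mem_Icc hB hb (A := B) (h := a) ho hw
  have c1 := Cv_sq_le P.tree P.mem_Icc hB ha ho hw
  have c2 := Cv_sq_le P.tree P'.mem_Icc hB hb ho hw
  set T := θ ^ (2 * G.dist o w) * Wt G θ B a o w
  set T' := θ' ^ (2 * G.dist o w) * Wt G θ' B b o w
  have hT : 0 ≤ T := mul_nonneg (pow_nonneg P.nonneg _) (Wt_nonneg θ B a o w)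
  have hT' : 0 ≤ T' := mul_nonneg (pow_nonneg P'.nonneg _) (Wt_nonneg θ' B b o w)
  have hX0 := Dev_nonneg P.tree (θ := θ) (θ' := θ') B B a b o w
  have eD : ∑ c ∈ geo G o w, dm G θ θ' B B c a b + ((G.dist o w : ℝ) + 1) ^ 2 * (θ - θ') ^ 2 =
      Dev G θ θ' B B a b o w := rfl
  rw [eD]
  set X := Dev G θ θ' B B a b o w
  constructor
  · have hk : 200 ≤ 8 * 10 ^ 15 / c₀ ^ 2 := by
      rw [le_div_iff₀ (by positivity)]
      nlinarith [pow_le_one₀ (n := 2) hc0.le hc1]
    have h3 : T' * X ≤ (T + T') * X := mul_le_mul_of_nonneg_right (by linarith) hX0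
    have h4 := mul_le_mul_of_nonneg_right hk (mul_nonneg (add_nonneg hT hT') hX0)
    have e : 10 ^ 16 / c₀ ^ 2 * (T + T') * X =
        4 * (5 * 10 ^ 14 / c₀ ^ 2 * (T + T') * X) + 8 * 10 ^ 15 / c₀ ^ 2 * ((T + T') * X) := by ring
    rw [e]
    linarith
  · have hm : (mu G θ B a w - mu G θ' B b w) ^ 2 ≤ 4 :=
      P.dm_le_four ⟨P'.nonneg, P'.lt_one⟩ B B w ha hb
    have h5 := mul_le_mul c2 hm (sq_nonneg _) hT'
    nlinarith [sq_nonneg (Cv G θ B a o w + Cv G θ' B b o w)]

/-- The integrand of the growth at a time bounded away from the start. -/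
theorem late_integrand {c₀ : ℝ} (hc0 : 0 < c₀) (hlo : c₀ ≤ θ) (hlo' : c₀ ≤ θ')
    (hlt : ((d : ℝ) - 1) * θ ^ 2 < 1) (hlt' : ((d : ℝ) - 1) * θ' ^ 2 < 1) (K R : ℕ) {ε : ℝ}
    (hε : 0 < ε) :
    ∃ L₀, ∀ L, L₀ ≤ L → ∀ o : V, ∀ k < K, ∀ r : ℝ, 0 < r → r ≤ 1 / 2 → ∀ n : ℕ,
      Pe G θ θ' (bll G o L) (bll G o L) K k r (fun a b =>
          ∑ w ∈ bll G o L, (pw1 G θ θ' (bll G o L) (bll G o L) o w a b +
            pw2 G θ θ' (bll G o L) (bll G o L) o w a b)) ≤
        10 ^ 16 / c₀ ^ 2 * (2 * (Lt n k r ^ 2 * (fd G θ θ' (bll G o L) (bll G o L) K k r o +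
            4 * Real.exp (-(2 * ((d : ℝ) - 1) ^ n))) + ε) +
          4 * ((R : ℝ) + 1) ^ 3 * (θ - θ') ^ 2) +
        16000 * ((1 - eta k r) ^ (R + 1) / eta k r) := by
  have hθ : 0 < θ := hc0.trans_le hlo
  have hθ' : 0 < θ' := hc0.trans_le hlo'
  obtain ⟨L₁, h1⟩ := P.near_bound P' hθ hθ' hlt hlt' K R hε
  obtain ⟨L₂, h2⟩ := P'.near_bound P hθ' hθ hlt' hlt K R hε
  refine ⟨L₁ + L₂ + R, fun L hL o k hk r hr hr1 n => ?_⟩
  have hc := P.tree.connected
  set B := bll G o L
  have hB : Convex' G B := convex_bll P.tree o L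
  have ho : o ∈ B := self_mem_bll hc o L
  have hτ := tau_pos (k := k) hr hr1
  have Q : 0 ≤ θ ∧ θ < 1 := ⟨P.nonneg, P.lt_one⟩
  have Q' : 0 ≤ θ' ∧ θ' < 1 := ⟨P'.nonneg, P'.lt_one⟩
  set Kc := (10 : ℝ) ^ 16 / c₀ ^ 2
  have hKc : 0 ≤ Kc := by positivity
  set δ2 := ((R : ℝ) + 1) ^ 2 * (θ - θ') ^ 2
  set N1 : (V → ℝ) → (V → ℝ) → ℝ := nearW G θ θ' B o R
  set N2 : (V → ℝ) → (V → ℝ) → ℝ := fun a b => nearW G θ' θ B o R b a
  set F1 : (V → ℝ) → (V → ℝ) → ℝ := fun a _ =>
    ∑ w ∈ B.filter (fun w => ¬ G.dist o w ≤ R), θ ^ (2 * G.dist o w) * Wt G θ B a o w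
  set F2 : (V → ℝ) → (V → ℝ) → ℝ := fun _ b =>
    ∑ w ∈ B.filter (fun w => ¬ G.dist o w ≤ R), θ' ^ (2 * G.dist o w) * Wt G θ' B b o w
  have hW2 : ∀ w, IsPTest B B fun _ b => Wt G θ' B b o w := fun w =>
    IsPTest.snd (isTest_Wt P'.abs_lt_one B o w) (C := 1) fun f _ => by
      rw [abs_of_nonneg (Wt_nonneg θ' B f o w)]; exact Wt_le_one _ _ _ _ _
  have hN1 : IsPTest B B N1 := IsPTest.sum _ fun w _ =>
    ((IsPTest.const B B _).mul (P.isPTest_Wt B o w)).mul
      (IsPTest.sum _ fun c _ => P.isPTest_dm Q' B B c)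
  have hN2 : IsPTest B B N2 := IsPTest.sum _ fun w _ =>
    ((IsPTest.const B B _).mul (hW2 w)).mul (IsPTest.sum _ fun c _ => by
      have e : (fun a b => dm G θ' θ B B c b a) = dm G θ θ' B B c := by
        funext a b; unfold dm; ring
      rw [e]; exact P.isPTest_dm Q' B B c)
  have hF1 : IsPTest B B F1 := IsPTest.sum _ fun w _ => (IsPTest.const B B _).mul (P.isPTest_Wt B o w)
  have hF2 : IsPTest B B F2 := IsPTest.sum _ fun w _ => (IsPTest.const B B _).mul (hW2 w)
  have hpw : IsPTest B B fun a b =>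
      ∑ w ∈ B, (pw1 G θ θ' B B o w a b + pw2 G θ θ' B B o w a b) := IsPTest.sum _ fun w _ =>
    (isPTest_pw1 P.nonneg P.lt_one P'.nonneg P'.lt_one B B o w).add
      (isPTest_pw2 P.nonneg P.lt_one P'.nonneg P'.lt_one B B o w)
  have hX : IsPTest B B fun a b =>
      Kc * (N1 a b + N2 a b + 4 * ((R : ℝ) + 1) * δ2) + 1000 * (F1 a b + F2 a b) :=
    ((IsPTest.const B B _).mul ((hN1.add hN2).add (IsPTest.const B B _))).add
      ((IsPTest.const B B _).mul (hF1.add hF2))
  refine (Pe_mono hpw hX fun a b ha hb => ?_).trans ?_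
  · rw [← Finset.sum_filter_add_sum_filter_not B fun w => G.dist o w ≤ R]
    refine add_le_add ?_ ?_
    · have hball : B.filter (fun w => G.dist o w ≤ R) = bll G o R := by
        ext w
        simp only [B, Finset.mem_filter, mem_bll hc]
        omega
      rw [hball]
      refine (Finset.sum_le_sum (g := fun w => Kc * (θ ^ (2 * G.dist o w) * Wt G θ B a o w *
          ∑ c ∈ geo G o w, dm G θ θ' B B c a b + θ' ^ (2 * G.dist o w) * Wt G θ' B b o w *
          ∑ c ∈ geo G o w, dm G θ' θ B B c b a +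
          (θ ^ (2 * G.dist o w) + θ' ^ (2 * G.dist o w)) * δ2)) fun w hw => ?_).trans ?_
      · rw [mem_bll hc] at hw
        refine (P.pw_bound P' hc0 hlo hlo' hB ho ((mem_bll hc).mpr (by omega)) ha hb).1.trans ?_
        rw [mul_assoc]
        refine mul_le_mul_of_nonneg_left ?_ hKc
        have e : ∀ c, dm G θ' θ B B c b a = dm G θ θ' B B c a b := fun c => by unfold dm; ring
        simp only [e]
        have hd : ((G.dist o w : ℝ) + 1) ^ 2 * (θ - θ') ^ 2 ≤ δ2 :=
          mul_le_mul_of_nonneg_right (pow_le_pow_left₀ (by positivity)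
            (by exact_mod_cast Nat.add_le_add_right hw 1) 2) (sq_nonneg _)
        have t1 : θ ^ (2 * G.dist o w) * Wt G θ B a o w ≤ θ ^ (2 * G.dist o w) :=
          mul_le_of_le_one_right (pow_nonneg P.nonneg _) (Wt_le_one _ _ _ _ _)
        have t2 : θ' ^ (2 * G.dist o w) * Wt G θ' B b o w ≤ θ' ^ (2 * G.dist o w) :=
          mul_le_of_le_one_right (pow_nonneg P'.nonneg _) (Wt_le_one _ _ _ _ _)
        have t3 := mul_le_mul (add_le_add t1 t2) hd (by positivity)
          (add_nonneg (pow_nonneg P.nonneg _) (pow_nonneg P'.nonneg _))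
        linarith
      · rw [← Finset.mul_sum, Finset.sum_add_distrib, Finset.sum_add_distrib, ← Finset.sum_mul,
          Finset.sum_add_distrib]
        refine mul_le_mul_of_nonneg_left (add_le_add le_rfl ?_) hKc
        refine mul_le_mul_of_nonneg_right ?_ (by positivity)
        linarith [P.mass_le o R, P'.mass_le o R]
    · simp only [F1, F2]
      rw [← Finset.sum_add_distrib, Finset.mul_sum]
      exact Finset.sum_le_sum fun w hw =>
        (P.pw_bound P' hc0 hlo hlo' hB ho (Finset.mem_filter.mp hw).1 ha hb).2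
  · rw [Pe_add (B := B) (B' := B) ((IsPTest.const B B _).mul ((hN1.add hN2).add (IsPTest.const B B _)))
        ((IsPTest.const B B _).mul (hF1.add hF2)),
      Pe_const_mul, Pe_const_mul, Pe_add (hN1.add hN2) (IsPTest.const B B _), Pe_add hN1 hN2,
      Pe_add hF1 hF2]
    have n1 := h1 L (by omega) o k hk r hr hr1 n
    have n2 := h2 L (by omega) o k hk r hr hr1 n
    rw [← fd_comm] at n2
    have hN2e : Pe G θ θ' B B K k r N2 = Pe G θ' θ B B K k r (nearW G θ' θ B o R) := Pe_swap N2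
    have f1 := P.far_bound Q' o L R (k := k) (K := K) (r := r) (by omega) hτ
    have f2 := P'.far_bound Q o L R (k := k) (K := K) (r := r) (by omega) hτ
    have hF2e : Pe G θ θ' B B K k r F2 = Pe G θ' θ B B K k r (fun a _ =>
        ∑ w ∈ B.filter (fun w => ¬ G.dist o w ≤ R), θ' ^ (2 * G.dist o w) * Wt G θ' B a o w) :=
      Pe_swap F2
    have hconst : Pe G θ θ' B B K k r (fun _ _ => 4 * ((R : ℝ) + 1) * δ2) =
        4 * ((R : ℝ) + 1) ^ 3 * (θ - θ') ^ 2 := by
      simp [Pe, δ2]; ring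
    rw [hN2e, hF2e, hconst]
    refine add_le_add (mul_le_mul_of_nonneg_left (add_le_add ?_ le_rfl) hKc) ?_
    · linarith
    · linarith

end Par

end Vale.Agent.P161.Crit
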