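import Vale.Agent.P161.Crit.Branch

/-!
# A lower bound on the information in a side branch
-/

namespace Vale.Agent.P161.Crit

open MeasureTheory unitInterval Function SimpleGraph Vale.Agent.P161

variable {V : Type*} {G : SimpleGraph V} {θ : ℝ}

open Classical in
/-- The mean squared strength of the observation of round zero at one vertex. -/
noncomputable def tau (k : ℕ) (r : ℝ) : ℝ :=
  (∫ t : I, (if 0 < k ∨ (t : ℝ) < r then est1 t else 0) ^ 2) / 3

/-- The decay rate of the weights at time `(k, r)`. -/
noncomputable def eta (k : ℕ) (r : ℝ) : ℝ := Real.sqrt (tau k r) / 400000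

/-- The depth that carries enough information at time `(k, r)`. -/
noncomputable def Rad (k : ℕ) (r : ℝ) : ℕ := ⌊1 / Real.sqrt (tau k r)⌋₊ + 1

lemma tau_nonneg (k : ℕ) (r : ℝ) : 0 ≤ tau k r :=
  div_nonneg (integral_nonneg fun t => sq_nonneg _) (by norm_num)

lemma tau_le_one (k : ℕ) (r : ℝ) : tau k r ≤ 1 := by
  classical
  have h : ∀ t : I, (if 0 < k ∨ (t : ℝ) < r then est1 t else 0) ^ 2 ≤ 1 := fun t => by
    obtain ⟨a, -, c⟩ := est1_mem (t := (t : ℝ)) t.2.1
    split_ifs <;> nlinarith
  have := integral_mono_of_nonneg (μ := (volume : Measure I)) (.of_forall fun t => sq_nonneg _)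
    (integrable_const (1 : ℝ)) (.of_forall h)
  simp only [integral_const, probReal_univ, one_smul] at this
  unfold tau
  linarith

lemma tau_lower {k : ℕ} {r : ℝ} (hr0 : 0 ≤ r) (hr1 : r ≤ 1 / 2) :
    (if k = 0 then r else 1 / 2) ^ 3 / 288 ≤ tau k r := by
  classical
  set t₀ := (if k = 0 then r else (1 : ℝ) / 2) with ht₀
  have ht : 0 ≤ t₀ ∧ t₀ ≤ 1 / 2 := by rw [ht₀]; split_ifs <;> constructor <;> linarith
  set m := t₀ / 2 with hm
  have hm1 : m ≤ 1 / 4 := by linarith
  have hm0 : 0 ≤ m := by linarith
  have hlow : ∀ t : I, (if (t : ℝ) < m then (t : ℝ) ^ 2 / 4 else 0) ≤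
      (if 0 < k ∨ (t : ℝ) < r then est1 t else 0) ^ 2 := fun t => by
    by_cases h : (t : ℝ) < m
    · rw [if_pos h, if_pos]
      · have : (t : ℝ) / 2 ≤ est1 t := by
          rw [est1, max_eq_right (by linarith)]
          nlinarith [t.2.1]
        nlinarith [t.2.1]
      · rcases Nat.eq_zero_or_pos k with hk | hk
        · right; rw [ht₀, if_pos hk] at hm; linarith [t.2.1]
        · exact Or.inl hk
    · rw [if_neg h]; positivity
  have hmeas : Measurable fun t : I => (if 0 < k ∨ (t : ℝ) < r then est1 t else 0) ^ 2 :=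
    (Measurable.ite ((MeasurableSet.const _).union
      (measurableSet_lt measurable_subtype_coe measurable_const))
      (continuous_est1.measurable.comp measurable_subtype_coe) measurable_const).pow_const 2
  have hi := integral_mono_of_nonneg (μ := (volume : Measure I))
    (.of_forall fun t => by split_ifs <;> positivity)
    (integrable_bdd hmeas 1 fun t => by
      obtain ⟨a, -, c⟩ := est1_mem (t := (t : ℝ)) t.2.1
      rw [abs_of_nonneg (sq_nonneg _)]
      split_ifs <;> nlinarith)
    (.of_forall hlow)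
  have hval : ∫ t : I, (if (t : ℝ) < m then (t : ℝ) ^ 2 / 4 else 0) = m ^ 3 / 12 := by
    rw [integral_unitInterval, intervalIntegral.integral_of_le zero_le_one,
      setIntegral_congr_fun measurableSet_Ioc (g := (Set.Iio m).indicator fun x => x ^ 2 / 4)
        fun x hx => by
          simp only [Set.projIcc_of_mem zero_le_one (Set.Ioc_subset_Icc_self hx), Set.indicator,
            Set.mem_Iio],
      setIntegral_indicator measurableSet_Iio]
    have e : Set.Ioc (0 : ℝ) 1 ∩ Set.Iio m = Set.Ioo 0 m := by
      ext x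
      simp only [Set.mem_inter_iff, Set.mem_Ioc, Set.mem_Iio, Set.mem_Ioo]
      exact ⟨fun h => ⟨h.1.1, h.2⟩, fun h => ⟨⟨h.1, by linarith [h.2]⟩, h.2⟩⟩
    rw [e, ← integral_Ioc_eq_integral_Ioo, ← intervalIntegral.integral_of_le hm0,
      intervalIntegral.integral_div, integral_pow]
    ring
  rw [hval] at hi
  have e : t₀ ^ 3 / 288 = (m ^ 3 / 12) / 3 := by rw [hm]; ring
  rw [e]
  exact div_le_div_of_nonneg_right hi (by norm_num)

variable [Countable V] [DecidableEq V]

/-- The mean squared strength at a vertex does not depend on it. -/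
lemma integral_estT_sq (k : ℕ) (r : ℝ) (x : V) :
    ∫ ρ, estT ρ k r (x, 0) ^ 2 ∂iidLabels (V × ℕ) = 3 * tau k r := by
  classical
  have e : ∀ ρ : V × ℕ → I, estT ρ k r (x, 0) =
      (fun t : I => if 0 < k ∨ (t : ℝ) < r then est1 t else 0) (ρ (x, 0)) := fun ρ => by
    have hiff : Bef ρ k r (x, 0) ↔ (0 < k ∨ (ρ (x, 0) : ℝ) < r) := by
      unfold Bef
      constructor
      · rintro (h | ⟨-, h⟩)
        exacts [Or.inl h, Or.inr h]
      · rintro (h | h)
        · exact Or.inl h
        · rcases Nat.eq_zero_or_pos k with hk | hk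
          · exact Or.inr ⟨hk.symm, h⟩
          · exact Or.inl hk
    unfold estT est
    by_cases h : Bef ρ k r (x, 0)
    · simp only [if_pos h, if_pos (hiff.mp h)]
    · simp only [if_neg h, if_neg fun h' => h (hiff.mpr h')]
  simp only [e]
  have hf : Measurable fun t : I => (if 0 < k ∨ (t : ℝ) < r then est1 t else 0) ^ 2 :=
    (Measurable.ite ((MeasurableSet.const _).union
      (measurableSet_lt measurable_subtype_coe measurable_const))
      (continuous_est1.measurable.comp measurable_subtype_coe) measurable_const).pow_const 2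
  have := integral_prod_coord {(x, 0)} (fun _ t => (if 0 < k ∨ (t : ℝ) < r then est1 t else 0) ^ 2)
    fun _ _ => hf
  simp only [Finset.prod_singleton] at this
  rw [this, tau]
  ring

variable [G.LocallyFinite] (hG : G.IsTree) (hθ0 : 0 ≤ θ) (hθ1 : θ < 1)
include hG hθ0 hθ1

/-- The posterior of a spin learns from the readings of round zero nearby. -/
theorem mu_sq_lower {D : Finset V} (hD : Convex' G D) {w : V} (hw : w ∈ D) {T : Finset V}
    (hTD : T ⊆ D) {c : ℝ} (hc : 0 ≤ c)
    (hT : ∀ x ∈ T, ∑ x' ∈ T, θ ^ G.dist w x' * θ ^ G.dist x x' ≤ c * θ ^ G.dist w x)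
    {K : ℕ} (hK : 0 < K) (k : ℕ) (r : ℝ) :
    tau k r * (∑ x ∈ T, θ ^ (2 * G.dist w x)) / (1 + tau k r * c) ≤
      St G θ D K k r (fun f => mu G θ D f w ^ 2) := by
  classical
  have habs : |θ| < 1 := by rwa [abs_of_nonneg hθ0]
  set H := ∑ x ∈ T, θ ^ (2 * G.dist w x)
  set l := 1 / (1 + tau k r * c) with hl
  have hden : 0 < 1 + tau k r * c := by nlinarith [tau_nonneg k r]
  set B : (V × ℕ → I) → ℝ := fun ρ => 2 * l * (∑ x ∈ T, θ ^ (2 * G.dist w x) *
      (estT ρ k r (x, 0) ^ 2 / 3)) -
      l ^ 2 * ∑ x ∈ T, ∑ x' ∈ T, θ ^ G.dist w x * θ ^ G.dist w x' *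
        (if x = x' then estT ρ k r (x, 0) ^ 2 / 3 else
          estT ρ k r (x, 0) ^ 2 * estT ρ k r (x', 0) ^ 2 / 9 * θ ^ G.dist x x') with hB
  have hmem : ∀ x ∈ T, (x, 0) ∈ D ×ˢ Finset.range K := fun x hx =>
    Finset.mem_product.mpr ⟨hTD hx, Finset.mem_range.mpr hK⟩
  have pointwise : ∀ ρ, B ρ ≤
      Ex G θ D K (estT ρ k r) (fun y => mu G θ D (fld K (estT ρ k r) y) w ^ 2) := by
    intro ρ
    set e := estT ρ k r with hedef
    have he : IsStr e := isStr_estT ρ k r
    set L : (V × ℕ → I) → ℝ := fun y => ∑ x ∈ T, θ ^ G.dist w x * (e (x, 0) * zed (y (x, 0)))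
    have hLc : Continuous L := continuous_finsetSum _ fun x _ =>
      continuous_const.mul (continuous_const.mul (continuous_zed.comp (continuous_apply _)))
    have hz : ∀ x : V, Continuous fun y : V × ℕ → I => zed (y (x, 0)) := fun x =>
      continuous_zed.comp (continuous_apply _)
    have hI1 : ∀ x η, Integrable (fun y : V × ℕ → I => zed (y (x, 0)) * lkA D K e η y)
        (iidLabels (V × ℕ)) := fun x η =>
      integrable_of_continuous (h := fun y : V × ℕ → I => zed (y (x, 0)) * lkA D K e η y)
        ((hz x).mul (continuous_lkA he D K η))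
    have hI2 : ∀ x x' η, Integrable (fun y : V × ℕ → I =>
        zed (y (x, 0)) * zed (y (x', 0)) * lkA D K e η y) (iidLabels (V × ℕ)) := fun x x' η =>
      integrable_of_continuous
        (h := fun y : V × ℕ → I => zed (y (x, 0)) * zed (y (x', 0)) * lkA D K e η y)
        (((hz x).mul (hz x')).mul (continuous_lkA he D K η))
    set m : (V × ℕ → I) → ℝ := fun y => mag G θ D K e y w
    have hmc : Continuous m := continuous_mag he habs D w
    have hmono := Ex_mono (G := G) (K := K) (e := e) habs he D
      (F := fun y => 2 * l * (L y * m y) + -(l ^ 2) * (L y * L y))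
      (F' := fun y => m y ^ 2)
      ((continuous_const.mul (hLc.mul hmc)).add (continuous_const.mul (hLc.mul hLc)))
      (hmc.pow 2) fun y => by nlinarith [sq_nonneg (m y - l * L y)]
    rw [Ex_add (e := e) he D (F := fun y => 2 * l * (L y * m y))
      (F' := fun y => -(l ^ 2) * (L y * L y)) (continuous_const.mul (hLc.mul hmc))
      (continuous_const.mul (hLc.mul hLc)), Ex_const_mul, Ex_const_mul] at hmono
    refine le_trans ?_ hmono
    have e1 : Ex G θ D K e (fun y => L y * m y) =
        ∑ x ∈ T, θ ^ (2 * G.dist w x) * (e (x, 0) ^ 2 / 3) := by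
      have hpt : ∀ y, L y * m y * den G θ D K e y = Ev G θ D fun η =>
          ∑ x ∈ T, θ ^ G.dist w x * e (x, 0) * spin (η w) *
            (zed (y (x, 0)) * lkA D K e η y) := fun y => by
        rw [mul_assoc, mul_comm (m y), den_mul_mag he habs, ← Ev_const_mul]
        refine Ev_congr fun η => ?_
        simp only [L, Finset.sum_mul]
        exact Finset.sum_congr rfl fun x _ => by ring
      simp only [Ex, hpt, Ev]
      rw [integral_finsetSum _ fun s _ => (integrable_finsetSum _ fun x _ =>
        (hI1 x _).const_mul _).const_mul _]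
      simp only [integral_const_mul]
      rw [Finset.sum_congr rfl (g := fun s => prior G θ D (cfg s) *
        ∑ x ∈ T, θ ^ G.dist w x * (e (x, 0) ^ 2 / 3) * (spin (cfg s w) * spin (cfg s x)))
        fun s _ => by
          rw [integral_finsetSum _ fun x _ =>
            ((hI1 x _).const_mul _)]
          simp only [integral_const_mul]
          congr 1
          refine Finset.sum_congr rfl fun x hx => ?_
          rw [show (fun y : V × ℕ → I => zed (y (x, 0)) * lkA D K e (cfg s) y) =
            fun y => zed (y (x, 0)) * lkA D K e (cfg s) y from rfl]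
          rw [integral_lkA_one D K e (cfg s) (hmem x hx)]
          ring]
      simp only [Finset.mul_sum]
      rw [Finset.sum_comm]
      refine Finset.sum_congr rfl fun x hx => ?_
      have hcor := Ev_corr hG habs hD hw (hTD hx)
      unfold Ev at hcor
      rw [Finset.sum_congr rfl (g := fun s => θ ^ G.dist w x * (e (x, 0) ^ 2 / 3) *
        (prior G θ D (cfg s) * (spin (cfg s w) * spin (cfg s x)))) fun s _ => by ring,
        ← Finset.mul_sum, hcor]
      ring
    have e2 : Ex G θ D K e (fun y => L y * L y) ≤ ∑ x ∈ T, ∑ x' ∈ T,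
        θ ^ G.dist w x * θ ^ G.dist w x' * (if x = x' then e (x, 0) ^ 2 / 3 else
          e (x, 0) ^ 2 * e (x', 0) ^ 2 / 9 * θ ^ G.dist x x') := by
      have hpt : ∀ y, L y * L y * den G θ D K e y = ∑ x ∈ T, ∑ x' ∈ T,
          θ ^ G.dist w x * θ ^ G.dist w x' * (e (x, 0) * e (x', 0)) *
            Ev G θ D (fun η => zed (y (x, 0)) * zed (y (x', 0)) * lkA D K e η y) := fun y => by
        simp only [L]
        rw [Finset.sum_mul_sum, Finset.sum_mul]
        refine Finset.sum_congr rfl fun x _ => ?_
        rw [Finset.sum_mul]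
        refine Finset.sum_congr rfl fun x' _ => ?_
        rw [Ev_const_mul]
        show _ = _ * (_ * den G θ D K e y)
        ring
      have hint : ∀ x x', Integrable (fun y : V × ℕ → I =>
          θ ^ G.dist w x * θ ^ G.dist w x' * (e (x, 0) * e (x', 0)) *
            Ev G θ D (fun η => zed (y (x, 0)) * zed (y (x', 0)) * lkA D K e η y))
          (iidLabels (V × ℕ)) := fun x x' => by
        refine (integrable_of_continuous ?_).const_mul _
        unfold Ev
        exact continuous_finsetSum _ fun s _ => continuous_const.mul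
          (((hz x).mul (hz x')).mul (continuous_lkA he D K _))
      simp only [Ex, hpt]
      rw [integral_finsetSum _ fun x _ => integrable_finsetSum _ fun x' _ => hint x x']
      refine Finset.sum_le_sum fun x hx => ?_
      rw [integral_finsetSum _ fun x' _ => hint x x']
      refine Finset.sum_le_sum fun x' hx' => ?_
      rw [integral_const_mul]
      simp only [Ev]
      rw [integral_finsetSum _ fun s _ => (hI2 x x' _).const_mul _]
      simp only [integral_const_mul]
      rw [mul_assoc]
      refine mul_le_mul_of_nonneg_left ?_ (by positivity)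
      by_cases hxx : x = x'
      · subst hxx
        rw [if_pos rfl]
        have h1 : ∑ s ∈ D.powerset, prior G θ D (cfg s) *
            ∫ y, zed (y (x, 0)) * zed (y (x, 0)) * lkA D K e (cfg s) y ∂iidLabels (V × ℕ) ≤
            ∑ s ∈ D.powerset, prior G θ D (cfg s) * (1 / 3) := by
          refine Finset.sum_le_sum fun s _ => mul_le_mul_of_nonneg_left ?_ (prior_pos habs D _).le
          simp only [← pow_two]
          exact integral_lkA_sq D K e (cfg s) (hmem x hx)
        rw [← Finset.sum_mul] at h1
        have hone := Ev_one (θ := θ) hG hD ⟨w, hw⟩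
        simp only [Ev, mul_one] at hone
        rw [hone, one_mul] at h1
        calc _ ≤ e (x, 0) * e (x, 0) * (1 / 3) :=
              mul_le_mul_of_nonneg_left h1 (mul_self_nonneg _)
          _ = _ := by ring
      · rw [if_neg hxx]
        refine le_of_eq ?_
        have hne : ((x, 0) : V × ℕ) ≠ (x', 0) := fun h => hxx (Prod.ext_iff.mp h).1
        rw [Finset.sum_congr rfl fun s _ => by
          rw [integral_lkA_two D K e (cfg s) (hmem x hx) (hmem x' hx') hne]]
        have hcor := Ev_corr hG habs hD (hTD hx) (hTD hx')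
        unfold Ev at hcor
        rw [Finset.sum_congr rfl (g := fun s => e (x, 0) * e (x', 0) / 9 *
          (prior G θ D (cfg s) * (spin (cfg s x) * spin (cfg s x')))) fun s _ => by ring,
          ← Finset.mul_sum, hcor]
        ring
    rw [e1]
    have h2 := mul_le_mul_of_nonpos_left e2 (show -(l ^ 2) ≤ 0 by nlinarith [sq_nonneg l])
    simp only [B, ← hedef]
    linarith
  have hsq : ∀ x, Measurable fun ρ : V × ℕ → I => estT ρ k r (x, 0) ^ 2 := fun x =>
    ((measurable_pi_apply (x, 0)).comp (measurable_estT k (r := fun _ : V × ℕ → I => r)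
      measurable_const measurable_id)).pow_const 2
  have hsq1 : ∀ x (ρ : V × ℕ → I), |estT ρ k r (x, 0) ^ 2| ≤ 1 := fun x ρ => by
    obtain ⟨a, b⟩ := isStr_estT ρ k r (x, 0)
    rw [abs_of_nonneg (sq_nonneg _)]
    nlinarith
  have hi1 : ∀ x, Integrable (fun ρ : V × ℕ → I =>
      θ ^ (2 * G.dist w x) * (estT ρ k r (x, 0) ^ 2 / 3)) (iidLabels (V × ℕ)) := fun x =>
    ((integrable_bdd (hsq x) 1 (hsq1 x)).div_const _).const_mul _
  have hi2 : ∀ x x', Integrable (fun ρ : V × ℕ → I => θ ^ G.dist w x * θ ^ G.dist w x' *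
      (if x = x' then estT ρ k r (x, 0) ^ 2 / 3 else
        estT ρ k r (x, 0) ^ 2 * estT ρ k r (x', 0) ^ 2 / 9 * θ ^ G.dist x x'))
      (iidLabels (V × ℕ)) := fun x x' => by
    by_cases hxx : x = x'
    · simp only [if_pos hxx]
      exact ((integrable_bdd (hsq x) 1 (hsq1 x)).div_const _).const_mul _
    · simp only [if_neg hxx]
      exact (((integrable_bdd ((hsq x).mul (hsq x')) 1 fun ρ => by
        rw [Pi.mul_apply, abs_mul]
        exact mul_le_one₀ (hsq1 x ρ) (abs_nonneg _) (hsq1 x' ρ)).div_const _).mul_const _).const_mul _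
  have hBint : Integrable B (iidLabels (V × ℕ)) :=
    ((integrable_finsetSum _ fun x _ => hi1 x).const_mul _).sub
      ((integrable_finsetSum _ fun x _ => integrable_finsetSum _ fun x' _ => hi2 x x').const_mul _)
  have hmB : IsB D (fun f => mu G θ D f w ^ 2) :=
    (IsB.mu' hθ0 hθ1 D w).comp_real (φ := fun x => x ^ 2) (by fun_prop)
  refine le_trans ?_ (integral_mono hBint
    (integrable_St hG habs hD ⟨w, hw⟩ hmB K k r) pointwise)
  simp only [B]
  rw [integral_sub ((integrable_finsetSum _ fun x _ => hi1 x).const_mul _)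
      ((integrable_finsetSum _ fun x _ => integrable_finsetSum _ fun x' _ => hi2 x x').const_mul _),
    integral_const_mul, integral_const_mul, integral_finsetSum _ fun x _ => hi1 x,
    integral_finsetSum _ fun x _ => integrable_finsetSum _ fun x' _ => hi2 x x']
  have eH : ∑ x ∈ T, ∫ ρ, θ ^ (2 * G.dist w x) * (estT ρ k r (x, 0) ^ 2 / 3) ∂iidLabels (V × ℕ) =
      tau k r * H := by
    rw [Finset.mul_sum]
    refine Finset.sum_congr rfl fun x _ => ?_
    rw [integral_const_mul, integral_div, integral_estT_sq]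
    ring
  have eQ : ∑ x ∈ T, ∫ ρ, (∑ x' ∈ T, θ ^ G.dist w x * θ ^ G.dist w x' *
      (if x = x' then estT ρ k r (x, 0) ^ 2 / 3 else
        estT ρ k r (x, 0) ^ 2 * estT ρ k r (x', 0) ^ 2 / 9 * θ ^ G.dist x x'))
      ∂iidLabels (V × ℕ) ≤ tau k r * H * (1 + tau k r * c) := by
    rw [Finset.mul_sum, Finset.sum_mul]
    refine Finset.sum_le_sum fun x hx => ?_
    rw [integral_finsetSum _ fun x' _ => hi2 x x']
    have hb : ∀ x' ∈ T, ∫ ρ, θ ^ G.dist w x * θ ^ G.dist w x' *
        (if x = x' then estT ρ k r (x, 0) ^ 2 / 3 else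
          estT ρ k r (x, 0) ^ 2 * estT ρ k r (x', 0) ^ 2 / 9 * θ ^ G.dist x x')
        ∂iidLabels (V × ℕ) ≤ (if x' = x then θ ^ (2 * G.dist w x) * tau k r else 0) +
          tau k r ^ 2 * θ ^ G.dist w x * (θ ^ G.dist w x' * θ ^ G.dist x x') := by
      intro x' _
      by_cases hxx : x = x'
      · subst hxx
        simp only [if_true]
        rw [integral_const_mul, integral_div, integral_estT_sq]
        have : 0 ≤ tau k r ^ 2 * θ ^ G.dist w x * (θ ^ G.dist w x * θ ^ G.dist x x) := by positivity
        rw [two_mul, pow_add]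
        linarith
      · simp only [if_neg hxx, if_neg (Ne.symm hxx), zero_add]
        have hd : Disjoint ({(x, 0)} : Finset (V × ℕ)) {(x', 0)} := by
          rw [Finset.disjoint_singleton]; exact fun h => hxx (Prod.ext_iff.mp h).1
        have hdep : ∀ z : V, DependsOn (fun ρ : V × ℕ → I => estT ρ k r (z, 0) ^ 2)
            (({(z, 0)} : Finset (V × ℕ)) : Set _) := fun z ρ ρ' h => by
          have hz' := h (z, 0) (by simp)
          have hb : Bef ρ k r (z, 0) ↔ Bef ρ' k r (z, 0) := by unfold Bef; rw [hz']
          have he' : est ρ (z, 0) = est ρ' (z, 0) := by unfold est; rw [hz']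
          have : estT ρ k r (z, 0) = estT ρ' k r (z, 0) := by
            unfold estT; exact if_congr hb he' rfl
          simp only [this]
        rw [integral_const_mul, integral_mul_const, integral_div,
          integral_mul_disjoint hd (hsq x) (hsq x') (hdep x) (hdep x'), integral_estT_sq,
          integral_estT_sq]
        exact le_of_eq (by ring)
    refine (Finset.sum_le_sum hb).trans ?_
    rw [Finset.sum_add_distrib, Finset.sum_ite_eq' T x fun _ => θ ^ (2 * G.dist w x) * tau k r,
      if_pos hx, ← Finset.mul_sum]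
    have := mul_le_mul_of_nonneg_left (hT x hx)
      (show 0 ≤ tau k r ^ 2 * θ ^ G.dist w x by positivity)
    rw [two_mul (G.dist w x), pow_add]
    linarith
  rw [eH]
  have hH0 : 0 ≤ tau k r * H :=
    mul_nonneg (tau_nonneg k r) (Finset.sum_nonneg fun x _ => by positivity)
  refine le_trans (le_of_eq ?_) (sub_le_sub le_rfl (mul_le_mul_of_nonneg_left eQ (sq_nonneg l)))
  rw [hl]
  field_simp
  ring

end Vale.Agent.P161.Crit
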