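import Vale.Agent.P161.Crit.Clock

/-!
# Martingale increments of posterior magnetisations
-/

namespace Vale.Agent.P161.Crit

open MeasureTheory unitInterval Function SimpleGraph Vale.Agent.P161

variable {V : Type*} {G : SimpleGraph V} {θ θ' : ℝ}

section Tests

variable (hθ : |θ| < 1)
include hθ

lemma continuousOn_Zf (A : Finset V) (F : (V → Bool) → ℝ) :
    Continuous fun h : V → ℝ => Zf G θ A h F := by
  unfold Zf Ev
  exact continuous_finsetSum _ fun s _ => continuous_const.mul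
    ((continuous_finsetProd _ fun v _ =>
      continuous_const.add ((continuous_apply v).mul continuous_const)).mul continuous_const)

lemma continuousOn_mu (A : Finset V) (v : V) :
    ContinuousOn (fun h : V → ℝ => mu G θ A h v) {h | IsFld h} :=
  (continuousOn_Zf hθ A _).continuousOn.div (continuousOn_Zf hθ A _).continuousOn
    fun h hh => (Zf_one_pos hθ hh A).ne'

lemma continuousOn_Cv (A : Finset V) (v w : V) :
    ContinuousOn (fun h : V → ℝ => Cv G θ A h v w) {h | IsFld h} :=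
  (((continuousOn_Zf hθ A _).continuousOn.div (continuousOn_Zf hθ A _).continuousOn
    fun h hh => (Zf_one_pos hθ hh A).ne')).sub
      ((continuousOn_mu hθ A v).mul (continuousOn_mu hθ A w))

omit hθ in
lemma measurable_Cv (A : Finset V) (v w : V) :
    Measurable fun h : V → ℝ => Cv G θ A h v w := by
  have hZ : ∀ F : (V → Bool) → ℝ, Measurable fun h : V → ℝ => Zf G θ A h F := fun F => by
    unfold Zf Ev
    exact Finset.measurable_sum _ fun s _ => ((Finset.measurable_prod _ fun w _ =>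
      ((measurable_pi_apply w).mul_const _).const_add 1).mul_const _).const_mul _
  exact ((hZ _).div (hZ _)).sub ((measurable_mu A v).mul (measurable_mu A w))

omit hθ in
lemma Cv_congr {A : Finset V} {h h' : V → ℝ} (he : ∀ v ∈ A, h v = h' v) (v w : V) :
    Cv G θ A h v w = Cv G θ A h' v w := by
  have : ∀ F, Zf G θ A h F = Zf G θ A h' F := fun F => Ev_congr fun η => by
    rw [Finset.prod_congr rfl fun w hw => by rw [he w hw]]
  simp only [Cv, mu, this]

omit hθ in
lemma mem_of_mem_half {A : Finset V} {x y z : V} (h : z ∈ half G A x y) : z ∈ A :=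
  (mem_half.mp h).1

lemma isTest_mu (A : Finset V) (v : V) : IsTest A fun h => mu G θ A h v :=
  ⟨fun _ _ he => mu_congr he v, measurable_mu A v, continuousOn_mu hθ A v⟩

lemma isTest_cav (A : Finset V) (x y : V) : IsTest A fun h => cav G θ A h x y :=
  ⟨fun _ _ he => mu_congr (fun w hw => he w (mem_of_mem_half hw)) y, measurable_mu _ y,
    continuousOn_mu hθ _ y⟩

lemma isTest_Cv (A : Finset V) (v w : V) : IsTest A fun h => Cv G θ A h v w :=
  ⟨fun _ _ he => Cv_congr he v w, measurable_Cv A v w, continuousOn_Cv hθ A v w⟩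

lemma isTest_Wt [G.LocallyFinite] (A : Finset V) (x y : V) :
    IsTest A fun h => Wt G θ A h x y := by
  refine ⟨fun h h' he => ?_, ?_, ?_⟩
  · unfold Wt om cav
    rw [Finset.sum_congr rfl fun i _ => by
      rw [mu_congr (A := half G A (tow G i x) i) (fun w hw => he w (mem_of_mem_half hw)) i,
        mu_congr (A := half G A (tow G i y) i) (fun w hw => he w (mem_of_mem_half hw)) i,
        mu_congr he i]]
  · unfold Wt om cav
    exact Real.measurable_exp.comp ((Finset.measurable_sum _ fun i _ =>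
      (((measurable_mu _ i).pow_const 2).add ((measurable_mu _ i).pow_const 2)).add
        ((measurable_mu _ i).pow_const 2)).const_mul _)
  · unfold Wt om cav
    exact Real.continuous_exp.comp_continuousOn (continuousOn_const.mul
      (continuousOn_finsetSum _ fun i _ =>
        (((continuousOn_mu hθ _ i).pow 2).add ((continuousOn_mu hθ _ i).pow 2)).add
          ((continuousOn_mu hθ _ i).pow 2)))

end Tests

lemma IsTest.mul {A : Finset V} {Φ Ψ : (V → ℝ) → ℝ} (h1 : IsTest A Φ) (h2 : IsTest A Ψ) :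
    IsTest A fun h => Φ h * Ψ h :=
  ⟨fun h h' he => by rw [h1.loc h h' he, h2.loc h h' he], h1.meas.mul h2.meas, h1.cont.mul h2.cont⟩

lemma IsTest.comp_real {A : Finset V} {Φ : (V → ℝ) → ℝ} (h1 : IsTest A Φ) {φ : ℝ → ℝ}
    (hφ : Continuous φ) : IsTest A fun h => φ (Φ h) :=
  ⟨fun h h' he => by rw [h1.loc h h' he], hφ.measurable.comp h1.meas, hφ.comp_continuousOn h1.cont⟩

lemma IsTest.sum {A : Finset V} {ι : Type*} (s : Finset ι) {Φ : ι → (V → ℝ) → ℝ}
    (h1 : ∀ i ∈ s, IsTest A (Φ i)) : IsTest A fun h => ∑ i ∈ s, Φ i h :=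
  ⟨fun h h' he => Finset.sum_congr rfl fun i hi => (h1 i hi).loc h h' he,
    Finset.measurable_sum _ fun i hi => (h1 i hi).meas,
    continuousOn_finsetSum _ fun i hi => (h1 i hi).cont⟩

lemma IsTest.const (A : Finset V) (c : ℝ) : IsTest A fun _ : V → ℝ => c :=
  ⟨fun _ _ _ => rfl, measurable_const, continuousOn_const⟩

section Consistency

variable (hG : G.IsTree) {A A' : Finset V} (hA : Convex' G A) (hA' : Convex' G A')
  (hne : A.Nonempty) (hsub : A ⊆ A')
include hG hA hA' hne hsub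

lemma mu_mono_set [DecidableEq V] {h : V → ℝ} (h0 : ∀ w ∈ A', w ∉ A → h w = 0) {v : V}
    (hv : v ∈ A) : mu G θ A' h v = mu G θ A h v := by
  have key : ∀ F : (V → Bool) → ℝ, (∀ η η' : V → Bool, (∀ w ∈ A, η w = η' w) → F η = F η') →
      Zf G θ A' h F = Zf G θ A h F := fun F hF => by
    unfold Zf
    rw [Ev_congr (g := fun η => (∏ w ∈ A, (1 + h w * spin (η w))) * F η) fun η => by
      rw [← Finset.prod_subset hsub fun w hw hwA => by simp [h0 w hw hwA]]]
    exact Ev_mono_set hG hA hA' hne hsub _ fun η η' he => by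
      rw [hF η η' he, Finset.prod_congr rfl fun w hw => by rw [he w hw]]
  rw [mu, mu, key _ fun η η' he => by rw [he v hv], key _ fun _ _ _ => rfl]

lemma den_mono_set [DecidableEq V] {K : ℕ} {e : V × ℕ → ℝ}
    (h0 : ∀ w ∈ A', w ∉ A → ∀ l, e (w, l) = 0) (y : V × ℕ → I) :
    den G θ A' K e y = den G θ A K e y := by
  unfold den lkA
  have e1 : ∀ η : V → Bool,
      ∏ v ∈ A', lkv K e y v (spin (η v)) = ∏ v ∈ A, lkv K e y v (spin (η v)) := fun η =>
    (Finset.prod_subset hsub fun w hw hwA => Finset.prod_eq_one fun l _ => by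
      simp [h0 w hw hwA l]).symm
  rw [Ev_congr (g := fun η => ∏ v ∈ A, lkv K e y v (spin (η v))) e1]
  exact Ev_mono_set hG hA hA' hne hsub _ fun η η' he =>
    Finset.prod_congr rfl fun w hw => by rw [he w hw]

end Consistency

open Classical in
/-- The strengths restricted to a set of observations. -/
noncomputable def estS (ρ : V × ℕ → I) (S : Finset (V × ℕ)) (i : V × ℕ) : ℝ :=
  if i ∈ S then est ρ i else 0

lemma isStr_estS (ρ : V × ℕ → I) (S : Finset (V × ℕ)) : IsStr (estS ρ S) := fun i => by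
  unfold estS; split_ifs
  · exact isStr_est ρ i
  · exact ⟨le_rfl, by norm_num⟩

open Classical in
/-- The jump of the magnetisation at `v` when the input `t` is used at `j`. -/
noncomputable def jm (G : SimpleGraph V) (θ : ℝ) (A : Finset V) (K : ℕ) (ρ : V × ℕ → I)
    (y : V × ℕ → I) (v : V) (j : V × ℕ) (t : I) : ℝ :=
  if j ∈ A ×ˢ Finset.range K then
    jmp (est ρ j) (zed (invCdf (drift G θ A K ρ y j) t)) (mag G θ A K (estT ρ j.2 (ρ j)) y j.1)
      (cov' G θ A K (estT ρ j.2 (ρ j)) y v j.1)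
  else 0

lemma jmp_den {a : ℝ} (ha : a ∈ Set.Icc (0 : ℝ) (1 / 8)) {z m : ℝ} (hz : |z| ≤ 1) (hm : |m| ≤ 1) :
    7 / 8 ≤ 1 + a * z * m ∧ 1 + a * z * m ≤ 9 / 8 := by
  have : |a * z * m| ≤ 1 / 8 := by
    rw [abs_mul, abs_mul, abs_of_nonneg ha.1]
    calc a * |z| * |m| ≤ 1 / 8 * 1 * 1 :=
          mul_le_mul (mul_le_mul ha.2 hz (abs_nonneg _) (by norm_num)) hm (abs_nonneg _) (by norm_num)
      _ = _ := by norm_num
  obtain ⟨l, r⟩ := abs_le.mp this
  exact ⟨by linarith, by linarith⟩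

section Step

variable (hθ0 : 0 ≤ θ) (hθ1 : θ < 1)
include hθ0 hθ1

lemma integral_jm (A : Finset V) (K : ℕ) (ρ y : V × ℕ → I) (v : V) (j : V × ℕ) :
    ∫ t : I, jm G θ A K ρ y v j t = 0 := by
  classical
  unfold jm
  split_ifs with hj
  · set a := est ρ j
    set m := mag G θ A K (estT ρ j.2 (ρ j)) y j.1
    set C := cov' G θ A K (estT ρ j.2 (ρ j)) y v j.1
    obtain ⟨a0, a1⟩ : 0 ≤ est ρ j ∧ est ρ j ≤ 1 / 8 :=
      ⟨(est1_mem (t := ρ j) (ρ j).2.1).1, (est1_mem (t := ρ j) (ρ j).2.1).2.2⟩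
    have hm : |m| ≤ 1 := abs_mu_le hθ0 hθ1 A (isFld_fld (isStr_estT ρ _ _) y) _
    have hd : drift G θ A K ρ y j = a * m := by rw [drift, if_pos hj]
    rw [hd, integral_invCdf (φ := fun s => jmp a (zed s) m C)
      (by rw [← hd]; exact (abs_drift_le hθ0 hθ1 A K ρ y j).trans (by norm_num))
      ((continuous_const.mul continuous_zed).mul continuous_const |>.div
        (continuous_const.add ((continuous_const.mul continuous_zed).mul continuous_const))
        fun s => by linarith [(jmp_den (a := a) ⟨a0, a1⟩ (abs_zed_le s) hm).1])]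
    rw [integral_congr_ae (g := fun s => 0 + a * C * zed s) (.of_forall fun s => ?_)]
    · exact integral_linear (θ := θ) (by rwa [abs_of_nonneg hθ0]) 0 (a * C)
    · show jmp a (zed s) m C * (1 + a * m * (2 * (s : ℝ) - 1)) = _
      have hne : (1 : ℝ) + a * zed s * m ≠ 0 := by
        linarith [(jmp_den (a := a) ⟨a0, a1⟩ (abs_zed_le s) hm).1]
      rw [show 1 + a * m * (2 * (s : ℝ) - 1) = 1 + a * zed s * m by simp only [zed]; ring, jmp,
        div_mul_cancel₀ _ hne]
      ring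
  · simp

lemma continuous_jm (A : Finset V) (K : ℕ) (ρ y : V × ℕ → I) (v : V) (j : V × ℕ) :
    Continuous fun t : I => jm G θ A K ρ y v j t := by
  classical
  unfold jm
  split_ifs
  · unfold jmp
    have hz : Continuous fun t : I => zed (invCdf (drift G θ A K ρ y j) t) :=
      continuous_zed.comp (continuous_invCdf.comp (continuous_const.prodMk continuous_id))
    refine ((continuous_const.mul hz).mul continuous_const).div
      (continuous_const.add ((continuous_const.mul hz).mul continuous_const)) fun t => ?_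
    obtain ⟨a0, a1⟩ : 0 ≤ est ρ j ∧ est ρ j ≤ 1 / 8 :=
      ⟨(est1_mem (t := ρ j) (ρ j).2.1).1, (est1_mem (t := ρ j) (ρ j).2.1).2.2⟩
    linarith [(jmp_den (a := est ρ j) (m := mag G θ A K (estT ρ j.2 (ρ j)) y j.1) ⟨a0, a1⟩
      (abs_zed_le (invCdf (drift G θ A K ρ y j) t))
      (abs_mu_le hθ0 hθ1 A (isFld_fld (isStr_estT ρ _ _) y) j.1)).1]
  · exact continuous_const

lemma abs_jm_le (A : Finset V) (K : ℕ) (ρ y : V × ℕ → I) (v : V) (j : V × ℕ) (t : I) :
    |jm G θ A K ρ y v j t| ≤ 4 / 3 * est ρ j * |cov' G θ A K (estT ρ j.2 (ρ j)) y v j.1| := by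
  classical
  obtain ⟨a0, a1⟩ : 0 ≤ est ρ j ∧ est ρ j ≤ 1 / 8 :=
      ⟨(est1_mem (t := ρ j) (ρ j).2.1).1, (est1_mem (t := ρ j) (ρ j).2.1).2.2⟩
  unfold jm
  split_ifs
  · set z := zed (invCdf (drift G θ A K ρ y j) t)
    have hz : |z| ≤ 1 := abs_zed_le _
    have hd := (jmp_den (a := est ρ j) (m := mag G θ A K (estT ρ j.2 (ρ j)) y j.1) ⟨a0, a1⟩ hz
      (abs_mu_le hθ0 hθ1 A (isFld_fld (isStr_estT ρ _ _) y) j.1)).1
    rw [jmp, abs_div, abs_of_pos (a := 1 + _) (by linarith), div_le_iff₀ (by linarith), abs_mul,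
      abs_mul, abs_of_nonneg (show 0 ≤ est ρ j from a0)]
    set C := |cov' G θ A K (estT ρ j.2 (ρ j)) y v j.1|
    have hC : 0 ≤ C := abs_nonneg _
    calc est ρ j * |z| * C ≤ est ρ j * 1 * C :=
          mul_le_mul_of_nonneg_right (mul_le_mul_of_nonneg_left hz a0) hC
      _ ≤ 4 / 3 * est ρ j * C * (7 / 8) := by nlinarith [mul_nonneg a0 hC]
      _ ≤ _ := mul_le_mul_of_nonneg_left hd (mul_nonneg (mul_nonneg (by norm_num) a0) hC)
  · simp only [abs_zero]
    exact mul_nonneg (mul_nonneg (by norm_num) a0) (abs_nonneg _)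

end Step

open Classical in
/-- A bound on the squared difference of two jumps. -/
noncomputable def jb (G : SimpleGraph V) (θ θ' : ℝ) (A A' : Finset V) (v w : V) (a : ℝ)
    (h h' : V → ℝ) : ℝ :=
  if w ∈ A then
    if w ∈ A' then
      4 * a ^ 2 * (Cv G θ A h v w - Cv G θ' A' h' v w) ^ 2 +
        200 * a ^ 4 * (Cv G θ' A' h' v w ^ 2 * (mu G θ A h w - mu G θ' A' h' w) ^ 2)
    else 2 * a ^ 2 * Cv G θ A h v w ^ 2
  else 2 * a ^ 2 * Cv G θ' A' h' v w ^ 2

lemma jmp_sub_sq {a z z' m m' C C' : ℝ} (ha : a ∈ Set.Icc (0 : ℝ) (1 / 8)) (hz1 : |z| ≤ 1)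
    (hz1' : |z'| ≤ 1) (hm : |m| ≤ 1) (hm' : |m'| ≤ 1) (hz : |z - z'| ≤ 4 * (a * |m - m'|)) :
    (jmp a z m C - jmp a z' m' C') ^ 2 ≤
      4 * a ^ 2 * (C - C') ^ 2 + 200 * a ^ 4 * (C' ^ 2 * (m - m') ^ 2) := by
  have a0 := ha.1
  have d1 := (jmp_den ha hz1 hm).1
  have d2 := (jmp_den ha hz1' hm').1
  set p := 1 + a * z * m with hp
  set r := 1 + a * z' * m' with hr
  set N := a * (z - z') + a * a * (z * z') * (m' - m) with hN
  have hp0 : p ≠ 0 := by linarith
  have hr0 : r ≠ 0 := by linarith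
  have e : jmp a z m C - jmp a z' m' C' = a * z * (C - C') / p + C' * N / (p * r) := by
    have i1 : jmp a z m C - a * z * (C - C') / p = a * z * C' / p := by
      rw [jmp, ← hp, div_sub_div_same]; ring
    have i2 : a * z * C' / p - jmp a z' m' C' = C' * N / (p * r) := by
      rw [jmp, ← hr, div_sub_div _ _ hp0 hr0, hp, hr, hN]; ring
    linarith
  have h5 : |N| ≤ 5 * (a * a) * |m - m'| := by
    refine (abs_add_le _ _).trans ?_
    rw [abs_mul, abs_mul, abs_of_nonneg a0, abs_sub_comm m' m, abs_mul (a * a),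
      abs_of_nonneg (mul_nonneg a0 a0)]
    have hzz := mul_le_mul_of_nonneg_right (mul_le_mul_of_nonneg_left
      (abs_mul_le_one hz1 hz1') (mul_nonneg a0 a0)) (abs_nonneg (m - m'))
    have := mul_le_mul_of_nonneg_left hz a0
    nlinarith
  have b1 : |a * z * (C - C') / p| ≤ 4 / 3 * a * |C - C'| := by
    rw [abs_div, abs_of_pos (show 0 < p by linarith), div_le_iff₀ (by linarith), abs_mul, abs_mul,
      abs_of_nonneg a0]
    have hC := abs_nonneg (C - C')
    calc a * |z| * |C - C'| ≤ a * 1 * |C - C'| :=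
          mul_le_mul_of_nonneg_right (mul_le_mul_of_nonneg_left hz1 a0) hC
      _ ≤ 4 / 3 * a * |C - C'| * (7 / 8) := by linarith [mul_nonneg a0 hC]
      _ ≤ _ := mul_le_mul_of_nonneg_left d1 (by positivity)
  have b2 : |C' * N / (p * r)| ≤ 8 * (a * a) * (|C'| * |m - m'|) := by
    have hpr : 49 / 64 ≤ p * r :=
      le_trans (by norm_num) (mul_le_mul d1 d2 (by norm_num) (by linarith))
    rw [abs_div, abs_of_pos (show 0 < p * r by linarith), div_le_iff₀ (by linarith), abs_mul]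
    have hX : 0 ≤ a * a * (|C'| * |m - m'|) := by positivity
    calc |C'| * |N| ≤ |C'| * (5 * (a * a) * |m - m'|) :=
          mul_le_mul_of_nonneg_left h5 (abs_nonneg _)
      _ = 5 * (a * a * (|C'| * |m - m'|)) := by ring
      _ ≤ 8 * (a * a * (|C'| * |m - m'|)) * (49 / 64) := by linarith
      _ ≤ 8 * (a * a * (|C'| * |m - m'|)) * (p * r) := mul_le_mul_of_nonneg_left hpr (by linarith)
      _ = _ := by ring
  rw [e]
  have hb := pow_le_pow_left₀ (abs_nonneg _) ((abs_add_le _ _).trans (add_le_add b1 b2)) 2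
  rw [sq_abs] at hb
  refine hb.trans ?_
  have e1 : (|C - C'| * a) ^ 2 = a ^ 2 * (C - C') ^ 2 := by rw [mul_pow, sq_abs]; ring
  have e2 : (a * a * (|C'| * |m - m'|)) ^ 2 = a ^ 4 * (C' ^ 2 * (m - m') ^ 2) := by
    rw [mul_pow, mul_pow, mul_pow, sq_abs, sq_abs]; ring
  nlinarith [sq_nonneg (4 / 3 * a * |C - C'| - 8 * (a * a) * (|C'| * |m - m'|)),
    sq_nonneg (|C - C'| * a), sq_nonneg (a * a * (|C'| * |m - m'|))]

lemma jm_sub_sq_le (hθ0 : 0 ≤ θ) (hθ1 : θ < 1) (hθ0' : 0 ≤ θ') (hθ1' : θ' < 1) (A A' : Finset V)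
    {K : ℕ} (ρ y y' : V × ℕ → I) (v : V) {j : V × ℕ} (hk : j.2 < K) (t : I) :
    (jm G θ A K ρ y v j t - jm G θ' A' K ρ y' v j t) ^ 2 ≤
      jb G θ θ' A A' v j.1 (est ρ j) (fld K (estT ρ j.2 (ρ j)) y) (fld K (estT ρ j.2 (ρ j)) y') := by
  classical
  obtain ⟨a0, a1⟩ : 0 ≤ est ρ j ∧ est ρ j ≤ 1 / 8 :=
      ⟨(est1_mem (t := ρ j) (ρ j).2.1).1, (est1_mem (t := ρ j) (ρ j).2.1).2.2⟩
  have hmem : ∀ B : Finset V, (j ∈ B ×ˢ Finset.range K) ↔ j.1 ∈ B := fun B => by
    simp [Finset.mem_product, hk]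
  have one : ∀ {φ : ℝ} (B : Finset V) (z : V × ℕ → I), 0 ≤ φ → φ < 1 →
      jm G φ B K ρ z v j t ^ 2 ≤ 2 * est ρ j ^ 2 * cov' G φ B K (estT ρ j.2 (ρ j)) z v j.1 ^ 2 := by
    intro φ B z h0 h1
    have h := pow_le_pow_left₀ (abs_nonneg _) (abs_jm_le (G := G) h0 h1 B K ρ z v j t) 2
    rw [sq_abs, mul_pow, mul_pow, sq_abs] at h
    refine h.trans (mul_le_mul_of_nonneg_right (mul_le_mul_of_nonneg_right (by norm_num)
      (sq_nonneg _)) (sq_nonneg _))
  by_cases hw : j.1 ∈ A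
  · by_cases hw' : j.1 ∈ A'
    · rw [jb, if_pos hw, if_pos hw', jm, jm, if_pos ((hmem A).mpr hw), if_pos ((hmem A').mpr hw')]
      have hd : drift G θ A K ρ y j = est ρ j * mag G θ A K (estT ρ j.2 (ρ j)) y j.1 := by
        rw [drift, if_pos ((hmem A).mpr hw)]
      have hd' : drift G θ' A' K ρ y' j = est ρ j * mag G θ' A' K (estT ρ j.2 (ρ j)) y' j.1 := by
        rw [drift, if_pos ((hmem A').mpr hw')]
      set a := est ρ j
      set m := mag G θ A K (estT ρ j.2 (ρ j)) y j.1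
      set m' := mag G θ' A' K (estT ρ j.2 (ρ j)) y' j.1
      set C := cov' G θ A K (estT ρ j.2 (ρ j)) y v j.1
      set C' := cov' G θ' A' K (estT ρ j.2 (ρ j)) y' v j.1
      set z := zed (invCdf (drift G θ A K ρ y j) t)
      set z' := zed (invCdf (drift G θ' A' K ρ y' j) t)
      change (jmp a z m C - jmp a z' m' C') ^ 2 ≤ 4 * a ^ 2 * (C - C') ^ 2 +
        200 * a ^ 4 * (C' ^ 2 * (m - m') ^ 2)
      have hm : |m| ≤ 1 := abs_mu_le hθ0 hθ1 A (isFld_fld (isStr_estT ρ _ _) y) _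
      have hm' : |m'| ≤ 1 := abs_mu_le hθ0' hθ1' A' (isFld_fld (isStr_estT ρ _ _) y') _
      have hz : |z - z'| ≤ 4 * (a * |m - m'|) := by
        have h := invCdf_dist (drift G θ A K ρ y j) (drift G θ' A' K ρ y' j) t t
        rw [hd, hd', sub_self, abs_zero, zero_add, ← mul_sub, abs_mul, abs_of_nonneg a0] at h
        simp only [z, z', zed, hd, hd']
        rw [show 2 * (invCdf (a * m) t : ℝ) - 1 - (2 * (invCdf (a * m') t : ℝ) - 1) =
          2 * ((invCdf (a * m) t : ℝ) - invCdf (a * m') t) by ring, abs_mul, abs_two]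
        linarith
      exact jmp_sub_sq ⟨a0, a1⟩ (abs_zed_le _) (abs_zed_le _) hm hm' hz
    · rw [jb, if_pos hw, if_neg hw', show jm G θ' A' K ρ y' v j t = 0 from
        if_neg (fun h => hw' ((hmem A').mp h)), sub_zero]
      exact one A y hθ0 hθ1
  · rw [jb, if_neg hw, show jm G θ A K ρ y v j t = 0 from
      if_neg (fun h => hw ((hmem A).mp h)), zero_sub, neg_sq]
    exact one A' y' hθ0' hθ1'

section Growth

variable [Countable V] [DecidableEq V] (hθ0 : 0 ≤ θ) (hθ1 : θ < 1) (hθ0' : 0 ≤ θ') (hθ1' : θ' < 1)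
include hθ0 hθ1 hθ0' hθ1'

omit [Countable V] in
lemma mag_step {A : Finset V} {K : ℕ} {φ : ℝ} (h0 : 0 ≤ φ) (h1 : φ < 1) {ρ : V × ℕ → I}
    {S : Finset (V × ℕ)} {j : V × ℕ} (hj : j ∈ S) (hk : j.2 < K)
    (hpre : ∀ i : V × ℕ, i.1 ∈ A → i.2 < K → i ≠ j → (i ∈ S ↔ Bef ρ j.2 (ρ j) i))
    (u : V × ℕ → I) (t : I) (v : V) :
    mag G φ A K (estS ρ S) (out G φ A K ρ (update u j t)) v =
      mag G φ A K (estT ρ j.2 (ρ j)) (out G φ A K ρ u) v +
        jm G φ A K ρ (out G φ A K ρ u) v j t := by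
  classical
  set Y := out G φ A K ρ u
  set Y' := out G φ A K ρ (update u j t)
  have habs : |φ| < 1 := by rwa [abs_of_nonneg h0]
  have hsame : ∀ i, Bef ρ j.2 (ρ j) i → Y' i = Y i := fun i hi =>
    out_congr i (update_of_ne (fun e => not_bef_self ρ j (by rw [e] at hi; exact hi)) _ _) fun b hb =>
      update_of_ne (fun e => not_bef_self ρ j (by
        have := bef_trans (mem_preds.mp hb).2 hi
        rw [e] at this; exact this)) _ _
  have hst : ∀ w ∈ A, ∀ l < K, (w, l) ≠ j → estS ρ S (w, l) = estT ρ j.2 (ρ j) (w, l) := by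
    intro w hw l hl hne
    unfold estS estT
    by_cases hB : Bef ρ j.2 (ρ j) (w, l)
    · rw [if_pos hB, if_pos ((hpre (w, l) hw hl hne).mpr hB)]
    · rw [if_neg hB, if_neg fun h => hB ((hpre (w, l) hw hl hne).mp h)]
  have hY : mag G φ A K (estT ρ j.2 (ρ j)) Y' = mag G φ A K (estT ρ j.2 (ρ j)) Y := funext fun x =>
    mag_congr (fun i _ hi0 => hsame i (estT_ne_zero hi0).1) x
  by_cases hjA : j.1 ∈ A
  · have hjU : j ∈ A ×ˢ Finset.range K := Finset.mem_product.mpr ⟨hjA, Finset.mem_range.mpr hk⟩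
    have e1 : mag G φ A K (estS ρ S) Y' v =
        mag G φ A K (update (estT ρ j.2 (ρ j)) j (est ρ j)) Y' v :=
      mu_congr (fun w hw => fld_congr fun l hl => by
        by_cases hne : (w, l) = j
        · rw [hne, update_self, estS, if_pos hj]
        · rw [update_of_ne hne, hst w hw l hl hne]) v
    obtain ⟨a0, a1⟩ : 0 ≤ est ρ j ∧ est ρ j ≤ 1 / 8 :=
      ⟨(est1_mem (t := ρ j) (ρ j).2.1).1, (est1_mem (t := ρ j) (ρ j).2.1).2.2⟩
    obtain ⟨w, k⟩ := j
    have h00 : estT ρ k (ρ (w, k)) (w, k) = 0 := if_neg (not_bef_self ρ (w, k))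
    have hup := mag_update (G := G) (θ := φ) (A := A) (K := K) (e := estT ρ k (ρ (w, k)))
      (w := w) (k := k) habs (isStr_estT ρ k _) hjA hk h00
      (a := est ρ (w, k)) ⟨a0, a1.trans (by norm_num)⟩ Y' v
    have hC : cov' G φ A K (estT ρ k (ρ (w, k))) Y' v w =
        cov' G φ A K (estT ρ k (ρ (w, k))) Y v w :=
      Cv_congr (fun x hx => fld_congr fun l hl => by
        by_cases hz : estT ρ k (ρ (w, k)) (x, l) = 0
        · simp [hz]
        · exact congrArg (fun r => estT ρ k (ρ (w, k)) (x, l) * zed r)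
            (hsame (x, l) (estT_ne_zero hz).1)) v w
    have hYj : Y' (w, k) = invCdf (drift G φ A K ρ Y (w, k)) t := by
      refine (out_eq A K ρ (update u (w, k) t) (w, k)).trans ?_
      rw [update_self, drift_congr fun i hi => hsame i (mem_preds.mp hi).2]
    refine e1.trans (hup.trans ?_)
    refine congrArg₂ (· + ·) (congrFun hY v) ?_
    refine Eq.trans ?_ (if_pos hjU : jm G φ A K ρ Y v (w, k) t = _).symm
    have j1 : ∀ {z z' m m' c c' : ℝ}, z = z' → m = m' → c = c' →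
        jmp (est ρ (w, k)) z m c = jmp (est ρ (w, k)) z' m' c' := by
      intro z z' m m' c c' a b d; rw [a, b, d]
    exact j1 (congrArg zed hYj) (congrFun hY w) hC
  · have hjU : j ∉ A ×ˢ Finset.range K := fun h => hjA (Finset.mem_product.mp h).1
    rw [jm, if_neg hjU, add_zero, ← hY]
    exact mu_congr (fun w hw => fld_congr fun l hl => by
      rw [hst w hw l hl (fun e => hjA (e ▸ hw))]) v

/-- One pass of induction over the observations made in an interval of time. -/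
theorem grow (A A' : Finset V) {K : ℕ} {ρ : V × ℕ → I}
    (hρ : Set.InjOn (fun i : V × ℕ => (i.2, ρ i)) ((A ∪ A') ×ˢ Finset.range K : Finset _))
    (v : V) {φ : ℝ → ℝ → ℝ} (hφ : Continuous fun p : ℝ × ℝ => φ p.1 p.2)
    {B : V × ℕ → (V → ℝ) → (V → ℝ) → ℝ}
    (hB : ∀ j, Continuous fun u : V × ℕ → I =>
      B j (fld K (estT ρ j.2 (ρ j)) (out G θ A K ρ u)) (fld K (estT ρ j.2 (ρ j)) (out G θ' A' K ρ u)))
    {S₀ : Finset (V × ℕ)} (h₀ : ∀ j ∈ S₀, preds (A ∪ A') K ρ j ⊆ S₀)
    {T : Finset (V × ℕ)}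
    (hstep : ∀ j y y', j.2 < K → j ∈ T → j ∉ S₀ →
      ∫ t : I, φ (mag G θ A K (estT ρ j.2 (ρ j)) y v + jm G θ A K ρ y v j t)
          (mag G θ' A' K (estT ρ j.2 (ρ j)) y' v + jm G θ' A' K ρ y' v j t) ≤
        φ (mag G θ A K (estT ρ j.2 (ρ j)) y v) (mag G θ' A' K (estT ρ j.2 (ρ j)) y' v) +
          B j (fld K (estT ρ j.2 (ρ j)) y) (fld K (estT ρ j.2 (ρ j)) y')) :
    ∀ S : Finset (V × ℕ), S₀ ⊆ S → S ⊆ (A ∪ A') ×ˢ Finset.range K → S ⊆ T →
      (∀ j ∈ S, preds (A ∪ A') K ρ j ⊆ S) →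
      ∫ u, φ (mag G θ A K (estS ρ S) (out G θ A K ρ u) v)
          (mag G θ' A' K (estS ρ S) (out G θ' A' K ρ u) v) ∂iidLabels (V × ℕ) ≤
        (∫ u, φ (mag G θ A K (estS ρ S₀) (out G θ A K ρ u) v)
          (mag G θ' A' K (estS ρ S₀) (out G θ' A' K ρ u) v) ∂iidLabels (V × ℕ)) +
        ∑ j ∈ S \ S₀, ∫ u, B j (fld K (estT ρ j.2 (ρ j)) (out G θ A K ρ u))
          (fld K (estT ρ j.2 (ρ j)) (out G θ' A' K ρ u)) ∂iidLabels (V × ℕ) := by
  classical
  intro S
  induction S using Finset.strongInduction with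
  | _ S ih =>
    intro hsub hU hT hcl
    rcases (S \ S₀).eq_empty_or_nonempty with he | hne
    · have : S = S₀ := Finset.Subset.antisymm (Finset.sdiff_eq_empty_iff_subset.mp he) hsub
      subst this
      simp
    obtain ⟨j, hj, hmax⟩ := (S \ S₀).exists_max_image (fun i => (preds (A ∪ A') K ρ i).card) hne
    obtain ⟨hjS, hj0⟩ := Finset.mem_sdiff.mp hj
    obtain ⟨hjA, hjK⟩ := Finset.mem_product.mp (hU hjS)
    rw [Finset.mem_range] at hjK
    set S' := S.erase j with hS'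
    have hpre : ∀ i : V × ℕ, i.1 ∈ A ∪ A' → i.2 < K → i ≠ j → (i ∈ S ↔ Bef ρ j.2 (ρ j) i) := by
      intro i hiA hiK hij
      constructor
      · intro hiS
        have hb : ¬ Bef ρ i.2 (ρ i) j := by
          intro h
          have hjp : j ∈ preds (A ∪ A') K ρ i := mem_preds.mpr ⟨⟨hjA, hjK⟩, h⟩
          by_cases hi0 : i ∈ S₀
          · exact hj0 (h₀ i hi0 hjp)
          · exact absurd (hmax i (Finset.mem_sdiff.mpr ⟨hiS, hi0⟩)) (not_le.mpr (card_preds_lt hjp))
        rcases lt_trichotomy i.2 j.2 with h | h | h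
        · exact Or.inl h
        · rcases lt_trichotomy (ρ i) (ρ j) with h' | h' | h'
          · exact Or.inr ⟨h, h'⟩
          · exact absurd (hρ (Finset.mem_product.mpr ⟨hiA, Finset.mem_range.mpr hiK⟩) (hU hjS)
              (Prod.ext h h')) hij
          · exact absurd (Or.inr ⟨h.symm, h'⟩) hb
        · exact absurd (Or.inl h) hb
      · intro h
        exact hcl j hjS (mem_preds.mpr ⟨⟨hiA, hiK⟩, h⟩)
    have hcl' : ∀ i ∈ S', preds (A ∪ A') K ρ i ⊆ S' := by
      intro i hi a ha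
      obtain ⟨hij, hiS⟩ := Finset.mem_erase.mp hi
      refine Finset.mem_erase.mpr ⟨?_, hcl i hiS ha⟩
      rintro rfl
      obtain ⟨hiA, hiK⟩ := Finset.mem_product.mp (hU hiS)
      have := (hpre i hiA (Finset.mem_range.mp hiK) hij).mp hiS
      exact not_bef_self ρ i (bef_trans this (mem_preds.mp ha).2)
    have IH := ih S' (Finset.erase_ssubset hjS)
      (fun x hx => Finset.mem_erase.mpr ⟨fun e => hj0 (e ▸ hx), hsub hx⟩)
      ((Finset.erase_subset j S).trans hU) ((Finset.erase_subset j S).trans hT) hcl'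
    have hsplit : S \ S₀ = insert j (S' \ S₀) := by
      ext x
      simp only [Finset.mem_sdiff, Finset.mem_insert, hS', Finset.mem_erase]
      constructor
      · rintro ⟨hx, hx0⟩
        by_cases hxj : x = j
        · exact Or.inl hxj
        · exact Or.inr ⟨⟨hxj, hx⟩, hx0⟩
      · rintro (rfl | ⟨⟨-, hx⟩, hx0⟩)
        exacts [⟨hjS, hj0⟩, ⟨hx, hx0⟩]
    rw [hsplit, Finset.sum_insert (by simp [hS'])]
    have habs : |θ| < 1 := by rwa [abs_of_nonneg hθ0]
    have habs' : |θ'| < 1 := by rwa [abs_of_nonneg hθ0']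
    have hc : ∀ (e : V × ℕ → ℝ), IsStr e → Continuous fun u : V × ℕ → I =>
        φ (mag G θ A K e (out G θ A K ρ u) v) (mag G θ' A' K e (out G θ' A' K ρ u) v) :=
      fun e he => hφ.comp (((continuous_mag he habs A v).comp (continuous_out hθ0 hθ1 A K ρ)).prodMk
        ((continuous_mag he habs' A' v).comp (continuous_out hθ0' hθ1' A' K ρ)))
    rw [← integral_avgOne j (hc _ (isStr_estS ρ S))]
    have hsub' : ∀ (B' : Finset V), B' ⊆ A ∪ A' → ∀ i : V × ℕ, i.1 ∈ B' → i.2 < K → i ≠ j →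
        (i ∈ S ↔ Bef ρ j.2 (ρ j) i) := fun B' hB' i h1 h2 h3 => hpre i (hB' h1) h2 h3
    have key : ∀ u, avgOne j (fun u => φ (mag G θ A K (estS ρ S) (out G θ A K ρ u) v)
        (mag G θ' A' K (estS ρ S) (out G θ' A' K ρ u) v)) u ≤
      φ (mag G θ A K (estS ρ S') (out G θ A K ρ u) v)
        (mag G θ' A' K (estS ρ S') (out G θ' A' K ρ u) v) +
        B j (fld K (estT ρ j.2 (ρ j)) (out G θ A K ρ u))
          (fld K (estT ρ j.2 (ρ j)) (out G θ' A' K ρ u)) := by
      intro u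
      have hS'T : ∀ (C : Finset V) (ψ : ℝ), C ⊆ A ∪ A' →
          mag G ψ C K (estS ρ S') (out G ψ C K ρ u) v =
            mag G ψ C K (estT ρ j.2 (ρ j)) (out G ψ C K ρ u) v := fun C ψ hC =>
        mu_congr (fun w hw => fld_congr fun l hl => by
          unfold estS estT
          by_cases hne : (w, l) = j
          · rw [hne, if_neg (by simp [hS']), if_neg (not_bef_self ρ j)]
          · have := hpre (w, l) (hC hw) hl hne
            by_cases hB : Bef ρ j.2 (ρ j) (w, l)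
            · rw [if_pos hB, if_pos (Finset.mem_erase.mpr ⟨hne, this.mpr hB⟩)]
            · rw [if_neg hB, if_neg fun h => hB (this.mp (Finset.mem_erase.mp h).2)]) v
      rw [hS'T A θ Finset.subset_union_left, hS'T A' θ' Finset.subset_union_right]
      refine le_trans (le_of_eq (integral_congr_ae (.of_forall fun t => ?_)))
        (hstep j (out G θ A K ρ u) (out G θ' A' K ρ u) hjK (hT hjS) hj0)
      simp only
      rw [mag_step hθ0 hθ1 hθ0' hθ1' hθ0 hθ1 hjS hjK (hsub' A Finset.subset_union_left),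
        mag_step hθ0 hθ1 hθ0' hθ1' hθ0' hθ1' hjS hjK (hsub' A' Finset.subset_union_right)]
    refine (integral_le_integral (continuous_avgOne j (hc _ (isStr_estS ρ S)))
      ((hc _ (isStr_estS ρ S')).add (hB j)) key).trans ?_
    simp only [Pi.add_apply]
    rw [integral_add (integrable_of_continuous (hc _ (isStr_estS ρ S')))
      (integrable_of_continuous (hB j))]
    linarith

end Growth

end Vale.Agent.P161.Crit
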