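import Vale.Agent.P161.Crit.Growth

/-!
# Moments of a magnetisation at small times
-/

namespace Vale.Agent.P161.Crit

open MeasureTheory unitInterval Function SimpleGraph Vale.Agent.P161

variable {V : Type*} {G : SimpleGraph V} [G.LocallyFinite] {d : ℕ} {θ : ℝ}

lemma tau_pos {k : ℕ} {r : ℝ} (hr : 0 < r) (hr1 : r ≤ 1 / 2) : 0 < tau k r := by
  refine lt_of_lt_of_le ?_ (tau_lower hr.le hr1)
  split_ifs <;> positivity

lemma eta_lower {k : ℕ} {r : ℝ} (hr0 : 0 ≤ r) (hr1 : r ≤ 1 / 2) :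
    Real.sqrt (if k = 0 then r else 1 / 2) ^ 3 / 6800000 ≤ eta k r := by
  set t₀ := (if k = 0 then r else (1 : ℝ) / 2) with ht₀
  have h0 : 0 ≤ t₀ := by rw [ht₀]; split_ifs <;> linarith
  have h := tau_lower (k := k) hr0 hr1
  rw [← ht₀] at h
  have h1 : Real.sqrt t₀ ^ 3 / 17 ≤ Real.sqrt (tau k r) := by
    refine Real.le_sqrt_of_sq_le ?_
    rw [div_pow, ← pow_mul, show (3 * 2) = 2 * 3 by norm_num, pow_mul, Real.sq_sqrt h0]
    refine le_trans ?_ h
    exact div_le_div_of_nonneg_left (pow_nonneg h0 3) (by norm_num) (by norm_num)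
  unfold eta
  calc Real.sqrt t₀ ^ 3 / 6800000 = Real.sqrt t₀ ^ 3 / 17 / 400000 := by ring
    _ ≤ _ := div_le_div_of_nonneg_right h1 (by norm_num)

lemma Lt_le {n k : ℕ} {r : ℝ} (hr0 : 0 < r) (hr1 : r ≤ 1 / 2) :
    Lt n k r ≤ 4 * n + 170000000 / Real.sqrt (if k = 0 then r else 1 / 2) ^ 3 := by
  set u := Real.sqrt (if k = 0 then r else 1 / 2) with hu
  have hu0 : 0 < u := by rw [hu]; refine Real.sqrt_pos.mpr ?_; split_ifs <;> linarith
  have hu1 : u ≤ 1 := by rw [hu]; refine Real.sqrt_le_one.mpr ?_; split_ifs <;> linarith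
  have he := eta_lower (k := k) hr0.le hr1
  rw [← hu] at he
  have h12 : 12 / eta k r ≤ 12 * 6800000 / u ^ 3 := by
    refine (div_le_div_of_nonneg_left (by norm_num) (by positivity) he).trans_eq ?_
    rw [div_div_eq_mul_div]
  have h3 : 2 ≤ 2 / u ^ 3 := by
    rw [le_div_iff₀ (by positivity)]
    exact mul_le_of_le_one_right zero_le_two (pow_le_one₀ hu0.le hu1)
  unfold Lt
  have : 2 / u ^ 3 + 2 * (12 * 6800000 / u ^ 3) ≤ 170000000 / u ^ 3 := by
    rw [← mul_div_assoc, ← add_div]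
    exact div_le_div_of_nonneg_right (by norm_num) (by positivity)
  linarith

variable [Countable V] [DecidableEq V]

omit [G.LocallyFinite] in
lemma mu_at_zero {A : Finset V} (K : ℕ) (ρ y : V × ℕ → I) {v : V} (hv : v ∈ A) :
    mu G θ A (fld K (estT ρ 0 0) y) v = 0 := by
  have e : fld K (estT ρ 0 0) y = fun _ => 0 := funext fun w => fld_eq_zero fun l _ => by
    rw [estT_zero]
  rw [e]
  have := mu_neg (G := G) (θ := θ) (A := A) (fun _ => (0 : ℝ)) hv
  simp only [neg_zero] at this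
  linarith

variable (P : Par G d θ)
include P

/-- The covariances of a ball are dominated by the weighted size of the ball. -/
lemma Par.sum_Cv_sq_le (o : V) (m : ℕ) {f : V → ℝ} (hf : IsFld f) :
    ∑ w ∈ bll G o (m + 1), Cv G θ (bll G o (m + 1)) f o w ^ 2 ≤
      PB G θ (bll G o (m + 1)) m o f :=
  (Finset.sum_le_sum fun _ hw => Cv_sq_le P.tree P.mem_Icc (convex_bll P.tree o _) hf
    (self_mem_bll P.tree.connected o _) hw).trans
    (sum_Wt_le_PB P.tree P.nonneg P.lt_one hf o le_rfl)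

/-- One step of the induction on moments. -/
lemma Par.moment_step {p : ℕ} {C : ℝ} (hC : 0 ≤ C) {o : V} {m K : ℕ} (hK : 0 < K)
    (ih : ∀ r : ℝ, 0 ≤ r → r ≤ 1 / 2 →
      St G θ (bll G o (m + 1)) K 0 r (fun f => mu G θ (bll G o (m + 1)) f o ^ (2 * p)) ≤
        C * Real.sqrt r ^ (3 * p))
    {s : ℝ} (hs : 0 ≤ s) (hs1 : s ≤ 1 / 2) :
    St G θ (bll G o (m + 1)) K 0 s (fun f => mu G θ (bll G o (m + 1)) f o ^ (2 * (p + 1))) ≤
      (4 * 64 ^ (p + 1) * 200000000 * (C + 1 + 4 * p.factorial)) *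
        Real.sqrt s ^ (3 * (p + 1)) := by
  set A := bll G o (m + 1) with hAdef
  have hA : Convex' G A := convex_bll P.tree o _
  have ho : o ∈ A := self_mem_bll P.tree.connected o _
  refine (moment_growth P.nonneg P.lt_one P.tree hA ⟨o, ho⟩ hK o p hs hs1).trans ?_
  rw [show St G θ A K 0 0 (fun f => mu G θ A f o ^ (2 * (p + 1))) = 0 by
    simp [St, Ex, mu_at_zero K _ _ ho], zero_add]
  set w := Real.sqrt s with hw
  have hw0 : 0 ≤ w := Real.sqrt_nonneg s
  have hw1 : w ≤ 1 := Real.sqrt_le_one.mpr (by linarith)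
  have hws : w ^ 2 = s := Real.sq_sqrt hs
  set D := 2 * 64 ^ (p + 1) * 200000000 * (C + 1 + 4 * p.factorial) with hD
  have hD0 : 0 ≤ D := by positivity
  have hbound : ∀ r ∈ Set.uIoc (0 : ℝ) s, ‖r ^ 2 * St G θ A K 0 r
      (fun f => ∑ x ∈ A, 2 * 64 ^ (p + 1) *
        (Cv G θ A f o x ^ 2 * (mu G θ A f o ^ (2 * p) + s ^ (2 * p))))‖ ≤ D * w ^ (3 * p + 1) := by
    intro r hr
    rw [Set.uIoc_of_le hs] at hr
    obtain ⟨hr0, hrs⟩ := hr
    have hr1 : r ≤ 1 / 2 := hrs.trans hs1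
    have hτ := tau_pos (k := 0) hr0 hr1
    set u := Real.sqrt r with hu
    have hu0 : 0 < u := Real.sqrt_pos.mpr hr0
    have huw : u ≤ w := Real.sqrt_le_sqrt hrs
    have hur : u ^ 2 = r := Real.sq_sqrt hr0.le
    set n := ⌈1 / u ^ 3⌉₊ with hn
    set L := Lt n 0 r with hL
    set a := At d n 0 r with ha
    have hL0 : 0 < L := P.Lt_pos hτ
    have haL := P.two_le_At_mul_Lt (n := n) (k := 0) (r := r) hτ
    have hn1 : 1 / u ^ 3 ≤ n := Nat.le_ceil _
    have hn2 : (n : ℝ) ≤ 2 / u ^ 3 := by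
      have h1 : 1 ≤ 1 / u ^ 3 := by
        rw [le_div_iff₀ (by positivity), one_mul]
        exact pow_le_one₀ hu0.le (Real.sqrt_le_one.mpr (by linarith))
      have := Nat.ceil_lt_add_one (show 0 ≤ 1 / u ^ 3 by positivity)
      rw [← hn] at this
      rw [show (2 : ℝ) / u ^ 3 = 1 / u ^ 3 + 1 / u ^ 3 by ring]
      linarith
    have hLu : L ≤ 200000000 / u ^ 3 := by
      have := Lt_le (n := n) (k := 0) hr0 hr1
      rw [if_pos rfl, ← hu] at this
      refine this.trans ?_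
      have e : (200000000 : ℝ) / u ^ 3 = 15000000 * (2 / u ^ 3) + 170000000 / u ^ 3 := by ring
      rw [e]
      nlinarith [show 0 ≤ 2 / u ^ 3 by positivity]
    set Fs : (V → ℝ) → ℝ := fun f => mu G θ A f o ^ (2 * p) + s ^ (2 * p) with hFs
    have hFB : IsB A Fs :=
      ((IsB.mu' P.nonneg P.lt_one A o).comp_real (φ := fun x => x ^ (2 * p)) (by fun_prop)).add
        (IsB.const A _)
    have hF : ∀ f, IsFld f → 0 ≤ Fs f ∧ Fs f ≤ 4 := fun f hf => by
      have h2 : 0 ≤ mu G θ A f o ^ (2 * p) := by rw [pow_mul]; positivity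
      have h3 : mu G θ A f o ^ (2 * p) ≤ 1 := by
        rw [pow_mul, ← sq_abs, ← pow_mul]
        exact pow_le_one₀ (abs_nonneg _) (abs_mu_le P.nonneg P.lt_one A hf o)
      have h4 : s ^ (2 * p) ≤ 1 := pow_le_one₀ hs (by linarith)
      have h5 : 0 ≤ s ^ (2 * p) := pow_nonneg hs _
      exact ⟨by positivity, by simp only [Fs]; linarith⟩
    have heB : IsB A fun f => Real.exp (a * (PB G θ A m o f - L)) :=
      (isB_PB P.tree P.nonneg P.lt_one A m o).comp_real
        (φ := fun x => Real.exp (a * (x - L))) (by fun_prop)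
    set κ : ℝ := 2 * 64 ^ (p + 1)
    have hκ : 0 ≤ κ := by positivity
    have hlB : IsB A fun f => ∑ x ∈ A, κ * (Cv G θ A f o x ^ 2 * Fs f) :=
      IsB.sum _ fun x _ => (IsB.const A κ).mul ((isB_Cv_sq P.nonneg P.lt_one A o x).mul hFB)
    have hmain : St G θ A K 0 r (fun f => ∑ x ∈ A, κ * (Cv G θ A f o x ^ 2 * Fs f)) ≤
        κ * (L * (C * u ^ (3 * p) + s ^ (2 * p)) + 4 * L * Real.exp (-(2 * ((d : ℝ) - 1) ^ n))) := by
      refine (St_mono P.tree P.abs_lt_one hA ⟨o, ho⟩ hlB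
        ((IsB.const A κ).mul (((IsB.const A L).mul hFB).add ((IsB.const A (4 * L)).mul heB)))
        fun f hf => ?_).trans ?_
      · obtain ⟨f0, f4⟩ := hF f hf
        rw [← Finset.mul_sum, ← Finset.sum_mul]
        refine mul_le_mul_of_nonneg_left ?_ hκ
        refine (mul_le_mul_of_nonneg_right (P.sum_Cv_sq_le o m hf) f0).trans ?_
        rw [mul_comm]
        exact le_thr hL0 haL (zero_le_one.trans (one_le_PB A m o f)) f0 f4
      · rw [St_const_mul, St_add P.tree P.abs_lt_one hA ⟨o, ho⟩ ((IsB.const A L).mul hFB)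
          ((IsB.const A (4 * L)).mul heB), St_const_mul, St_const_mul,
          St_add P.tree P.abs_lt_one hA ⟨o, ho⟩
            ((IsB.mu' P.nonneg P.lt_one A o).comp_real (φ := fun x => x ^ (2 * p)) (by fun_prop))
            (IsB.const A _), St_const P.tree P.abs_lt_one hA ⟨o, ho⟩]
        refine mul_le_mul_of_nonneg_left (add_le_add (mul_le_mul_of_nonneg_left
          (add_le_add (ih r hr0.le hr1) le_rfl) hL0.le)
          (mul_le_mul_of_nonneg_left (P.exp_PB hK hτ o m n) (by positivity))) hκ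
    have hexp : Real.exp (-(2 * ((d : ℝ) - 1) ^ n)) ≤ p.factorial * u ^ (3 * p) := by
      have h1 : (1 / u ^ 3) ≤ 2 * ((d : ℝ) - 1) ^ n := by
        have hb : (1 : ℝ) + n * 1 ≤ (1 + 1) ^ n := one_add_mul_le_pow (by norm_num) n
        have := pow_le_pow_left₀ (show (0:ℝ) ≤ 1 + 1 by norm_num) (by linarith [P.two_le]) n
          (b := (d : ℝ) - 1)
        linarith [show (0:ℝ) ≤ n from Nat.cast_nonneg n]
      refine (Real.exp_le_exp.mpr (neg_le_neg h1)).trans ?_
      have h2 := Real.pow_div_factorial_le_exp (x := 1 / u ^ 3) (by positivity) p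
      rw [Real.exp_neg]
      refine inv_le_of_inv_le₀ (by positivity) ?_
      refine le_trans (le_of_eq ?_) h2
      rw [div_pow, one_pow, ← pow_mul]
      field_simp
    have hB0 : 0 ≤ St G θ A K 0 r (fun f => ∑ x ∈ A, κ * (Cv G θ A f o x ^ 2 * Fs f)) := by
      have h := St_mono P.tree P.abs_lt_one (K := K) (k := 0) (r := r) hA ⟨o, ho⟩ (IsB.const A 0) hlB
        fun f hf => Finset.sum_nonneg fun x _ =>
          mul_nonneg hκ (mul_nonneg (sq_nonneg _) (hF f hf).1)
      rwa [St_const P.tree P.abs_lt_one hA ⟨o, ho⟩] at h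
    rw [Real.norm_eq_abs, abs_of_nonneg (mul_nonneg (sq_nonneg r) hB0)]
    refine (mul_le_mul_of_nonneg_left hmain (sq_nonneg r)).trans ?_
    have hcomb : C * u ^ (3 * p) + s ^ (2 * p) + 4 * Real.exp (-(2 * ((d : ℝ) - 1) ^ n)) ≤
        (C + 1 + 4 * p.factorial) * w ^ (3 * p) := by
      have h1 : u ^ (3 * p) ≤ w ^ (3 * p) := pow_le_pow_left₀ hu0.le huw _
      have h2 : s ^ (2 * p) ≤ w ^ (3 * p) := by
        rw [← hws, ← pow_mul]; exact pow_le_pow_of_le_one hw0 hw1 (by omega)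
      have h3 := mul_le_mul_of_nonneg_left h1 hC
      have h4 := mul_le_mul_of_nonneg_left h1 (Nat.cast_nonneg (α := ℝ) p.factorial)
      linarith
    calc r ^ 2 * (κ * (L * (C * u ^ (3 * p) + s ^ (2 * p)) +
          4 * L * Real.exp (-(2 * ((d : ℝ) - 1) ^ n))))
        = κ * (r ^ 2 * L) * (C * u ^ (3 * p) + s ^ (2 * p) +
            4 * Real.exp (-(2 * ((d : ℝ) - 1) ^ n))) := by ring
      _ ≤ κ * (200000000 * w) * ((C + 1 + 4 * p.factorial) * w ^ (3 * p)) := by
          refine mul_le_mul (mul_le_mul_of_nonneg_left ?_ hκ) hcomb ?_ (by positivity)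
          · refine (mul_le_mul_of_nonneg_left hLu (sq_nonneg r)).trans ?_
            rw [← hur, show (u ^ 2) ^ 2 * (200000000 / u ^ 3) = 200000000 * u by field_simp]
            exact mul_le_mul_of_nonneg_left huw (by norm_num)
          · have : 0 ≤ s ^ (2 * p) := pow_nonneg hs _
            positivity
      _ = D * w ^ (3 * p + 1) := by rw [hD, pow_succ]; ring
  have hint := intervalIntegral.norm_integral_le_of_norm_le_const hbound
  rw [Real.norm_eq_abs, sub_zero, abs_of_nonneg hs] at hint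
  calc 2 * _ ≤ 2 * (D * w ^ (3 * p + 1) * s) :=
        mul_le_mul_of_nonneg_left ((le_abs_self _).trans hint) zero_le_two
    _ = _ := by rw [hD, ← hws]; ring

omit P in
/-- Every even moment at time `s` is of order the matching power of `s ^ (3 / 2)`. -/
theorem moment_bound (d : ℕ) (p : ℕ) : ∃ C : ℝ, 0 ≤ C ∧ ∀ θ : ℝ, Par G d θ →
    ∀ (o : V) (m K : ℕ), 0 < K → ∀ s : ℝ, 0 ≤ s → s ≤ 1 / 2 →
      St G θ (bll G o (m + 1)) K 0 s (fun f => mu G θ (bll G o (m + 1)) f o ^ (2 * p)) ≤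
        C * Real.sqrt s ^ (3 * p) := by
  induction p with
  | zero =>
    refine ⟨1, zero_le_one, fun θ P o m K _ s _ _ => ?_⟩
    simp [St_const P.tree P.abs_lt_one (convex_bll P.tree o (m + 1))
      ⟨o, self_mem_bll P.tree.connected o (m + 1)⟩]
  | succ p ih =>
    obtain ⟨C, hC, hb⟩ := ih
    exact ⟨_, by positivity, fun θ P o m K hK s hs hs1 =>
      P.moment_step hC hK (fun r h0 h1 => hb θ P o m K hK r h0 h1) hs hs1⟩

end Vale.Agent.P161.Crit
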