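import Vale.Agent.P161.Crit.Late
import Vale.Agent.P161.Crit.Cont

/-!
# The covariance along a geodesic near the start
-/

namespace Vale.Agent.P161.Crit

open SimpleGraph Vale.Agent.P161

variable {V : Type*} {G : SimpleGraph V} {θ θ' : ℝ}

/-- The logarithmic damping of an end point. -/
noncomputable def lam (m : ℝ) : ℝ := -Real.log (max (1 - m ^ 2) (1 / 2))

lemma lam_nonneg (m : ℝ) : 0 ≤ lam m :=
  neg_nonneg.mpr (Real.log_nonpos (le_max_of_le_right (by norm_num))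
    (max_le (by linarith [sq_nonneg m]) (by norm_num)))

lemma lam_exp {m : ℝ} (h : m ^ 2 ≤ 1 / 2) : Real.exp (-lam m) = 1 - m ^ 2 := by
  rw [lam, neg_neg, max_eq_left (by linarith), Real.exp_log (by linarith)]

lemma lam_sub {m m' : ℝ} (h : |m| ≤ 1) (h' : |m'| ≤ 1) : |lam m - lam m'| ≤ 4 * |m - m'| := by
  have := log_max_sub (x := 1 - m ^ 2) (y := 1 - m' ^ 2)
  unfold lam
  rw [show -Real.log (max (1 - m ^ 2) (1 / 2)) - -Real.log (max (1 - m' ^ 2) (1 / 2)) =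
    -(Real.log (max (1 - m ^ 2) (1 / 2)) - Real.log (max (1 - m' ^ 2) (1 / 2))) by ring, abs_neg]
  refine this.trans ?_
  rw [show (1 - m ^ 2) - (1 - m' ^ 2) = (m' + m) * (m' - m) by ring, abs_mul, abs_sub_comm m' m]
  have : |m' + m| ≤ 2 := (abs_add_le _ _).trans (by linarith)
  nlinarith [abs_nonneg (m - m')]

lemma abs_exp_sub {a b : ℝ} (ha : 0 ≤ a) (hb : 0 ≤ b) :
    |Real.exp (-a) - Real.exp (-b)| ≤ |a - b| := by
  rcases le_total a b with h | h
  · rw [abs_of_nonneg (sub_nonneg.mpr (Real.exp_le_exp.mpr (by linarith))),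
      abs_of_nonpos (by linarith)]
    have := Real.add_one_le_exp (a - b)
    have e : Real.exp (-b) = Real.exp (-a) * Real.exp (a - b) := by
      rw [← Real.exp_add]; congr 1; ring
    nlinarith [Real.exp_le_one_iff.mpr (show -a ≤ 0 by linarith), Real.exp_pos (-a)]
  · rw [abs_of_nonpos (sub_nonpos.mpr (Real.exp_le_exp.mpr (by linarith))),
      abs_of_nonneg (by linarith)]
    have := Real.add_one_le_exp (b - a)
    have e : Real.exp (-a) = Real.exp (-b) * Real.exp (b - a) := by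
      rw [← Real.exp_add]; congr 1; ring
    nlinarith [Real.exp_le_one_iff.mpr (show -b ≤ 0 by linarith), Real.exp_pos (-b)]

lemma pow_diff_sq {θ θ' c₀ : ℝ} (hc0 : 0 < c₀) (hlo : c₀ ≤ θ) (hlo' : c₀ ≤ θ') (n : ℕ) :
    (θ ^ n - θ' ^ n) ^ 2 ≤
      (n : ℝ) ^ 2 * (θ - θ') ^ 2 * (θ ^ (2 * n) + θ' ^ (2 * n)) / c₀ ^ 2 := by
  have key : ∀ {a b : ℝ}, c₀ ≤ b → b ≤ a →
      (a ^ n - b ^ n) ^ 2 * c₀ ^ 2 ≤ (n : ℝ) ^ 2 * (a - b) ^ 2 * a ^ (2 * n) := by
    intro a b hb hba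
    have ha0 : 0 ≤ a := hc0.le.trans (hb.trans hba)
    have h1 := pow_le_pow_left₀ (mul_nonneg (abs_nonneg _) ha0)
      (abs_pow_sub_le (hc0.le.trans hb) hba n) 2
    simp only [mul_pow, sq_abs] at h1
    rw [← pow_mul, mul_comm n 2] at h1
    exact (mul_le_mul_of_nonneg_left (pow_le_pow_left₀ hc0.le (hb.trans hba) 2) (sq_nonneg _)).trans h1
  have hn : 0 ≤ (n : ℝ) ^ 2 * (θ - θ') ^ 2 := by positivity
  have a1 : 0 ≤ θ ^ (2 * n) := pow_nonneg (hc0.le.trans hlo) _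
  have a2 : 0 ≤ θ' ^ (2 * n) := pow_nonneg (hc0.le.trans hlo') _
  rw [le_div_iff₀ (by positivity)]
  rcases le_total θ' θ with hle | hle
  · exact (key hlo' hle).trans (mul_le_mul_of_nonneg_left (le_add_of_nonneg_right a2) hn)
  · rw [show (θ ^ n - θ' ^ n) ^ 2 = (θ' ^ n - θ ^ n) ^ 2 by ring]
    refine (key hlo hle).trans ?_
    rw [show (θ' - θ) ^ 2 = (θ - θ') ^ 2 by ring]
    exact mul_le_mul_of_nonneg_left (le_add_of_nonneg_left a1) hn

lemma exp_diff_sq {a b x y N T p q r Dp Dq : ℝ} (hx : 0 ≤ x) (hy : 0 ≤ y)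
    (hab : (a - b) ^ 2 ≤ N * T) (hN : 0 ≤ N) (hT : 0 ≤ T) (hb : b ^ 2 ≤ T)
    (hxy : x - y = (p + q + r) / 2) (hp : |p| ≤ 4 * |Dp|) (hq : |q| ≤ 4 * |Dq|) :
    (a * Real.exp (-x) - b * Real.exp (-y)) ^ 2 ≤
      T * (2 * N + 25 * (Dp ^ 2 + Dq ^ 2) + 2 * r ^ 2) := by
  have he1 : Real.exp (-x) ^ 2 ≤ 1 :=
    pow_le_one₀ (Real.exp_pos _).le (Real.exp_le_one_iff.mpr (neg_nonpos.mpr hx))
  have he2 : (Real.exp (-x) - Real.exp (-y)) ^ 2 ≤ (x - y) ^ 2 := by
    rw [← sq_abs (Real.exp (-x) - Real.exp (-y)), ← sq_abs (x - y)]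
    exact pow_le_pow_left₀ (abs_nonneg _) (abs_exp_sub hx hy) 2
  have q1 := pow_le_pow_left₀ (abs_nonneg _) hp 2
  have q2 := pow_le_pow_left₀ (abs_nonneg _) hq 2
  rw [sq_abs, mul_pow, sq_abs] at q1 q2
  have h3 : (x - y) ^ 2 ≤ 12 * (Dp ^ 2 + Dq ^ 2) + r ^ 2 := by
    rw [hxy]
    nlinarith [sq_nonneg (p - q), sq_nonneg (p - r), sq_nonneg (q - r)]
  rw [show a * Real.exp (-x) - b * Real.exp (-y) =
    (a - b) * Real.exp (-x) + b * (Real.exp (-x) - Real.exp (-y)) by ring]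
  refine (add_sq_le).trans ?_
  rw [mul_pow, mul_pow]
  have u1 := mul_le_mul hab he1 (sq_nonneg _) (mul_nonneg hN hT)
  have u2 := mul_le_mul hb (he2.trans h3) (sq_nonneg _) hT
  have : 0 ≤ T * (Dp ^ 2 + Dq ^ 2) := by positivity
  linarith

variable [DecidableEq V] [G.LocallyFinite] {d : ℕ}

lemma prod_reverse (hG : G.IsTree) (o u : V) (f : V → V → ℝ) :
    ∏ c ∈ (geo G u o).erase u, f (tow G c u) c =
      ∏ c ∈ (geo G o u).erase o, f c (tow G c o) := by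
  have key : ∀ o u : V, ∀ c ∈ (geo G o u).erase o,
      tow G c o ∈ (geo G u o).erase u ∧ tow G (tow G c o) u = c := by
    intro o u c hc
    obtain ⟨hne, hcg⟩ := Finset.mem_erase.mp hc
    obtain ⟨ha, hd⟩ := tow_spec hG hne
    have htg : tow G c o ∈ geo G o u :=
      geo_left_subset hG hcg (by rw [geo_comm hG]; exact tow_mem_geo hG hne)
    have h1 := (mem_geo hG).mp hcg
    have h2 := (mem_geo hG).mp htg
    rw [SimpleGraph.dist_comm (u := c), SimpleGraph.dist_comm (u := tow G c o)] at hd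
    refine ⟨Finset.mem_erase.mpr ⟨fun e => ?_, geo_comm hG o u ▸ htg⟩, tow_eq hG ha.symm ?_⟩
    · rw [e] at hd h2; omega
    · omega
  refine Finset.prod_nbij' (fun c => tow G c u) (fun c => tow G c o) ?_ ?_ ?_ ?_ ?_
  · intro c hc; exact (key u o c hc).1
  · intro c hc; exact (key o u c hc).1
  · intro c hc; exact (key u o c hc).2
  · intro c hc; exact (key o u c hc).2
  · intro c hc
    rw [(key u o c hc).2]

namespace Par

variable (P : Par G d θ) {A : Finset V} (hA : Convex' G A) {h : V → ℝ} (hh : IsFld h)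
include P hA hh

/-- A small magnetisation pair forces a small cavity. -/
lemma cav_small {x y : V} (hx : x ∈ A) (hy : y ∈ A) (hadj : G.Adj x y)
    (h1 : 50000 * mu G θ A h x ^ 2 < 1) (h2 : 50000 * mu G θ A h y ^ 2 < 1) :
    1 / 2 ≤ rho θ (cav G θ A h x y) := by
  have b1 := (abs_cav_lt P.tree P.nonneg P.lt_one hh hx hadj.symm).le
  have b2 := (abs_cav_lt P.tree P.nonneg P.lt_one hh hy hadj).le
  have hd := cav_det P.mem_Icc b1 b2 (a' := (0 : ℝ)) (b' := (0 : ℝ)) (by simp) (by simp)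
  simp only [sub_zero, mul_zero, add_zero, div_one] at hd
  have hm := mu_edge P.tree P.abs_lt_one hh hx hy hadj
  have hn := mu_edge P.tree P.abs_lt_one hh hy hx hadj.symm
  have hn' : mu G θ A h y = (cav G θ A h x y + θ * cav G θ A h y x) /
      (1 + θ * cav G θ A h y x * cav G θ A h x y) := by rw [hn]; congr 1; ring
  rw [← hm, ← hn'] at hd
  have h3 := (rho_facts P.mem_Icc b2).2.2
  have h4 : cav G θ A h x y ^ 2 ≤ 4608 * (mu G θ A h x ^ 2 + mu G θ A h y ^ 2) := by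
    rw [← sq_abs]
    refine (pow_le_pow_left₀ (abs_nonneg _) hd 2).trans ?_
    rw [mul_pow, ← sq_abs (mu G θ A h x), ← sq_abs (mu G θ A h y)]
    nlinarith [sq_nonneg (|mu G θ A h x| - |mu G θ A h y|)]
  linarith

/-- Near the start a covariance is a power times an exponential. -/
lemma Cv_exp {o u : V} (ho : o ∈ A) (hu : u ∈ A)
    (hgood : ∀ c ∈ geo G o u, 50000 * mu G θ A h c ^ 2 < 1) :
    Cv G θ A h o u = θ ^ G.dist o u * Real.exp (-((lam (mu G θ A h o) + lam (mu G θ A h u) +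
      ∑ c ∈ (geo G o u).erase o, gS G θ A h (tow G c o, c)) / 2)) := by
  have hG := P.tree
  set I' := (geo G o u).erase o
  have hedge : ∀ c ∈ I', c ∈ A ∧ tow G c o ∈ A ∧ G.Adj (tow G c o) c ∧ tow G c o ∈ geo G o u :=
    fun c hc => path_edge hG hA ho hu hc
  have hr1 : ∀ c ∈ I', 1 / 2 ≤ rho θ (cav G θ A h (tow G c o) c) ∧
      1 / 2 ≤ rho θ (cav G θ A h c (tow G c o)) := fun c hc => by
    obtain ⟨h1, h2, h3, h4⟩ := hedge c hc
    have g1 := hgood _ (Finset.mem_of_mem_erase hc)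
    have g2 := hgood _ h4
    exact ⟨P.cav_small hA hh h2 h1 h3 g2 g1, P.cav_small hA hh h1 h2 h3.symm g1 g2⟩
  have hmo : mu G θ A h o ^ 2 ≤ 1 / 2 := by linarith [hgood o (left_mem_geo hG o u)]
  have hmu : mu G θ A h u ^ 2 ≤ 1 / 2 := by linarith [hgood u (right_mem_geo hG o u)]
  have e1 := Cv_path hG P.abs_lt_one hh hA ho hu
  have e2 := Cv_path hG P.abs_lt_one hh hA hu ho
  rw [Cv_comm, SimpleGraph.dist_comm (u := u),
    prod_reverse hG o u fun a b => rho θ (cav G θ A h a b)] at e2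
  set C := Cv G θ A h o u
  set n := G.dist o u
  have hp : ∀ (F : V → ℝ), (∀ c ∈ I', 1 / 2 ≤ rho θ (F c)) →
      ∏ c ∈ I', rho θ (F c) = Real.exp (-∑ c ∈ I', glog θ (F c)) := fun F hF => by
    rw [← Finset.sum_neg_distrib, Real.exp_sum]
    exact Finset.prod_congr rfl fun c hc => rho_eq_exp (hF c hc)
  rw [hp _ fun c hc => (hr1 c hc).1, ← lam_exp hmo] at e1
  rw [hp _ fun c hc => (hr1 c hc).2, ← lam_exp hmu] at e2
  set Γ := (lam (mu G θ A h o) + lam (mu G θ A h u) +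
    ∑ c ∈ I', gS G θ A h (tow G c o, c)) / 2 with hΓ
  have hC0 : 0 ≤ C := by
    rw [e1]; exact mul_nonneg (mul_nonneg (pow_nonneg P.nonneg _) (Real.exp_pos _).le) (Real.exp_pos _).le
  have hsq : C ^ 2 = (θ ^ n * Real.exp (-Γ)) ^ 2 := by
    rw [pow_two C]
    nth_rewrite 1 [e1]
    rw [e2, mul_pow, ← Real.exp_nat_mul, hΓ]
    simp only [gS, Finset.sum_add_distrib]
    rw [show ∀ a X Y Z W : ℝ, a * X * Y * (a * Z * W) = a ^ 2 * (X * Y * (Z * W)) from
      fun a X Y Z W => by ring, ← Real.exp_add, ← Real.exp_add, ← Real.exp_add]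
    congr 2
    push_cast
    ring
  exact (sq_eq_sq₀ hC0 (mul_nonneg (pow_nonneg P.nonneg _) (Real.exp_pos _).le)).mp hsq

end Par

/-- The covariance difference near the start. -/
lemma early_cov (P : Par G d θ) (P' : Par G d θ') {c₀ : ℝ} (hc0 : 0 < c₀) (hlo : c₀ ≤ θ)
    (hlo' : c₀ ≤ θ') {B : Finset V} (hB : Convex' G B) {a b : V → ℝ} (ha : IsFld a) (hb : IsFld b)
    {o w : V} (ho : o ∈ B) (hw : w ∈ B) (j : ℕ) :
    pw1 G θ θ' B B o w a b + pw2 G θ θ' B B o w a b ≤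
      (θ ^ (2 * G.dist o w) + θ' ^ (2 * G.dist o w)) *
        (8 * (G.dist o w : ℝ) ^ 2 * (θ - θ') ^ 2 / c₀ ^ 2 +
          300 * (dm G θ θ' B B o a b + dm G θ θ' B B w a b) +
          8 * (∑ c ∈ (geo G o w).erase o,
            (gS G θ B a (tow G c o, c) - gS G θ' B b (tow G c o, c))) ^ 2 +
          8 * ∑ c ∈ geo G o w, ((50000 * mu G θ B a c ^ 2) ^ j + (50000 * mu G θ' B b c ^ 2) ^ j)) := by
  simp only [pw1, pw2, if_pos hw, if_pos (And.intro hw hw)]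
  set n := G.dist o w
  set T := θ ^ (2 * n) + θ' ^ (2 * n) with hT
  have hT1 : θ ^ (2 * n) ≤ T := le_add_of_nonneg_right (pow_nonneg P'.nonneg _)
  have hT2 : θ' ^ (2 * n) ≤ T := le_add_of_nonneg_left (pow_nonneg P.nonneg _)
  have hT0 : 0 ≤ T := (pow_nonneg P.nonneg _).trans hT1
  have c1 := (Cv_sq_le P.tree P.mem_Icc hB ha ho hw).trans
    (mul_le_of_le_one_right (pow_nonneg P.nonneg _) (Wt_le_one _ _ _ _ _))
  have c2 := (Cv_sq_le P.tree P'.mem_Icc hB hb ho hw).trans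
    (mul_le_of_le_one_right (pow_nonneg P'.nonneg _) (Wt_le_one _ _ _ _ _))
  set Do := dm G θ θ' B B o a b with hDo
  set Dw := dm G θ θ' B B w a b with hDw
  have hD0 : 0 ≤ Do := dm_nonneg _ _ _ _ _
  have hDw0 : 0 ≤ Dw := dm_nonneg _ _ _ _ _
  set Sg := ∑ c ∈ (geo G o w).erase o, (gS G θ B a (tow G c o, c) - gS G θ' B b (tow G c o, c))
  set Mo := ∑ c ∈ geo G o w, ((50000 * mu G θ B a c ^ 2) ^ j + (50000 * mu G θ' B b c ^ 2) ^ j)
  have hMo : 0 ≤ Mo := Finset.sum_nonneg fun c _ => by positivity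
  have h2 : 200 * (Cv G θ' B b o w ^ 2 * (mu G θ B a w - mu G θ' B b w) ^ 2) ≤ 200 * (T * Dw) :=
    mul_le_mul_of_nonneg_left (mul_le_mul (c2.trans hT2) le_rfl (sq_nonneg _) hT0) (by norm_num)
  have key : (Cv G θ B a o w - Cv G θ' B b o w) ^ 2 ≤
      T * (2 * (n : ℝ) ^ 2 * (θ - θ') ^ 2 / c₀ ^ 2 + 25 * (Do + Dw) + 2 * Sg ^ 2 + 2 * Mo) := by
    by_cases hgood : ∀ c ∈ geo G o w,
        50000 * mu G θ B a c ^ 2 < 1 ∧ 50000 * mu G θ' B b c ^ 2 < 1
    · rw [P.Cv_exp hB ha ho hw fun c hc => (hgood c hc).1,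
        P'.Cv_exp hB hb ho hw fun c hc => (hgood c hc).2]
      have hx0 : ∀ {φ : ℝ} (Q : Par G d φ) {f : V → ℝ}, IsFld f →
          0 ≤ (lam (mu G φ B f o) + lam (mu G φ B f w) +
            ∑ c ∈ (geo G o w).erase o, gS G φ B f (tow G c o, c)) / 2 := by
        intro φ Q f hf
        refine div_nonneg (add_nonneg (add_nonneg (lam_nonneg _) (lam_nonneg _))
          (Finset.sum_nonneg fun c hc => ?_)) zero_le_two
        obtain ⟨h1, h2, h3, -⟩ := path_edge Q.tree hB ho hw hc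
        exact add_nonneg
          (glog_range Q.mem_Icc (abs_cav_lt Q.tree Q.nonneg Q.lt_one hf h1 h3).le).1
          (glog_range Q.mem_Icc (abs_cav_lt Q.tree Q.nonneg Q.lt_one hf h2 h3.symm).le).1
      refine (exp_diff_sq (p := lam (mu G θ B a o) - lam (mu G θ' B b o))
        (q := lam (mu G θ B a w) - lam (mu G θ' B b w)) (r := Sg)
        (Dp := mu G θ B a o - mu G θ' B b o) (Dq := mu G θ B a w - mu G θ' B b w)
        (hx0 P ha) (hx0 P' hb)
        ((pow_diff_sq hc0 hlo hlo' n).trans_eq (mul_div_right_comm _ _ _))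
        (by positivity) hT0 ((pow_right_comm θ' n 2).trans_le (by rw [← pow_mul]; exact hT2)) ?_
        (lam_sub (abs_mu_le (G := G) P.nonneg P.lt_one B ha o)
          (abs_mu_le (G := G) P'.nonneg P'.lt_one B hb o))
        (lam_sub (abs_mu_le (G := G) P.nonneg P.lt_one B ha w)
          (abs_mu_le (G := G) P'.nonneg P'.lt_one B hb w))).trans
        (mul_le_mul_of_nonneg_left ?_ hT0)
      · simp only [Sg, Finset.sum_sub_distrib]; ring
      · simp only [hDo, hDw, dm]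
        rw [mul_div_assoc', ← mul_assoc]
        exact le_add_of_nonneg_right (mul_nonneg zero_le_two hMo)
    · push Not at hgood
      obtain ⟨c, hc, hcb⟩ := hgood
      have h1 : 1 ≤ Mo := by
        refine le_trans ?_ (Finset.single_le_sum (fun c _ => by positivity) hc)
        by_cases h : 50000 * mu G θ B a c ^ 2 < 1
        · exact le_add_of_nonneg_of_le (by positivity) (one_le_pow₀ (hcb h))
        · exact le_add_of_le_of_nonneg (one_le_pow₀ (not_lt.mp h)) (by positivity)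
      have h3 := mul_le_mul_of_nonneg_left h1 hT0
      have h4 : 0 ≤ T * (2 * (n : ℝ) ^ 2 * (θ - θ') ^ 2 / c₀ ^ 2 + 25 * (Do + Dw) + 2 * Sg ^ 2) :=
        mul_nonneg hT0 (by positivity)
      nlinarith [sq_nonneg (Cv G θ B a o w + Cv G θ' B b o w)]
  have e3 : T * (8 * (n : ℝ) ^ 2 * (θ - θ') ^ 2 / c₀ ^ 2 + 300 * (Do + Dw) + 8 * Sg ^ 2 + 8 * Mo) =
      4 * (T * (2 * (n : ℝ) ^ 2 * (θ - θ') ^ 2 / c₀ ^ 2 + 25 * (Do + Dw) + 2 * Sg ^ 2 + 2 * Mo)) +
        200 * (T * Dw) + 200 * (T * Do) := by ring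
  rw [e3]
  linarith [mul_nonneg hT0 hD0]

/-- The damping difference of one edge in terms of its two magnetisations. -/
lemma gS_sub_sq (P : Par G d θ) (P' : Par G d θ') {A : Finset V} (hA : Convex' G A)
    {a b : V → ℝ} (ha : IsFld a) (hb : IsFld b) {e : V × V} (hadj : G.Adj e.1 e.2) (hx : e.1 ∈ A)
    (hy : e.2 ∈ A) :
    (gS G θ A a e - gS G θ' A b e) ^ 2 ≤ 10 ^ 15 *
      ((mu G θ A a e.1 ^ 2 + mu G θ A a e.2 ^ 2 + mu G θ' A b e.1 ^ 2 + mu G θ' A b e.2 ^ 2) *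
        (dm G θ θ' A A e.1 a b + dm G θ θ' A A e.2 a b) + 5 * (θ - θ') ^ 2) := by
  set S := mu G θ A a e.1 ^ 2 + mu G θ A a e.2 ^ 2 + mu G θ' A b e.1 ^ 2 + mu G θ' A b e.2 ^ 2
  have hsq1 : ∀ {φ : ℝ} (Q : Par G d φ) {f : V → ℝ}, IsFld f → ∀ v, mu G φ A f v ^ 2 ≤ 1 :=
    fun {φ} Q {f} hf v => by
      rw [← sq_abs]; exact pow_le_one₀ (abs_nonneg _) (abs_mu_le Q.nonneg Q.lt_one A hf v)
  have hS4 : S ≤ 4 := by
    have := hsq1 P ha e.1; have := hsq1 P ha e.2; have := hsq1 P' hb e.1; have := hsq1 P' hb e.2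
    simp only [S]; linarith
  have hS0 : 0 ≤ S := by positivity
  set D := dm G θ θ' A A e.1 a b + dm G θ θ' A A e.2 a b
  have hD0 : 0 ≤ D := add_nonneg (dm_nonneg _ _ _ _ _) (dm_nonneg _ _ _ _ _)
  have key : ∀ x y : V, G.Adj x y → x ∈ A → y ∈ A →
      (mu G θ A a x ^ 2 + mu G θ A a y ^ 2 + mu G θ' A b x ^ 2 + mu G θ' A b y ^ 2 = S) →
      (dm G θ θ' A A x a b + dm G θ θ' A A y a b = D) →
      (glog θ (cav G θ A a x y) - glog θ' (cav G θ' A b x y)) ^ 2 ≤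
        13 * 10 ^ 13 * (S * D + 5 * (θ - θ') ^ 2) := by
    intro x y hxy hx hy eS eD
    have c1 := (abs_cav_lt P.tree P.nonneg P.lt_one ha hy hxy).le
    have c2 := (abs_cav_lt P'.tree P'.nonneg P'.lt_one hb hy hxy).le
    have g := glog_sub P.mem_Icc P'.mem_Icc c1 c2
    have h2 : (cav G θ A a x y - cav G θ' A b x y) ^ 2 ≤ 48000000 * (D + (θ - θ') ^ 2) := by
      rw [← eD]
      exact cav_sub_sq P.tree P.mem_Icc P'.mem_Icc hA hA ha hb hx hy hx hy hxy
    have hb0 : ∀ {φ : ℝ} (Q : Par G d φ) {f : V → ℝ}, IsFld f →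
        cav G φ A f x y ^ 2 ≤ 4608 * (mu G φ A f x ^ 2 + mu G φ A f y ^ 2) := by
      intro φ Q f hf
      have b1 := (abs_cav_lt Q.tree Q.nonneg Q.lt_one hf hx hxy.symm).le
      have b2 := (abs_cav_lt Q.tree Q.nonneg Q.lt_one hf hy hxy).le
      have hd := cav_det Q.mem_Icc b1 b2 (a' := (0 : ℝ)) (b' := (0 : ℝ)) (by simp) (by simp)
      simp only [sub_zero, mul_zero, add_zero, div_one] at hd
      have hm := mu_edge Q.tree Q.abs_lt_one hf hx hy hxy
      have hn := mu_edge Q.tree Q.abs_lt_one hf hy hx hxy.symm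
      have hn' : mu G φ A f y = (cav G φ A f x y + φ * cav G φ A f y x) /
          (1 + φ * cav G φ A f y x * cav G φ A f x y) := by rw [hn]; congr 1; ring
      rw [← hm, ← hn'] at hd
      rw [← sq_abs]
      refine (pow_le_pow_left₀ (abs_nonneg _) hd 2).trans ?_
      rw [mul_pow, ← sq_abs (mu G φ A f x), ← sq_abs (mu G φ A f y)]
      nlinarith [sq_nonneg (|mu G φ A f x| - |mu G φ A f y|)]
    have u1 := hb0 P ha
    have u2 := hb0 P' hb
    set β := cav G θ A a x y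
    set β' := cav G θ' A b x y
    have hβ : β ^ 2 ≤ 1 := by rw [← sq_abs]; exact pow_le_one₀ (abs_nonneg _) c1
    have h3 : (|β| + |β'|) ^ 2 ≤ 9216 * S := by
      rw [← eS]; nlinarith [sq_nonneg (|β| - |β'|), sq_abs β, sq_abs β']
    have h4 := pow_le_pow_left₀ (abs_nonneg _) g 2
    rw [sq_abs] at h4
    refine h4.trans ((add_sq_le).trans ?_)
    rw [mul_pow, mul_pow, mul_pow, mul_pow, sq_abs, sq_abs]
    have h5 := mul_le_mul h3 h2 (sq_nonneg _) (by positivity)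
    have h6 : (β ^ 2) ^ 2 * (θ - θ') ^ 2 ≤ 1 * (θ - θ') ^ 2 :=
      mul_le_mul_of_nonneg_right (pow_le_one₀ (sq_nonneg _) hβ) (sq_nonneg _)
    have h7 := mul_le_mul_of_nonneg_right hS4 (sq_nonneg (θ - θ'))
    have h8 : 0 ≤ S * D := mul_nonneg hS0 hD0
    have h9 : 0 ≤ S * (θ - θ') ^ 2 := mul_nonneg hS0 (sq_nonneg _)
    nlinarith
  have k1 := key e.1 e.2 hadj hx hy rfl rfl
  have k2 := key e.2 e.1 hadj.symm hy hx (by simp only [S]; ring) (by simp only [D]; ring)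
  have h8 : 0 ≤ S * D := mul_nonneg hS0 hD0
  simp only [gS]
  rw [show ∀ p q p' q' : ℝ, p + q - (p' + q') = (p - p') + (q - q') from fun p q p' q' => by ring]
  refine (add_sq_le).trans ?_
  nlinarith [sq_nonneg (θ - θ')]

end Vale.Agent.P161.Crit
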