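import Vale.Agent.P161.Crit.Branch
import Vale.Agent.P161.Crit.Mart

/-!
# Comparing the covariances of two systems
-/

namespace Vale.Agent.P161.Crit

open SimpleGraph Vale.Agent.P161

variable {V : Type*} {G : SimpleGraph V} {θ θ' : ℝ}

/-- The discrepancy of two systems along a geodesic. -/
noncomputable def Dev (G : SimpleGraph V) [G.LocallyFinite] (θ θ' : ℝ) (A A' : Finset V)
    (h h' : V → ℝ) (o u : V) : ℝ :=
  ∑ c ∈ geo G o u, (mu G θ A h c - mu G θ' A' h' c) ^ 2 +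
    ((G.dist o u : ℝ) + 1) ^ 2 * (θ - θ') ^ 2

lemma abs_pow_sub_le {a b : ℝ} (hb : 0 ≤ b) (hab : b ≤ a) (n : ℕ) :
    |a ^ n - b ^ n| * a ≤ (n : ℝ) * (a - b) * a ^ n := by
  induction n with
  | zero => simp
  | succ n ih =>
    have ha : 0 ≤ a := hb.trans hab
    rw [abs_of_nonneg (sub_nonneg.mpr (pow_le_pow_left₀ hb hab _))] at ih ⊢
    have h1 : b ^ n ≤ a ^ n := pow_le_pow_left₀ hb hab _
    rw [show a ^ (n + 1) - b ^ (n + 1) = a * (a ^ n - b ^ n) + (a - b) * b ^ n by ring]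
    have h2 := mul_le_mul_of_nonneg_left ih ha
    have h3 := mul_le_mul_of_nonneg_left h1 (mul_nonneg (sub_nonneg.mpr hab) ha)
    push_cast
    ring_nf at h2 h3 ⊢
    linarith

lemma Wt_nonneg [G.LocallyFinite] (θ : ℝ) (A : Finset V) (h : V → ℝ) (x y : V) :
    0 ≤ Wt G θ A h x y := (Real.exp_pos _).le

/-- The products of damping ratios against the exponential of the squared cavities. -/
lemma prod_rho_bounds {ι : Type*} {θ θ' : ℝ} (hθ : θ ∈ Set.Icc 0 (3 / 4 : ℝ))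
    (hθ' : θ' ∈ Set.Icc 0 (3 / 4 : ℝ)) (I : Finset ι) (b b' : ι → ℝ)
    (hb : ∀ i ∈ I, |b i| ≤ 1) (hb' : ∀ i ∈ I, |b' i| ≤ 1)
    (hY : ∑ i ∈ I, ((b i - b' i) ^ 2 + (θ - θ') ^ 2) ≤ 1) :
    (∏ i ∈ I, rho θ (b i)) ^ 2 ≤ Real.exp (-(7 / 64 * ∑ i ∈ I, b i ^ 2)) ∧
      (∏ i ∈ I, rho θ' (b' i)) ^ 2 ≤ 3 * Real.exp (-(7 / 64 * ∑ i ∈ I, b i ^ 2)) := by
  have sqp : ∀ {φ : ℝ}, φ ∈ Set.Icc 0 (3 / 4 : ℝ) → ∀ c : ι → ℝ, (∀ i ∈ I, |c i| ≤ 1) →
      (∏ i ∈ I, rho φ (c i)) ^ 2 ≤ Real.exp (-(7 / 8 * ∑ i ∈ I, c i ^ 2)) := fun {φ} hφ c hc => by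
    rw [← Finset.prod_pow, Finset.mul_sum, ← Finset.sum_neg_distrib, Real.exp_sum]
    refine Finset.prod_le_prod (fun i _ => sq_nonneg _) fun i hi => ?_
    refine (pow_le_pow_left₀ (rho_facts hφ (hc i hi)).1 (rho_le_exp hφ (hc i hi)) 2).trans_eq ?_
    rw [← Real.exp_nat_mul]; congr 1; push_cast; ring
  have hG : ∑ i ∈ I, b i ^ 2 ≤ 2 * (∑ i ∈ I, b' i ^ 2) + 2 := by
    calc ∑ i ∈ I, b i ^ 2 ≤ ∑ i ∈ I, (2 * b' i ^ 2 + 2 * ((b i - b' i) ^ 2 + (θ - θ') ^ 2)) := by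
          refine Finset.sum_le_sum fun i _ => ?_
          nlinarith [sq_nonneg (b i - 2 * b' i), sq_nonneg (θ - θ')]
      _ ≤ _ := by
          rw [Finset.sum_add_distrib, ← Finset.mul_sum, ← Finset.mul_sum]
          linarith
  have h0 : 0 ≤ ∑ i ∈ I, b i ^ 2 := Finset.sum_nonneg fun i _ => sq_nonneg _
  refine ⟨(sqp hθ b hb).trans (Real.exp_le_exp.mpr (by linarith)),
    (sqp hθ' b' hb').trans (le_trans (Real.exp_le_exp.mpr
      (show -(7 / 8 * ∑ i ∈ I, b' i ^ 2) ≤ 1 + -(7 / 64 * ∑ i ∈ I, b i ^ 2) by linarith)) ?_)⟩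
  rw [Real.exp_add]
  exact mul_le_mul_of_nonneg_right (Real.exp_one_lt_d9.le.trans (by norm_num)) (Real.exp_pos _).le

/-- The algebra behind the covariance difference. -/
lemma cov_diff_algebra {Dv P P' v' D2 dpow T X E c₀ : ℝ} (hc0 : 0 < c₀) (hc1 : c₀ ≤ 1)
    (hT : 0 ≤ T) (hX : 0 ≤ X) (hE : 0 ≤ E) (hP : P ^ 2 ≤ E) (hP' : P' ^ 2 ≤ 3 * E)
    (hD : D2 ^ 2 ≤ 10 ^ 6 * E * (100000000 * X)) (hDv : Dv ^ 2 ≤ 4 * X) (hv : v' ^ 2 ≤ 1)
    (hpow : dpow ^ 2 ≤ T * X / c₀ ^ 2) {tn : ℝ} (htn : tn ^ 2 = T) :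
    (tn * (Dv * P + v' * D2) + dpow * (v' * P')) ^ 2 ≤
      5 * 10 ^ 14 / c₀ ^ 2 * (T * E) * X := by
  have hu1 : (Dv * P + v' * D2) ^ 2 ≤ 2 * (4 * X * E) + 2 * (10 ^ 6 * E * (100000000 * X)) := by
    refine (add_sq_le (a := Dv * P) (b := v' * D2)).trans ?_
    rw [mul_add]
    refine add_le_add (mul_le_mul_of_nonneg_left ?_ zero_le_two)
      (mul_le_mul_of_nonneg_left ?_ zero_le_two) <;> rw [mul_pow]
    · exact mul_le_mul hDv hP (sq_nonneg _) (by positivity)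
    · calc _ ≤ 1 * (10 ^ 6 * E * (100000000 * X)) := mul_le_mul hv hD (sq_nonneg _) zero_le_one
        _ = _ := one_mul _
  have hu2 : (dpow * (v' * P')) ^ 2 ≤ T * X / c₀ ^ 2 * (1 * (3 * E)) := by
    rw [mul_pow, mul_pow]
    exact mul_le_mul hpow (mul_le_mul hv hP' (sq_nonneg _) zero_le_one) (by positivity)
      (by positivity)
  refine (add_sq_le (a := tn * (Dv * P + v' * D2)) (b := dpow * (v' * P'))).trans ?_
  rw [mul_pow, htn]
  have hc : 1 ≤ 1 / c₀ ^ 2 := by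
    rw [le_div_iff₀ (by positivity), one_mul]; exact pow_le_one₀ hc0.le hc1
  have hTEX : 0 ≤ T * E * X := by positivity
  have e1 : 5 * 10 ^ 14 / c₀ ^ 2 * (T * E) * X = 5 * 10 ^ 14 * (T * E * X) * (1 / c₀ ^ 2) := by ring
  have e2 : T * X / c₀ ^ 2 * (1 * (3 * E)) = 3 * (T * E * X) * (1 / c₀ ^ 2) := by ring
  rw [e1]
  rw [e2] at hu2
  have hmul := mul_le_mul_of_nonneg_left hu1 hT
  have h5 := mul_le_mul_of_nonneg_left hc hTEX
  nlinarith

lemma sq_le_mul_of_le {x u v : ℝ} (hx : 0 ≤ x) (h1 : x ≤ u) (h2 : x ≤ v) : x ^ 2 ≤ u * v := by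
  rw [pow_two]; exact mul_le_mul h1 h2 hx (hx.trans h1)

section Pair

variable [G.LocallyFinite] (hG : G.IsTree)
include hG

lemma Dev_nonneg (A A' : Finset V) (h h' : V → ℝ) (o u : V) : 0 ≤ Dev G θ θ' A A' h h' o u :=
  add_nonneg (Finset.sum_nonneg fun _ _ => sq_nonneg _) (by positivity)

lemma Dev_comm (A A' : Finset V) (h h' : V → ℝ) (o u : V) :
    Dev G θ θ' A A' h h' o u = Dev G θ θ' A A' h h' u o := by
  rw [Dev, Dev, geo_comm hG, dist_comm]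

omit hG in
lemma Dev_swap (A A' : Finset V) (h h' : V → ℝ) (o u : V) :
    Dev G θ θ' A A' h h' o u = Dev G θ' θ A' A h' h o u := by
  unfold Dev
  congr 1
  · exact Finset.sum_congr rfl fun c _ => by ring
  · ring

variable [DecidableEq V]

/-- A squared covariance is at most its decay times the weight. -/
lemma Cv_sq_le (hθ : θ ∈ Set.Icc 0 (3 / 4 : ℝ)) {A : Finset V} (hA : Convex' G A) {h : V → ℝ}
    (hh : IsFld h) {o u : V} (ho : o ∈ A) (hu : u ∈ A) :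
    Cv G θ A h o u ^ 2 ≤ θ ^ (2 * G.dist o u) * Wt G θ A h o u := by
  have hθ1 : θ < 1 := by linarith [hθ.2]
  have habs : |θ| < 1 := by rw [abs_of_nonneg hθ.1]; exact hθ1
  have key : ∀ {o u : V}, o ∈ A → u ∈ A → Cv G θ A h o u ^ 2 ≤
      θ ^ (2 * G.dist o u) * Real.exp (-(7 / 8 * Gs G θ A h o u)) := by
    intro o u ho hu
    rw [Cv_path hG habs hh hA ho hu, mul_pow, mul_pow, ← pow_mul, mul_comm (G.dist o u) 2,
      mul_assoc]
    refine mul_le_mul_of_nonneg_left ?_ (pow_nonneg hθ.1 _)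
    have hv : (1 - mu G θ A h o ^ 2) ^ 2 ≤ 1 := by
      have := abs_le.mp (abs_mu_le (G := G) hθ.1 hθ1 A hh o)
      have h1 : mu G θ A h o ^ 2 ≤ 1 := by nlinarith
      nlinarith [sq_nonneg (mu G θ A h o)]
    have hb : ∀ c ∈ (geo G o u).erase o, |cav G θ A h (tow G c o) c| ≤ 1 := fun c hc => by
      obtain ⟨hcA, -, hadj, -⟩ := path_edge hG hA ho hu hc
      exact (abs_cav_lt hG hθ.1 hθ1 hh hcA hadj).le
    have hp : (∏ c ∈ (geo G o u).erase o, rho θ (cav G θ A h (tow G c o) c)) ^ 2 ≤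
        Real.exp (-(7 / 8 * Gs G θ A h o u)) := by
      rw [← Finset.prod_pow, Gs, Finset.mul_sum, ← Finset.sum_neg_distrib, Real.exp_sum]
      refine Finset.prod_le_prod (fun c _ => sq_nonneg _) fun c hc => ?_
      refine (pow_le_pow_left₀ (rho_facts hθ (hb c hc)).1 (rho_le_exp hθ (hb c hc)) 2).trans_eq ?_
      rw [← Real.exp_nat_mul]; congr 1; push_cast; ring
    calc _ ≤ 1 * Real.exp (-(7 / 8 * Gs G θ A h o u)) :=
          mul_le_mul hv hp (sq_nonneg _) zero_le_one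
      _ = _ := one_mul _
  have h1 := key ho hu
  have h2 := key hu ho
  rw [Cv_comm, dist_comm] at h2
  have h3 := sq_le_mul_of_le (sq_nonneg _) h1 h2
  have hW := exp_Gs_le_Wt hG hθ.1 hθ1 hh hA ho hu
  have h4 : Real.exp (-(7 / 8 * Gs G θ A h o u)) * Real.exp (-(7 / 8 * Gs G θ A h u o)) ≤
      Wt G θ A h o u ^ 2 := by
    refine le_trans ?_ (pow_le_pow_left₀ (Real.exp_pos _).le hW 2)
    rw [← Real.exp_add, ← Real.exp_nat_mul]
    refine Real.exp_le_exp.mpr ?_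
    have a1 : 0 ≤ Gs G θ A h o u := Finset.sum_nonneg fun _ _ => sq_nonneg _
    have a2 : 0 ≤ Gs G θ A h u o := Finset.sum_nonneg fun _ _ => sq_nonneg _
    push_cast
    linarith
  have hT : 0 ≤ θ ^ (2 * G.dist o u) := pow_nonneg hθ.1 _
  refine (sq_le_sq₀ (sq_nonneg _) (mul_nonneg hT (Wt_nonneg θ A h o u))).mp (h3.trans ?_)
  calc _ = (θ ^ (2 * G.dist o u)) ^ 2 *
        (Real.exp (-(7 / 8 * Gs G θ A h o u)) * Real.exp (-(7 / 8 * Gs G θ A h u o))) := by ring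
    _ ≤ (θ ^ (2 * G.dist o u)) ^ 2 * Wt G θ A h o u ^ 2 :=
        mul_le_mul_of_nonneg_left h4 (sq_nonneg _)
    _ = _ := by ring

variable (hθ : θ ∈ Set.Icc 0 (3 / 4 : ℝ)) (hθ' : θ' ∈ Set.Icc 0 (3 / 4 : ℝ)) {A A' : Finset V}
  (hA : Convex' G A) (hA' : Convex' G A') {h h' : V → ℝ} (hh : IsFld h) (hh' : IsFld h')
include hθ hθ' hA hA' hh hh'

omit [G.LocallyFinite] in
/-- Cavities are controlled by the two magnetisations on their edge. -/
lemma cav_sub_sq {p c : V} (hp : p ∈ A) (hc : c ∈ A) (hp' : p ∈ A') (hc' : c ∈ A')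
    (hadj : G.Adj p c) :
    (cav G θ A h p c - cav G θ' A' h' p c) ^ 2 ≤ 48000000 *
      ((mu G θ A h p - mu G θ' A' h' p) ^ 2 + (mu G θ A h c - mu G θ' A' h' c) ^ 2 +
        (θ - θ') ^ 2) := by
  have hθ1 : θ < 1 := by linarith [hθ.2]
  have hθ1' : θ' < 1 := by linarith [hθ'.2]
  have habs : |θ| < 1 := by rw [abs_of_nonneg hθ.1]; exact hθ1
  have habs' : |θ'| < 1 := by rw [abs_of_nonneg hθ'.1]; exact hθ1'
  have hl := cav_lipschitz hθ hθ' (abs_cav_lt hG hθ.1 hθ1 hh hp hadj.symm).le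
    (abs_cav_lt hG hθ.1 hθ1 hh hc hadj).le (abs_cav_lt hG hθ'.1 hθ1' hh' hp' hadj.symm).le
    (abs_cav_lt hG hθ'.1 hθ1' hh' hc' hadj).le
    (mu_edge hG habs hh hp hc hadj)
    (n := mu G θ A h c) (by rw [mu_edge hG habs hh hc hp hadj.symm]; congr 1; ring)
    (mu_edge hG habs' hh' hp' hc' hadj)
    (n' := mu G θ' A' h' c) (by rw [mu_edge hG habs' hh' hc' hp' hadj.symm]; congr 1; ring)
  have h2 := pow_le_pow_left₀ (abs_nonneg _) hl 2
  rw [sq_abs, mul_pow] at h2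
  nlinarith [sq_abs (mu G θ A h p - mu G θ' A' h' p), sq_abs (mu G θ A h c - mu G θ' A' h' c),
    sq_abs (θ - θ'), sq_nonneg (|mu G θ A h p - mu G θ' A' h' p| - |mu G θ A h c - mu G θ' A' h' c|),
    sq_nonneg (|mu G θ A h p - mu G θ' A' h' p| - |θ - θ'|),
    sq_nonneg (|mu G θ A h c - mu G θ' A' h' c| - |θ - θ'|)]

/-- The cavity discrepancy along a geodesic. -/
lemma path_dev {o u : V} (ho : o ∈ A) (hu : u ∈ A) (ho' : o ∈ A') (hu' : u ∈ A') :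
    ∑ c ∈ (geo G o u).erase o,
      ((cav G θ A h (tow G c o) c - cav G θ' A' h' (tow G c o) c) ^ 2 + (θ - θ') ^ 2) ≤
      100000000 * Dev G θ θ' A A' h h' o u := by
  set g : V → ℝ := fun c => (mu G θ A h c - mu G θ' A' h' c) ^ 2 with hg
  have hb : ∀ c ∈ (geo G o u).erase o,
      (cav G θ A h (tow G c o) c - cav G θ' A' h' (tow G c o) c) ^ 2 + (θ - θ') ^ 2 ≤
      48000000 * g (tow G c o) + 48000000 * g c + 48000001 * (θ - θ') ^ 2 := fun c hc => by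
    obtain ⟨a, b, hadj, -⟩ := path_edge hG hA ho hu hc
    obtain ⟨a', b', -, -⟩ := path_edge hG hA' ho' hu' hc
    have := cav_sub_sq hG hθ hθ' hA hA' hh hh' b a b' a' hadj
    simp only [hg]
    linarith
  refine (Finset.sum_le_sum hb).trans ?_
  rw [Finset.sum_add_distrib, Finset.sum_add_distrib, ← Finset.mul_sum, ← Finset.mul_sum,
    Finset.sum_const, Finset.card_erase_of_mem (left_mem_geo hG o u), card_geo hG, nsmul_eq_mul]
  have s1 := sum_tow_le hG (o := o) (u := u) (f := g) fun c => sq_nonneg _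
  have s2 : ∑ c ∈ (geo G o u).erase o, g c ≤ ∑ c ∈ geo G o u, g c :=
    Finset.sum_le_sum_of_subset_of_nonneg (Finset.erase_subset _ _) fun c _ _ => sq_nonneg _
  simp only [Nat.add_sub_cancel]
  have hr : (G.dist o u : ℝ) ≤ ((G.dist o u : ℝ) + 1) ^ 2 := by
    nlinarith [show (0 : ℝ) ≤ G.dist o u from Nat.cast_nonneg _]
  have := mul_le_mul_of_nonneg_right hr (sq_nonneg (θ - θ'))
  have hnn : 0 ≤ ∑ c ∈ geo G o u, g c := Finset.sum_nonneg fun c _ => sq_nonneg _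
  unfold Dev
  simp only [hg] at s1 s2 hnn ⊢
  nlinarith

/-- The covariance difference from one end, when the discrepancy is small. -/
lemma cov_diff_dir {c₀ : ℝ} (hc0 : 0 < c₀) (hc1 : c₀ ≤ 1) (hlo : c₀ ≤ θ) (hle : θ' ≤ θ) {o u : V}
    (ho : o ∈ A) (hu : u ∈ A) (ho' : o ∈ A') (hu' : u ∈ A')
    (hY : ∑ c ∈ (geo G o u).erase o,
      ((cav G θ A h (tow G c o) c - cav G θ' A' h' (tow G c o) c) ^ 2 + (θ - θ') ^ 2) ≤ 1) :
    (Cv G θ A h o u - Cv G θ' A' h' o u) ^ 2 ≤ 5 * 10 ^ 14 / c₀ ^ 2 *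
      (θ ^ (2 * G.dist o u) * Real.exp (-(7 / 64 * Gs G θ A h o u))) *
      Dev G θ θ' A A' h h' o u := by
  have hθ1 : θ < 1 := by linarith [hθ.2]
  have hθ1' : θ' < 1 := by linarith [hθ'.2]
  have habs : |θ| < 1 := by rw [abs_of_nonneg hθ.1]; exact hθ1
  have habs' : |θ'| < 1 := by rw [abs_of_nonneg hθ'.1]; exact hθ1'
  set I := (geo G o u).erase o
  set b := fun c => cav G θ A h (tow G c o) c
  set b' := fun c => cav G θ' A' h' (tow G c o) c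
  have hb : ∀ c ∈ I, |b c| ≤ 1 := fun c hc => by
    obtain ⟨hcA, -, hadj, -⟩ := path_edge hG hA ho hu hc
    exact (abs_cav_lt hG hθ.1 hθ1 hh hcA hadj).le
  have hb' : ∀ c ∈ I, |b' c| ≤ 1 := fun c hc => by
    obtain ⟨hcA, -, hadj, -⟩ := path_edge hG hA' ho' hu' hc
    exact (abs_cav_lt hG hθ'.1 hθ1' hh' hcA hadj).le
  set m := mu G θ A h o
  set m' := mu G θ' A' h' o
  set X := Dev G θ θ' A A' h h' o u with hX
  have hX0 : 0 ≤ X := Dev_nonneg hG A A' h h' o u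
  have hm : |m| ≤ 1 := abs_mu_le hθ.1 hθ1 A hh o
  have hm' : |m'| ≤ 1 := abs_mu_le hθ'.1 hθ1' A' hh' o
  obtain ⟨hP, hP'⟩ := prod_rho_bounds hθ hθ' I b b' hb hb' hY
  have hdP := (prod_rho_sub hθ hθ' I b b' hb hb' hY).trans (mul_le_mul_of_nonneg_left
    (path_dev hG hθ hθ' hA hA' hh hh' ho hu ho' hu') (by positivity))
  have hdV : ((1 - m ^ 2) - (1 - m' ^ 2)) ^ 2 ≤ 4 * X := by
    have h1 : (m - m') ^ 2 ≤ X := by
      refine le_trans ?_ (le_add_of_nonneg_right (by positivity))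
      exact Finset.single_le_sum (f := fun c => (mu G θ A h c - mu G θ' A' h' c) ^ 2)
        (fun c _ => sq_nonneg _) (left_mem_geo hG o u)
    rw [show ((1 - m ^ 2) - (1 - m' ^ 2)) ^ 2 = (m' + m) ^ 2 * (m - m') ^ 2 by ring]
    refine mul_le_mul ?_ h1 (sq_nonneg _) (by norm_num)
    nlinarith [abs_le.mp hm, abs_le.mp hm']
  have hV' : (1 - m' ^ 2) ^ 2 ≤ 1 := by
    have : m' ^ 2 ≤ 1 := by nlinarith [abs_le.mp hm']
    nlinarith [sq_nonneg m']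
  set n := G.dist o u with hn
  have hT : (θ ^ n) ^ 2 = θ ^ (2 * n) := by rw [← pow_mul, mul_comm]
  have hpow : (θ ^ n - θ' ^ n) ^ 2 ≤ θ ^ (2 * n) * X / c₀ ^ 2 := by
    have h1 := pow_le_pow_left₀ (mul_nonneg (abs_nonneg _) hθ.1) (abs_pow_sub_le hθ'.1 hle n) 2
    rw [mul_pow, sq_abs, mul_pow, mul_pow, hT] at h1
    have h2 : (n : ℝ) ^ 2 * (θ - θ') ^ 2 ≤ X := by
      refine le_trans ?_ (le_add_of_nonneg_left (Finset.sum_nonneg fun c _ => sq_nonneg _))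
      exact mul_le_mul_of_nonneg_right
        (pow_le_pow_left₀ (Nat.cast_nonneg _) (by simp [n]) 2) (sq_nonneg _)
    rw [le_div_iff₀ (by positivity)]
    calc (θ ^ n - θ' ^ n) ^ 2 * c₀ ^ 2 ≤ (θ ^ n - θ' ^ n) ^ 2 * θ ^ 2 :=
          mul_le_mul_of_nonneg_left (pow_le_pow_left₀ hc0.le hlo 2) (sq_nonneg _)
      _ ≤ (n : ℝ) ^ 2 * (θ - θ') ^ 2 * θ ^ (2 * n) := h1
      _ ≤ X * θ ^ (2 * n) := mul_le_mul_of_nonneg_right h2 (pow_nonneg hθ.1 _)
      _ = _ := mul_comm _ _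
  have eC : Cv G θ A h o u - Cv G θ' A' h' o u = θ ^ n * (((1 - m ^ 2) - (1 - m' ^ 2)) *
      ∏ c ∈ I, rho θ (b c) + (1 - m' ^ 2) * (∏ c ∈ I, rho θ (b c) - ∏ c ∈ I, rho θ' (b' c))) +
      (θ ^ n - θ' ^ n) * ((1 - m' ^ 2) * ∏ c ∈ I, rho θ' (b' c)) := by
    rw [Cv_path hG habs hh hA ho hu, Cv_path hG habs' hh' hA' ho' hu']
    simp only [I, b, b', m, m', n]
    ring
  rw [eC]
  exact cov_diff_algebra hc0 hc1 (pow_nonneg hθ.1 _) hX0 (Real.exp_pos _).le hP hP' hdP hdV hV'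
    hpow hT

/-- The covariance difference, when the first interaction is the larger. -/
lemma cov_diff_ordered {c₀ : ℝ} (hc0 : 0 < c₀) (hc1 : c₀ ≤ 1) (hlo : c₀ ≤ θ) (hle : θ' ≤ θ)
    {o u : V} (ho : o ∈ A) (hu : u ∈ A) (ho' : o ∈ A') (hu' : u ∈ A') :
    (Cv G θ A h o u - Cv G θ' A' h' o u) ^ 2 ≤ 5 * 10 ^ 14 / c₀ ^ 2 *
      (θ ^ (2 * G.dist o u) * Wt G θ A h o u + θ' ^ (2 * G.dist o u) * Wt G θ' A' h' o u) *
      Dev G θ θ' A A' h h' o u := by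
  set X := Dev G θ θ' A A' h h' o u with hX
  have hX0 : 0 ≤ X := Dev_nonneg hG A A' h h' o u
  set T := θ ^ (2 * G.dist o u) * Wt G θ A h o u
  set T' := θ' ^ (2 * G.dist o u) * Wt G θ' A' h' o u
  have hT0 : 0 ≤ T := mul_nonneg (pow_nonneg hθ.1 _) (Wt_nonneg θ A h o u)
  have hT0' : 0 ≤ T' := mul_nonneg (pow_nonneg hθ'.1 _) (Wt_nonneg θ' A' h' o u)
  have hK : (4 : ℝ) * 10 ^ 8 ≤ 5 * 10 ^ 14 / c₀ ^ 2 := by
    rw [le_div_iff₀ (by positivity)]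
    nlinarith [pow_le_one₀ (n := 2) hc0.le hc1]
  by_cases hbig : 1 / 10 ^ 8 ≤ X
  · have h1 : (Cv G θ A h o u - Cv G θ' A' h' o u) ^ 2 ≤ 2 * (T + T') := by
      have a := Cv_sq_le hG hθ hA hh ho hu
      have b := Cv_sq_le hG hθ' hA' hh' ho' hu'
      nlinarith [sq_nonneg (Cv G θ A h o u + Cv G θ' A' h' o u)]
    have h2 : 1 ≤ 10 ^ 8 * X := by linarith
    nlinarith [mul_le_mul_of_nonneg_left h2 (add_nonneg hT0 hT0'),
      mul_le_mul_of_nonneg_right hK (mul_nonneg (add_nonneg hT0 hT0') hX0)]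
  · push Not at hbig
    have hY : ∀ {o u : V}, o ∈ A → u ∈ A → o ∈ A' → u ∈ A' →
        Dev G θ θ' A A' h h' o u < 1 / 10 ^ 8 → ∑ c ∈ (geo G o u).erase o,
          ((cav G θ A h (tow G c o) c - cav G θ' A' h' (tow G c o) c) ^ 2 + (θ - θ') ^ 2) ≤ 1 :=
      fun {o u} a b a' b' hs => (path_dev hG hθ hθ' hA hA' hh hh' a b a' b').trans (by linarith)
    have h1 := cov_diff_dir hG hθ hθ' hA hA' hh hh' hc0 hc1 hlo hle ho hu ho' hu'
      (hY ho hu ho' hu' hbig)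
    have h2 := cov_diff_dir hG hθ hθ' hA hA' hh hh' hc0 hc1 hlo hle hu ho hu' ho'
      (hY hu ho hu' ho' (by rwa [Dev_comm hG, ← hX]))
    rw [Dev_comm hG, ← hX, Cv_comm, Cv_comm (θ := θ') (h := h') A', dist_comm] at h2
    set K := 5 * (10 : ℝ) ^ 14 / c₀ ^ 2
    have hK0 : 0 ≤ K := by linarith
    have h3 := sq_le_mul_of_le (sq_nonneg _) h1 h2
    have hW := exp_Gs_le_Wt hG hθ.1 (by linarith [hθ.2]) hh hA ho hu
    have h4 : Real.exp (-(7 / 64 * Gs G θ A h o u)) * Real.exp (-(7 / 64 * Gs G θ A h u o)) ≤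
        Wt G θ A h o u ^ 2 := by
      refine le_trans ?_ (pow_le_pow_left₀ (Real.exp_pos _).le hW 2)
      rw [← Real.exp_add, ← Real.exp_nat_mul]
      refine Real.exp_le_exp.mpr ?_
      have a1 : 0 ≤ Gs G θ A h o u := Finset.sum_nonneg fun _ _ => sq_nonneg _
      have a2 : 0 ≤ Gs G θ A h u o := Finset.sum_nonneg fun _ _ => sq_nonneg _
      push_cast
      linarith
    have h5 : (Cv G θ A h o u - Cv G θ' A' h' o u) ^ 2 ≤ K * T * X := by
      refine (sq_le_sq₀ (sq_nonneg _) (by positivity)).mp (h3.trans ?_)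
      calc _ = (K * θ ^ (2 * G.dist o u) * X) ^ 2 *
            (Real.exp (-(7 / 64 * Gs G θ A h o u)) * Real.exp (-(7 / 64 * Gs G θ A h u o))) := by
            ring
        _ ≤ (K * θ ^ (2 * G.dist o u) * X) ^ 2 * Wt G θ A h o u ^ 2 :=
            mul_le_mul_of_nonneg_left h4 (sq_nonneg _)
        _ = _ := by simp only [T]; ring
    exact h5.trans (mul_le_mul_of_nonneg_right
      (mul_le_mul_of_nonneg_left (le_add_of_nonneg_right hT0') hK0) hX0)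

/-- The covariance difference is controlled by weights and the discrepancy on the geodesic. -/
theorem cov_diff {c₀ : ℝ} (hc0 : 0 < c₀) (hc1 : c₀ ≤ 1) (hlo : c₀ ≤ θ) (hlo' : c₀ ≤ θ')
    {o u : V} (ho : o ∈ A) (hu : u ∈ A) (ho' : o ∈ A') (hu' : u ∈ A') :
    (Cv G θ A h o u - Cv G θ' A' h' o u) ^ 2 ≤ 5 * 10 ^ 14 / c₀ ^ 2 *
      (θ ^ (2 * G.dist o u) * Wt G θ A h o u + θ' ^ (2 * G.dist o u) * Wt G θ' A' h' o u) *
      Dev G θ θ' A A' h h' o u := by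
  rcases le_total θ' θ with hle | hle
  · exact cov_diff_ordered hG hθ hθ' hA hA' hh hh' hc0 hc1 hlo hle ho hu ho' hu'
  · have := cov_diff_ordered hG hθ' hθ hA' hA hh' hh hc0 hc1 hlo' hle ho' hu' ho hu
    rw [← Dev_swap, add_comm] at this
    rw [show (Cv G θ A h o u - Cv G θ' A' h' o u) ^ 2 =
      (Cv G θ' A' h' o u - Cv G θ A h o u) ^ 2 by ring]
    exact this

omit hθ hA hh in
/-- The second error term of the growth identity. -/
lemma cov_mag {o u : V} (ho' : o ∈ A') (hu' : u ∈ A') :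
    Cv G θ' A' h' o u ^ 2 * (mu G θ A h u - mu G θ' A' h' u) ^ 2 ≤
      θ' ^ (2 * G.dist o u) * Wt G θ' A' h' o u * Dev G θ θ' A A' h h' o u := by
  refine mul_le_mul (Cv_sq_le hG hθ' hA' hh' ho' hu') ?_ (sq_nonneg _)
    (mul_nonneg (pow_nonneg hθ'.1 _) (Wt_nonneg θ' A' h' o u))
  refine le_trans ?_ (le_add_of_nonneg_right (by positivity))
  exact Finset.single_le_sum (f := fun c => (mu G θ A h c - mu G θ' A' h' c) ^ 2)
    (fun c _ => sq_nonneg _) (right_mem_geo hG o u)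

end Pair

end Vale.Agent.P161.Crit
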