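import Vale.Agent.P161.Crit.Moments
import Vale.Agent.P161.Crit.Gronwall

/-!
# Stability of the sampler in the volume below the threshold
-/

namespace Vale.Agent.P161.Crit

open MeasureTheory unitInterval Function SimpleGraph Vale.Agent.P161

variable {V : Type*} {G : SimpleGraph V}

/-- The squared difference of two magnetisations at `v`. -/
noncomputable def dm (G : SimpleGraph V) (θ θ' : ℝ) (A A' : Finset V) (v : V) (a b : V → ℝ) : ℝ :=
  (mu G θ A a v - mu G θ' A' b v) ^ 2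

/-- Its expectation in the coupled systems. -/
noncomputable def fd (G : SimpleGraph V) (θ θ' : ℝ) (A A' : Finset V) (K k : ℕ) (r : ℝ) (v : V) :
    ℝ :=
  Pe G θ θ' A A' K k r (dm G θ θ' A A' v)

variable {θ θ' : ℝ}

lemma dm_nonneg (A A' : Finset V) (v : V) (a b : V → ℝ) : 0 ≤ dm G θ θ' A A' v a b := sq_nonneg _

lemma fd_nonneg (A A' : Finset V) (K k : ℕ) (r : ℝ) (v : V) : 0 ≤ fd G θ θ' A A' K k r v :=
  Pe_nonneg fun a b _ _ => dm_nonneg A A' v a b

lemma sum_succ_mul_pow_le {h : ℝ} (h0 : 0 ≤ h) (h1 : h < 1) (n : ℕ) :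
    ∑ k ∈ Finset.range n, ((k : ℝ) + 1) * h ^ k ≤ 1 / (1 - h) ^ 2 := by
  rw [le_div_iff₀ (pow_pos (by linarith) 2)]
  have key : (∑ k ∈ Finset.range n, ((k : ℝ) + 1) * h ^ k) * (1 - h) ^ 2 =
      1 - ((n : ℝ) + 1) * h ^ n + n * h ^ (n + 1) := by
    induction n with
    | zero => simp
    | succ n ih => rw [Finset.sum_range_succ, add_mul, ih]; push_cast; ring
  rw [key]
  have : h ^ (n + 1) ≤ h ^ n := pow_le_pow_of_le_one h0 h1.le (by omega)
  have h2 := mul_le_mul_of_nonneg_left this (Nat.cast_nonneg (α := ℝ) n)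
  linarith [pow_nonneg h0 n]

variable [Countable V] [DecidableEq V] [G.LocallyFinite] {d : ℕ}

namespace Par

variable (P : Par G d θ)
include P

omit [Countable V] [DecidableEq V] in
lemma h_nonneg : 0 ≤ ((d : ℝ) - 1) * θ ^ 2 :=
  mul_nonneg (by linarith [P.two_le]) (sq_nonneg θ)

omit [Countable V] [DecidableEq V] in
/-- The mass of a sphere. -/
lemma sph_mass (o : V) (k : ℕ) :
    ((sph G o k).card : ℝ) * θ ^ (2 * k) ≤ 2 * (((d : ℝ) - 1) * θ ^ 2) ^ k := by
  cases k with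
  | zero => simp [sph]
  | succ k =>
    rw [card_sph P.tree P.deg]
    have hd := P.three
    push_cast [Nat.cast_sub (show 1 ≤ d by omega)]
    rw [mul_pow, ← pow_mul, pow_succ ((d : ℝ) - 1)]
    have h2 : (d : ℝ) ≤ 2 * ((d : ℝ) - 1) := by linarith [P.two_le]
    have h3 : 0 ≤ ((d : ℝ) - 1) ^ k * θ ^ (2 * (k + 1)) :=
      mul_nonneg (pow_nonneg (by linarith [P.two_le]) _) (pow_nonneg P.nonneg _)
    nlinarith [mul_le_mul_of_nonneg_right h2 h3]

omit [Countable V] [DecidableEq V] in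
lemma sum_bll_mass {f : ℕ → ℝ} (hf : ∀ k, 0 ≤ f k) (o : V) (n : ℕ) :
    ∑ w ∈ bll G o n, θ ^ (2 * G.dist o w) * f (G.dist o w) ≤
      ∑ k ∈ Finset.range (n + 1), 2 * (((d : ℝ) - 1) * θ ^ 2) ^ k * f k := by
  rw [sum_bll_sph P.tree]
  refine Finset.sum_le_sum fun k _ => ?_
  rw [Finset.sum_congr rfl (g := fun _ => θ ^ (2 * k) * f k) fun w hw => by
    rw [(mem_sph P.tree.connected).mp hw], Finset.sum_const, nsmul_eq_mul, ← mul_assoc]
  exact mul_le_mul_of_nonneg_right (P.sph_mass o k) (hf k)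

lemma isPTest_dm {θ' : ℝ} (P' : 0 ≤ θ' ∧ θ' < 1) (A A' : Finset V) (v : V) :
    IsPTest A A' (dm G θ θ' A A' v) :=
  isPTest_mu_sub_sq P.nonneg P.lt_one P'.1 P'.2 A A' v

lemma dm_le_four (P' : 0 ≤ θ' ∧ θ' < 1) (A A' : Finset V) (v : V) {a b : V → ℝ} (ha : IsFld a)
    (hb : IsFld b) : dm G θ θ' A A' v a b ≤ 4 := by
  have h1 := abs_le.mp (abs_mu_le (G := G) P.nonneg P.lt_one A ha v)
  have h2 := abs_le.mp (abs_mu_le (G := G) P'.1 P'.2 A' hb v)
  unfold dm
  nlinarith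

lemma fd_le_four (P' : 0 ≤ θ' ∧ θ' < 1) (A A' : Finset V) (K k : ℕ) (r : ℝ) (v : V) :
    fd G θ θ' A A' K k r v ≤ 4 :=
  (Pe_mono (P.isPTest_dm P' A A' v) (IsPTest.const A A' 4)
    fun a b ha hb => P.dm_le_four P' A A' v ha hb).trans_eq (by simp [Pe])

lemma measurable_fd (P' : 0 ≤ θ' ∧ θ' < 1) (A A' : Finset V) (K k : ℕ) (v : V) :
    Measurable fun r => fd G θ θ' A A' K k r v :=
  measurable_Pe (P.isPTest_dm P' A A' v)

lemma fd_start {A A' : Finset V} {v : V} (hA : v ∈ A) (hA' : v ∈ A') (K : ℕ) :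
    fd G θ θ' A A' K 0 0 v = 0 := by
  simp only [fd, Pe]
  refine (integral_congr_ae (g := fun _ => (0 : ℝ)) (.of_forall fun q => ?_)).trans (by simp)
  obtain ⟨ρ, u⟩ := q
  simp only [fout_mk, dm, mu_at_zero K _ _ hA, mu_at_zero K _ _ hA']
  ring

/-- One term of the growth, crudely. -/
lemma crude_pw (hθ : 0 < θ) {A A' : Finset V} (hA : Convex' G A)
    (hA' : Convex' G A') {o : V} {n : ℕ} (hn : bll G o n ⊆ A) (hn' : bll G o n ⊆ A')
    {a b : V → ℝ} (ha : IsFld a) (hb : IsFld b) {w : V} (hw : w ∈ A ∪ A') :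
    (if G.dist o w ≤ n then pw1 G θ θ A A' o w a b + pw2 G θ θ A A' o w a b ≤
        (5 * 10 ^ 15 / θ ^ 2 + 200) * θ ^ (2 * G.dist o w) *
          ∑ c ∈ geo G o w, dm G θ θ A A' c a b
      else pw1 G θ θ A A' o w a b + pw2 G θ θ A A' o w a b ≤
        1000 * θ ^ (2 * G.dist o w)) := by
  have hc := P.tree.connected
  have ho : o ∈ A := hn (self_mem_bll hc o n)
  have ho' : o ∈ A' := hn' (self_mem_bll hc o n)
  have hT : 0 ≤ θ ^ (2 * G.dist o w) := pow_nonneg P.nonneg _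
  have hCsq : ∀ {B : Finset V}, Convex' G B → o ∈ B → ∀ {f : V → ℝ}, IsFld f → w ∈ B →
      Cv G θ B f o w ^ 2 ≤ θ ^ (2 * G.dist o w) := fun {B} hB hoB {f} hf hwB =>
    (Cv_sq_le P.tree P.mem_Icc hB hf hoB hwB).trans
      (mul_le_of_le_one_right hT (Wt_le_one _ _ _ _ _))
  split_ifs with hd
  · have hwA : w ∈ A := hn ((mem_bll hc).mpr hd)
    have hwA' : w ∈ A' := hn' ((mem_bll hc).mpr hd)
    set D := ∑ c ∈ geo G o w, dm G θ θ A A' c a b with hD
    have hD0 : 0 ≤ D := Finset.sum_nonneg fun c _ => dm_nonneg _ _ _ _ _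
    have eD : Dev G θ θ A A' a b o w = D := by simp [Dev, D, dm]
    set c₀ := min θ 1 with hc₀
    have hcc : c₀ = θ := min_eq_left P.lt_one.le
    have h1 := cov_diff P.tree P.mem_Icc P.mem_Icc hA hA' ha hb (c₀ := θ) hθ P.lt_one.le le_rfl
      le_rfl ho hwA ho' hwA'
    have h2 := cov_mag P.tree (θ := θ) P.mem_Icc hA' hb (A := A) (h := a) ho' hwA'
    rw [eD] at h1 h2
    have hW : ∀ {B : Finset V} {f : V → ℝ}, θ ^ (2 * G.dist o w) * Wt G θ B f o w ≤
        θ ^ (2 * G.dist o w) := fun {B f} => mul_le_of_le_one_right hT (Wt_le_one _ _ _ _ _)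
    have h1' : (Cv G θ A a o w - Cv G θ A' b o w) ^ 2 ≤
        5 * 10 ^ 14 / θ ^ 2 * (2 * θ ^ (2 * G.dist o w)) * D := by
      refine h1.trans (mul_le_mul_of_nonneg_right (mul_le_mul_of_nonneg_left ?_ (by positivity)) hD0)
      rw [two_mul (θ ^ _)]
      exact add_le_add hW hW
    have h2' := h2.trans (mul_le_mul_of_nonneg_right hW hD0)
    simp only [pw1, pw2, if_pos hwA, if_pos hwA', if_pos (And.intro hwA hwA')]
    have e : (5 * 10 ^ 15 / θ ^ 2 + 200) * θ ^ (2 * G.dist o w) * D =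
        10 * (5 * 10 ^ 14 / θ ^ 2 * θ ^ (2 * G.dist o w) * D) +
          200 * (θ ^ (2 * G.dist o w) * D) := by ring
    rw [e]
    have : 0 ≤ 5 * 10 ^ 14 / θ ^ 2 * θ ^ (2 * G.dist o w) * D := by positivity
    linarith
  · have hm : ∀ {v : V}, (mu G θ A a v - mu G θ A' b v) ^ 2 ≤ 4 := fun {v} =>
      P.dm_le_four ⟨P.nonneg, P.lt_one⟩ A A' v ha hb
    unfold pw1 pw2
    by_cases h1 : w ∈ A
    · by_cases h2 : w ∈ A'
      · simp only [if_pos h1, if_pos h2, if_pos (And.intro h1 h2)]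
        have a1 := hCsq hA ho ha h1
        have a2 := hCsq hA' ho' hb h2
        have a3 := mul_le_mul a2 (hm (v := w)) (sq_nonneg _) hT
        nlinarith [sq_nonneg (Cv G θ A a o w + Cv G θ A' b o w)]
      · simp only [if_pos h1, if_neg h2, if_neg (fun h : _ ∧ _ => h2 h.2)]
        linarith [hCsq hA ho ha h1]
    · have h2 : w ∈ A' := (Finset.mem_union.mp hw).resolve_left h1
      simp only [if_neg h1, if_neg (fun h : _ ∧ _ => h1 h.1)]
      linarith [hCsq hA' ho' hb h2]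

/-- One step of the crude growth. -/
lemma crude_step (hθ : 0 < θ) (hlt : ((d : ℝ) - 1) * θ ^ 2 < 1) {o : V}
    {N n : ℕ} {A A' : Finset V} (hA : Convex' G A) (hA' : Convex' G A')
    (hn : bll G o (N + n) ⊆ A) (hn' : bll G o (N + n) ⊆ A') {K k : ℕ} (hk : k < K) {u : ℝ → ℝ}
    (hu : Continuous u)
    (hb : ∀ c, bll G c N ⊆ A → bll G c N ⊆ A' → ∀ r ∈ Set.Icc (0 : ℝ) (1 / 2),
      fd G θ θ A A' K k r c ≤ u r)
    {s : ℝ} (hs0 : 0 ≤ s) (hs : s ≤ 1 / 2) :
    fd G θ θ A A' K k s o ≤ fd G θ θ A A' K k 0 o +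
      8 * (5 * 10 ^ 15 / θ ^ 2 + 2000) / (1 - ((d : ℝ) - 1) * θ ^ 2) ^ 2 *
        ∫ r in (0 : ℝ)..s, (u r + (((d : ℝ) - 1) * θ ^ 2) ^ n) := by
  have hc := P.tree.connected
  set h := ((d : ℝ) - 1) * θ ^ 2 with hh
  have h0 : 0 ≤ h := P.h_nonneg
  have P0 : 0 ≤ θ ∧ θ < 1 := ⟨P.nonneg, P.lt_one⟩
  have hnA : bll G o n ⊆ A := (bll_mono hc o (by omega)).trans hn
  have hnA' : bll G o n ⊆ A' := (bll_mono hc o (by omega)).trans hn'
  set C₁ := 5 * 10 ^ 15 / θ ^ 2 + 200 with hC₁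
  set X : (V → ℝ) → (V → ℝ) → ℝ := fun a b =>
    C₁ * ∑ w ∈ bll G o n, θ ^ (2 * G.dist o w) * ∑ c ∈ geo G o w, dm G θ θ A A' c a b +
      1000 * (2 * h ^ (n + 1) / (1 - h)) with hX
  have hdm : ∀ c, IsPTest A A' (dm G θ θ A A' c) := fun c => P.isPTest_dm P0 A A' c
  have hsum : IsPTest A A' fun a b => ∑ w ∈ bll G o n, θ ^ (2 * G.dist o w) *
      ∑ c ∈ geo G o w, dm G θ θ A A' c a b :=
    IsPTest.sum _ fun w _ => (IsPTest.const A A' _).mul (IsPTest.sum _ fun c _ => hdm c)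
  have hXt : IsPTest A A' X := ((IsPTest.const A A' C₁).mul hsum).add (IsPTest.const A A' _)
  have hfar : ∑ w ∈ (A ∪ A').filter (fun w => ¬ G.dist o w ≤ n), θ ^ (2 * G.dist o w) ≤
      2 * h ^ (n + 1) / (1 - h) := by
    rw [Finset.sum_congr rfl (g := fun w => (θ ^ 2) ^ G.dist o w) fun w _ => by rw [pow_mul]]
    exact sum_pow_dist_le P.tree (by have := P.three; omega) P.deg o (sq_nonneg θ) hlt _ (n + 1)
      fun w hw => by have := (Finset.mem_filter.mp hw).2; omega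
  have hpt : ∀ a b, IsFld a → IsFld b → ∑ w ∈ A ∪ A', pw1 G θ θ A A' o w a b ≤ X a b ∧
      ∑ w ∈ A ∪ A', pw2 G θ θ A A' o w a b ≤ X a b := by
    intro a b ha hb'
    have key : ∑ w ∈ A ∪ A', (pw1 G θ θ A A' o w a b + pw2 G θ θ A A' o w a b) ≤ X a b := by
      rw [← Finset.sum_filter_add_sum_filter_not (A ∪ A') fun w => G.dist o w ≤ n]
      refine add_le_add ?_ ?_
      · rw [Finset.mul_sum]
        have hsub : (A ∪ A').filter (fun w => G.dist o w ≤ n) ⊆ bll G o n := fun w hw =>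
          (mem_bll hc).mpr (Finset.mem_filter.mp hw).2
        refine (Finset.sum_le_sum fun w hw => ?_).trans
          (Finset.sum_le_sum_of_subset_of_nonneg hsub fun w _ _ => ?_)
        · obtain ⟨hwU, hwn⟩ := Finset.mem_filter.mp hw
          have := P.crude_pw hθ hA hA' hnA hnA' ha hb' hwU
          rw [if_pos hwn, mul_assoc] at this
          exact this
        · exact mul_nonneg (by positivity) (mul_nonneg (pow_nonneg P.nonneg _)
            (Finset.sum_nonneg fun c _ => dm_nonneg _ _ _ _ _))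
      · refine (Finset.sum_le_sum fun w hw => ?_).trans
          ((Finset.mul_sum _ _ _).symm.le.trans (mul_le_mul_of_nonneg_left hfar (by norm_num)))
        obtain ⟨hwU, hwn⟩ := Finset.mem_filter.mp hw
        have := P.crude_pw hθ hA hA' hnA hnA' ha hb' hwU
        rw [if_neg hwn] at this
        exact this
    rw [Finset.sum_add_distrib] at key
    have a1 : 0 ≤ ∑ w ∈ A ∪ A', pw1 G θ θ A A' o w a b :=
      Finset.sum_nonneg fun w _ => pw1_nonneg _ _ _ _ _ _
    have a2 : 0 ≤ ∑ w ∈ A ∪ A', pw2 G θ θ A A' o w a b :=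
      Finset.sum_nonneg fun w _ => pw2_nonneg _ _ _ _ _ _
    constructor <;> linarith
  have hPX : ∀ r ∈ Set.Icc (0 : ℝ) (1 / 2), Pe G θ θ A A' K k r X ≤
      2 * (5 * 10 ^ 15 / θ ^ 2 + 2000) / (1 - h) ^ 2 * (u r + h ^ n) := by
    intro r hr
    have hu0 : 0 ≤ u r := (fd_nonneg A A' K k r o).trans
      (hb o ((bll_mono hc o (by omega)).trans hn) ((bll_mono hc o (by omega)).trans hn') r hr)
    simp only [X]
    rw [Pe_add ((IsPTest.const A A' C₁).mul hsum) (IsPTest.const A A' _), Pe_const_mul,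
      Pe_sum _ fun w _ => (IsPTest.const A A' _).mul (IsPTest.sum _ fun c _ => hdm c)]
    have hconst : Pe G θ θ A A' K k r (fun _ _ => 1000 * (2 * h ^ (n + 1) / (1 - h))) =
        1000 * (2 * h ^ (n + 1) / (1 - h)) := by simp [Pe]
    rw [hconst]
    have hterm : ∀ w ∈ bll G o n, Pe G θ θ A A' K k r (fun a b => θ ^ (2 * G.dist o w) *
        ∑ c ∈ geo G o w, dm G θ θ A A' c a b) ≤
          θ ^ (2 * G.dist o w) * (((G.dist o w : ℝ) + 1) * u r) := by
      intro w hw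
      rw [mem_bll hc] at hw
      rw [Pe_const_mul, Pe_sum _ fun c _ => hdm c]
      refine mul_le_mul_of_nonneg_left ((Finset.sum_le_card_nsmul _ _ (u r) fun c hc' => ?_).trans_eq
        (by rw [nsmul_eq_mul, card_geo P.tree]; push_cast; ring)) (pow_nonneg P.nonneg _)
      rw [mem_geo P.tree] at hc'
      have hcb : ∀ B : Finset V, bll G o (N + n) ⊆ B → bll G c N ⊆ B := fun B hB y hy => by
        refine hB ((mem_bll hc).mpr ?_)
        have t : G.dist o y ≤ G.dist o c + G.dist c y := hc.dist_triangle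
        rw [mem_bll hc] at hy
        omega
      exact hb c (hcb A hn) (hcb A' hn') r hr
    have hS : ∑ w ∈ bll G o n, θ ^ (2 * G.dist o w) * (((G.dist o w : ℝ) + 1) * u r) ≤
        2 / (1 - h) ^ 2 * u r := by
      refine (P.sum_bll_mass (f := fun k => ((k : ℝ) + 1) * u r) (fun k => by positivity) o n).trans ?_
      rw [Finset.sum_congr rfl (g := fun k : ℕ => 2 * u r * (((k : ℝ) + 1) * h ^ k))
        fun k _ => (by simp only [hh]; ring), ← Finset.mul_sum]
      refine (mul_le_mul_of_nonneg_left (sum_succ_mul_pow_le h0 hlt _) (by positivity)).trans_eq ?_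
      ring
    have hsum2 := (Finset.sum_le_sum hterm).trans hS
    have hpow : h ^ (n + 1) ≤ h ^ n := pow_le_pow_of_le_one h0 hlt.le (by omega)
    have hh1 : 1 / (1 - h) ≤ 1 / (1 - h) ^ 2 :=
      one_div_le_one_div_of_le (pow_pos (by linarith) 2)
        (by rw [sq]; exact mul_le_of_le_one_left (by linarith) (by linarith))
    have hC0 : 0 ≤ C₁ := by positivity
    refine (add_le_add (mul_le_mul_of_nonneg_left hsum2 hC0) le_rfl).trans ?_
    have hθ2 : 5 * 10 ^ 15 / θ ^ 2 ≥ 5 * 10 ^ 15 := by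
      rw [ge_iff_le, le_div_iff₀ (by positivity)]
      exact mul_le_of_le_one_right (by norm_num) (pow_le_one₀ P.nonneg P.lt_one.le)
    have e1 : 1000 * (2 * h ^ (n + 1) / (1 - h)) ≤ 2000 * (1 / (1 - h) ^ 2) * h ^ n := by
      calc 1000 * (2 * h ^ (n + 1) / (1 - h)) = 2000 * (1 / (1 - h)) * h ^ (n + 1) := by ring
        _ ≤ 2000 * (1 / (1 - h) ^ 2) * h ^ n := by
            refine mul_le_mul ?_ hpow (pow_nonneg h0 _) (by positivity)
            linarith
    have e2 : C₁ * (2 / (1 - h) ^ 2 * u r) ≤ 2 * (5 * 10 ^ 15 / θ ^ 2 + 2000) / (1 - h) ^ 2 * u r := by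
      rw [hC₁]
      have : 0 ≤ 1 / (1 - h) ^ 2 * u r := mul_nonneg (by positivity) hu0
      calc (5 * 10 ^ 15 / θ ^ 2 + 200) * (2 / (1 - h) ^ 2 * u r)
          = (2 * (5 * 10 ^ 15 / θ ^ 2) + 400) * (1 / (1 - h) ^ 2 * u r) := by ring
        _ ≤ (2 * (5 * 10 ^ 15 / θ ^ 2) + 4000) * (1 / (1 - h) ^ 2 * u r) :=
            mul_le_mul_of_nonneg_right (by linarith) this
        _ = _ := by ring
    have e3 : 2000 * (1 / (1 - h) ^ 2) * h ^ n ≤
        2 * (5 * 10 ^ 15 / θ ^ 2 + 2000) / (1 - h) ^ 2 * h ^ n := by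
      refine mul_le_mul_of_nonneg_right ?_ (pow_nonneg h0 _)
      rw [mul_one_div]
      exact div_le_div_of_nonneg_right (by linarith) (by positivity)
    calc _ ≤ 2 * (5 * 10 ^ 15 / θ ^ 2 + 2000) / (1 - h) ^ 2 * (u r + h ^ n) := by linarith
      _ ≤ _ := le_rfl
  have hint : ∀ (Ψ : (V → ℝ) → (V → ℝ) → ℝ), IsPTest A A' Ψ →
      IntervalIntegrable (fun r => Pe G θ θ A A' K k r Ψ) volume 0 s := fun Ψ hΨ => by
    obtain ⟨C, hC⟩ := hΨ.bdd
    refine (intervalIntegrable_const (c := C)).mono_fun' (measurable_Pe hΨ).aestronglyMeasurable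
      (.of_forall fun r => ?_)
    refine (norm_integral_le_of_norm_le_const (C := C) (.of_forall fun q => ?_)).trans
      (le_of_eq (by rw [probReal_univ, mul_one]))
    exact hC _ _ (isFld_fout _ _ _ _ _ _ _) (isFld_fout _ _ _ _ _ _ _)
  have hbound : ∀ (m : ℕ) (Q : V → (V → ℝ) → (V → ℝ) → ℝ),
      (∀ w ∈ A ∪ A', IsPTest A A' (Q w)) →
      (∀ w a b, IsFld a → IsFld b → 0 ≤ Q w a b) →
      (∀ a b, IsFld a → IsFld b → ∑ w ∈ A ∪ A', Q w a b ≤ X a b) →
      ∫ r in (0 : ℝ)..s, r ^ m * Pe G θ θ A A' K k r (fun a b => ∑ w ∈ A ∪ A', Q w a b) ≤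
        2 * (5 * 10 ^ 15 / θ ^ 2 + 2000) / (1 - h) ^ 2 * ∫ r in (0 : ℝ)..s, (u r + h ^ n) := by
    intro m Q hQ hQ0 hQX
    rw [← intervalIntegral.integral_const_mul]
    refine intervalIntegral.integral_mono_on hs0
      ((hint _ (IsPTest.sum _ hQ)).continuousOn_mul (continuous_pow m).continuousOn)
      (((continuous_const.mul (hu.add continuous_const))).intervalIntegrable 0 s) fun r hr => ?_
    have hr' : r ∈ Set.Icc (0 : ℝ) (1 / 2) := ⟨hr.1, hr.2.trans hs⟩
    refine le_trans ?_ (hPX r hr')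
    refine le_trans (mul_le_of_le_one_left (Pe_nonneg fun a b ha hb' =>
      Finset.sum_nonneg fun w _ => hQ0 w a b ha hb') (pow_le_one₀ hr.1 (by linarith [hr'.2]))) ?_
    exact Pe_mono (IsPTest.sum _ hQ) hXt hQX
  have g := pair_growth (G := G) (θ := θ) (θ' := θ) P.nonneg P.lt_one P.nonneg P.lt_one A A' hk o
    le_rfl hs0 hs
  refine g.trans (add_le_add le_rfl ?_)
  have b1 := hbound 2 (fun w => pw1 G θ θ A A' o w)
    (fun w _ => isPTest_pw1 P.nonneg P.lt_one P.nonneg P.lt_one A A' o w)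
    (fun w a b _ _ => pw1_nonneg A A' o w a b) fun a b ha hb' => (hpt a b ha hb').1
  have b2 := hbound 4 (fun w => pw2 G θ θ A A' o w)
    (fun w _ => isPTest_pw2 P.nonneg P.lt_one P.nonneg P.lt_one A A' o w)
    (fun w a b _ _ => pw2_nonneg A A' o w a b) fun a b ha hb' => (hpt a b ha hb').2
  refine (mul_le_mul_of_nonneg_left (add_le_add b1 b2) zero_le_two).trans_eq ?_
  ring

/-- Below the threshold the system does not notice a distant change of the volume. -/
theorem stability (hθ : 0 < θ) (hlt : ((d : ℝ) - 1) * θ ^ 2 < 1) (K : ℕ) {ε : ℝ}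
    (hε : 0 < ε) :
    ∃ N, ∀ (o : V) (A A' : Finset V), Convex' G A → Convex' G A' → bll G o N ⊆ A →
      bll G o N ⊆ A' → ∀ k < K, ∀ r ∈ Set.Icc (0 : ℝ) (1 / 2), fd G θ θ A A' K k r o ≤ ε := by
  set h := ((d : ℝ) - 1) * θ ^ 2 with hh
  have h0 : 0 ≤ h := P.h_nonneg
  set C := 8 * (5 * 10 ^ 15 / θ ^ 2 + 2000) / (1 - h) ^ 2 with hC
  have hC0 : 0 ≤ C := by positivity
  set Tm : ℝ := (K : ℝ) / 2 + 1 with hTm
  obtain ⟨n, hn⟩ : ∃ n, h ^ n * (Real.exp (C * Tm) - 1) ≤ ε / 2 := by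
    have := ((tendsto_pow_atTop_nhds_zero_of_lt_one h0 hlt).mul_const (Real.exp (C * Tm) - 1))
    rw [zero_mul] at this
    exact (this.eventually_le_const (by positivity)).exists
  obtain ⟨j, hj⟩ : ∃ j, 4 * ((C * Tm) ^ j / j.factorial) ≤ ε / 2 := by
    have := (FloorSemiring.tendsto_pow_div_factorial_atTop (C * Tm)).const_mul (4 : ℝ)
    rw [mul_zero] at this
    exact (this.eventually_le_const (by positivity)).exists
  set U : ℕ → ℝ → ℝ := fun i τ => 4 * ((C * τ) ^ i / i.factorial) + h ^ n * (Real.exp (C * τ) - 1)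
    with hU
  have hUd : ∀ i τ, HasDerivAt (U (i + 1)) (C * (U i τ + h ^ n)) τ := by
    intro i τ
    have e1 : HasDerivAt (fun τ => C * τ) C τ := by simpa using (hasDerivAt_id τ).const_mul C
    have e2 := (((e1.fun_pow (i + 1)).div_const ((i + 1).factorial : ℝ)).const_mul (4 : ℝ)).add
      ((e1.exp.sub_const 1).const_mul (h ^ n))
    refine e2.congr_deriv ?_
    simp only [U, Nat.factorial_succ, Nat.cast_mul, Nat.add_sub_cancel]
    have : ((i : ℝ) + 1) ≠ 0 := by positivity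
    have h' : (i.factorial : ℝ) ≠ 0 := by positivity
    push_cast
    field_simp
    ring
  have hUc : ∀ i, Continuous (U i) := fun i => by simp only [U]; fun_prop
  have key : ∀ i (o : V) (A A' : Finset V), Convex' G A → Convex' G A' → bll G o (i * n) ⊆ A →
      bll G o (i * n) ⊆ A' → ∀ k < K, ∀ r ∈ Set.Icc (0 : ℝ) (1 / 2),
        fd G θ θ A A' K k r o ≤ U i ((k : ℝ) / 2 + r) := by
    intro i
    induction i with
    | zero =>
      intro o A A' _ _ _ _ k _ r hr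
      refine (P.fd_le_four ⟨P.nonneg, P.lt_one⟩ A A' K k r o).trans ?_
      simp only [U, pow_zero, Nat.factorial_zero, Nat.cast_one, div_one, mul_one]
      have : 1 ≤ Real.exp (C * ((k : ℝ) / 2 + r)) :=
        Real.one_le_exp (mul_nonneg hC0 (add_nonneg (by positivity) hr.1))
      nlinarith [pow_nonneg h0 n]
    | succ i ih =>
      intro o A A' hA hA' hn hn' k
      rw [Nat.succ_mul] at hn hn'
      have step : ∀ k < K, fd G θ θ A A' K k 0 o ≤ U (i + 1) ((k : ℝ) / 2) →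
          ∀ r ∈ Set.Icc (0 : ℝ) (1 / 2), fd G θ θ A A' K k r o ≤ U (i + 1) ((k : ℝ) / 2 + r) := by
        intro k hk h0' r hr
        refine (P.crude_step hθ hlt hA hA' hn hn' hk (u := fun r => U i ((k : ℝ) / 2 + r))
          ((hUc i).comp (by fun_prop))
          (fun c hc hc' r' hr' => ih c A A' hA hA' hc hc' k hk r' hr') hr.1 hr.2).trans ?_
        rw [← intervalIntegral.integral_const_mul]
        have hI := intervalIntegral.integral_eq_sub_of_hasDerivAt
          (f := fun r => U (i + 1) ((k : ℝ) / 2 + r))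
          (f' := fun r => C * (U i ((k : ℝ) / 2 + r) + h ^ n)) (a := 0) (b := r)
          (fun x _ => (hUd i _).comp_const_add ((k : ℝ) / 2) x)
          ((continuous_const.mul (((hUc i).comp (by fun_prop)).add continuous_const)).intervalIntegrable
            0 r)
        rw [hI, add_zero]
        linarith
      induction k with
      | zero =>
        intro hk
        refine step 0 hk ?_
        rw [fd_start P (hn (self_mem_bll P.tree.connected o _))
          (hn' (self_mem_bll P.tree.connected o _))]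
        simp [U]
      | succ k ihk =>
        intro hk
        refine step (k + 1) hk ?_
        have e : fd G θ θ A A' K (k + 1) 0 o = fd G θ θ A A' K k (1 / 2) o :=
          Pe_succ (G := G) _
        rw [e]
        refine (ihk (by omega) (1 / 2) ⟨by norm_num, le_rfl⟩).trans_eq ?_
        push_cast
        ring_nf
  refine ⟨j * n, fun o A A' hA hA' hn1 hn2 k hk r hr => (key j o A A' hA hA' hn1 hn2 k hk r hr).trans ?_⟩
  have hτ : 0 ≤ (k : ℝ) / 2 + r ∧ (k : ℝ) / 2 + r ≤ Tm := by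
    have : (k : ℝ) ≤ K := Nat.cast_le.mpr hk.le
    refine ⟨add_nonneg (by positivity) hr.1, ?_⟩
    rw [hTm]; linarith [hr.2]
  have a1 : (C * ((k : ℝ) / 2 + r)) ^ j / j.factorial ≤ (C * Tm) ^ j / j.factorial :=
    div_le_div_of_nonneg_right (pow_le_pow_left₀ (mul_nonneg hC0 hτ.1)
      (mul_le_mul_of_nonneg_left hτ.2 hC0) _) (by positivity)
  have a2 : Real.exp (C * ((k : ℝ) / 2 + r)) ≤ Real.exp (C * Tm) :=
    Real.exp_le_exp.mpr (mul_le_mul_of_nonneg_left hτ.2 hC0)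
  have a3 := mul_le_mul_of_nonneg_left (sub_le_sub_right a2 1) (pow_nonneg h0 n)
  simp only [U]
  linarith

end Par

end Vale.Agent.P161.Crit
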