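import Vale.Agent.P161.Crit.Prelim
import Vale.Agent.P161.Rounds
import Vale.Agent.P161.Random

/-!
# Reading the spin off the weak observations of many rounds
-/

namespace Vale.Agent.P161.Crit

open MeasureTheory unitInterval Function SimpleGraph Vale.Agent.P161

variable {V : Type*}

/-- The mean squared strength of an observation. -/
noncomputable def sqStr : ℝ := ∫ t : I, est1 t ^ 2

lemma sqStr_pos : 0 < sqStr := by
  have hc : Continuous fun t : I => est1 t ^ 2 := (continuous_est1.comp continuous_subtype_val).pow 2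
  refine (integral_pos_iff_support_of_nonneg (fun t => sq_nonneg _)
    (hc.integrable_of_hasCompactSupport (.of_compactSpace _))).mpr ?_
  refine lt_of_lt_of_le (b := volume (Set.Ioo (⟨0, by norm_num, by norm_num⟩ : I)
    ⟨1 / 4, by norm_num, by norm_num⟩)) (by simp [unitInterval.volume_Ioo]) (measure_mono ?_)
  intro t ht
  have h1 : (0 : ℝ) < (t : ℝ) := ht.1
  have h2 : (t : ℝ) < 1 / 4 := ht.2
  simp only [Function.mem_support, est1, max_eq_right (show (0 : ℝ) ≤ 1 - 2 * (t : ℝ) by linarith)]
  exact pow_ne_zero 2 (mul_ne_zero h1.ne' (by linarith))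

/-- The fluctuation of the squared strengths at `v`. -/
noncomputable def fluc (K : ℕ) (v : V) (ρ : V × ℕ → I) : ℝ :=
  ∑ k ∈ Finset.range K, (est ρ (v, k) ^ 2 - sqStr)

/-- The clipped reading at `v` from `K` rounds. -/
noncomputable def rd (K : ℕ) (v : V) (ρ y : V × ℕ → I) : ℝ :=
  clipOne (3 / (sqStr * K) * ∑ k ∈ Finset.range K, est ρ (v, k) * zed (y (v, k)))

lemma abs_rd_le (K : ℕ) (v : V) (ρ y : V × ℕ → I) : |rd K v ρ y| ≤ 1 :=
  abs_le.mpr (clipOne_mem _)

lemma continuous_rd (K : ℕ) (v : V) (ρ : V × ℕ → I) : Continuous (rd K v ρ) := by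
  unfold rd
  exact continuous_clipOne.comp (continuous_const.mul (continuous_finsetSum _ fun k _ =>
    continuous_const.mul (continuous_zed.comp (continuous_apply _))))

lemma rd_congr {K : ℕ} {v : V} {ρ y y' : V × ℕ → I} (h : ∀ k < K, y (v, k) = y' (v, k)) :
    rd K v ρ y = rd K v ρ y' := by
  simp only [rd]
  rw [Finset.sum_congr rfl fun k hk => by rw [h k (Finset.mem_range.mp hk)]]

lemma continuous_fluc (K : ℕ) (v : V) : Continuous (fluc K v) := by
  unfold fluc est
  refine continuous_finsetSum _ fun k _ => ?_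
  have h : Continuous fun ρ : V × ℕ → I => est1 (ρ (v, k) : ℝ) :=
    continuous_est1.comp (continuous_subtype_val.comp (continuous_apply (v, k)))
  exact (h.pow 2).sub continuous_const

lemma est_nonneg (ρ : V × ℕ → I) (j : V × ℕ) : 0 ≤ est ρ j ∧ est ρ j ≤ 1 / 8 :=
  ⟨(est1_mem (ρ j).2.1).1, (est1_mem (ρ j).2.1).2.2⟩

lemma abs_rd_sub_le {K : ℕ} (v : V) (ρ y y' : V × ℕ → I) :
    |rd K v ρ y - rd K v ρ y'| ≤
      1 / (sqStr * K) * ∑ k ∈ Finset.range K, |(y (v, k) : ℝ) - y' (v, k)| := by
  have hs := sqStr_pos
  refine (clipOne_dist _ _).trans ?_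
  rw [← mul_sub, ← Finset.sum_sub_distrib, abs_mul, abs_of_nonneg (by positivity),
    show 1 / (sqStr * K) * ∑ k ∈ Finset.range K, |(y (v, k) : ℝ) - y' (v, k)| =
      3 / (sqStr * K) * (1 / 3 * ∑ k ∈ Finset.range K, |(y (v, k) : ℝ) - y' (v, k)|) by ring,
    Finset.mul_sum]
  refine mul_le_mul_of_nonneg_left ((Finset.abs_sum_le_sum_abs _ _).trans
    (Finset.sum_le_sum fun k _ => ?_)) (by positivity)
  obtain ⟨a, b⟩ := est_nonneg ρ (v, k)
  rw [show est ρ (v, k) * zed (y (v, k)) - est ρ (v, k) * zed (y' (v, k)) =
    2 * est ρ (v, k) * ((y (v, k) : ℝ) - y' (v, k)) by simp only [zed]; ring, abs_mul,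
    abs_of_nonneg (by positivity)]
  exact mul_le_mul_of_nonneg_right (by linarith) (abs_nonneg _)

section Moments

variable {ι : Type*} [Countable ι] [DecidableEq ι]

/-- The likelihood of readings of strengths `c`. -/
noncomputable def lkc (S : Finset ι) (c : ι → ℝ) (y : ι → I) : ℝ := ∏ i ∈ S, (1 + c i * zed (y i))

omit [Countable ι] [DecidableEq ι] in
lemma continuous_lkc (S : Finset ι) (c : ι → ℝ) : Continuous (lkc S c) := by
  unfold lkc
  exact continuous_finsetProd _ fun i _ =>
    continuous_const.add (continuous_const.mul (continuous_zed.comp (continuous_apply _)))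

lemma integral_lkc (c : ι → ℝ) : ∀ S : Finset ι, ∫ y, lkc S c y ∂iidLabels ι = 1 := by
  intro S
  induction S using Finset.induction_on with
  | empty => simp [lkc]
  | @insert j T hj ih =>
    rw [← integral_avgOne j (continuous_lkc _ c), ← ih]
    refine integral_congr_ae (.of_forall fun y => ?_)
    have e : ∀ t : I, lkc T c (update y j t) = lkc T c y := fun t =>
      Finset.prod_congr rfl fun i hi => by simp [show i ≠ j from fun e => hj (e ▸ hi)]
    simp only [avgOne]
    rw [show (fun t : I => lkc (insert j T) c (update y j t)) = fun t : I =>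
      lkc T c y * (1 - c j) + lkc T c y * (2 * c j) * (t : ℝ) + 0 * (t : ℝ) ^ 2 +
        0 * (t : ℝ) ^ 3 from funext fun t => by
          rw [lkc, Finset.prod_insert hj, update_self, ← lkc, e, zed]; ring, integral_poly3]
    ring

lemma integral_lkc_marginal (c : ι → ℝ) {S T : Finset ι} (hTS : T ⊆ S) {f : (ι → I) → ℝ}
    (hf : Continuous f) (hd : DependsOn f (T : Set ι)) :
    ∫ y, f y * lkc S c y ∂iidLabels ι = ∫ y, f y * lkc T c y ∂iidLabels ι := by
  have e : ∀ y, f y * lkc S c y = (f y * lkc T c y) * lkc (S \ T) c y := fun y => by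
    simp only [lkc]
    rw [← Finset.prod_sdiff hTS]; ring
  simp only [e]
  rw [integral_mul_disjoint (S := T) (T := S \ T) Finset.disjoint_sdiff (f := fun y => f y * lkc T c y)
    (g := fun y => lkc (S \ T) c y) ((hf.mul (continuous_lkc T c)).measurable)
    (continuous_lkc _ c).measurable
    (fun y y' h => by
      simp only [lkc]
      rw [hd h, Finset.prod_congr rfl fun i hi => by rw [h i hi]])
    (fun y y' h => Finset.prod_congr rfl fun i hi => by simp only [h i hi]),
    integral_lkc, mul_one]

lemma integral_sq_lkc_le {a c : ι → ℝ} (ha : ∀ i, |a i| ≤ 1) :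
    ∀ T : Finset ι, ∫ y, (∑ i ∈ T, (a i * zed (y i) - a i * c i / 3)) ^ 2 * lkc T c y ∂iidLabels ι ≤
      T.card := by
  intro T
  induction T using Finset.induction_on with
  | empty => simp
  | @insert j T hj ih =>
    set Zs : (ι → I) → ℝ := fun y => ∑ i ∈ T, (a i * zed (y i) - a i * c i / 3) with hZs
    have hcz : ∀ i, Continuous fun y : ι → I => zed (y i) := fun i =>
      continuous_zed.comp (continuous_apply i)
    have hZsc : Continuous Zs :=
      continuous_finsetSum _ fun i _ => (continuous_const.mul (hcz i)).sub continuous_const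
    have hLc := continuous_lkc T c
    have key : ∀ y, avgOne j (fun y => (∑ i ∈ insert j T,
        (a i * zed (y i) - a i * c i / 3)) ^ 2 * lkc (insert j T) c y) y =
        Zs y ^ 2 * lkc T c y + (a j ^ 2 / 3 - a j ^ 2 * c j ^ 2 / 9) * lkc T c y := by
      intro y
      have e : ∀ t : I, Zs (update y j t) = Zs y := fun t =>
        Finset.sum_congr rfl fun i hi => by simp [show i ≠ j from fun e => hj (e ▸ hi)]
      have e2 : ∀ t : I, lkc T c (update y j t) = lkc T c y := fun t =>
        Finset.prod_congr rfl fun i hi => by simp [show i ≠ j from fun e => hj (e ▸ hi)]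
      have e3 : ∀ t : I, lkc (insert j T) c (update y j t) = (1 + c j * zed t) * lkc T c y :=
        fun t => by rw [lkc, Finset.prod_insert hj, update_self, ← lkc, e2]
      simp only [hZs] at e
      simp only [avgOne, Finset.sum_insert hj, update_self, e, e3]
      rw [show (fun t : I => (a j * zed t - a j * c j / 3 +
            ∑ i ∈ T, (a i * zed (y i) - a i * c i / 3)) ^ 2 *
            ((1 + c j * zed t) * lkc T c y)) = fun t : I =>
          lkc T c y * ((Zs y - a j - a j * c j / 3) ^ 2 * (1 - c j)) +
          lkc T c y * ((Zs y - a j - a j * c j / 3) ^ 2 * (2 * c j) +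
            4 * a j * (Zs y - a j - a j * c j / 3) * (1 - c j)) * (t : ℝ) +
          lkc T c y * (4 * a j ^ 2 * (1 - c j) + 8 * a j * c j * (Zs y - a j - a j * c j / 3)) *
            (t : ℝ) ^ 2 +
          lkc T c y * (8 * a j ^ 2 * c j) * (t : ℝ) ^ 3 from funext fun t => by
            simp only [hZs, zed]; ring, integral_poly3]
      ring
    rw [← integral_avgOne j (h := fun y => (∑ i ∈ insert j T,
        (a i * zed (y i) - a i * c i / 3)) ^ 2 * lkc (insert j T) c y)
      (((continuous_finsetSum _ fun i _ =>
        (continuous_const.mul (hcz i)).sub continuous_const).pow 2).mul (continuous_lkc _ c)),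
      integral_congr_ae (.of_forall key), integral_add
      (integrable_of_continuous (h := fun y => Zs y ^ 2 * lkc T c y) ((hZsc.pow 2).mul hLc))
      ((integrable_of_continuous hLc).const_mul _), integral_const_mul, integral_lkc,
      Finset.card_insert_of_notMem hj]
    have h1 : a j ^ 2 ≤ 1 := by
      rw [← sq_abs]; exact pow_le_one₀ (abs_nonneg _) (ha j)
    have h2 : 0 ≤ a j ^ 2 * c j ^ 2 := by positivity
    push_cast
    linarith

lemma integral_sq_centred_le {g : I → ℝ} (hg : Continuous g) {m : ℝ} (hm : ∫ t, g t = m)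
    (hb : ∀ t, |g t - m| ≤ 1) :
    ∀ T : Finset ι, ∫ y, (∑ i ∈ T, (g (y i) - m)) ^ 2 ∂iidLabels ι ≤ T.card := by
  intro T
  induction T using Finset.induction_on with
  | empty => simp
  | @insert j T hj ih =>
    set Zs : (ι → I) → ℝ := fun y => ∑ i ∈ T, (g (y i) - m) with hZs
    have hZsc : Continuous Zs :=
      continuous_finsetSum _ fun i _ => (hg.comp (continuous_apply i)).sub continuous_const
    have hgi : Integrable (fun t : I => g t - m) :=
      ((hg.sub continuous_const)).integrable_of_hasCompactSupport (.of_compactSpace _)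
    have key : ∀ y, avgOne j (fun y => (∑ i ∈ insert j T, (g (y i) - m)) ^ 2) y ≤ Zs y ^ 2 + 1 := by
      intro y
      have e : ∀ t : I, Zs (update y j t) = Zs y := fun t =>
        Finset.sum_congr rfl fun i hi => by simp [show i ≠ j from fun e => hj (e ▸ hi)]
      simp only [hZs] at e
      simp only [avgOne, Finset.sum_insert hj, update_self, e]
      have i2 : Integrable (fun t : I => (g t - m) ^ 2) :=
        ((hg.sub continuous_const).pow 2).integrable_of_hasCompactSupport (.of_compactSpace _)
      rw [show (fun t : I => (g t - m + ∑ i ∈ T, (g (y i) - m)) ^ 2) = fun t : I =>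
          ((g t - m) ^ 2 + 2 * Zs y * (g t - m)) + Zs y ^ 2 from funext fun t => by
            simp only [hZs]; ring,
        integral_add (i2.fun_add (hgi.const_mul _)) (integrable_const _),
        integral_add i2 (hgi.const_mul _), integral_const_mul,
        integral_sub (hg.integrable_of_hasCompactSupport (.of_compactSpace _)) (integrable_const _),
        hm]
      simp only [integral_const, probReal_univ, one_smul, sub_self, mul_zero, add_zero]
      have : ∫ t : I, (g t - m) ^ 2 ≤ 1 := by
        refine (integral_mono i2 (integrable_const 1) fun t => ?_).trans (by simp)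
        rw [← sq_abs]; exact pow_le_one₀ (abs_nonneg _) (hb t)
      linarith
    have hc : Continuous fun y : ι → I => (∑ i ∈ insert j T, (g (y i) - m)) ^ 2 :=
      (continuous_finsetSum _ fun i _ => (hg.comp (continuous_apply i)).sub continuous_const).pow 2
    rw [← integral_avgOne j hc, Finset.card_insert_of_notMem hj]
    refine (integral_le_integral (continuous_avgOne j hc) ((hZsc.pow 2).add continuous_const)
      key).trans ?_
    simp only [Pi.add_apply, Pi.pow_apply]
    rw [integral_add (integrable_of_continuous (h := fun u => Zs u ^ 2) (hZsc.pow 2))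
      (integrable_const _)]
    simp only [integral_const, probReal_univ, one_smul]
    push_cast
    linarith

end Moments

variable [Countable V] [DecidableEq V]

/-- The bound on the reading error given the clocks. -/
noncomputable def rdErr (K : ℕ) (v : V) (ρ : V × ℕ → I) : ℝ :=
  3 / (sqStr * K) * (Real.sqrt K + |fluc K v ρ|)

omit [Countable V] [DecidableEq V] in
lemma continuous_rdErr (K : ℕ) (v : V) : Continuous (rdErr K v) :=
  continuous_const.mul (continuous_const.add (continuous_fluc K v).abs)

lemma integral_rdErr_le {K : ℕ} (hK : 0 < K) (v : V) :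
    ∫ ρ, rdErr K v ρ ∂iidLabels (V × ℕ) ≤ 6 / (sqStr * Real.sqrt K) := by
  have hs := sqStr_pos
  set s := Real.sqrt K with hsdef
  have hK' : (0 : ℝ) < K := by exact_mod_cast hK
  have hs0 : 0 < s := Real.sqrt_pos.mpr hK'
  have hss : s ^ 2 = K := Real.sq_sqrt hK'.le
  have hg : Continuous fun t : I => est1 t ^ 2 := (continuous_est1.comp continuous_subtype_val).pow 2
  have hb' : ∀ t : I, 0 ≤ est1 t ^ 2 ∧ est1 t ^ 2 ≤ 1 := fun t => by
    obtain ⟨a, -, c⟩ := est1_mem t.2.1
    exact ⟨sq_nonneg _, pow_le_one₀ a (c.trans (by norm_num))⟩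
  have hm1 : sqStr ≤ 1 := (integral_mono (hg.integrable_of_hasCompactSupport (.of_compactSpace _))
    (integrable_const 1) fun t => (hb' t).2).trans (by simp)
  have h2 := integral_sq_centred_le (ι := V × ℕ) hg (m := sqStr) rfl
    (fun t => abs_le.mpr ⟨by linarith [(hb' t).1], by linarith [(hb' t).2]⟩)
    ((Finset.range K).image fun k => (v, k))
  have hinj : Set.InjOn (fun k : ℕ => (v, k)) (Finset.range K : Set ℕ) := fun a _ b _ h =>
    congrArg Prod.snd h
  rw [Finset.card_image_of_injOn hinj, Finset.card_range] at h2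
  simp only [Finset.sum_image hinj] at h2
  have hW : ∫ ρ, |fluc K v ρ| ∂iidLabels (V × ℕ) ≤ s := by
    refine (integral_le_integral (g := fun ρ => s / 2 + 1 / (2 * s) * fluc K v ρ ^ 2)
      (continuous_fluc K v).abs
      (continuous_const.add (continuous_const.mul ((continuous_fluc K v).pow 2))) fun ρ => ?_).trans ?_
    · rw [show s / 2 + 1 / (2 * s) * fluc K v ρ ^ 2 = (s ^ 2 + |fluc K v ρ| ^ 2) / (2 * s) by
        rw [sq_abs]; field_simp, le_div_iff₀ (by positivity)]
      nlinarith [sq_nonneg (s - |fluc K v ρ|)]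
    · rw [integral_add (integrable_const _) ((integrable_of_continuous
        (h := fun ρ => fluc K v ρ ^ 2) ((continuous_fluc K v).pow 2)).const_mul _), integral_const_mul]
      simp only [integral_const, probReal_univ, one_smul]
      have : 1 / (2 * s) * ∫ ρ, fluc K v ρ ^ 2 ∂iidLabels (V × ℕ) ≤ 1 / (2 * s) * K :=
        mul_le_mul_of_nonneg_left h2 (by positivity)
      have e : 1 / (2 * s) * (K : ℝ) = s / 2 := by rw [← hss]; field_simp
      linarith
  unfold rdErr
  rw [integral_const_mul, integral_add (integrable_const _)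
    (integrable_of_continuous (h := fun ρ => |fluc K v ρ|) (continuous_fluc K v).abs)]
  simp only [integral_const, probReal_univ, one_smul]
  refine (mul_le_mul_of_nonneg_left (add_le_add le_rfl hW) (by positivity)).trans_eq ?_
  rw [← hsdef, ← hss]
  field_simp
  norm_num

/-- The reading is near the spin, given clocks and spins. -/
lemma integral_rd_err {K : ℕ} (hK : 0 < K) (v : V) (ρ : V × ℕ → I) (η : V → Bool)
    {S : Finset (V × ℕ)} (hS : ∀ k < K, (v, k) ∈ S) :
    ∫ y, |rd K v ρ y - spin (η v)| * lkc S (fun i => est ρ i * spin (η i.1)) y ∂iidLabels (V × ℕ) ≤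
      rdErr K v ρ := by
  have hs := sqStr_pos
  have hK' : (0 : ℝ) < K := by exact_mod_cast hK
  set c : V × ℕ → ℝ := fun i => est ρ i * spin (η i.1) with hc
  set T := (Finset.range K).image (fun k => (v, k)) with hT
  have hinj : Set.InjOn (fun k : ℕ => (v, k)) (Finset.range K : Set ℕ) := fun a _ b _ h =>
    congrArg Prod.snd h
  have hTS : T ⊆ S := fun i hi => by
    simp only [hT, Finset.mem_image, Finset.mem_range] at hi
    obtain ⟨k, hk, rfl⟩ := hi
    exact hS k hk
  have hTc : T.card = K := by rw [hT, Finset.card_image_of_injOn hinj, Finset.card_range]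
  have hcont := ((continuous_rd K v ρ).sub (continuous_const (y := spin (η v)))).abs
  rw [integral_lkc_marginal c hTS (f := fun y => |rd K v ρ y - spin (η v)|) hcont
    (fun y y' h => by
      simp only
      rw [rd_congr fun k hk => h (v, k) (by simp [hT, hk])])]
  have ha : ∀ i, |est ρ i| ≤ 1 := fun i => by
    rw [abs_of_nonneg (est_nonneg ρ i).1]; linarith [(est_nonneg ρ i).2]
  set Z : (V × ℕ → I) → ℝ := fun y => ∑ i ∈ T, (est ρ i * zed (y i) - est ρ i * c i / 3) with hZ
  have hZc : Continuous Z := continuous_finsetSum _ fun i _ =>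
    (continuous_const.mul (continuous_zed.comp (continuous_apply i))).sub continuous_const
  have h2 := integral_sq_lkc_le (c := c) ha T
  rw [hTc] at h2
  have hL := continuous_lkc T c
  have hLpos : ∀ y, 0 ≤ lkc T c y := fun y => Finset.prod_nonneg fun i _ => by
    have h1 : |c i * zed (y i)| ≤ 1 := by
      rw [abs_mul, hc, abs_mul, abs_spin, mul_one]
      exact mul_le_one₀ (ha i) (abs_nonneg _) (abs_zed_le _)
    linarith [(abs_le.mp h1).1]
  set s := Real.sqrt K with hsdef
  have hs0 : 0 < s := Real.sqrt_pos.mpr hK'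
  have hss : s ^ 2 = K := Real.sq_sqrt hK'.le
  have hpt : ∀ y, |rd K v ρ y - spin (η v)| * lkc T c y ≤
      3 / (sqStr * K) * (s / 2 + |fluc K v ρ|) * lkc T c y +
        3 / (sqStr * K) * (1 / (2 * s)) * (Z y ^ 2 * lkc T c y) := by
    intro y
    rw [← mul_assoc, ← add_mul]
    refine mul_le_mul_of_nonneg_right ?_ (hLpos y)
    have e : 3 / (sqStr * K) * ∑ k ∈ Finset.range K, est ρ (v, k) * zed (y (v, k)) - spin (η v) =
        3 / (sqStr * K) * (Z y + spin (η v) / 3 * fluc K v ρ) := by
      have h1 : Z y + spin (η v) / 3 * fluc K v ρ =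
          ∑ k ∈ Finset.range K, est ρ (v, k) * zed (y (v, k)) - (K : ℝ) * (spin (η v) * sqStr / 3) := by
        simp only [hZ, hT, fluc, hc]
        rw [Finset.sum_image hinj, Finset.mul_sum, ← Finset.sum_add_distrib,
          show (K : ℝ) * (spin (η v) * sqStr / 3) = ∑ k ∈ Finset.range K, spin (η v) * sqStr / 3 by
            rw [Finset.sum_const, Finset.card_range, nsmul_eq_mul], ← Finset.sum_sub_distrib]
        exact Finset.sum_congr rfl fun k _ => by ring
      rw [h1]; field_simp
    have hrd : |rd K v ρ y - spin (η v)| ≤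
        3 / (sqStr * K) * (|Z y| + |fluc K v ρ|) := by
      conv_lhs => rw [rd, ← clipOne_spin (η v)]
      refine (clipOne_dist _ _).trans ?_
      rw [e, abs_mul, abs_of_nonneg (show (0 : ℝ) ≤ 3 / (sqStr * K) by positivity)]
      refine mul_le_mul_of_nonneg_left ((abs_add_le _ _).trans (add_le_add le_rfl ?_)) (by positivity)
      rw [abs_mul, abs_div, abs_spin]
      norm_num
      linarith [abs_nonneg (fluc K v ρ)]
    refine hrd.trans ?_
    rw [mul_assoc (3 / (sqStr * K)) (1 / (2 * s)), ← mul_add]
    refine mul_le_mul_of_nonneg_left ?_ (by positivity)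
    have : |Z y| ≤ s / 2 + 1 / (2 * s) * Z y ^ 2 := by
      rw [show s / 2 + 1 / (2 * s) * Z y ^ 2 = (s ^ 2 + |Z y| ^ 2) / (2 * s) by
        rw [sq_abs]; field_simp, le_div_iff₀ (by positivity)]
      nlinarith [sq_nonneg (s - |Z y|)]
    linarith
  refine (integral_le_integral (hcont.mul hL)
    ((continuous_const.mul hL).add (continuous_const.mul ((hZc.pow 2).mul hL))) hpt).trans ?_
  simp only [Pi.add_apply, Pi.mul_apply, Pi.pow_apply]
  rw [integral_add ((integrable_of_continuous hL).const_mul _)
    ((integrable_of_continuous (h := fun y => Z y ^ 2 * lkc T c y) ((hZc.pow 2).mul hL)).const_mul _),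
    integral_const_mul, integral_const_mul, integral_lkc, mul_one]
  refine (add_le_add le_rfl (mul_le_mul_of_nonneg_left h2 (by positivity))).trans ?_
  refine le_of_eq ?_
  rw [rdErr, ← hsdef, ← hss]
  field_simp
  ring

section Seeds

lemma map_sumElim {α β : Type*} :
    ((iidLabels α).prod (iidLabels β)).map (fun p => Sum.elim p.1 p.2) = iidLabels (α ⊕ β) := by
  have hm : Measurable fun p : (α → I) × (β → I) => Sum.elim p.1 p.2 := by
    refine measurable_pi_lambda _ fun i => ?_
    cases i with
    | inl a => exact (measurable_pi_apply a).comp measurable_fst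
    | inr b => exact (measurable_pi_apply b).comp measurable_snd
  have : IsProbabilityMeasure
      (((iidLabels α).prod (iidLabels β)).map fun p => Sum.elim p.1 p.2) :=
    Measure.isProbabilityMeasure_map hm.aemeasurable
  refine Measure.eq_infinitePi _ fun s t ht => ?_
  rw [Measure.map_apply hm (.pi s.countable_toSet fun _ _ => ht _)]
  have hpre : (fun p : (α → I) × (β → I) => Sum.elim p.1 p.2) ⁻¹' (s : Set (α ⊕ β)).pi t =
      (s.toLeft : Set α).pi (fun a => t (.inl a)) ×ˢ
        (s.toRight : Set β).pi (fun b => t (.inr b)) := by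
    ext ⟨x, y⟩
    simp only [Set.mem_preimage, Set.mem_pi, Finset.mem_coe, Set.mem_prod, Finset.mem_toLeft,
      Finset.mem_toRight, Sum.forall, Sum.elim_inl, Sum.elim_inr]
  rw [hpre, Measure.prod_prod, iidLabels, iidLabels, Measure.infinitePi_pi _ (fun a _ => ht _),
    Measure.infinitePi_pi _ (fun b _ => ht _)]
  conv_rhs => rw [← Finset.toLeft_disjSum_toRight (u := s), Finset.prod_disjSum]

/-- Clocks drawn from one label per vertex. -/
noncomputable def clk (U : V → I) (j : V × ℕ) : I := seed (U j.1) (2 * j.2)

/-- Inputs drawn from one label per vertex. -/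
noncomputable def src' (U : V → I) (j : V × ℕ) : I := seed (U j.1) (2 * j.2 + 1)

omit [Countable V] [DecidableEq V] in
lemma measurable_clk_src : Measurable fun U : V → I => (clk U, src' U) := by
  have := seed_spec.1
  exact Measurable.prodMk
    (measurable_pi_lambda _ fun j =>
      (measurable_pi_apply (2 * j.2)).comp (this.comp (measurable_pi_apply j.1)))
    (measurable_pi_lambda _ fun j =>
      (measurable_pi_apply (2 * j.2 + 1)).comp (this.comp (measurable_pi_apply j.1)))

omit [Countable V] [DecidableEq V] in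
lemma map_clk_src : (iidLabels V).map (fun U => (clk U, src' U)) = omg V := by
  have hs := seed_spec
  set full : (V → I) → V × ℕ → I := fun U j => seed (U j.1) j.2
  have hfm : Measurable full := measurable_pi_lambda _ fun j =>
    (measurable_pi_apply j.2).comp (hs.1.comp (measurable_pi_apply j.1))
  have h1 : (iidLabels V).map full = iidLabels (V × ℕ) := by
    have e := Measure.infinitePi_map_pi (fun _ : V => (volume : Measure I))
      (f := fun _ => seed) (fun _ => hs.1)
    have e2 := Measure.infinitePi_map_curry_symm (fun (_ : V) (_ : ℕ) => (volume : Measure I))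
    have : full = ⇑(MeasurableEquiv.curry V ℕ I).symm ∘ fun (x : V → I) v => seed (x v) := by
      funext U j; rfl
    have hm2 : Measurable fun (x : V → I) v => seed (x v) :=
      measurable_pi_lambda _ fun v => hs.1.comp (measurable_pi_apply v)
    rw [this, ← Measure.map_map (MeasurableEquiv.measurable _) hm2]
    unfold iidLabels
    rw [e]
    simp only [hs.2]
    exact e2
  set e : (V × ℕ) ⊕ (V × ℕ) ≃ V × ℕ :=
    (Equiv.prodSumDistrib V ℕ ℕ).symm.trans (Equiv.prodCongr (Equiv.refl V) Equiv.natSumNatEquivNat)
  have he : ∀ x, e x = Sum.elim (fun j : V × ℕ => (j.1, 2 * j.2))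
      (fun j : V × ℕ => (j.1, 2 * j.2 + 1)) x := by
    intro x
    rcases x with ⟨v, k⟩ | ⟨v, k⟩ <;> simp [e, Equiv.prodSumDistrib]
  set split : (V × ℕ → I) → (V × ℕ → I) × (V × ℕ → I) :=
    fun w => (fun j => w (j.1, 2 * j.2), fun j => w (j.1, 2 * j.2 + 1))
  have hsm : Measurable split :=
    (measurable_pi_lambda _ fun j => measurable_pi_apply (j.1, 2 * j.2)).prodMk
      (measurable_pi_lambda _ fun j => measurable_pi_apply (j.1, 2 * j.2 + 1))
  set P := MeasurableEquiv.piCongrLeft (fun _ : V × ℕ => I) e
  have h2 : (iidLabels ((V × ℕ) ⊕ (V × ℕ))).map P = iidLabels (V × ℕ) :=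
    Measure.infinitePi_map_piCongrLeft (fun _ : V × ℕ => (volume : Measure I)) e
  set el : (V × ℕ → I) × (V × ℕ → I) → (V × ℕ) ⊕ (V × ℕ) → I := fun p => Sum.elim p.1 p.2
  have hel : Measurable el := by
    refine measurable_pi_lambda _ fun i => ?_
    cases i with
    | inl a => exact (measurable_pi_apply a).comp measurable_fst
    | inr b => exact (measurable_pi_apply b).comp measurable_snd
  have h3 : ∀ p, split (P (el p)) = p := fun p => by
    have key : ∀ x, P (el p) (e x) = el p x := fun x =>
      MeasurableEquiv.piCongrLeft_apply_apply (β := fun _ : V × ℕ => I) e _ x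
    refine Prod.ext (funext fun j => ?_) (funext fun j => ?_)
    · have h := key (Sum.inl j); rw [he] at h; exact h
    · have h := key (Sum.inr j); rw [he] at h; exact h
  have h4 : (fun U : V → I => (clk U, src' U)) = split ∘ full := rfl
  rw [h4, ← Measure.map_map hsm hfm, h1, ← h2, ← map_sumElim, Measure.map_map hsm P.measurable,
    Measure.map_map (hsm.comp P.measurable) hel]
  conv_rhs => rw [← Measure.map_id (μ := omg V)]
  exact Measure.map_congr (.of_forall h3)

end Seeds

end Vale.Agent.P161.Crit
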