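import Vale.Agent.P161.Crit.Invar

/-!
# Changing the volume of an observable
-/

namespace Vale.Agent.P161.Crit

open MeasureTheory unitInterval Function SimpleGraph Vale.Agent.P161

variable {V : Type*} {G : SimpleGraph V} {θ θ' : ℝ}

/-- The magnetisation at `v` of the system with volume `A`. -/
noncomputable def Mq (G : SimpleGraph V) (θ : ℝ) (A : Finset V) (K k : ℕ) (r : ℝ) (v : V)
    (q : (V × ℕ → I) × (V × ℕ → I)) : ℝ :=
  mu G θ A (fout G θ A K k r q) v

lemma abs_Mq_le (h0 : 0 ≤ θ) (h1 : θ < 1) (A : Finset V) (K k : ℕ) (r : ℝ) (v : V)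
    (q : (V × ℕ → I) × (V × ℕ → I)) : |Mq G θ A K k r v q| ≤ 1 :=
  abs_mu_le h0 h1 A (isFld_fout _ _ _ _ _ _ _) v

lemma measurable_Mq (A : Finset V) (K k : ℕ) (r : ℝ) (v : V) :
    Measurable (Mq G θ A K k r v) :=
  (measurable_mu A v).comp ((measurable_fout G θ A K k).comp measurable_prodMk_left)

lemma integrable_omg [Countable V] {F : (V × ℕ → I) × (V × ℕ → I) → ℝ} (hF : Measurable F) (C : ℝ)
    (hC : ∀ q, |F q| ≤ C) : Integrable F (omg V) :=
  integrable_bdd hF C hC

lemma fd_eq (A A' : Finset V) (K k : ℕ) (r : ℝ) (v : V) :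
    fd G θ θ' A A' K k r v =
      ∫ q, (Mq G θ A K k r v q - Mq G θ' A' K k r v q) ^ 2 ∂omg V := rfl

section Depends

/-- The readings in a volume depend only on the labels in it. -/
lemma out_depends {A : Finset V} {K : ℕ} {ρ ρ' u u' : V × ℕ → I}
    (hρ : ∀ i : V × ℕ, i.1 ∈ A → i.2 < K → ρ i = ρ' i)
    (hu : ∀ i : V × ℕ, i.1 ∈ A → i.2 < K → u i = u' i) :
    ∀ j : V × ℕ, j.1 ∈ A → j.2 < K → out G θ A K ρ u j = out G θ A K ρ' u' j := by
  classical
  refine preds_induction (A := A) (K := K) (ρ := ρ) fun j ih hjA hjK => ?_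
  rw [out_eq, out_eq A K ρ' u' j, hu j hjA hjK]
  congr 1
  have hj := hρ j hjA hjK
  unfold drift
  rw [if_pos (Finset.mem_product.mpr ⟨hjA, Finset.mem_range.mpr hjK⟩),
    if_pos (Finset.mem_product.mpr ⟨hjA, Finset.mem_range.mpr hjK⟩)]
  have he : est ρ j = est ρ' j := by simp [est, hj]
  rw [he]
  congr 1
  refine mu_congr (fun w hw => ?_) j.1
  have hest : ∀ l < K, estT ρ' j.2 (ρ' j) (w, l) = estT ρ j.2 (ρ j) (w, l) := fun l hl => by
    simp only [estT, Bef, est, hj, hρ (w, l) hw hl]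
    congr 1
  refine fld_congr fun l hl => ?_
  rw [hest l hl]
  by_cases h0 : estT ρ j.2 (ρ j) (w, l) = 0
  · simp [h0]
  · rw [ih (w, l) (mem_preds.mpr ⟨⟨hw, hl⟩, (estT_ne_zero h0).1⟩) hw hl]

/-- The field in a volume depends only on the labels in it. -/
lemma fout_depends {A : Finset V} {K k : ℕ} {r : ℝ} {q q' : (V × ℕ → I) × (V × ℕ → I)}
    (hρ : ∀ i : V × ℕ, i.1 ∈ A → i.2 < K → q.1 i = q'.1 i)
    (hu : ∀ i : V × ℕ, i.1 ∈ A → i.2 < K → q.2 i = q'.2 i) :
    ∀ v ∈ A, fout G θ A K k r q v = fout G θ A K k r q' v := by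
  obtain ⟨ρ, u⟩ := q
  obtain ⟨ρ', u'⟩ := q'
  simp only at hρ hu
  intro v hv
  simp only [fout_mk]
  refine fld_congr fun l hl => ?_
  rw [out_depends hρ hu (v, l) hv hl]
  simp only [estT, Bef, est, hρ (v, l) hv hl]
  congr 2

/-- Functions of disjoint sets of labels are independent. -/
lemma integral_mul_omg [Countable V] {S T : Finset (V × ℕ)} (hST : Disjoint S T)
    {F F' : (V × ℕ → I) × (V × ℕ → I) → ℝ} (hF : Measurable F) (hF' : Measurable F') {C C' : ℝ}
    (hC : ∀ q, |F q| ≤ C) (hC' : ∀ q, |F' q| ≤ C')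
    (hd : ∀ q q', (∀ i ∈ S, q.1 i = q'.1 i ∧ q.2 i = q'.2 i) → F q = F q')
    (hd' : ∀ q q', (∀ i ∈ T, q.1 i = q'.1 i ∧ q.2 i = q'.2 i) → F' q = F' q') :
    ∫ q, F q * F' q ∂omg V = (∫ q, F q ∂omg V) * ∫ q, F' q ∂omg V := by
  have hi : Integrable (fun q => F q * F' q) (omg V) :=
    integrable_bdd (hF.mul hF') (C * C') fun q => by
      rw [abs_mul]
      exact mul_le_mul (hC q) (hC' q) (abs_nonneg _) ((abs_nonneg _).trans (hC q))
  rw [integral_prod _ hi, integral_prod F (integrable_bdd hF C hC),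
    integral_prod F' (integrable_bdd hF' C' hC')]
  have hin : ∀ ρ, ∫ u, F (ρ, u) * F' (ρ, u) ∂iidLabels (V × ℕ) =
      (∫ u, F (ρ, u) ∂iidLabels (V × ℕ)) * ∫ u, F' (ρ, u) ∂iidLabels (V × ℕ) := fun ρ =>
    integral_mul_disjoint (f := fun u => F (ρ, u)) (g := fun u => F' (ρ, u)) hST
      (hF.comp measurable_prodMk_left) (hF'.comp measurable_prodMk_left)
      (fun u u' h => hd _ _ fun i hi => ⟨rfl, h i hi⟩)
      (fun u u' h => hd' _ _ fun i hi => ⟨rfl, h i hi⟩)
  simp only [hin]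
  exact integral_mul_disjoint (f := fun ρ => ∫ u, F (ρ, u) ∂iidLabels (V × ℕ))
    (g := fun ρ => ∫ u, F' (ρ, u) ∂iidLabels (V × ℕ)) hST
    hF.stronglyMeasurable.integral_prod_right'.measurable
    hF'.stronglyMeasurable.integral_prod_right'.measurable
    (fun ρ ρ' h => integral_congr_ae (.of_forall fun u => hd _ _ fun i hi => ⟨h i hi, rfl⟩))
    (fun ρ ρ' h => integral_congr_ae (.of_forall fun u => hd' _ _ fun i hi => ⟨h i hi, rfl⟩))

end Depends

/-- Expectations are invariant under moving all labels by an automorphism. -/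
lemma integral_shift (g : G ≃g G) {F : (V × ℕ → I) × (V × ℕ → I) → ℝ} (hF : Measurable F) :
    ∫ q, F (shiftL g.toEquiv q.1, shiftL g.toEquiv q.2) ∂omg V = ∫ q, F q ∂omg V := by
  have hmap : (omg V).map (Prod.map (shiftL g.toEquiv) (shiftL g.toEquiv)) = omg V := by
    rw [← Measure.map_prod_map _ _ (measurable_shiftL _) (measurable_shiftL _), map_shiftL]
  conv_rhs => rw [← hmap]
  rw [integral_map ((measurable_shiftL _).prodMap (measurable_shiftL _)).aemeasurable
    hF.aestronglyMeasurable]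
  rfl

lemma Mq_shift [DecidableEq V] (g : G ≃g G) (A : Finset V) (K k : ℕ) (r : ℝ) (v : V)
    (q : (V × ℕ → I) × (V × ℕ → I)) :
    Mq G θ (A.image g) K k r (g v) (shiftL g.toEquiv q.1, shiftL g.toEquiv q.2) =
      Mq G θ A K k r v q := by
  obtain ⟨ρ, u⟩ := q
  simp only [Mq, fout_shift, mu_image, RelIso.symm_apply_apply]

variable [Countable V] [DecidableEq V] [G.LocallyFinite] {d : ℕ}

namespace Par

variable (P : Par G d θ)
include P

/-- Below the threshold, magnetisations do not feel distant boundaries in mean. -/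
theorem stability_abs (hθ : 0 < θ) (hlt : ((d : ℝ) - 1) * θ ^ 2 < 1) (K : ℕ) {ε : ℝ} (hε : 0 < ε) :
    ∃ N, ∀ (v : V) (A A' : Finset V), Convex' G A → Convex' G A' → bll G v N ⊆ A →
      bll G v N ⊆ A' → ∀ k < K, ∀ r ∈ Set.Icc (0 : ℝ) (1 / 2),
        ∫ q, |Mq G θ A K k r v q - Mq G θ A' K k r v q| ∂omg V ≤ ε := by
  obtain ⟨N, hN⟩ := P.stability hθ hlt K (ε := ε ^ 2) (by positivity)
  refine ⟨N, fun v A A' hA hA' h1 h2 k hk r hr => ?_⟩
  set F := fun q => Mq G θ A K k r v q - Mq G θ A' K k r v q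
  have hF : Measurable F := (measurable_Mq A K k r v).sub (measurable_Mq A' K k r v)
  have hb : ∀ q, |F q| ≤ 2 := fun q => by
    have a := abs_le.mp (abs_Mq_le (G := G) P.nonneg P.lt_one A K k r v q)
    have b := abs_le.mp (abs_Mq_le (G := G) P.nonneg P.lt_one A' K k r v q)
    exact abs_le.mpr ⟨by linarith, by linarith⟩
  have h2i : Integrable (fun q => F q ^ 2) (omg V) :=
    integrable_bdd (hF.pow_const 2) 4 fun q => by
      rw [abs_pow]; nlinarith [hb q, abs_nonneg (F q)]
  have hfd : ∫ q, F q ^ 2 ∂omg V ≤ ε ^ 2 := hN v A A' hA hA' h1 h2 k hk r hr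
  calc ∫ q, |F q| ∂omg V ≤ ∫ q, (ε / 2 + F q ^ 2 / (2 * ε)) ∂omg V := by
        refine integral_mono (integrable_bdd hF.abs 2 fun q => by simpa using hb q)
          ((integrable_const _).add (h2i.div_const _)) fun q => ?_
        simp only [Pi.add_apply]
        rw [div_add_div _ _ two_ne_zero (by positivity), le_div_iff₀ (by positivity)]
        nlinarith [sq_nonneg (|F q| - ε), sq_abs (F q)]
    _ = ε / 2 + (∫ q, F q ^ 2 ∂omg V) / (2 * ε) := by
        rw [integral_add (integrable_const _) (h2i.div_const _), integral_const, probReal_univ,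
          one_smul]
        congr 1
        exact integral_div _ _
    _ ≤ ε / 2 + ε ^ 2 / (2 * ε) := add_le_add le_rfl (div_le_div_of_nonneg_right hfd (by positivity))
    _ = ε := by field_simp; ring

omit [Countable V] in
/-- A cavity moves by at most the magnetisations of its edge. -/
lemma cav_swap {A A' : Finset V} (hA : Convex' G A) (hA' : Convex' G A') {h h' : V → ℝ}
    (hh : IsFld h) (hh' : IsFld h') {x y : V} (hx : x ∈ A) (hy : y ∈ A) (hx' : x ∈ A')
    (hy' : y ∈ A') (hadj : G.Adj x y) :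
    |cav G θ A h x y - cav G θ A' h' x y| ≤
      7000 * (|mu G θ A h x - mu G θ A' h' x| + |mu G θ A h y - mu G θ A' h' y|) := by
  have h1 := cav_sub_sq P.tree P.mem_Icc P.mem_Icc hA hA' hh hh' hx hy hx' hy' hadj
  simp only [sub_self, add_zero, ne_eq, OfNat.ofNat_ne_zero, not_false_eq_true, zero_pow] at h1
  refine abs_le_of_sq_le_sq (h1.trans ?_) (by positivity)
  rw [mul_pow, ← sq_abs (mu G θ A h x - mu G θ A' h' x), ← sq_abs (mu G θ A h y - mu G θ A' h' y)]
  nlinarith [abs_nonneg (mu G θ A h x - mu G θ A' h' x), abs_nonneg (mu G θ A h y - mu G θ A' h' y)]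

omit [Countable V] in
/-- A weight moves by at most the magnetisations of its geodesic. -/
lemma Wt_swap {A A' : Finset V} (hA : Convex' G A) (hA' : Convex' G A') {h h' : V → ℝ}
    (hh : IsFld h) (hh' : IsFld h') {x y : V} (hx : x ∈ A) (hy : y ∈ A) (hx' : x ∈ A')
    (hy' : y ∈ A') :
    |Wt G θ A h x y - Wt G θ A' h' x y| ≤
      300 * ((G.dist x y : ℝ) + 1) * ∑ c ∈ geo G x y, |mu G θ A h c - mu G θ A' h' c| := by
  set S := ∑ c ∈ geo G x y, |mu G θ A h c - mu G θ A' h' c| with hS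
  have hS0 : 0 ≤ S := Finset.sum_nonneg fun c _ => abs_nonneg _
  have hom : ∀ i ∈ inner' G x y, |om G θ A h (tow G i x) i (tow G i y) -
      om G θ A' h' (tow G i x) i (tow G i y)| ≤ 57000 * S := by
    intro i hi
    obtain ⟨hg, h1, h2⟩ := (mem_inner P.tree).mp hi
    have hp : tow G i x ∈ geo G x y := geo_left_subset P.tree hg (by
      rw [geo_comm P.tree]; exact tow_mem_geo P.tree h1)
    have hn : tow G i y ∈ geo G x y := by
      have hg' : i ∈ geo G y x := geo_comm P.tree x y ▸ hg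
      rw [geo_comm P.tree]
      exact geo_left_subset P.tree hg' (by rw [geo_comm P.tree]; exact tow_mem_geo P.tree h2)
    have hsub := geo_subset P.tree hA hx hy
    have hsub' := geo_subset P.tree hA' hx' hy'
    have e1 := P.cav_swap hA hA' hh hh' (hsub hp) (hsub hg) (hsub' hp) (hsub' hg)
      (tow_adj P.tree h1).symm
    have e2 := P.cav_swap hA hA' hh hh' (hsub hn) (hsub hg) (hsub' hn) (hsub' hg)
      (tow_adj P.tree h2).symm
    have hle : ∀ c ∈ geo G x y, |mu G θ A h c - mu G θ A' h' c| ≤ S := fun c hc =>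
      Finset.single_le_sum (f := fun c => |mu G θ A h c - mu G θ A' h' c|)
        (fun c _ => abs_nonneg _) hc
    have hsq : ∀ {a a' : ℝ}, |a| ≤ 1 → |a'| ≤ 1 → |a ^ 2 - a' ^ 2| ≤ 2 * |a - a'| :=
      fun {a a'} ha ha' => by
        rw [sq_sub_sq, abs_mul]
        exact mul_le_mul_of_nonneg_right ((abs_add_le _ _).trans (by linarith)) (abs_nonneg _)
    have hb : ∀ {B : Finset V} {f : V → ℝ}, IsFld f → ∀ {p q : V}, q ∈ B → G.Adj p q →
        |cav G θ B f p q| ≤ 1 := fun {B f} hf {p q} hq ha =>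
      (abs_cav_lt P.tree P.nonneg P.lt_one hf hq ha).le
    have q1 := hsq (hb hh (hsub hg) (tow_adj P.tree h1).symm) (hb hh' (hsub' hg) (tow_adj P.tree h1).symm)
    have q2 := hsq (hb hh (hsub hg) (tow_adj P.tree h2).symm) (hb hh' (hsub' hg) (tow_adj P.tree h2).symm)
    have q3 := hsq (abs_mu_le (G := G) P.nonneg P.lt_one A hh i)
      (abs_mu_le (G := G) P.nonneg P.lt_one A' hh' i)
    have := hle i hg
    have := hle _ hp
    have := hle _ hn
    unfold om
    rw [show ∀ a b c a' b' c' : ℝ, a + b + c - (a' + b' + c') = (a - a') + (b - b') + (c - c') from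
      fun a b c a' b' c' => by ring]
    refine (abs_add_three _ _ _).trans ?_
    linarith
  set f := ∑ i ∈ inner' G x y, om G θ A h (tow G i x) i (tow G i y)
  set f' := ∑ i ∈ inner' G x y, om G θ A' h' (tow G i x) i (tow G i y)
  have hf : 0 ≤ f := Finset.sum_nonneg fun i _ => om_nonneg _ _ _ _ _ _
  have hf' : 0 ≤ f' := Finset.sum_nonneg fun i _ => om_nonneg _ _ _ _ _ _
  have hexp : ∀ {a b : ℝ}, 0 ≤ a → 0 ≤ b → |Real.exp (-a) - Real.exp (-b)| ≤ |a - b| := by
    intro a b ha hb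
    rcases le_total a b with h | h
    · rw [abs_of_nonneg (sub_nonneg.mpr (Real.exp_le_exp.mpr (by linarith))),
        abs_of_nonpos (by linarith)]
      have := Real.add_one_le_exp (a - b)
      have e : Real.exp (-b) = Real.exp (-a) * Real.exp (a - b) := by
        rw [← Real.exp_add]; congr 1; ring
      nlinarith [Real.exp_le_one_iff.mpr (show -a ≤ 0 by linarith), Real.exp_pos (-a)]
    · rw [abs_of_nonpos (sub_nonpos.mpr (Real.exp_le_exp.mpr (by linarith))),
        abs_of_nonneg (by linarith)]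
      have := Real.add_one_le_exp (b - a)
      have e : Real.exp (-a) = Real.exp (-b) * Real.exp (b - a) := by
        rw [← Real.exp_add]; congr 1; ring
      nlinarith [Real.exp_le_one_iff.mpr (show -b ≤ 0 by linarith), Real.exp_pos (-b)]
  unfold Wt
  rw [show -(1 / 256 : ℝ) * f = -(f / 256) by ring, show -(1 / 256 : ℝ) * f' = -(f' / 256) by ring]
  refine (hexp (by positivity) (by positivity)).trans ?_
  rw [← sub_div, abs_div, abs_of_pos (show (0:ℝ) < 256 by norm_num), div_le_iff₀ (by norm_num)]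
  have hcard : ((inner' G x y).card : ℝ) ≤ (G.dist x y : ℝ) + 1 := by
    have : (inner' G x y).card ≤ (geo G x y).card := Finset.card_le_card fun c hc =>
      ((mem_inner P.tree).mp hc).1
    rw [card_geo P.tree] at this
    exact_mod_cast this
  calc |f - f'| ≤ ∑ i ∈ inner' G x y, |om G θ A h (tow G i x) i (tow G i y) -
        om G θ A' h' (tow G i x) i (tow G i y)| := by
          rw [← Finset.sum_sub_distrib]; exact Finset.abs_sum_le_sum_abs _ _
    _ ≤ (inner' G x y).card * (57000 * S) := by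
        rw [← nsmul_eq_mul]; exact Finset.sum_le_card_nsmul _ _ _ hom
    _ ≤ ((G.dist x y : ℝ) + 1) * (57000 * S) :=
        mul_le_mul_of_nonneg_right hcard (by positivity)
    _ ≤ _ := by nlinarith [mul_nonneg (show (0:ℝ) ≤ (G.dist x y : ℝ) + 1 by positivity) hS0]

end Par

end Vale.Agent.P161.Crit
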