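import Vale.Agent.P161.Crit.Read
import Vale.Agent.P161.Crit.Swap

/-!
# Comparing samplers through their readings
-/

namespace Vale.Agent.P161.Crit

open MeasureTheory unitInterval Function SimpleGraph Vale.Agent.P161

variable {V : Type*} {G : SimpleGraph V} {θ θ' : ℝ}

/-- Later rounds do not influence earlier outputs. -/
lemma out_rounds {A : Finset V} {K K' : ℕ} (hKK : K ≤ K') (ρ u : V × ℕ → I) :
    ∀ j : V × ℕ, j.2 < K → out G θ A K ρ u j = out G θ A K' ρ u j := by
  classical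
  refine preds_induction (A := A) (K := K) (ρ := ρ) fun j ih hj => ?_
  rw [out_eq, out_eq A K' ρ u j]
  congr 1
  by_cases hjA : j.1 ∈ A
  · rw [drift, drift, if_pos (Finset.mem_product.mpr ⟨hjA, Finset.mem_range.mpr hj⟩),
      if_pos (Finset.mem_product.mpr ⟨hjA, Finset.mem_range.mpr (hj.trans_le hKK)⟩)]
    refine congrArg _ (mu_congr (fun w hw => ?_) j.1)
    have hz : ∀ l, K ≤ l → estT ρ j.2 (ρ j) (w, l) = 0 := fun l hl => if_neg (by
      rintro (h | ⟨h, -⟩) <;> simp only at h <;> omega)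
    have key : ∀ s, lkv K (estT ρ j.2 (ρ j)) (out G θ A K ρ u) w s =
        lkv K' (estT ρ j.2 (ρ j)) (out G θ A K' ρ u) w s := by
      intro s
      unfold lkv
      rw [← Finset.prod_subset (Finset.range_mono hKK) (fun l _ hl => by
        rw [hz l (not_lt.mp fun h => hl (Finset.mem_range.mpr h))]; ring)]
      refine Finset.prod_congr rfl fun l hl => ?_
      by_cases h0 : estT ρ j.2 (ρ j) (w, l) = 0
      · rw [h0]; ring
      · rw [ih (w, l) (mem_preds.mpr ⟨⟨hw, Finset.mem_range.mp hl⟩, (estT_ne_zero h0).1⟩)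
          (Finset.mem_range.mp hl)]
    simp only [fld, key]
  · rw [drift, drift, if_neg (fun h => hjA (Finset.mem_product.mp h).1),
      if_neg (fun h => hjA (Finset.mem_product.mp h).1)]

variable [Countable V] [DecidableEq V]

/-- The reading of one sampler. -/
noncomputable def rdo (G : SimpleGraph V) (θ : ℝ) (A : Finset V) (K K₀ : ℕ) (v : V)
    (q : (V × ℕ → I) × (V × ℕ → I)) : ℝ :=
  rd K₀ v q.1 (out G θ A K q.1 q.2)

omit [Countable V] [DecidableEq V] in
lemma abs_rdo_le (A : Finset V) (K K₀ : ℕ) (v : V) (q : (V × ℕ → I) × (V × ℕ → I)) :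
    |rdo G θ A K K₀ v q| ≤ 1 := abs_rd_le _ _ _ _

omit [Countable V] [DecidableEq V] in
lemma measurable_out_apply (A : Finset V) (K : ℕ) (j : V × ℕ) :
    Measurable fun q : (V × ℕ → I) × (V × ℕ → I) => out G θ A K q.1 q.2 j :=
  measurable_pi_iff.mp (measurable_out (G := G) (θ := θ) A K) j

omit [Countable V] [DecidableEq V] in
lemma measurable_rdo (A : Finset V) (K K₀ : ℕ) (v : V) : Measurable (rdo G θ A K K₀ v) := by
  have h : ∀ k : ℕ, Measurable fun q : (V × ℕ → I) × (V × ℕ → I) =>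
      est1 (q.1 (v, k) : ℝ) * zed (out G θ A K q.1 q.2 (v, k)) := fun k => by
    have a1 : Measurable fun q : (V × ℕ → I) × (V × ℕ → I) => q.1 (v, k) :=
      (measurable_pi_apply (v, k)).comp measurable_fst
    have a2 : Measurable fun q : (V × ℕ → I) × (V × ℕ → I) => out G θ A K q.1 q.2 (v, k) :=
      measurable_out_apply A K (v, k)
    exact (continuous_est1.measurable.comp (measurable_subtype_coe.comp a1)).mul
      (continuous_zed.measurable.comp a2)
  have hs := (Finset.measurable_sum (Finset.range K₀) fun k _ => h k).const_mul (3 / (sqStr * K₀))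
  exact continuous_clipOne.measurable.comp hs

omit [DecidableEq V] in
lemma integrable_rdo_sub (A A' : Finset V) (K K' K₀ K₁ : ℕ) (v : V) :
    Integrable (fun q => |rdo G θ A K K₀ v q - rdo G θ' A' K' K₁ v q|) (omg V) :=
  integrable_bdd ((measurable_rdo A K K₀ v).sub (measurable_rdo A' K' K₁ v)).abs 2 fun q => by
    rw [abs_abs]
    have := abs_le.mp (abs_rdo_le (G := G) (θ := θ) A K K₀ v q)
    have := abs_le.mp (abs_rdo_le (G := G) (θ := θ') A' K' K₁ v q)
    exact abs_le.mpr ⟨by linarith, by linarith⟩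

omit [DecidableEq V] in
lemma integral_omg_le {f : (V × ℕ → I) × (V × ℕ → I) → ℝ} (hf : Measurable f) {C : ℝ}
    (hC : ∀ x, |f x| ≤ C) {B : (V × ℕ → I) → ℝ} (hB : Integrable B (iidLabels (V × ℕ)))
    (h : ∀ᵐ ρ ∂iidLabels (V × ℕ), ∫ u, f (ρ, u) ∂iidLabels (V × ℕ) ≤ B ρ) :
    ∫ q, f q ∂omg V ≤ ∫ ρ, B ρ ∂iidLabels (V × ℕ) := by
  have hi := integrable_bdd (μ := omg V) hf C hC
  rw [integral_prod f hi]
  exact integral_mono_ae hi.integral_prod_left hB h

section Distance

variable (hθ0 : 0 ≤ θ) (hθ1 : θ < 1) (hθ0' : 0 ≤ θ') (hθ1' : θ' < 1)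
include hθ0 hθ1 hθ0' hθ1'

omit [Countable V] [DecidableEq V] in
lemma out_dist_pt {A A' : Finset V} {K k : ℕ} (hk : k < K) {v : V} (hv : v ∈ A) (hv' : v ∈ A')
    {t : ℝ} (ht : 0 < t) (ρ u : V × ℕ → I) :
    |(out G θ A K ρ u (v, k) : ℝ) - out G θ' A' K ρ u (v, k)| ≤ 1 / 4 * (t / 2 + 1 / (2 * t) *
      if (0 : ℝ) ≤ (ρ (v, k) : ℝ) ∧ (ρ (v, k) : ℝ) < 1 / 2 then
        dm G θ θ' A A' v (fout G θ A K k (ρ (v, k)) (ρ, u)) (fout G θ' A' K k (ρ (v, k)) (ρ, u))
      else 0) := by
  classical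
  set j := (v, k)
  rw [out_eq, out_eq A' K ρ u j]
  refine (invCdf_dist _ _ _ _).trans ?_
  rw [sub_self, abs_zero, zero_add, drift, drift,
    if_pos (Finset.mem_product.mpr ⟨hv, Finset.mem_range.mpr hk⟩),
    if_pos (Finset.mem_product.mpr ⟨hv', Finset.mem_range.mpr hk⟩), ← mul_sub, abs_mul]
  obtain ⟨e0, e8⟩ := est_nonneg ρ j
  rw [abs_of_nonneg e0]
  by_cases h : (ρ j : ℝ) < 1 / 2
  · rw [if_pos ⟨(ρ j).2.1, h⟩]
    simp only [dm, fout_mk]
    set x := mag G θ A K (estT ρ k (ρ j)) (out G θ A K ρ u) v -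
      mag G θ' A' K (estT ρ k (ρ j)) (out G θ' A' K ρ u) v with hx
    have h1 : |x| ≤ t / 2 + 1 / (2 * t) * x ^ 2 := by
      rw [show t / 2 + 1 / (2 * t) * x ^ 2 = (t ^ 2 + |x| ^ 2) / (2 * t) by
        rw [sq_abs]; field_simp, le_div_iff₀ (by positivity)]
      nlinarith [sq_nonneg (t - |x|)]
    calc 2 * (est ρ j * |x|) ≤ 2 * (1 / 8 * (t / 2 + 1 / (2 * t) * x ^ 2)) :=
          mul_le_mul_of_nonneg_left (mul_le_mul e8 h1 (abs_nonneg _) (by norm_num)) zero_le_two
      _ = 1 / 4 * (t / 2 + 1 / (2 * t) * x ^ 2) := by ring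
  · rw [if_neg fun h' => h h'.2, show est ρ j = 0 from est1_eq_zero (not_lt.mp h)]
    simp only [zero_mul, mul_zero, add_zero]
    positivity

variable [G.LocallyFinite] {d : ℕ}

lemma integral_out_dist (P : Par G d θ) (P' : Par G d θ') {A A' : Finset V} {K k : ℕ} (hk : k < K)
    {v : V} (hv : v ∈ A) (hv' : v ∈ A') {η : ℝ} (hη : 0 < η)
    (hfd : ∀ r ∈ Set.Icc (0 : ℝ) (1 / 2), fd G θ θ' A A' K k r v ≤ η) :
    ∫ q, |(out G θ A K q.1 q.2 (v, k) : ℝ) - out G θ' A' K q.1 q.2 (v, k)| ∂omg V ≤ Real.sqrt η := by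
  set j := (v, k) with hj
  set F : ℝ × ((V × ℕ → I) × (V × ℕ → I)) → ℝ := fun p =>
    dm G θ θ' A A' v (fld K (estT p.2.1 k p.1) (out G θ A K p.2.1 p.2.2))
      (fld K (estT p.2.1 k p.1) (out G θ' A' K p.2.1 p.2.2)) with hF
  have hFm : Measurable F := by
    have he : Measurable fun p : ℝ × ((V × ℕ → I) × (V × ℕ → I)) => estT p.2.1 k p.1 :=
      measurable_estT k measurable_fst (measurable_fst.comp measurable_snd)
    simp only [F, dm]
    exact (((measurable_mu A v).comp (measurable_fld K he ((measurable_out A K).comp measurable_snd))).sub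
      ((measurable_mu A' v).comp (measurable_fld K he ((measurable_out A' K).comp measurable_snd)))).pow_const 2
  have hF0 : ∀ p, 0 ≤ F p ∧ F p ≤ 4 := fun p => ⟨dm_nonneg _ _ _ _ _,
    P.dm_le_four ⟨P'.nonneg, P'.lt_one⟩ A A' v (isFld_fld (isStr_estT _ _ _) _)
      (isFld_fld (isStr_estT _ _ _) _)⟩
  have hFb : ∀ p, |F p| ≤ 4 := fun p => by rw [abs_of_nonneg (hF0 p).1]; exact (hF0 p).2
  set H : ℝ → (V × ℕ → I) → ℝ := fun r ρ => ∫ u, F (r, ρ, u) ∂iidLabels (V × ℕ) with hH
  have hHm : Measurable fun p : ℝ × (V × ℕ → I) => H p.1 p.2 := by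
    have h : Measurable fun x : (ℝ × (V × ℕ → I)) × (V × ℕ → I) => F (x.1.1, x.1.2, x.2) :=
      hFm.comp ((measurable_fst.comp measurable_fst).prodMk
        ((measurable_snd.comp measurable_fst).prodMk measurable_snd))
    exact (h.stronglyMeasurable.integral_prod_right' (ν := iidLabels (V × ℕ))).measurable
  have hH4 : ∀ r ρ, |H r ρ| ≤ 4 := fun r ρ => by
    simp only [H]
    rw [← Real.norm_eq_abs]
    refine (norm_integral_le_of_norm_le_const (μ := iidLabels (V × ℕ)) (C := 4)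
      (.of_forall fun u => ?_)).trans (le_of_eq (by rw [probReal_univ, mul_one]))
    rw [Real.norm_eq_abs]; exact hFb _
  have hH0 : ∀ r ρ, 0 ≤ H r ρ := fun r ρ => integral_nonneg fun u => (hF0 _).1
  have hinv : ∀ r ρ (a : I), r ≤ (ρ j : ℝ) → r ≤ (a : ℝ) → H r (update ρ j a) = H r ρ := by
    intro r ρ a hr ha
    refine integral_congr_ae (.of_forall fun u => ?_)
    have hb : ¬ Bef ρ k r j := by
      rintro (h | ⟨-, h⟩)
      · simp [hj] at h
      · linarith
    have h1 := fld_out_update (G := G) (θ := θ) (A := A) (K := K) (u := u) (fun _ => ha) (le_refl k) hb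
    have h2 := fld_out_update (G := G) (θ := θ') (A := A') (K := K) (u := u) (fun _ => ha) (le_refl k) hb
    simp only [F]
    rw [h1, h2]
  have hHr : ∀ r ∈ Set.Icc (0 : ℝ) (1 / 2), ∫ ρ, H r ρ ∂iidLabels (V × ℕ) ≤ η := by
    intro r hr
    refine le_of_eq_of_le ?_ (hfd r hr)
    rw [hH, ← integral_prod (fun q => F (r, q.1, q.2))
      (integrable_bdd (hFm.comp (measurable_const.prodMk measurable_id)) 4 fun q => hFb _)]
    simp only [fd, Pe, F]
    exact integral_congr_ae (.of_forall fun q => by obtain ⟨ρ, u⟩ := q; simp only [fout_mk])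
  have hring := integral_ring j hHm hH4 hH0 hinv (s₀ := 0) (s := 1 / 2) le_rfl (by norm_num) le_rfl
  have hint : ∫ r in (0 : ℝ)..1 / 2, ∫ ρ, H r ρ ∂iidLabels (V × ℕ) ≤ η / 2 := by
    refine (intervalIntegral.integral_mono_on (g := fun _ => η) (by norm_num) ?_
      intervalIntegrable_const hHr).trans_eq (by simp; ring)
    refine (intervalIntegrable_const (c := (4 : ℝ))).mono_fun'
      (hHm.stronglyMeasurable.integral_prod_right' (ν := iidLabels (V × ℕ))).measurable.aestronglyMeasurable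
      (.of_forall fun r => ?_)
    refine (norm_integral_le_of_norm_le_const (C := 4) (.of_forall fun ρ => ?_)).trans
      (le_of_eq (by rw [probReal_univ, mul_one]))
    rw [Real.norm_eq_abs]; exact hH4 r ρ
  set t := Real.sqrt η with ht
  have ht0 : 0 < t := Real.sqrt_pos.mpr hη
  set g : (V × ℕ → I) × (V × ℕ → I) → ℝ := fun q =>
    if (0 : ℝ) ≤ (q.1 j : ℝ) ∧ (q.1 j : ℝ) < 1 / 2 then F ((q.1 j : ℝ), q) else 0 with hg
  have hρj : Measurable fun q : (V × ℕ → I) × (V × ℕ → I) => (q.1 j : ℝ) :=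
    measurable_subtype_coe.comp ((measurable_pi_apply j).comp measurable_fst)
  have hgm : Measurable g := Measurable.ite
    ((measurableSet_le measurable_const hρj).inter (measurableSet_lt hρj measurable_const))
    (hFm.comp (hρj.prodMk measurable_id)) measurable_const
  have hgi : Integrable g (omg V) := integrable_bdd hgm 4 fun q => by
    simp only [g]; split_ifs
    · exact hFb _
    · simp
  have hgle : ∫ q, g q ∂omg V ≤ η := by
    rw [integral_prod g hgi]
    refine le_trans (le_of_eq ?_) (hring.trans (by linarith))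
    refine integral_congr_ae (.of_forall fun ρ => ?_)
    simp only [g, H]
    split_ifs <;> simp
  refine (integral_mono_of_nonneg (.of_forall fun q => abs_nonneg _)
    (((integrable_const (t / 2)).fun_add (hgi.const_mul (1 / (2 * t)))).const_mul (1 / 4))
    (.of_forall fun q => ?_)).trans ?_
  · obtain ⟨ρ, u⟩ := q
    have := out_dist_pt (G := G) hθ0 hθ1 hθ0' hθ1' hk hv hv' ht0 ρ u
    simp only [fout_mk] at this
    simpa [g, F, hj] using this
  · rw [integral_const_mul, integral_add (integrable_const _) (hgi.const_mul _), integral_const_mul]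
    simp only [integral_const, probReal_univ, one_smul]
    have h1 : 1 / (2 * t) * ∫ q, g q ∂omg V ≤ 1 / (2 * t) * η :=
      mul_le_mul_of_nonneg_left hgle (by positivity)
    have h2 : 1 / (2 * t) * η = t / 2 := by
      rw [show η = t ^ 2 from (Real.sq_sqrt hη.le).symm]; field_simp
    linarith

/-- Samplers that agree in mean square give close readings. -/
lemma integral_rdo_dist (P : Par G d θ) (P' : Par G d θ') {A A' : Finset V} {K : ℕ} (hK : 0 < K)
    {v : V} (hv : v ∈ A) (hv' : v ∈ A') {η : ℝ} (hη : 0 < η)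
    (hfd : ∀ k < K, ∀ r ∈ Set.Icc (0 : ℝ) (1 / 2), fd G θ θ' A A' K k r v ≤ η) :
    ∫ q, |rdo G θ A K K v q - rdo G θ' A' K K v q| ∂omg V ≤ Real.sqrt η / sqStr := by
  have hs := sqStr_pos
  have hm : ∀ k, Integrable (fun q : (V × ℕ → I) × (V × ℕ → I) =>
      |(out G θ A K q.1 q.2 (v, k) : ℝ) - out G θ' A' K q.1 q.2 (v, k)|) (omg V) := fun k =>
    integrable_bdd (((measurable_subtype_coe.comp (measurable_out_apply A K (v, k))).sub
      (measurable_subtype_coe.comp (measurable_out_apply A' K (v, k)))).abs) 1 fun q => by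
        rw [abs_abs]
        exact abs_le.mpr ⟨by linarith [(out G θ A K q.1 q.2 (v, k)).2.1, (out G θ' A' K q.1 q.2 (v, k)).2.2],
          by linarith [(out G θ A K q.1 q.2 (v, k)).2.2, (out G θ' A' K q.1 q.2 (v, k)).2.1]⟩
  refine (integral_mono_of_nonneg (.of_forall fun q => abs_nonneg _)
    ((integrable_finsetSum (Finset.range K) fun k _ => hm k).const_mul (1 / (sqStr * K)))
    (.of_forall fun q => abs_rd_sub_le v q.1 _ _)).trans ?_
  rw [integral_const_mul, integral_finsetSum _ fun k _ => hm k]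
  refine (mul_le_mul_of_nonneg_left (Finset.sum_le_card_nsmul _ _ (Real.sqrt η) fun k hk =>
    integral_out_dist hθ0 hθ1 hθ0' hθ1' P P' (Finset.mem_range.mp hk) hv hv' hη
      (hfd k (Finset.mem_range.mp hk))) (by positivity)).trans_eq ?_
  have : (K : ℝ) ≠ 0 := Nat.cast_ne_zero.mpr hK.ne'
  rw [Finset.card_range, nsmul_eq_mul]
  field_simp

end Distance

end Vale.Agent.P161.Crit
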