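import Vale.Agent.P161.Crit.Avg

/-!
# The law of the field at a fixed time
-/

namespace Vale.Agent.P161.Crit

open MeasureTheory unitInterval Function SimpleGraph Vale.Agent.P161

variable {V : Type*} {G : SimpleGraph V} {θ : ℝ}

section Moments

/-- The signed reading is symmetric. -/
lemma map_flip : (iidLabels (V × ℕ)).map (fun y j => σ (y j)) = iidLabels (V × ℕ) := by
  unfold iidLabels
  rw [Measure.infinitePi_map_pi (fun _ : V × ℕ => (volume : Measure I)) (f := fun _ => σ)
    fun _ => continuous_symm.measurable]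
  congr 1
  funext j
  exact unitInterval.measurePreserving_symm.map_eq

lemma integral_zed_one (b : ℝ) : ∫ t : I, (1 + b * zed t) = 1 :=
  integral_linear (θ := (0 : ℝ)) (by norm_num) 1 b

lemma integral_zed_quad (a b c : ℝ) :
    ∫ t : I, (a + b * zed t + c * zed t ^ 2) = a + c / 3 := by
  rw [integral_unitInterval, intervalIntegral.integral_congr
    (g := fun x => (a - b + c) + (2 * b - 4 * c) * x + 4 * c * x ^ 2) (fun x hx => by
      rw [Set.uIcc_of_le zero_le_one] at hx
      simp only [zed, Set.projIcc_of_mem _ hx]; ring),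
    intervalIntegral.integral_add (Continuous.intervalIntegrable (by fun_prop) _ _)
      (Continuous.intervalIntegrable (by fun_prop) _ _),
    intervalIntegral.integral_add intervalIntegrable_const
      (Continuous.intervalIntegrable (by fun_prop) _ _),
    intervalIntegral.integral_const, intervalIntegral.integral_const_mul,
    intervalIntegral.integral_const_mul, integral_id, integral_pow]
  norm_num; ring

/-- A product of functions of separate coordinates. -/
lemma integral_prod_coord {ι : Type*} [Countable ι] (S : Finset ι) (g : ι → I → ℝ)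
    (hg : ∀ i ∈ S, Measurable (g i)) :
    ∫ y, ∏ i ∈ S, g i (y i) ∂iidLabels ι = ∏ i ∈ S, ∫ t : I, g i t := by
  classical
  induction S using Finset.induction_on with
  | empty => simp
  | @insert a S ha ih =>
    simp only [Finset.prod_insert ha]
    rw [integral_mul_disjoint (f := fun y : ι → I => g a (y a))
      (g := fun y : ι → I => ∏ i ∈ S, g i (y i)) (S := {a}) (T := S) (by simpa using ha)
      ((hg a (Finset.mem_insert_self a S)).comp (measurable_pi_apply a))
      (Finset.measurable_prod S fun i hi =>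
        (hg i (Finset.mem_insert_of_mem hi)).comp (measurable_pi_apply i))
      (fun y y' h => congrArg (g a) (h a (by simp)))
      (fun y y' h => Finset.prod_congr rfl fun i hi => congrArg (g i) (h i hi)),
      ih fun i hi => hg i (Finset.mem_insert_of_mem hi)]
    congr 1
    show ∫ u : ι → I, g a (u a) ∂Measure.infinitePi (fun _ : ι => (volume : Measure I)) = _
    conv_rhs => rw [← Measure.infinitePi_map_eval (fun _ : ι => (volume : Measure I)) a]
    rw [integral_map (measurable_pi_apply a).aemeasurable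
      (hg a (Finset.mem_insert_self a S)).aestronglyMeasurable]

variable [Countable V]

lemma lkA_eq_prod (A : Finset V) (K : ℕ) (e : V × ℕ → ℝ) (η : V → Bool) (y : V × ℕ → I) :
    lkA A K e η y = ∏ j ∈ A ×ˢ Finset.range K, (1 + e j * spin (η j.1) * zed (y j)) := by
  rw [Finset.prod_product]; rfl

omit [Countable V] in
lemma continuous_lkA {e : V × ℕ → ℝ} (he : IsStr e) (A : Finset V) (K : ℕ) (η : V → Bool) :
    Continuous fun y : V × ℕ → I => lkA A K e η y :=
  continuous_finsetProd _ fun v _ => continuous_lkv he v _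

lemma integral_lkA (A : Finset V) (K : ℕ) (e : V × ℕ → ℝ) (η : V → Bool) :
    ∫ y, lkA A K e η y ∂iidLabels (V × ℕ) = 1 := by
  simp only [lkA_eq_prod]
  rw [integral_prod_coord _ (fun j t => 1 + e j * spin (η j.1) * zed t)
    fun j _ => by fun_prop [zed]]
  exact Finset.prod_eq_one fun j _ => integral_zed_one _

lemma integral_lkA_one (A : Finset V) (K : ℕ) (e : V × ℕ → ℝ) (η : V → Bool) {i : V × ℕ}
    (hi : i ∈ A ×ˢ Finset.range K) :
    ∫ y, zed (y i) * lkA A K e η y ∂iidLabels (V × ℕ) = e i * spin (η i.1) / 3 := by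
  classical
  have e1 : ∀ y : V × ℕ → I, zed (y i) * lkA A K e η y = ∏ j ∈ A ×ˢ Finset.range K,
      (if j = i then zed (y j) else 1) * (1 + e j * spin (η j.1) * zed (y j)) := fun y => by
    rw [Finset.prod_mul_distrib, lkA_eq_prod, Finset.prod_ite_eq' _ i fun j => zed (y j), if_pos hi]
  simp only [e1]
  rw [integral_prod_coord _ (fun j t => (if j = i then zed t else 1) *
    (1 + e j * spin (η j.1) * zed t)) fun j _ => by split_ifs <;> fun_prop [zed]]
  rw [Finset.prod_eq_single i (fun j _ hj => by simp [hj, integral_zed_one])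
    (fun h => absurd hi h)]
  simp only [if_true]
  have := integral_zed_quad 0 1 (e i * spin (η i.1))
  rw [zero_add] at this
  rw [← this]
  exact integral_congr_ae (.of_forall fun t => by ring)

lemma integral_lkA_sq (A : Finset V) (K : ℕ) (e : V × ℕ → ℝ) (η : V → Bool) {i : V × ℕ}
    (hi : i ∈ A ×ˢ Finset.range K) :
    ∫ y, zed (y i) ^ 2 * lkA A K e η y ∂iidLabels (V × ℕ) ≤ 1 / 3 := by
  classical
  have e1 : ∀ y : V × ℕ → I, zed (y i) ^ 2 * lkA A K e η y = ∏ j ∈ A ×ˢ Finset.range K,
      (if j = i then zed (y j) ^ 2 else 1) * (1 + e j * spin (η j.1) * zed (y j)) := fun y => by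
    rw [Finset.prod_mul_distrib, lkA_eq_prod, Finset.prod_ite_eq' _ i fun j => zed (y j) ^ 2,
      if_pos hi]
  simp only [e1]
  rw [integral_prod_coord _ (fun j t => (if j = i then zed t ^ 2 else 1) *
    (1 + e j * spin (η j.1) * zed t)) fun j _ => by split_ifs <;> fun_prop [zed]]
  rw [Finset.prod_eq_single i (fun j _ hj => by simp [hj, integral_zed_one])
    (fun h => absurd hi h)]
  simp only [if_true]
  rw [integral_unitInterval, intervalIntegral.integral_congr
    (g := fun x => (1 - e i * spin (η i.1)) * (2 * x - 1) ^ 2 +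
      2 * (e i * spin (η i.1)) * (x * (2 * x - 1) ^ 2)) (fun x hx => by
      rw [Set.uIcc_of_le zero_le_one] at hx
      simp only [zed, Set.projIcc_of_mem _ hx]; ring)]
  have e2 : ∀ a b : ℝ, (∫ x in (0:ℝ)..1, (a * (2 * x - 1) ^ 2 + b * (x * (2 * x - 1) ^ 2))) =
      a / 3 + b / 6 := by
    intro a b
    rw [intervalIntegral.integral_congr
      (g := fun x => a + (b - 4 * a) * x + (4 * a - 4 * b) * x ^ 2 + 4 * b * x ^ 3) (fun x _ => by
        ring),
      intervalIntegral.integral_add (Continuous.intervalIntegrable (by fun_prop) _ _)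
        (Continuous.intervalIntegrable (by fun_prop) _ _),
      intervalIntegral.integral_add (Continuous.intervalIntegrable (by fun_prop) _ _)
        (Continuous.intervalIntegrable (by fun_prop) _ _),
      intervalIntegral.integral_add intervalIntegrable_const
        (Continuous.intervalIntegrable (by fun_prop) _ _),
      intervalIntegral.integral_const, intervalIntegral.integral_const_mul,
      intervalIntegral.integral_const_mul, intervalIntegral.integral_const_mul,
      integral_id, integral_pow, integral_pow]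
    norm_num; ring
  rw [e2]
  linarith

lemma integral_lkA_two (A : Finset V) (K : ℕ) (e : V × ℕ → ℝ) (η : V → Bool) {i i' : V × ℕ}
    (hi : i ∈ A ×ˢ Finset.range K) (hi' : i' ∈ A ×ˢ Finset.range K) (hne : i ≠ i') :
    ∫ y, zed (y i) * zed (y i') * lkA A K e η y ∂iidLabels (V × ℕ) =
      e i * spin (η i.1) / 3 * (e i' * spin (η i'.1) / 3) := by
  classical
  have e1 : ∀ y : V × ℕ → I, zed (y i) * zed (y i') * lkA A K e η y =
      ∏ j ∈ A ×ˢ Finset.range K, (if j = i then zed (y j) else 1) *
        (if j = i' then zed (y j) else 1) * (1 + e j * spin (η j.1) * zed (y j)) := fun y => by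
    rw [Finset.prod_mul_distrib, Finset.prod_mul_distrib, lkA_eq_prod,
      Finset.prod_ite_eq' _ i fun j => zed (y j), if_pos hi,
      Finset.prod_ite_eq' _ i' fun j => zed (y j), if_pos hi']
  simp only [e1]
  rw [integral_prod_coord _ (fun j t => (if j = i then zed t else 1) *
    (if j = i' then zed t else 1) * (1 + e j * spin (η j.1) * zed t))
    fun j _ => by split_ifs <;> fun_prop [zed]]
  rw [Finset.prod_eq_mul i i' hne (fun j _ hj => by simp [hj.1, hj.2, integral_zed_one])
    (fun h => absurd hi h) (fun h => absurd hi' h)]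
  have key : ∀ b : ℝ, ∫ t : I, zed t * (1 + b * zed t) = b / 3 := fun b => by
    have := integral_zed_quad 0 1 b
    rw [zero_add] at this
    rw [← this]
    exact integral_congr_ae (.of_forall fun t => by ring)
  simp [hne, Ne.symm hne, key]

end Moments

/-- The spins of the free measure on a subtree have correlation `θ ^ dist`. -/
lemma Ev_corr [G.LocallyFinite] [DecidableEq V] (hG : G.IsTree) (hθ : |θ| < 1) {A : Finset V}
    (hA : Convex' G A) {o u : V} (ho : o ∈ A) (hu : u ∈ A) :
    Ev G θ A (fun η => spin (η o) * spin (η u)) = θ ^ G.dist o u := by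
  have hh : IsFld (fun _ : V => (0 : ℝ)) := fun _ => by simp
  have hz : ∀ B : Finset V, ∀ v ∈ B, mu G θ B (fun _ => (0 : ℝ)) v = 0 := fun B v hv => by
    have := mu_neg (G := G) (θ := θ) (A := B) (fun _ => (0 : ℝ)) hv
    simp only [neg_zero] at this
    linarith
  have h := Cv_path hG hθ hh hA ho hu
  have hZ : ∀ F, Zf G θ A (fun _ => (0 : ℝ)) F = Ev G θ A F := fun F =>
    Ev_congr fun η => by simp
  rw [Finset.prod_eq_one fun c hc => ?_, hz A o ho] at h
  · simp only [Cv, hz A o ho, hz A u hu, hZ, Ev_one hG hA ⟨o, ho⟩, div_one, mul_zero, sub_zero]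
      at h
    simpa using h
  · obtain ⟨hcA, -, hadj, -⟩ := path_edge hG hA ho hu hc
    rw [cav, hz _ c (mem_half.mpr ⟨hcA, far_self hadj⟩)]
    simp [rho]

section Law

variable [Countable V] [DecidableEq V]

/-- An observable of the field in `A` with bounded values. -/
structure IsB (A : Finset V) (Φ : (V → ℝ) → ℝ) : Prop where
  test : IsTest A Φ
  bdd : ∃ C, ∀ h, IsFld h → |Φ h| ≤ C

/-- Expectation of an observable of the field at time `(k, r)`. -/
noncomputable def St (G : SimpleGraph V) (θ : ℝ) (A : Finset V) (K k : ℕ) (r : ℝ)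
    (Φ : (V → ℝ) → ℝ) : ℝ :=
  ∫ ρ, Ex G θ A K (estT ρ k r) (fun y => Φ (fld K (estT ρ k r) y)) ∂iidLabels (V × ℕ)

omit [Countable V] in
lemma integral_den (hG : G.IsTree) {A : Finset V} [Countable V] (hA : Convex' G A)
    (hne : A.Nonempty) {K : ℕ} {e : V × ℕ → ℝ} (he : IsStr e) :
    ∫ y, den G θ A K e y ∂iidLabels (V × ℕ) = 1 := by
  simp only [den, Ev]
  rw [integral_finsetSum _ fun s _ =>
    (integrable_of_continuous (continuous_lkA he A K (cfg s))).const_mul _]
  simp only [integral_const_mul, integral_lkA, mul_one]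
  have := Ev_one (θ := θ) hG hA hne
  simpa [Ev] using this

lemma measurable_den (A : Finset V) (K : ℕ) :
    Measurable fun p : (V × ℕ → ℝ) × (V × ℕ → I) => den G θ A K p.1 p.2 := by
  unfold den Ev
  refine Finset.measurable_sum _ fun s _ => Measurable.const_mul ?_ _
  unfold lkA lkv
  refine Finset.measurable_prod _ fun v _ => Finset.measurable_prod _ fun k _ => ?_
  have h1 : Measurable fun p : (V × ℕ → ℝ) × (V × ℕ → I) => p.1 (v, k) :=
    (measurable_pi_apply _).comp measurable_fst
  have h2 : Measurable fun p : (V × ℕ → ℝ) × (V × ℕ → I) => zed (p.2 (v, k)) :=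
    continuous_zed.measurable.comp ((measurable_pi_apply _).comp measurable_snd)
  fun_prop

lemma measurable_Ex (A : Finset V) (K : ℕ) {Φ : (V → ℝ) → ℝ} (hΦ : Measurable Φ) :
    Measurable fun e : V × ℕ → ℝ => Ex G θ A K e (fun y => Φ (fld K e y)) :=
  ((hΦ.comp (measurable_fld (V := V) K (X := (V × ℕ → ℝ) × (V × ℕ → I))
      (e := Prod.fst) (y := Prod.snd) measurable_fst measurable_snd)).mul
    (measurable_den (G := G) (θ := θ) A K)).stronglyMeasurable.integral_prod_right'
      (ν := iidLabels (V × ℕ)) |>.measurable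

lemma measurable_St {A B : Finset V} {Φ : (V → ℝ) → ℝ} (hΦ : IsB B Φ) (K k : ℕ) (r : ℝ) :
    Measurable fun ρ : V × ℕ → I =>
      Ex G θ A K (estT ρ k r) (fun y => Φ (fld K (estT ρ k r) y)) :=
  (measurable_Ex (G := G) (θ := θ) A K hΦ.test.meas).comp
    (measurable_estT (V := V) k (r := fun _ : V × ℕ → I => r) measurable_const measurable_id)

variable (hG : G.IsTree) (hθ : |θ| < 1)
include hG hθ

lemma abs_Ex_le {A : Finset V} (hA : Convex' G A) (hne : A.Nonempty) {K : ℕ} {e : V × ℕ → ℝ}
    (he : IsStr e) {F : (V × ℕ → I) → ℝ} {C : ℝ} (hC : ∀ y, |F y| ≤ C) :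
    |Ex G θ A K e F| ≤ C := by
  refine abs_integral_le_integral_abs.trans ((integral_mono_of_nonneg
    (.of_forall fun y => abs_nonneg _)
    ((integrable_of_continuous (continuous_den (G := G) (θ := θ) (K := K) he A)).const_mul C)
    (.of_forall fun y => ?_)).trans_eq
    (by rw [integral_const_mul, integral_den hG hA hne he, mul_one]))
  simp only [abs_mul, abs_of_pos (den_pos he hθ A y)]
  exact mul_le_mul_of_nonneg_right (hC y) (den_pos he hθ A y).le

lemma integrable_St {A B : Finset V} (hA : Convex' G A) (hne : A.Nonempty) {Φ : (V → ℝ) → ℝ}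
    (hΦ : IsB B Φ) (K k : ℕ) (r : ℝ) :
    Integrable (fun ρ => Ex G θ A K (estT ρ k r) (fun y => Φ (fld K (estT ρ k r) y)))
      (iidLabels (V × ℕ)) := by
  obtain ⟨C, hC⟩ := hΦ.bdd
  exact integrable_bdd (measurable_St (G := G) (θ := θ) hΦ K k r) C fun ρ =>
    abs_Ex_le hG hθ hA hne (isStr_estT ρ k r) fun y => hC _ (isFld_fld (isStr_estT ρ k r) y)

variable {A B B' : Finset V} {K k : ℕ} {r : ℝ} {Φ Ψ : (V → ℝ) → ℝ}

lemma St_mono (hA : Convex' G A) (hne : A.Nonempty) (h1 : IsB B Φ) (h2 : IsB B' Ψ)
    (h : ∀ f, IsFld f → Φ f ≤ Ψ f) : St G θ A K k r Φ ≤ St G θ A K k r Ψ := by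
  refine integral_mono (integrable_St hG hθ hA hne h1 K k r) (integrable_St hG hθ hA hne h2 K k r)
    fun ρ => ?_
  exact Ex_mono hθ (isStr_estT ρ k r) A (h1.test.continuous_fld (isStr_estT ρ k r))
    (h2.test.continuous_fld (isStr_estT ρ k r)) fun y => h _ (isFld_fld (isStr_estT ρ k r) y)

lemma St_add (hA : Convex' G A) (hne : A.Nonempty) (h1 : IsB B Φ) (h2 : IsB B' Ψ) :
    St G θ A K k r (fun f => Φ f + Ψ f) = St G θ A K k r Φ + St G θ A K k r Ψ := by
  rw [St, St, St, ← integral_add (integrable_St hG hθ hA hne h1 K k r)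
    (integrable_St hG hθ hA hne h2 K k r)]
  exact integral_congr_ae (.of_forall fun ρ => Ex_add (isStr_estT ρ k r) A
    (h1.test.continuous_fld (isStr_estT ρ k r)) (h2.test.continuous_fld (isStr_estT ρ k r)))

lemma St_sum (hA : Convex' G A) (hne : A.Nonempty) {ι : Type*} (s : Finset ι)
    {F : ι → (V → ℝ) → ℝ} (hF : ∀ i ∈ s, IsB B (F i)) :
    St G θ A K k r (fun f => ∑ i ∈ s, F i f) = ∑ i ∈ s, St G θ A K k r (F i) := by
  simp only [St]
  rw [← integral_finsetSum _ fun i hi => integrable_St hG hθ hA hne (hF i hi) K k r]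
  exact integral_congr_ae (.of_forall fun ρ => Ex_sum (isStr_estT ρ k r) A s fun i hi =>
    (hF i hi).test.continuous_fld (isStr_estT ρ k r))

omit hG hθ in
lemma St_const_mul (c : ℝ) :
    St G θ A K k r (fun f => c * Φ f) = c * St G θ A K k r Φ := by
  simp only [St, Ex_const_mul, integral_const_mul]

lemma St_const (hA : Convex' G A) (hne : A.Nonempty) (c : ℝ) :
    St G θ A K k r (fun _ => c) = c := by
  have : ∀ ρ : V × ℕ → I, Ex G θ A K (estT ρ k r) (fun _ => c) = c := fun ρ => by
    rw [Ex, integral_const_mul, integral_den hG hA hne (isStr_estT ρ k r), mul_one]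
  simp [St, this]

omit hG hθ in
lemma St_congr (h : ∀ f, IsFld f → Φ f = Ψ f) : St G θ A K k r Φ = St G θ A K k r Ψ := by
  refine integral_congr_ae (.of_forall fun ρ => ?_)
  simp only [Ex, h _ (isFld_fld (isStr_estT ρ k r) _)]

/-- An observable of a convex part sees the law of that part. -/
lemma St_consist (hA : Convex' G A) {D : Finset V} (hD : Convex' G D) (hDne : D.Nonempty)
    (hsub : D ⊆ A) (hΦ : IsB D Φ) : St G θ A K k r Φ = St G θ D K k r Φ := by
  refine integral_congr_ae (.of_forall fun ρ => ?_)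
  classical
  set e := estT ρ k r with he
  set eD : V × ℕ → ℝ := fun i => if i.1 ∈ D then e i else 0 with heD
  have hse : IsStr e := isStr_estT ρ k r
  have hsD : IsStr eD := fun i => by
    by_cases hi : i.1 ∈ D
    · simp only [eD, if_pos hi]; exact hse i
    · simp only [eD, if_neg hi]; exact ⟨le_rfl, by norm_num⟩
  have hF : (fun y => Φ (fld K e y)) = fun y => Φ (fld K eD y) := funext fun y =>
    hΦ.test.loc _ _ fun v hv => fld_congr fun l _ => by simp [eD, hv]
  show Ex G θ A K e (fun y => Φ (fld K e y)) = Ex G θ D K e fun y => Φ (fld K e y)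
  rw [hF, Ex_extend (e := eD) (e' := e) hθ hsD hse (fun j hj => by
      by_cases hjD : j.1 ∈ D
      · simp [eD, hjD]
      · simp [eD, hjD] at hj)
    (hΦ.test.continuous_fld hsD) (fun y y' h => by rw [fld_dependsOn K eD h])]
  refine integral_congr_ae (.of_forall fun y => ?_)
  simp only
  rw [den_mono_set hG hD hA hDne hsub (fun w _ hwD l => by simp [eD, hwD])]
  congr 1
  unfold den lkA lkv
  exact Ev_congr fun η => Finset.prod_congr rfl fun v hv =>
    Finset.prod_congr rfl fun l _ => by simp [eD, hv]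

/-- Observables of the two sides of an edge are independent when one is even. -/
theorem St_indep (hA : Convex' G A) {u u' : V} (hu : u ∈ A) (hu' : u' ∈ A) (hadj : G.Adj u u')
    (hΦ : IsB (half G A u' u) Φ) (hΨ : IsB (half G A u u') Ψ)
    (heven : ∀ f, IsFld f → Φ (fun v => -f v) = Φ f) :
    St G θ A K k r (fun f => Φ f * Ψ f) = St G θ A K k r Φ * St G θ A K k r Ψ := by
  classical
  set A₁ := half G A u' u with hA₁
  set A₂ := half G A u u' with hA₂
  have h1c : Convex' G A₁ := convex_half hG hA hadj.symm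
  have h2c : Convex' G A₂ := convex_half hG hA hadj
  have hu1 : u ∈ A₁ := mem_half.mpr ⟨hu, far_self hadj.symm⟩
  have hu2 : u' ∈ A₂ := mem_half.mpr ⟨hu', far_self hadj⟩
  rw [St_consist hG hθ hA h1c ⟨u, hu1⟩ (fun x hx => mem_of_mem_half hx) hΦ,
    St_consist hG hθ hA h2c ⟨u', hu2⟩ (fun x hx => mem_of_mem_half hx) hΨ]
  have e1 : A₁ = A.filter fun z => ¬ Far G u u' z := half_eq_not hG hadj
  have e2 : A₂ = A.filter fun z => Far G u u' z := by ext z; simp [A₂, mem_half]
  have hdisj : Disjoint (A₁ ×ˢ Finset.range K) (A₂ ×ˢ Finset.range K) := by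
    rw [Finset.disjoint_left]
    intro x hx hx'
    rw [Finset.mem_product, e1, Finset.mem_filter] at hx
    rw [Finset.mem_product, e2, Finset.mem_filter] at hx'
    exact hx.1.2 hx'.1.2
  have dep : ∀ (D : Finset V) (Φ' : (V → ℝ) → ℝ), IsB D Φ' →
      DependsOn (fun ρ => Ex G θ D K (estT ρ k r) fun y => Φ' (fld K (estT ρ k r) y))
        ((D ×ˢ Finset.range K : Finset (V × ℕ)) : Set _) := by
    intro D Φ' hΦ' ρ ρ' h
    have he : ∀ v ∈ D, ∀ l < K, estT ρ k r (v, l) = estT ρ' k r (v, l) := fun v hv l hl => by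
      have := h (v, l) (Finset.mem_product.mpr ⟨hv, Finset.mem_range.mpr hl⟩)
      unfold estT Bef est
      simp only [this]
      congr 1
    refine integral_congr_ae (.of_forall fun y => ?_)
    simp only
    rw [hΦ'.test.loc _ _ fun v hv => fld_congr (y' := y) fun l hl => by rw [he v hv l hl]]
    congr 1
    unfold den lkA lkv
    exact Ev_congr fun η => Finset.prod_congr rfl fun v hv =>
      Finset.prod_congr rfl fun l hl => by rw [he v hv l (Finset.mem_range.mp hl)]
  rw [St, St, St, ← integral_mul_disjoint hdisj (measurable_St (G := G) (θ := θ) hΦ K k r)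
    (measurable_St (G := G) (θ := θ) hΨ K k r) (dep A₁ Φ hΦ) (dep A₂ Ψ hΨ)]
  refine integral_congr_ae (.of_forall fun ρ => ?_)
  simp only
  set e := estT ρ k r
  have he : IsStr e := isStr_estT ρ k r
  set F : (V × ℕ → I) → ℝ := fun y => Φ (fld K e y)
  set F' : (V × ℕ → I) → ℝ := fun y => Ψ (fld K e y)
  have hFc : Continuous F := hΦ.test.continuous_fld he
  have hF'c : Continuous F' := hΨ.test.continuous_fld he
  set d₁ : (V × ℕ → I) → ℝ := fun y => den G θ A₁ K e y
  set d₂ : (V × ℕ → I) → ℝ := fun y => den G θ A₂ K e y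
  set s₁ : (V × ℕ → I) → ℝ := fun y => Ev G θ A₁ fun η => spin (η u) * lkA A₁ K e η y
  set s₂ : (V × ℕ → I) → ℝ := fun y => Ev G θ A₂ fun η => spin (η u') * lkA A₂ K e η y
  have csum : ∀ (D : Finset V) (w : V), Continuous fun y : V × ℕ → I =>
      Ev G θ D fun η => spin (η w) * lkA D K e η y := fun D w => by
    unfold Ev
    exact continuous_finsetSum _ fun s _ =>
      continuous_const.mul (continuous_const.mul (continuous_lkA he D K _))
  have hsplit : ∀ y, den G θ A K e y = d₁ y * d₂ y + θ * (s₁ y * s₂ y) := by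
    intro y
    show Ev G θ A (fun η => lkA A K e η y) = _
    rw [Ev_congr (g := fun η => lkA A₁ K e η y * lkA A₂ K e η y) fun η => by
      unfold lkA
      rw [e1, e2, mul_comm, Finset.prod_filter_mul_prod_filter_not],
      Ev_split hG hu hu' hadj (fun η => lkA A₁ K e η y) (fun η => lkA A₂ K e η y)
        (fun η η' hη => Finset.prod_congr rfl fun v hv => by rw [hη v (e1 ▸ hv)])
        (fun η η' hη => Finset.prod_congr rfl fun v hv => by rw [hη v (e2 ▸ hv)]),
      ← e1, ← e2]
    rfl
  have depF : ∀ (D : Finset V) (Φ' : (V → ℝ) → ℝ), IsB D Φ' → ∀ g : (V → Bool) → ℝ,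
      DependsOn (fun y => Φ' (fld K e y) * Ev G θ D fun η => g η * lkA D K e η y)
        ((D ×ˢ Finset.range K : Finset (V × ℕ)) : Set _) := by
    intro D Φ' hΦ' g y y' h
    have hy : ∀ v ∈ D, ∀ l < K, y (v, l) = y' (v, l) := fun v hv l hl =>
      h (v, l) (Finset.mem_product.mpr ⟨hv, Finset.mem_range.mpr hl⟩)
    simp only
    rw [hΦ'.test.loc _ _ fun v hv => fld_congr (e' := e) fun l hl => by rw [hy v hv l hl]]
    congr 1
    refine Ev_congr fun η => ?_
    unfold lkA lkv
    congr 1
    exact Finset.prod_congr rfl fun v hv =>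
      Finset.prod_congr rfl fun l hl => by rw [hy v hv l (Finset.mem_range.mp hl)]
  have hzero : ∫ y, F y * s₁ y ∂iidLabels (V × ℕ) = 0 := by
    have key : ∀ y : V × ℕ → I, F (fun j => σ (y j)) * s₁ (fun j => σ (y j)) = -(F y * s₁ y) := by
      intro y
      have a : F (fun j => σ (y j)) = F y := by
        simp only [F, fld_symm]
        exact heven _ (isFld_fld he y)
      have b : s₁ (fun j => σ (y j)) = -s₁ y := by
        show Ev G θ A₁ (fun η => spin (η u) * lkA A₁ K e η fun j => σ (y j)) = _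
        have hl : ∀ η : V → Bool, lkA A₁ K e η (fun j => σ (y j)) =
            lkA A₁ K e (fun v => !η v) y := fun η =>
          Finset.prod_congr rfl fun v _ => Finset.prod_congr rfl fun l _ => by
            cases hh : η v <;> simp [zed_symm, spin, hh]
        rw [Ev_congr (g := fun η => -1 * (fun η' : V → Bool => spin (η' u) * lkA A₁ K e η' y)
          fun v => !η v) fun η => by
            rw [hl]; cases hh : η u <;> simp [spin, hh], Ev_const_mul,
          Ev_flip G θ A₁ (fun η' : V → Bool => spin (η' u) * lkA A₁ K e η' y)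
            (fun η η' hη => by
              rw [hη u hu1]; congr 1
              exact Finset.prod_congr rfl fun v hv => by rw [hη v hv])]
        ring
      rw [a, b, mul_neg]
    have hc : Continuous fun y => F y * s₁ y := hFc.mul (csum A₁ u)
    have := congrArg (fun μ : Measure (V × ℕ → I) => ∫ y, F y * s₁ y ∂μ) (map_flip (V := V))
    have hmf : Measurable fun (y : V × ℕ → I) (j : V × ℕ) => σ (y j) :=
      measurable_pi_lambda _ fun j => continuous_symm.measurable.comp (measurable_pi_apply j)
    rw [integral_map hmf.aemeasurable hc.aestronglyMeasurable] at this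
    simp only [key, integral_neg] at this
    linarith
  show ∫ y, F y * F' y * den G θ A K e y ∂iidLabels (V × ℕ) =
    (∫ y, F y * d₁ y ∂iidLabels (V × ℕ)) * ∫ y, F' y * d₂ y ∂iidLabels (V × ℕ)
  have hd1 : Continuous d₁ := continuous_den he A₁
  have hd2 : Continuous d₂ := continuous_den he A₂
  rw [integral_congr_ae (g := fun y => (F y * d₁ y) * (F' y * d₂ y) +
      θ * ((F y * s₁ y) * (F' y * s₂ y))) (.of_forall fun y => by simp only [hsplit y]; ring),
    integral_add (integrable_of_continuous (h := fun y => (F y * d₁ y) * (F' y * d₂ y))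
      ((hFc.mul hd1).mul (hF'c.mul hd2)))
      ((integrable_of_continuous (h := fun y => (F y * s₁ y) * (F' y * s₂ y))
        ((hFc.mul (csum A₁ u)).mul (hF'c.mul (csum A₂ u')))).const_mul θ),
    integral_const_mul,
    integral_mul_disjoint (f := fun y => F y * d₁ y) (g := fun y => F' y * d₂ y) hdisj
      (hFc.mul hd1).measurable (hF'c.mul hd2).measurable
      (by simpa [F, d₁, den] using depF A₁ Φ hΦ fun _ => 1)
      (by simpa [F', d₂, den] using depF A₂ Ψ hΨ fun _ => 1),
    integral_mul_disjoint (f := fun y => F y * s₁ y) (g := fun y => F' y * s₂ y) hdisj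
      (hFc.mul (csum A₁ u)).measurable (hF'c.mul (csum A₂ u')).measurable
      (depF A₁ Φ hΦ fun η => spin (η u)) (depF A₂ Ψ hΨ fun η => spin (η u')),
    hzero]
  ring

/-- The marginal of the coupled systems is the law of the field. -/
lemma Pe_fst (hθ0 : 0 ≤ θ) (hθ1 : θ < 1) {θ' : ℝ} {A' : Finset V} (hA : Convex' G A)
    (hne : A.Nonempty) (hΦ : IsB A Φ) :
    Pe G θ θ' A A' K k r (fun a _ => Φ a) = St G θ A K k r Φ := by
  obtain ⟨C, hC⟩ := hΦ.bdd
  unfold Pe
  rw [integral_prod (fun q => Φ (fout G θ A K k r q))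
    ((IsPTest.fst (A' := A') hΦ.test hC).integrable G θ θ' A A' K k r)]
  refine integral_congr_ae ?_
  filter_upwards [ae_injOn (A ×ˢ Finset.range K)] with ρ hρ
  simp only [fout_mk]
  exact integral_out_fld hG hθ0 hθ1 hA hne hρ hΦ.test k r

end Law

namespace IsB

variable {A B : Finset V} {Φ Ψ : (V → ℝ) → ℝ}

lemma mono (h : IsB A Φ) (hsub : A ⊆ B) : IsB B Φ :=
  ⟨⟨fun f f' hf => h.test.loc f f' fun v hv => hf v (hsub hv), h.test.meas, h.test.cont⟩, h.bdd⟩

lemma const (A : Finset V) (c : ℝ) : IsB A fun _ : V → ℝ => c :=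
  ⟨IsTest.const A c, |c|, fun _ _ => le_rfl⟩

lemma mul (h1 : IsB A Φ) (h2 : IsB A Ψ) : IsB A fun f => Φ f * Ψ f := by
  obtain ⟨C, hC⟩ := h1.bdd
  obtain ⟨C', hC'⟩ := h2.bdd
  exact ⟨h1.test.mul h2.test, C * C', fun f hf => by
    rw [abs_mul]
    exact mul_le_mul (hC f hf) (hC' f hf) (abs_nonneg _) ((abs_nonneg _).trans (hC f hf))⟩

lemma comp_real (h1 : IsB A Φ) {φ : ℝ → ℝ} (hφ : Continuous φ) : IsB A fun f => φ (Φ f) := by
  obtain ⟨C, hC⟩ := h1.bdd
  obtain ⟨M, hM⟩ := (isCompact_Icc (a := -C) (b := C)).exists_bound_of_continuousOn hφ.continuousOn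
  exact ⟨h1.test.comp_real hφ, M, fun f hf => hM _ (abs_le.mp (hC f hf))⟩

lemma sum {ι : Type*} (s : Finset ι) {F : ι → (V → ℝ) → ℝ} (h1 : ∀ i ∈ s, IsB A (F i)) :
    IsB A fun f => ∑ i ∈ s, F i f := by
  choose C hC using fun i (hi : i ∈ s) => (h1 i hi).bdd
  refine ⟨IsTest.sum s fun i hi => (h1 i hi).test, ∑ i ∈ s.attach, C i.1 i.2, fun f hf => ?_⟩
  rw [← Finset.sum_attach]
  exact (Finset.abs_sum_le_sum_abs _ _).trans (Finset.sum_le_sum fun i _ => hC i.1 i.2 f hf)

lemma add (h1 : IsB A Φ) (h2 : IsB A Ψ) : IsB A fun f => Φ f + Ψ f := by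
  have := sum (A := A) (Finset.univ (α := Bool)) (F := fun b => cond b Φ Ψ)
    fun b _ => by cases b <;> assumption
  simpa using this

lemma mu' (hθ0 : 0 ≤ θ) (hθ1 : θ < 1) (A : Finset V) (v : V) : IsB A fun f => mu G θ A f v :=
  ⟨isTest_mu (by rwa [abs_of_nonneg hθ0]) A v, 1, fun _ hf => abs_mu_le hθ0 hθ1 A hf v⟩

end IsB

end Vale.Agent.P161.Crit
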