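import Vale.Agent.P161.Crit.Moments

/-!
# A magnetisation is determined by a large ball
-/

namespace Vale.Agent.P161.Crit

open MeasureTheory unitInterval Function SimpleGraph Vale.Agent.P161

variable {V : Type*} {G : SimpleGraph V} [G.LocallyFinite] {d : ℕ} {θ : ℝ}

open Classical in
/-- Strengths with the readings outside `B` removed, except the first `l` readings at `w`. -/
noncomputable def eW (e : V × ℕ → ℝ) (B : Finset V) (w : V) (l : ℕ) (i : V × ℕ) : ℝ :=
  if i.1 ∈ B ∨ (i.1 = w ∧ i.2 < l) then e i else 0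

lemma isStr_eW {e : V × ℕ → ℝ} (he : IsStr e) (B : Finset V) (w : V) (l : ℕ) :
    IsStr (eW e B w l) := fun i => by
  unfold eW; split_ifs
  · exact he i
  · exact ⟨le_rfl, by norm_num⟩

lemma eW_succ [DecidableEq V] (e : V × ℕ → ℝ) {B : Finset V} {w : V} (hw : w ∉ B) (l : ℕ) :
    eW e B w (l + 1) = update (eW e B w l) (w, l) (e (w, l)) ∧ eW e B w l (w, l) = 0 := by
  refine ⟨funext fun i => ?_, by simp [eW, hw]⟩
  by_cases hi : i = (w, l)
  · subst hi; simp [eW]
  · rw [update_of_ne hi]
    have : (i.1 ∈ B ∨ (i.1 = w ∧ i.2 < l + 1)) ↔ (i.1 ∈ B ∨ (i.1 = w ∧ i.2 < l)) := by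
      refine or_congr Iff.rfl (and_congr_right fun h1 => ⟨fun h => ?_, fun h => by omega⟩)
      rcases Nat.lt_succ_iff_lt_or_eq.mp h with h' | h'
      · exact h'
      · exact absurd (Prod.ext h1 h') hi
    unfold eW
    by_cases hc : i.1 ∈ B ∨ (i.1 = w ∧ i.2 < l)
    · rw [if_pos hc, if_pos (this.mpr hc)]
    · rw [if_neg hc, if_neg fun h => hc (this.mp h)]

/-- The reading at a new observation raises a squared distance by a controlled amount. -/
lemma jmp_sq_bound {a m C D : ℝ} (ha : a ∈ Set.Icc (0 : ℝ) (1 / 8)) (hm : |m| ≤ 1) :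
    D ^ 2 ≤ ∫ t : I, (D + jmp a (zed t) m C) ^ 2 * (1 + a * zed t * m) ∧
      ∫ t : I, (D + jmp a (zed t) m C) ^ 2 * (1 + a * zed t * m) ≤ D ^ 2 + 2 * a ^ 2 * C ^ 2 := by
  have hpt : ∀ t : I, (D + jmp a (zed t) m C) ^ 2 * (1 + a * zed t * m) =
      D ^ 2 + (D ^ 2 * (a * m) + 2 * D * (a * C)) * zed t +
        (a * zed t * C) ^ 2 / (1 + a * zed t * m) := fun t => by
    have hne : (1 : ℝ) + a * zed t * m ≠ 0 := by
      linarith [(jmp_den ha (abs_zed_le t) hm).1]
    unfold jmp
    field_simp
    ring
  have hb : ∀ t : I, 0 ≤ (a * zed t * C) ^ 2 / (1 + a * zed t * m) ∧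
      (a * zed t * C) ^ 2 / (1 + a * zed t * m) ≤ 2 * a ^ 2 * C ^ 2 := fun t => by
    have hd := (jmp_den ha (abs_zed_le t) hm).1
    refine ⟨div_nonneg (sq_nonneg _) (by linarith), ?_⟩
    rw [div_le_iff₀ (by linarith)]
    have hz : zed t ^ 2 ≤ 1 := by rw [← sq_abs]; exact pow_le_one₀ (abs_nonneg _) (abs_zed_le t)
    nlinarith [mul_le_mul_of_nonneg_left hz (mul_nonneg (sq_nonneg a) (sq_nonneg C)),
      mul_nonneg (sq_nonneg a) (sq_nonneg C)]
  simp only [hpt]
  have hcd : Continuous fun t : I => (a * zed t * C) ^ 2 / (1 + a * zed t * m) :=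
    (((continuous_const.mul continuous_zed).mul continuous_const).pow 2).div
      (continuous_const.add ((continuous_const.mul continuous_zed).mul continuous_const))
      fun t => by linarith [(jmp_den ha (abs_zed_le t) hm).1]
  have hi2 : Integrable (fun t : I => (a * zed t * C) ^ 2 / (1 + a * zed t * m)) :=
    hcd.integrable_of_hasCompactSupport (.of_compactSpace _)
  have hi1 : Integrable (fun t : I => D ^ 2 + (D ^ 2 * (a * m) + 2 * D * (a * C)) * zed t) :=
    (continuous_const.add (continuous_const.mul continuous_zed)).integrable_of_hasCompactSupport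
      (.of_compactSpace _)
  rw [integral_add hi1 hi2, integral_linear (θ := (0 : ℝ)) (by norm_num)]
  refine ⟨le_add_of_nonneg_right (integral_nonneg fun t => (hb t).1), add_le_add le_rfl ?_⟩
  exact (integral_mono hi2 (integrable_const _) fun t => (hb t).2).trans (by simp)

namespace Par

variable [Countable V] [DecidableEq V] (P : Par G d θ)
include P

/-- Adding one vertex. -/
lemma trunc_insert {B : Finset V} (hB : Convex' G B) {w : V} (hwB : w ∉ B)
    (hB' : Convex' G (insert w B)) {v : V} (hv : v ∈ B) {F : (V → ℝ) → ℝ} (hF : IsB B F)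
    (K k : ℕ) (r : ℝ) :
    St G θ B K k r (fun f => (mu G θ B f v - F f) ^ 2) ≤
        St G θ (insert w B) K k r (fun f => (mu G θ (insert w B) f v - F f) ^ 2) ∧
      St G θ (insert w B) K k r (fun f => (mu G θ (insert w B) f v - F f) ^ 2) ≤
        St G θ B K k r (fun f => (mu G θ B f v - F f) ^ 2) +
          (K : ℝ) / 32 * θ ^ (2 * G.dist v w) * St G θ (insert w B) K k r
            (fun f => ∏ i ∈ inner' G v w,
              Xf G θ (insert w B) (tow G i v) i (tow G i w) f) := by
  set B' := insert w B with hB'def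
  have hsub : B ⊆ B' := Finset.subset_insert w B
  have habs := P.abs_lt_one
  set Pr : (V → ℝ) → ℝ := fun f => ∏ i ∈ inner' G v w, Xf G θ B' (tow G i v) i (tow G i w) f
  have hPrB : IsB B Pr := by
    have : ∀ s ⊆ inner' G v w,
        IsB B fun f => ∏ i ∈ s, Xf G θ B' (tow G i v) i (tow G i w) f := by
      intro s
      induction s using Finset.induction_on with
      | empty => intro _; simpa using IsB.const B (1 : ℝ)
      | @insert x s has ihs =>
        intro hs
        have hx := hs (Finset.mem_insert_self x s)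
        simp only [Finset.prod_insert has]
        refine IsB.mul ((isB_Xf P.tree P.nonneg P.lt_one _ _ _).mono fun y hy => ?_)
          (ihs ((Finset.subset_insert x s).trans hs))
        obtain ⟨hyB', -, hy2⟩ := mem_side.mp hy
        rcases Finset.mem_insert.mp hyB' with rfl | h
        · exact absurd (far_tow P.tree ((mem_inner P.tree).mp hx).2.2) hy2
        · exact h
    exact this _ subset_rfl
  have hsqB : ∀ (A : Finset V) (_ : B ⊆ A), IsB A fun f => (mu G θ A f v - F f) ^ 2 := fun A hA => by
    have := ((IsB.mu' (G := G) P.nonneg P.lt_one A v).add ((IsB.const A (-1)).mul (hF.mono hA))).comp_real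
      (φ := fun x => x ^ 2) (by fun_prop)
    convert this using 3 with f
    ring
  have pointwise : ∀ ρ : V × ℕ → I,
      Ex G θ B K (estT ρ k r) (fun y => (mu G θ B (fld K (estT ρ k r) y) v -
          F (fld K (estT ρ k r) y)) ^ 2) ≤
        Ex G θ B' K (estT ρ k r) (fun y => (mu G θ B' (fld K (estT ρ k r) y) v -
          F (fld K (estT ρ k r) y)) ^ 2) ∧
      Ex G θ B' K (estT ρ k r) (fun y => (mu G θ B' (fld K (estT ρ k r) y) v -
          F (fld K (estT ρ k r) y)) ^ 2) ≤
        Ex G θ B K (estT ρ k r) (fun y => (mu G θ B (fld K (estT ρ k r) y) v -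
          F (fld K (estT ρ k r) y)) ^ 2) +
        (K : ℝ) / 32 * θ ^ (2 * G.dist v w) *
          Ex G θ B' K (estT ρ k r) (fun y => Pr (fld K (estT ρ k r) y)) := by
    intro ρ
    set e := estT ρ k r with he_def
    have he : IsStr e := isStr_estT ρ k r
    have ha8 : ∀ i, e i ∈ Set.Icc (0 : ℝ) (1 / 8) := fun i => by
      refine ⟨(he i).1, ?_⟩
      simp only [e, estT]
      split_ifs
      · exact (est1_mem (t := (ρ i : ℝ)) (ρ i).2.1).2.2
      · norm_num
    have hBeq : ∀ l, ∀ x ∈ B, ∀ j, eW e B w l (x, j) = e (x, j) := fun l x hx j => by simp [eW, hx]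
    have hfB : ∀ (Φ : (V → ℝ) → ℝ), IsB B Φ → ∀ l y, Φ (fld K (eW e B w l) y) = Φ (fld K e y) :=
      fun Φ hΦ l y => hΦ.test.loc _ _ fun x hx => fld_congr fun j _ => by rw [hBeq l x hx j]
    set Sq : ℕ → ℝ := fun l => Ex G θ B' K (eW e B w l)
      (fun y => (mu G θ B' (fld K (eW e B w l) y) v - F (fld K e y)) ^ 2) with hSq
    have hFc : Continuous fun y : V × ℕ → I => F (fld K e y) := hF.test.continuous_fld he
    have h0 : Sq 0 = Ex G θ B K e (fun y => (mu G θ B (fld K e y) v - F (fld K e y)) ^ 2) := by
      refine integral_congr_ae (.of_forall fun y => ?_)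
      have hz : ∀ x ∈ B', x ∉ B → ∀ j, eW e B w 0 (x, j) = 0 := fun x _ hx j => by simp [eW, hx]
      simp only
      rw [mu_mono_set P.tree hB hB' ⟨v, hv⟩ hsub
          (fun x hx hxB => fld_eq_zero fun j _ => hz x hx hxB j) hv,
        mu_congr (A := B) (h' := fld K e y)
          (fun x hx => fld_congr fun j _ => by rw [hBeq 0 x hx j]) v,
        den_mono_set P.tree hB hB' ⟨v, hv⟩ hsub hz]
      congr 1
      unfold den lkA lkv
      exact Ev_congr fun η => Finset.prod_congr rfl fun x hx =>
        Finset.prod_congr rfl fun j _ => by rw [hBeq 0 x hx j]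
    have hK' : Sq K = Ex G θ B' K e (fun y => (mu G θ B' (fld K e y) v - F (fld K e y)) ^ 2) := by
      have hall : ∀ x ∈ B', ∀ j < K, eW e B w K (x, j) = e (x, j) := fun x hx j hj => by
        rcases Finset.mem_insert.mp hx with rfl | hxB
        · simp [eW, hj]
        · exact hBeq K x hxB j
      refine integral_congr_ae (.of_forall fun y => ?_)
      simp only
      rw [mu_congr (A := B') (h' := fld K e y)
          (fun x hx => fld_congr fun j hj => by rw [hall x hx j hj]) v]
      congr 1
      unfold den lkA lkv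
      exact Ev_congr fun η => Finset.prod_congr rfl fun x hx =>
        Finset.prod_congr rfl fun j hj => by rw [hall x hx j (Finset.mem_range.mp hj)]
    have hstep : ∀ l < K, Sq l ≤ Sq (l + 1) ∧ Sq (l + 1) ≤ Sq l +
        1 / 32 * θ ^ (2 * G.dist v w) * Ex G θ B' K e (fun y => Pr (fld K e y)) := by
      intro l hl
      obtain ⟨hup, hzero⟩ := eW_succ e hwB l
      set el := eW e B w l with hel
      have hels : IsStr el := isStr_eW he B w l
      have hwB' : w ∈ B' := Finset.mem_insert_self w B
      set a := e (w, l) with ha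
      have ha' : a ∈ Set.Icc (0 : ℝ) (1 / 4) := he _
      have hnew : IsStr (update el (w, l) a) := isStr_update hels ha' _
      have hFupd : ∀ y t, F (fld K e (update y (w, l) t)) = F (fld K e y) := fun y t =>
        hF.test.loc _ _ fun x hx => fld_congr fun j _ => by
          rw [update_of_ne (fun h => hwB (by rw [Prod.ext_iff] at h; obtain ⟨h1, -⟩ := h; simp only at h1; exact h1 ▸ hx))]
      set Dd : (V × ℕ → I) → ℝ := fun y => mag G θ B' K el y v - F (fld K e y)
      have hDc : Continuous Dd := (continuous_mag hels habs B' v).sub hFc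
      set m : (V × ℕ → I) → ℝ := fun y => mag G θ B' K el y w
      set C : (V × ℕ → I) → ℝ := fun y => cov' G θ B' K el y v w
      have hCc : Continuous C := continuous_Cv hels habs B' v w
      have eS : Sq (l + 1) = Ex G θ B' K el fun y =>
          ∫ t : I, (Dd y + jmp a (zed t) (m y) (C y)) ^ 2 * (1 + a * zed t * m y) := by
        simp only [Sq, hup]
        rw [Ex_update habs hels hwB' hl hzero ha'
          (F := fun y => (mu G θ B' (fld K (update el (w, l) a) y) v - F (fld K e y)) ^ 2)
          (((continuous_mag hnew habs B' v).sub hFc).pow 2)]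
        refine integral_congr_ae (.of_forall fun y => ?_)
        simp only
        congr 1
        refine integral_congr_ae (.of_forall fun t => ?_)
        simp only
        have hsame : fld K el (update y (w, l) t) = fld K el y := fld_dependsOn K el fun i hi =>
          update_of_ne (fun h => hi (by rw [h]; exact hzero)) _ _
        have hu := mag_update (G := G) habs hels hwB' hl hzero ha' (update y (w, l) t) v
        simp only [mag, cov', update_self, hsame] at hu
        rw [hu, hFupd]
        simp only [Dd, m, C, mag, cov']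
        ring
      have hm1 : ∀ y, |m y| ≤ 1 := fun y =>
        abs_mu_le P.nonneg P.lt_one B' (isFld_fld hels y) w
      have hb := fun y => jmp_sq_bound (D := Dd y) (C := C y) (ha8 (w, l)) (hm1 y)
      have hIc : Continuous fun y =>
          ∫ t : I, (Dd y + jmp a (zed t) (m y) (C y)) ^ 2 * (1 + a * zed t * m y) := by
        have hmc : Continuous m := continuous_mag hels habs B' w
        have hz : Continuous fun p : (V × ℕ → I) × I => a * zed p.2 :=
          continuous_const.mul (continuous_zed.comp continuous_snd)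
        have h2 : Continuous fun p : (V × ℕ → I) × I =>
            (Dd p.1 + jmp a (zed p.2) (m p.1) (C p.1)) ^ 2 * (1 + a * zed p.2 * m p.1) :=
          (((hDc.comp continuous_fst).add ((hz.mul (hCc.comp continuous_fst)).div
            (continuous_const.add (hz.mul (hmc.comp continuous_fst))) fun p => by
              have := (jmp_den (ha8 (w, l)) (abs_zed_le p.2) (hm1 p.1)).1
              exact ne_of_gt (show (0 : ℝ) < 1 + a * zed p.2 * m p.1 by linarith))).pow 2).mul
            (continuous_const.add (hz.mul (hmc.comp continuous_fst)))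
        simpa [setIntegral_univ] using continuous_parametric_integral_of_continuous
          (μ := (volume : Measure I))
          (f := fun y t => (Dd y + jmp a (zed t) (m y) (C y)) ^ 2 * (1 + a * zed t * m y))
          h2 isCompact_univ
      have eSl : Sq l = Ex G θ B' K el fun y => Dd y ^ 2 := rfl
      rw [eS, eSl]
      refine ⟨Ex_mono habs hels B' (hDc.pow 2) hIc fun y => (hb y).1, ?_⟩
      refine (Ex_mono habs hels B' hIc (F' := fun y => Dd y ^ 2 + 2 * a ^ 2 * C y ^ 2)
        ((hDc.pow 2).add (continuous_const.mul (hCc.pow 2))) fun y => (hb y).2).trans ?_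
      rw [Ex_add hels B' (F := fun y => Dd y ^ 2) (F' := fun y => 2 * a ^ 2 * C y ^ 2) (hDc.pow 2)
        (continuous_const.mul (hCc.pow 2)), Ex_const_mul]
      refine add_le_add le_rfl ?_
      have ePr : Ex G θ B' K el (fun y => Pr (fld K el y)) =
          Ex G θ B' K e fun y => Pr (fld K e y) := by
        set eB := eW e B w 0 with heB
        have hsB : IsStr eB := isStr_eW he B w 0
        have hd : DependsOn (fun y => Pr (fld K eB y)) {j | eB j ≠ 0} := fun y y' h => by
          show Pr _ = Pr _
          rw [fld_dependsOn K eB h]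
        have hin : ∀ j, eB j ≠ 0 → j.1 ∈ B := fun j hj => by
          by_contra hjB; simp [eB, eW, hjB] at hj
        have hc := hPrB.test.continuous_fld (K := K) hsB
        have e1 : (fun y => Pr (fld K el y)) = fun y => Pr (fld K eB y) := funext fun y => by
          rw [hel, heB, hfB Pr hPrB l y, hfB Pr hPrB 0 y]
        have e2 : (fun y => Pr (fld K e y)) = fun y => Pr (fld K eB y) := funext fun y => by
          rw [heB, hfB Pr hPrB 0 y]
        rw [e1, e2]
        rw [Ex_extend (e := eB) (e' := el) habs hsB hels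
            (fun j hj => by simp [eB, el, eW, hin j hj]) hc hd,
          Ex_extend (e := eB) (e' := e) habs hsB he
            (fun j hj => by simp [eB, eW, hin j hj]) hc hd]
      have hCW : Ex G θ B' K el (fun y => C y ^ 2) ≤
          θ ^ (2 * G.dist v w) * Ex G θ B' K e (fun y => Pr (fld K e y)) := by
        rw [← ePr, ← Ex_const_mul]
        refine Ex_mono habs hels B' (hCc.pow 2)
          (continuous_const.mul (hPrB.test.continuous_fld hels)) fun y => ?_
        refine (Cv_sq_le P.tree P.mem_Icc hB' (isFld_fld hels y) (hsub hv) hwB').trans ?_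
        exact mul_le_mul_of_nonneg_left
          (Wt_le_prod_Xf P.tree P.nonneg P.lt_one (isFld_fld hels y) hB' (hsub hv) hwB')
          (pow_nonneg P.nonneg _)
      have ha2 : 2 * a ^ 2 ≤ 1 / 32 := by nlinarith [(ha8 (w, l)).1, (ha8 (w, l)).2]
      have hn : 0 ≤ Ex G θ B' K el (fun y => C y ^ 2) :=
        integral_nonneg fun y => mul_nonneg (sq_nonneg _) (den_pos hels habs B' y).le
      calc 2 * a ^ 2 * Ex G θ B' K el (fun y => C y ^ 2)
          ≤ 1 / 32 * (θ ^ (2 * G.dist v w) * Ex G θ B' K e (fun y => Pr (fld K e y))) :=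
            mul_le_mul ha2 hCW hn (by norm_num)
        _ = _ := by ring
    have hind : ∀ l ≤ K, Sq 0 ≤ Sq l ∧ Sq l ≤ Sq 0 +
        (l : ℝ) * (1 / 32 * θ ^ (2 * G.dist v w) * Ex G θ B' K e (fun y => Pr (fld K e y))) := by
      intro l
      induction l with
      | zero => intro _; simp
      | succ l ih =>
        intro hl
        obtain ⟨a1, a2⟩ := ih (by omega)
        obtain ⟨b1, b2⟩ := hstep l (by omega)
        push_cast
        exact ⟨a1.trans b1, by linarith⟩
    obtain ⟨c1, c2⟩ := hind K le_rfl
    rw [h0, hK'] at c1 c2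
    exact ⟨c1, c2.trans_eq (by ring)⟩
  have iB := integrable_St (G := G) P.tree habs hB ⟨v, hv⟩ (hsqB B subset_rfl) K k r
  have iB' := integrable_St (G := G) P.tree habs hB' ⟨v, hsub hv⟩ (hsqB B' hsub) K k r
  have iPr := integrable_St (G := G) P.tree habs hB' ⟨v, hsub hv⟩ hPrB K k r
  refine ⟨integral_mono iB iB' fun ρ => (pointwise ρ).1, ?_⟩
  refine (integral_mono iB' (iB.add (iPr.const_mul _)) fun ρ => (pointwise ρ).2).trans_eq ?_
  rw [integral_add' iB (iPr.const_mul _), integral_const_mul]
  rfl

/-- The squared error grows with the volume. -/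
lemma trunc_mono {B : Finset V} (hB : Convex' G B) {v : V} (hv : v ∈ B) {F : (V → ℝ) → ℝ}
    (hF : IsB B F) (K k : ℕ) (r : ℝ) : ∀ {B' : Finset V}, Convex' G B' → B ⊆ B' →
    St G θ B K k r (fun f => (mu G θ B f v - F f) ^ 2) ≤
      St G θ B' K k r (fun f => (mu G θ B' f v - F f) ^ 2) := by
  intro B'
  induction hn : (B' \ B).card generalizing B' with
  | zero =>
    intro _ hsub
    rw [Finset.Subset.antisymm hsub (Finset.sdiff_eq_empty_iff_subset.mp
      (Finset.card_eq_zero.mp hn))]
  | succ n ih =>
    intro hB' hsub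
    have hne : (B' \ B).Nonempty := Finset.card_pos.mp (by omega)
    obtain ⟨x, -, hxB', hxB, -, -, -, hc0⟩ := exists_leaf P.tree hB hB' ⟨v, hv⟩ hsub
      (by
        obtain ⟨z, hz⟩ := hne
        refine ⟨z, ?_⟩
        simp only [Finset.mem_sdiff] at hz ⊢
        exact hz)
    have hc : Convex' G (B'.erase x) := by
      intro a ha b hb c hc
      simp only [Finset.mem_erase] at ha hb ⊢
      have := hc0 a (by simp only [Finset.mem_erase]; exact ha) b
        (by simp only [Finset.mem_erase]; exact hb) c hc
      simp only [Finset.mem_erase] at this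
      exact this
    have hsub' : B ⊆ B'.erase x := fun y hy =>
      Finset.mem_erase.mpr ⟨fun e => hxB (e ▸ hy), hsub hy⟩
    have hcard : (B'.erase x \ B).card = n := by
      rw [Finset.erase_sdiff_comm, Finset.card_erase_of_mem (Finset.mem_sdiff.mpr ⟨hxB', hxB⟩)]
      omega
    refine (ih hcard hc hsub').trans ?_
    have h := (P.trunc_insert hc (Finset.notMem_erase x B')
      (by rwa [Finset.insert_erase hxB']) (hsub' hv) (hF.mono hsub') K k r).1
    rwa [Finset.insert_erase hxB'] at h

omit [Countable V] [DecidableEq V] in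
/-- A ball with part of the next sphere is a subtree. -/
lemma convex_mid (v : V) {m : ℕ} {B : Finset V} (h1 : bll G v m ⊆ B) (h2 : B ⊆ bll G v (m + 1)) :
    Convex' G B := by
  intro x hx y hy z hz
  have hball := convex_bll P.tree v (m + 1)
  by_cases hzx : z = x
  · exact hzx ▸ hx
  by_cases hzy : z = y
  · exact hzy ▸ hy
  by_contra hzB
  have hz1 := hball x (h2 hx) y (h2 hy) z hz
  rw [mem_bll P.tree.connected] at hz1
  have hzd : G.dist v z = m + 1 := by
    by_contra hne
    exact hzB (h1 ((mem_bll P.tree.connected).mpr (by omega)))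
  obtain ⟨a1, b1⟩ := tow_spec P.tree hzx
  obtain ⟨a2, b2⟩ := tow_spec P.tree hzy
  have hd : ∀ p, G.Adj z p → p ∈ bll G v (m + 1) → G.dist v p + 1 = G.dist v z := fun p hp hpb => by
    rw [mem_bll P.tree.connected] at hpb
    rcases P.tree.dist_eq_dist_add_one_of_adj v hp with e | e <;> omega
  have hm1 := (convex_bll P.tree v (m + 1)).step_mem
    ((mem_bll P.tree.connected).mpr (by omega)) (h2 hx) a1 b1
  have hm2 := (convex_bll P.tree v (m + 1)).step_mem
    ((mem_bll P.tree.connected).mpr (by omega)) (h2 hy) a2 b2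
  have e := closer_unique P.tree a1.symm a2.symm (hd _ a1 hm1) (hd _ a2 hm2)
  rw [← e] at b2
  have t : G.dist x y ≤ G.dist x (tow G z x) + G.dist (tow G z x) y := P.tree.connected.dist_triangle
  rw [dist_comm (u := x) (v := z)] at hz
  rw [dist_comm (u := x) (v := tow G z x)] at t
  omega

/-- The squared error of the ball of radius `n` inside a larger ball. -/
lemma trunc_ball (v : V) {K k : ℕ} {r : ℝ} (hK : 0 < K) (hτ : 0 < tau k r) (n : ℕ) : ∀ j : ℕ,
    St G θ (bll G v (n + j)) K k r
      (fun f => (mu G θ (bll G v (n + j)) f v - mu G θ (bll G v n) f v) ^ 2) ≤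
      (K : ℝ) / 4 * ∑ i ∈ Finset.range j, (1 - eta k r) ^ (n + i + 1) := by
  have hc := P.tree.connected
  set F : (V → ℝ) → ℝ := fun f => mu G θ (bll G v n) f v with hFdef
  have hF : IsB (bll G v n) F := IsB.mu' P.nonneg P.lt_one _ v
  intro j
  induction j with
  | zero =>
    refine le_of_eq ?_
    rw [Finset.range_zero, Finset.sum_empty, mul_zero]
    simp [F, St, Ex]
  | succ j ih =>
    set m := n + j with hm
    have hnm : bll G v n ⊆ bll G v m := bll_mono hc v (by omega)
    obtain ⟨hη, hη1⟩ := P.eta_pos (k := k) (r := r) hτ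
    have key : ∀ T, T ⊆ sph G v (m + 1) →
        St G θ (bll G v m ∪ T) K k r (fun f => (mu G θ (bll G v m ∪ T) f v - F f) ^ 2) ≤
          St G θ (bll G v m) K k r (fun f => (mu G θ (bll G v m) f v - F f) ^ 2) +
            ∑ w ∈ T, (K : ℝ) / 32 * (4 * (1 - eta k r) ^ (m + 1) / ((d : ℝ) - 1) ^ (m + 1)) := by
      intro T
      induction T using Finset.induction_on with
      | empty => intro _; simp
      | @insert w T hwT ihT =>
        intro hT
        have hTsub : T ⊆ sph G v (m + 1) := (Finset.subset_insert w T).trans hT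
        have hwd := (mem_sph hc).mp (hT (Finset.mem_insert_self w T))
        have hwB : w ∉ bll G v m ∪ T := by
          rw [Finset.mem_union, mem_bll hc]
          rintro (h | h)
          · omega
          · exact hwT h
        have hsubs : ∀ T', T' ⊆ sph G v (m + 1) → bll G v m ∪ T' ⊆ bll G v (m + 1) :=
          fun T' hT' => Finset.union_subset (bll_mono hc v (by omega)) fun y hy =>
            (mem_bll hc).mpr ((mem_sph hc).mp (hT' hy)).le
        have hcB := P.convex_mid v (m := m) Finset.subset_union_left (hsubs T hTsub)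
        have hcB' := P.convex_mid v (m := m) Finset.subset_union_left (hsubs _ hT)
        rw [Finset.union_insert] at hcB' ⊢
        rw [Finset.sum_insert hwT]
        have h := (P.trunc_insert hcB hwB hcB'
          (Finset.mem_union_left _ (self_mem_bll hc v m))
          (hF.mono (hnm.trans Finset.subset_union_left)) K k r).2
        refine h.trans ?_
        have hW := P.sphere_weight hcB' hK hτ (o := v) (u := w)
          ((bll_mono hc v (by omega)).trans
            (Finset.subset_union_left.trans (Finset.subset_insert _ _)))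
          (Finset.mem_insert_self w _)
        rw [hwd, mul_pow, mul_assoc, ← pow_mul] at hW
        have hq : 0 < ((d : ℝ) - 1) ^ (m + 1) := pow_pos (by linarith [P.two_le]) _
        rw [← le_div_iff₀' hq] at hW
        have := mul_le_mul_of_nonneg_left hW (show (0 : ℝ) ≤ (K : ℝ) / 32 by positivity)
        have := ihT hTsub
        rw [hwd]
        linarith
    have hb : bll G v (m + 1) = bll G v m ∪ sph G v (m + 1) := by
      ext x
      rw [Finset.mem_union, mem_bll hc, mem_bll hc, mem_sph hc]
      omega
    have h := key _ subset_rfl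
    rw [← hb, Finset.sum_const, nsmul_eq_mul, card_sph P.tree P.deg] at h
    rw [show n + (j + 1) = m + 1 by omega, Finset.sum_range_succ, mul_add]
    refine h.trans (add_le_add ih ?_)
    have hd3 := P.three
    push_cast [Nat.cast_sub (show 1 ≤ d by omega)]
    have hq : 0 < (d : ℝ) - 1 := by linarith [P.two_le]
    have hc0 : 0 ≤ (1 - eta k r) ^ (m + 1) := pow_nonneg (by linarith) _
    have hd2 : (d : ℝ) / ((d : ℝ) - 1) ≤ 2 := by rw [div_le_iff₀ hq]; linarith [P.two_le]
    have e : (d : ℝ) * ((d : ℝ) - 1) ^ m *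
        ((K : ℝ) / 32 * (4 * (1 - eta k r) ^ (m + 1) / ((d : ℝ) - 1) ^ (m + 1))) =
        ((d : ℝ) / ((d : ℝ) - 1)) * ((K : ℝ) / 8 * (1 - eta k r) ^ (m + 1)) := by
      rw [pow_succ ((d : ℝ) - 1)]; field_simp; ring
    rw [e]
    exact (mul_le_mul_of_nonneg_right hd2 (by positivity)).trans_eq (by ring)

/-- Truncating to the ball of radius `n`. -/
theorem trunc {B : Finset V} (hB : Convex' G B) {v : V} {K k : ℕ} {r : ℝ} (hK : 0 < K)
    (hτ : 0 < tau k r) {n : ℕ} (hn : bll G v n ⊆ B) :
    St G θ B K k r (fun f => (mu G θ B f v - mu G θ (bll G v n) f v) ^ 2) ≤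
      (K : ℝ) / 4 * ((1 - eta k r) ^ n / eta k r) := by
  have hc := P.tree.connected
  obtain ⟨M, hM⟩ := exists_bll_superset hc v B
  obtain ⟨hη, hη1⟩ := P.eta_pos (k := k) (r := r) hτ
  refine (P.trunc_mono hB (hn (self_mem_bll hc v n)) ((IsB.mu' P.nonneg P.lt_one _ v).mono hn) K k r
    (convex_bll P.tree v (n + M)) (hM.trans (bll_mono hc v (by omega)))).trans ?_
  refine (P.trunc_ball v hK hτ n M).trans (mul_le_mul_of_nonneg_left ?_ (by positivity))
  rw [le_div_iff₀ hη]
  have hgeo := geom_sum_mul (1 - eta k r) M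
  have h0 : 0 ≤ (1 - eta k r) ^ (n + 1) := pow_nonneg (by linarith) _
  have h1 : (∑ i ∈ Finset.range M, (1 - eta k r) ^ i) * eta k r ≤ 1 := by
    have : 0 ≤ (1 - eta k r) ^ M := pow_nonneg (by linarith) _
    nlinarith
  calc (∑ i ∈ Finset.range M, (1 - eta k r) ^ (n + i + 1)) * eta k r
      = (1 - eta k r) ^ (n + 1) * ((∑ i ∈ Finset.range M, (1 - eta k r) ^ i) * eta k r) := by
        rw [← mul_assoc, Finset.mul_sum]
        congr 1
        exact Finset.sum_congr rfl fun i _ => by rw [← pow_add]; congr 1; ring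
    _ ≤ (1 - eta k r) ^ (n + 1) * 1 := mul_le_mul_of_nonneg_left h1 h0
    _ ≤ _ := by
        rw [mul_one]; exact pow_le_pow_of_le_one (by linarith) (by linarith) n.le_succ

end Par

end Vale.Agent.P161.Crit
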